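import Vale.Agent.P322.BChk

/-!
# P322: soundness of the box checker
-/

namespace Vale.Agent.P322.BM

open Real Set Vale.Agent.P322.Ind

lemma q_cast (x : ℕ) : ((q x : ℚ) : ℝ) = (x : ℝ) / 1000 := by
  unfold q
  push_cast
  ring

lemma x_nonneg (x : ℕ) : (0 : ℝ) ≤ (x : ℝ) / 1000 := by positivity

lemma x_le_one {x : ℕ} (h : x ≤ 1000) : (x : ℝ) / 1000 ≤ 1 := by
  have : (x : ℝ) ≤ 1000 := by exact_mod_cast h
  linarith

lemma x_lt_one {x : ℕ} (h : x < 1000) : (x : ℝ) / 1000 < 1 := by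
  have : (x : ℝ) < 1000 := by exact_mod_cast h
  linarith

lemma x_pos {x : ℕ} (h : 0 < x) : (0 : ℝ) < (x : ℝ) / 1000 := by positivity

lemma sq_le_one' {x : ℕ} (h : x ≤ 1000) : ((x : ℝ) / 1000) ^ 2 ≤ 1 := by
  have h1 := x_nonneg x
  have h2 := x_le_one h
  nlinarith

lemma phi_sq {x : ℝ} (hx : 0 ≤ x) : phi (x ^ 2) = H x := by
  unfold phi
  rw [Real.sqrt_sq hx]

lemma HL_le' {x : ℕ} (h : x ≤ 1000) : (HL x 1000 : ℝ) ≤ H ((x : ℝ) / 1000) := by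
  have := HL_le (u := x) (v := 1000) (by norm_num) h
  simpa using this

lemma le_HU' {x : ℕ} (h : x ≤ 1000) : H ((x : ℝ) / 1000) ≤ (HU x 1000 : ℝ) := by
  have := le_HU (u := x) (v := 1000) (by norm_num) h
  simpa using this

lemma tauL_le {a : ℕ} (h : a ≤ 1000) : (tauL a : ℝ) ≤ tauS (((a : ℝ) / 1000) ^ 2) := by
  unfold tauL tauS
  rw [phi_sq (x_nonneg a)]
  push_cast
  rw [q_cast]
  have h1 := HL_le' h
  have h2 := le_lnU (n := 2) (by norm_num)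
  have h3 := sq_le_one' h
  push_cast at h2
  have h4 := mul_le_mul_of_nonneg_left h2 (by linarith : 0 ≤ 1 - ((a : ℝ) / 1000) ^ 2)
  linarith

lemma le_tauU {a : ℕ} (h : a ≤ 1000) : tauS (((a : ℝ) / 1000) ^ 2) ≤ (tauU a : ℝ) := by
  unfold tauU tauS
  rw [phi_sq (x_nonneg a)]
  push_cast
  rw [q_cast]
  have h1 := le_HU' h
  have h2 := lnL_le (n := 2) (by norm_num)
  have h3 := sq_le_one' h
  push_cast at h2
  have h4 := mul_le_mul_of_nonneg_left h2 (by linarith : 0 ≤ 1 - ((a : ℝ) / 1000) ^ 2)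
  linarith

lemma GLo_le {a x : ℕ} (ha : a ≤ 1000) (hx : x ≤ 1000) :
    (GLo a x : ℝ) ≤ GS (((a : ℝ) / 1000) ^ 2) ((x : ℝ) / 1000) := by
  unfold GLo GS
  push_cast
  rw [q_cast, q_cast]
  have h1 := HL_le' hx
  have h2 := tauL_le ha
  have h3 := sq_le_one' ha
  have h4 := sq_le_one' hx
  have h5 := mul_le_mul_of_nonneg_left h1 (by linarith : 0 ≤ 1 - ((a : ℝ) / 1000) ^ 2)
  have h6 := mul_le_mul_of_nonneg_right h2 (by linarith : 0 ≤ 1 - ((x : ℝ) / 1000) ^ 2)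
  linarith

lemma GS_neg (s a : ℝ) : GS s (-a) = GS s a := by
  unfold GS
  rw [H_neg, neg_sq]

lemma absd_cast (x y : ℕ) : ((absd x y : ℕ) : ℝ) = |(x : ℝ) - y| := by
  unfold absd
  rcases le_total x y with h | h
  · rw [Nat.sub_eq_zero_of_le h, zero_add, Nat.cast_sub h, abs_of_nonpos (by
      have : (x : ℝ) ≤ y := by exact_mod_cast h
      linarith)]
    ring
  · rw [Nat.sub_eq_zero_of_le h, add_zero, Nat.cast_sub h, abs_of_nonneg (by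
      have : (y : ℝ) ≤ x := by exact_mod_cast h
      linarith)]

lemma absd_le {x y : ℕ} (h : x + y ≤ 1000) : absd x y ≤ 1000 := by
  unfold absd
  omega

lemma KL_le {a m d b : ℕ} (ha : a ≤ 1000) (hb0 : 0 < b) (hb : b ≤ 1000) (hmd : m + d ≤ 1000) :
    (KL a m d b : ℝ) ≤ KS (((a : ℝ) / 1000) ^ 2) ((m : ℝ) / 1000) ((d : ℝ) / 1000)
      ((b : ℝ) / 1000) := by
  unfold KL KS
  push_cast
  have h1 := GLo_le ha (absd_le hmd)
  have h2 := GLo_le ha hmd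
  have h3 := le_HU' hb
  have e1 : GS (((a : ℝ) / 1000) ^ 2) (((absd m d : ℕ) : ℝ) / 1000) =
      GS (((a : ℝ) / 1000) ^ 2) ((m : ℝ) / 1000 - (d : ℝ) / 1000) := by
    rw [absd_cast]
    rcases abs_choice ((m : ℝ) - d) with h | h
    · rw [h]
      congr 1
      ring
    · rw [h, ← GS_neg]
      congr 1
      ring
  have e2 : ((m + d : ℕ) : ℝ) / 1000 = (m : ℝ) / 1000 + (d : ℝ) / 1000 := by
    push_cast
    ring
  rw [e1] at h1
  rw [e2] at h2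
  have hb' : (0 : ℝ) < b := by exact_mod_cast hb0
  have h4 : (d : ℝ) / 1000 * H ((b : ℝ) / 1000) / ((b : ℝ) / 1000) ≤ (d : ℝ) * (HU b 1000 : ℝ) / b := by
    have e3 : (d : ℝ) / 1000 * H ((b : ℝ) / 1000) / ((b : ℝ) / 1000) =
        (d : ℝ) * H ((b : ℝ) / 1000) / b := by
      field_simp
    rw [e3]
    apply div_le_div_of_nonneg_right _ hb'.le
    exact mul_le_mul_of_nonneg_left h3 (by positivity)
  linarith

lemma min_mul_le {lL lU lam k K : ℝ} (h1 : lL ≤ lam) (h2 : lam ≤ lU) (h0 : 0 ≤ lam) (hk : k ≤ K) :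
    min (lL * k) (lU * k) ≤ lam * K := by
  have h3 : lam * k ≤ lam * K := mul_le_mul_of_nonneg_left hk h0
  rcases le_total 0 k with h | h
  · exact (min_le_left _ _).trans ((mul_le_mul_of_nonneg_right h1 h).trans h3)
  · exact (min_le_right _ _).trans ((mul_le_mul_of_nonpos_right h2 h).trans h3)

lemma max_mul_ge {A B x y : ℝ} (h1 : A ≤ x) (h2 : x ≤ B) :
    -(x * y) ≤ max (-(A * y)) (-(B * y)) := by
  rcases le_total 0 y with h | h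
  · exact (neg_le_neg (mul_le_mul_of_nonneg_right h1 h)).trans (le_max_left _ _)
  · exact (neg_le_neg (mul_le_mul_of_nonpos_right h2 h)).trans (le_max_right _ _)

lemma RL_le {lL lU tU : ℚ} {lam ta : ℝ} {a m d b ms : ℕ} (ha : a ≤ 1000) (hb0 : 0 < b)
    (hb : b ≤ 1000) (hmd : m + d ≤ 1000) (hms : ms < 1000) (h1 : (lL : ℝ) ≤ lam)
    (h2 : lam ≤ lU) (h0 : 0 ≤ lam) (ht : ta ≤ tU) :
    (RL lL lU tU a m d b ms : ℝ) ≤ RR lam ta (((a : ℝ) / 1000) ^ 2) ((m : ℝ) / 1000)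
      ((d : ℝ) / 1000) ((b : ℝ) / 1000) ((ms : ℝ) / 1000) := by
  unfold RL RR
  push_cast
  rw [q_cast, q_cast, q_cast]
  have k1 := min_mul_le h1 h2 h0 (KL_le (m := m) (d := d) ha hb0 hb hmd)
  have k2 : (d : ℝ) * (HL (a * b) 1000000 : ℝ) / b ≤
      (d : ℝ) / 1000 * phi (((a : ℝ) / 1000) ^ 2 * ((b : ℝ) / 1000) ^ 2) / ((b : ℝ) / 1000) := by
    have hb' : (0 : ℝ) < b := by exact_mod_cast hb0
    have e1 : ((a : ℝ) / 1000) ^ 2 * ((b : ℝ) / 1000) ^ 2 = (((a * b : ℕ) : ℝ) / (1000000 : ℕ)) ^ 2 := by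
      push_cast
      ring
    rw [e1, phi_sq (by positivity)]
    have h3 := HL_le (u := a * b) (v := 1000000) (by norm_num) (by nlinarith)
    have e3 : (d : ℝ) / 1000 * H (((a * b : ℕ) : ℝ) / (1000000 : ℕ)) / ((b : ℝ) / 1000) =
        (d : ℝ) * H (((a * b : ℕ) : ℝ) / (1000000 : ℕ)) / b := by
      field_simp
    rw [e3]
    apply div_le_div_of_nonneg_right _ hb'.le
    exact mul_le_mul_of_nonneg_left h3 (by positivity)
  have k3 := le_HU' hms.le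
  have k4 := max_mul_ge (y := (m : ℝ) / 1000 - (ms : ℝ) / 1000)
    (by simpa using AL_le (u := ms) (v := 1000) hms)
    (by simpa using le_AU (u := ms) (v := 1000) hms)
  have k5 := sq_le_one' ha
  have hms1 := x_le_one hms.le
  have hms0 := x_nonneg ms
  have hm1 := x_le_one (x := m) (by omega)
  have k6 : 0 ≤ 1 - ((ms : ℝ) / 1000) ^ 2 - 2 * ((ms : ℝ) / 1000) * ((m : ℝ) / 1000 - (ms : ℝ) / 1000) := by
    nlinarith [sq_nonneg (1 - (ms : ℝ) / 1000), mul_le_mul_of_nonneg_left hm1 hms0]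
  have k7 := mul_le_mul_of_nonneg_right ht k6
  have k8 := mul_le_mul_of_nonneg_left (add_le_add k3 k4)
    (by linarith : 0 ≤ 1 - ((a : ℝ) / 1000) ^ 2)
  linarith

/-- numerical side conditions for the bounds of `λ` -/
def lamOK (c a b : ℕ) : Bool :=
  decide (0 ≤ LLo (c * b) 1000000 + ecor c a b) && decide (0 < LLo b 1000)

lemma lt_formula {c a b : ℕ} :
    lt (((c : ℝ) / 1000) ^ 2) (((a : ℝ) / 1000) ^ 2) ((b : ℝ) / 1000) =
      (L (((c * b : ℕ) : ℝ) / (1000000 : ℕ)) + (ecor c a b : ℝ)) / L ((b : ℝ) / 1000) := by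
  unfold lt ecor
  congr 1
  push_cast
  rw [q_cast, q_cast, q_cast]
  unfold L
  congr 2
  · congr 2
    ring
  
lemma lam_bounds {c a b : ℕ} (hc : c < 1000) (hb : b < 1000) (h : lamOK c a b = true) :
    (lamlo c a b : ℝ) ≤ lt (((c : ℝ) / 1000) ^ 2) (((a : ℝ) / 1000) ^ 2) ((b : ℝ) / 1000) ∧
    lt (((c : ℝ) / 1000) ^ 2) (((a : ℝ) / 1000) ^ 2) ((b : ℝ) / 1000) ≤ (lamhi c a b : ℝ) ∧
    0 ≤ lt (((c : ℝ) / 1000) ^ 2) (((a : ℝ) / 1000) ^ 2) ((b : ℝ) / 1000) := by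
  unfold lamOK at h
  rw [Bool.and_eq_true, decide_eq_true_iff, decide_eq_true_iff] at h
  obtain ⟨h1, h2⟩ := h
  have h1' : (0 : ℝ) ≤ (LLo (c * b) 1000000 : ℝ) + (ecor c a b : ℝ) := by exact_mod_cast h1
  have h2' : (0 : ℝ) < (LLo b 1000 : ℝ) := by exact_mod_cast h2
  have hcb : c * b < 1000000 := by nlinarith
  have k1 := LLo_le (u := c * b) (v := 1000000) hcb
  have k2 := le_LHi (u := c * b) (v := 1000000) hcb
  have k3 : (LLo b 1000 : ℝ) ≤ L ((b : ℝ) / 1000) := by simpa using LLo_le (u := b) (v := 1000) hb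
  have k4 : L ((b : ℝ) / 1000) ≤ (LHi b 1000 : ℝ) := by simpa using le_LHi (u := b) (v := 1000) hb
  have hL : 0 < L ((b : ℝ) / 1000) := by linarith
  rw [lt_formula]
  unfold lamlo lamhi
  push_cast
  push_cast at k1 k2
  refine ⟨?_, ?_, ?_⟩
  · exact div_le_div₀ (by linarith) (by linarith) hL k4
  · exact div_le_div₀ (by linarith) (by linarith) h2' k3
  · exact div_nonneg (by linarith) hL.le

lemma lamS_eq_lt {a b : ℕ} :
    lamS (((a : ℝ) / 1000) ^ 2) ((b : ℝ) / 1000) =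
      lt (((a : ℝ) / 1000) ^ 2) (((a : ℝ) / 1000) ^ 2) ((b : ℝ) / 1000) := by
  unfold lamS lt
  simp

lemma tt_le {c a : ℕ} (hc0 : 0 < c) (hc : c < 1000) :
    tt (((c : ℝ) / 1000) ^ 2) (((a : ℝ) / 1000) ^ 2) ≤ (ttU c a : ℝ) := by
  unfold tt ttU
  push_cast
  rw [q_cast, q_cast]
  have h1 := le_tauU hc.le
  have e1 : dphi (((c : ℝ) / 1000) ^ 2) = -(ath ((c : ℝ) / 1000) / (2 * ((c : ℝ) / 1000))) := by
    unfold dphi
    rw [Real.sqrt_sq (x_nonneg c)]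
  rw [e1]
  have hc' := x_pos hc0
  have h2 : (AL c 1000 : ℝ) ≤ ath ((c : ℝ) / 1000) := by simpa using AL_le (u := c) (v := 1000) hc
  have h3 : ath ((c : ℝ) / 1000) ≤ (AU c 1000 : ℝ) := by simpa using le_AU (u := c) (v := 1000) hc
  have h4 := le_lnU (n := 2) (by norm_num)
  have h5 := lnL_le (n := 2) (by norm_num)
  push_cast at h4 h5
  have h6 : (AL c 1000 : ℝ) / (2 * ((c : ℝ) / 1000)) ≤ ath ((c : ℝ) / 1000) / (2 * ((c : ℝ) / 1000)) :=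
    div_le_div_of_nonneg_right h2 (by positivity)
  have h7 : ath ((c : ℝ) / 1000) / (2 * ((c : ℝ) / 1000)) ≤ (AU c 1000 : ℝ) / (2 * ((c : ℝ) / 1000)) :=
    div_le_div_of_nonneg_right h3 (by positivity)
  apply add_le_add h1
  rcases le_total 0 (((a : ℝ) / 1000) ^ 2 - ((c : ℝ) / 1000) ^ 2) with h | h
  · refine le_trans ?_ (le_max_left _ _)
    apply mul_le_mul_of_nonneg_right _ h
    linarith
  · refine le_trans ?_ (le_max_right _ _)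
    apply mul_le_mul_of_nonpos_right _ h
    linarith

/-- one point -/
def ptOK (c a b m d ms : ℕ) : Bool :=
  decide (0 ≤ RL (lamlo c a b) (lamhi c a b) (ttU c a) a m d b ms) &&
    decide (0 ≤ RL (lamlo a a b) (lamhi a a b) (ttU c a) a m d b ms)

lemma ptOK_sound {c a b m d ms : ℕ} (hc0 : 0 < c) (hc : c < 1000) (ha : a < 1000)
    (hb0 : 0 < b) (hb : b < 1000) (hmd : m + d ≤ 1000) (hms : ms < 1000)
    (h1 : lamOK c a b = true) (h2 : lamOK a a b = true) (h : ptOK c a b m d ms = true) :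
    0 ≤ RR (lt (((c : ℝ) / 1000) ^ 2) (((a : ℝ) / 1000) ^ 2) ((b : ℝ) / 1000))
      (tt (((c : ℝ) / 1000) ^ 2) (((a : ℝ) / 1000) ^ 2)) (((a : ℝ) / 1000) ^ 2) ((m : ℝ) / 1000)
      ((d : ℝ) / 1000) ((b : ℝ) / 1000) ((ms : ℝ) / 1000) ∧
    0 ≤ RR (lamS (((a : ℝ) / 1000) ^ 2) ((b : ℝ) / 1000))
      (tt (((c : ℝ) / 1000) ^ 2) (((a : ℝ) / 1000) ^ 2)) (((a : ℝ) / 1000) ^ 2) ((m : ℝ) / 1000)
      ((d : ℝ) / 1000) ((b : ℝ) / 1000) ((ms : ℝ) / 1000) := by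
  unfold ptOK at h
  rw [Bool.and_eq_true, decide_eq_true_iff, decide_eq_true_iff] at h
  obtain ⟨g1, g2⟩ := h
  obtain ⟨b1, b2, b3⟩ := lam_bounds hc hb h1
  obtain ⟨c1, c2, c3⟩ := lam_bounds ha hb h2
  rw [← lamS_eq_lt] at c1 c2 c3
  have ht := tt_le (a := a) hc0 hc
  constructor
  · refine le_trans ?_ (RL_le ha.le hb0 hb.le hmd hms b1 b2 b3 ht)
    exact_mod_cast g1
  · refine le_trans ?_ (RL_le ha.le hb0 hb.le hmd hms c1 c2 c3 ht)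
    exact_mod_cast g2

/-- a segment -/
def segOK (a0 a1 c b m1 d1 m2 d2 ms : ℕ) : Bool :=
  decide (m1 + d1 ≤ 1000) && decide (m2 + d2 ≤ 1000) && decide (ms < 1000) &&
    ptOK c a0 b m1 d1 ms && ptOK c a0 b m2 d2 ms && ptOK c a1 b m1 d1 ms && ptOK c a1 b m2 d2 ms

/-- common side conditions -/
def comOK (a0 a1 c b : ℕ) : Bool :=
  decide (0 < c) && decide (c < 1000) && decide (a0 < a1) && decide (a1 < 1000) && decide (0 < b) &&
    decide (b < 1000) && lamOK c a0 b && lamOK c a1 b && lamOK a0 a0 b && lamOK a1 a1 b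

lemma segOK_sound {a0 a1 c b m1 d1 m2 d2 ms : ℕ} (hcom : comOK a0 a1 c b = true)
    (h : segOK a0 a1 c b m1 d1 m2 d2 ms = true) {s : ℝ} (hs0 : ((a0 : ℝ) / 1000) ^ 2 ≤ s)
    (hs1 : s ≤ ((a1 : ℝ) / 1000) ^ 2) {a b' : ℝ} (ha : 0 ≤ a) (hb' : 0 ≤ b') (hab : a + b' = 1) :
    0 ≤ PS s (a * ((m1 : ℝ) / 1000) + b' * ((m2 : ℝ) / 1000))
      (a * ((d1 : ℝ) / 1000) + b' * ((d2 : ℝ) / 1000)) ((b : ℝ) / 1000) := by
  unfold comOK at hcom
  unfold segOK at h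
  simp only [Bool.and_eq_true, decide_eq_true_iff] at hcom h
  obtain ⟨⟨⟨⟨⟨⟨⟨⟨⟨c1, c2⟩, c3⟩, c4⟩, c5⟩, c6⟩, c7⟩, c8⟩, c9⟩, c10⟩ := hcom
  obtain ⟨⟨⟨⟨⟨⟨s1, s2⟩, s3⟩, s4⟩, s5⟩, s6⟩, s7⟩ := h
  have p1 := ptOK_sound c1 c2 (c3.trans c4) c5 c6 s1 s3 c7 c9 s4
  have p2 := ptOK_sound c1 c2 (c3.trans c4) c5 c6 s2 s3 c7 c9 s5
  have p3 := ptOK_sound c1 c2 c4 c5 c6 s1 s3 c8 c10 s6
  have p4 := ptOK_sound c1 c2 c4 c5 c6 s2 s3 c8 c10 s7
  have l0 := (lam_bounds c2 c6 c7).2.2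
  have ha01 : (a0 : ℝ) < a1 := by exact_mod_cast c3
  have ha00 : (0 : ℝ) ≤ a0 := by positivity
  have hss : ((a0 : ℝ) / 1000) ^ 2 < ((a1 : ℝ) / 1000) ^ 2 := by
    apply pow_lt_pow_left₀ _ (by positivity) (by norm_num)
    linarith
  set S0 := ((a0 : ℝ) / 1000) ^ 2 with hS0
  set S1 := ((a1 : ℝ) / 1000) ^ 2 with hS1
  have hS1' : S1 ≤ 1 := sq_le_one' c4.le
  have hS0' : 0 ≤ S0 := by positivity
  have hc0' := x_pos c1
  have hc1' := x_lt_one c2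
  have hcc0 : 0 < ((c : ℝ) / 1000) ^ 2 := by positivity
  have hcc1 : ((c : ℝ) / 1000) ^ 2 < 1 := by nlinarith
  have htt : ∀ x : ℝ, 0 ≤ x → x ≤ 1 → 0 ≤ tt (((c : ℝ) / 1000) ^ 2) x := by
    intro x hx0 hx1
    refine (tauS_nonneg hx0 hx1).trans ?_
    have := phi_tangent' (x := x) ⟨hx0, hx1⟩ hcc0 hcc1
    unfold tt tauS
    linarith
  have hmd : ∀ x y : ℕ, x + y ≤ 1000 → |(x : ℝ) / 1000| + (y : ℝ) / 1000 ≤ 1 := by
    intro x y hxy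
    rw [abs_of_nonneg (x_nonneg x)]
    have : (x : ℝ) + y ≤ 1000 := by exact_mod_cast hxy
    linarith
  have hsub : 0 < S1 - S0 := by linarith
  have key := segment (s0 := S0) (s1 := S1) (c := ((c : ℝ) / 1000) ^ 2) (t := (b : ℝ) / 1000)
    (ms := (ms : ℝ) / 1000) hS0' hss.le hS1' hcc0 hcc1 (x_pos c5) (x_lt_one c6)
    (by have := x_nonneg ms; linarith) (x_lt_one s3) l0 (htt S0 hS0' (by linarith))
    (htt S1 (by linarith) hS1') (x_nonneg d1) (x_nonneg d2) (hmd m1 d1 s1) (hmd m2 d2 s2)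
    p1.1 p2.1 p3.1 p4.1 p1.2 p2.2 p3.2 p4.2 ha hb' hab
    (p := (S1 - s) / (S1 - S0)) (q := (s - S0) / (S1 - S0))
    (div_nonneg (by linarith) hsub.le) (div_nonneg (by linarith) hsub.le)
    (by rw [← add_div, div_eq_one_iff_eq hsub.ne']; ring)
  have e : (S1 - s) / (S1 - S0) * S0 + (s - S0) / (S1 - S0) * S1 = s := by
    field_simp
    ring
  rw [e] at key
  exact key

/-- a box `[a0,a1] × [d1,d2]`, `|m| ≤ m1` -/
def boxOK (a0 a1 c m1 d1 d2 b : ℕ) : Bool :=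
  decide (d1 < d2) && decide (d2 < 1000) && decide (m1 ≤ 1000) && comOK a0 a1 c b &&
    segOK a0 a1 c b 0 d1 0 d2 0 &&
    (decide (1000 - m1 ≤ d1) || segOK a0 a1 c b m1 d1 m1 (min d2 (1000 - m1)) m1) &&
    (decide (d2 ≤ 1000 - m1) ||
      segOK a0 a1 c b (1000 - max d1 (1000 - m1)) (max d1 (1000 - m1)) (1000 - d2) d2
        (1000 - (max d1 (1000 - m1) + d2) / 2)) &&
    decide ((1 - q d1 ^ 2) ^ 3 ≤ lamlo a0 a0 b * (1 + 3 * q d1 ^ 2))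

lemma seg_at {a0 a1 c b m1 d1 m2 d2 ms : ℕ} (hcom : comOK a0 a1 c b = true)
    (h : segOK a0 a1 c b m1 d1 m2 d2 ms = true) {s d : ℝ} (hs0 : ((a0 : ℝ) / 1000) ^ 2 ≤ s)
    (hs1 : s ≤ ((a1 : ℝ) / 1000) ^ 2) (hd12 : d1 < d2) (hd0 : (d1 : ℝ) / 1000 ≤ d)
    (hd1 : d ≤ (d2 : ℝ) / 1000) :
    0 ≤ PS s (((d2 : ℝ) / 1000 - d) / ((d2 : ℝ) / 1000 - (d1 : ℝ) / 1000) * ((m1 : ℝ) / 1000) +
      (d - (d1 : ℝ) / 1000) / ((d2 : ℝ) / 1000 - (d1 : ℝ) / 1000) * ((m2 : ℝ) / 1000)) d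
      ((b : ℝ) / 1000) := by
  have h12 : (d1 : ℝ) < d2 := by exact_mod_cast hd12
  have hpos : 0 < (d2 : ℝ) / 1000 - (d1 : ℝ) / 1000 := by linarith
  have key := segOK_sound hcom h hs0 hs1
    (a := ((d2 : ℝ) / 1000 - d) / ((d2 : ℝ) / 1000 - (d1 : ℝ) / 1000))
    (b' := (d - (d1 : ℝ) / 1000) / ((d2 : ℝ) / 1000 - (d1 : ℝ) / 1000))
    (div_nonneg (by linarith) hpos.le) (div_nonneg (by linarith) hpos.le)
    (by rw [← add_div, div_eq_one_iff_eq hpos.ne']; ring)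
  have e : ((d2 : ℝ) / 1000 - d) / ((d2 : ℝ) / 1000 - (d1 : ℝ) / 1000) * ((d1 : ℝ) / 1000) +
      (d - (d1 : ℝ) / 1000) / ((d2 : ℝ) / 1000 - (d1 : ℝ) / 1000) * ((d2 : ℝ) / 1000) = d := by
    rw [div_mul_eq_mul_div, div_mul_eq_mul_div, ← add_div, div_eq_iff hpos.ne']
    ring
  rw [e] at key
  exact key

theorem boxOK_sound {a0 a1 c m1 d1 d2 b : ℕ} (h : boxOK a0 a1 c m1 d1 d2 b = true) {ρ d m : ℝ}
    (hρ0 : (a0 : ℝ) / 1000 ≤ ρ) (hρ1 : ρ ≤ (a1 : ℝ) / 1000) (hd0 : (d1 : ℝ) / 1000 ≤ d)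
    (hd1 : d ≤ (d2 : ℝ) / 1000) (hm : |m| ≤ (m1 : ℝ) / 1000) (hmd : |m| + d ≤ 1) :
    0 < (b : ℝ) / 1000 ∧ (b : ℝ) / 1000 < 1 ∧ 0 ≤ PS (ρ ^ 2) m d ((b : ℝ) / 1000) := by
  unfold boxOK at h
  simp only [Bool.and_eq_true, Bool.or_eq_true, decide_eq_true_iff] at h
  obtain ⟨⟨⟨⟨⟨⟨⟨h1, h2⟩, h3⟩, hcom⟩, g0⟩, g1⟩, g2⟩, g3⟩ := h
  have hcom' := hcom
  unfold comOK at hcom'
  simp only [Bool.and_eq_true, decide_eq_true_iff] at hcom'
  obtain ⟨⟨⟨⟨⟨⟨⟨⟨⟨c1, c2⟩, c3⟩, c4⟩, c5⟩, c6⟩, c7⟩, c8⟩, c9⟩, c10⟩ := hcom'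
  refine ⟨x_pos c5, x_lt_one c6, ?_⟩
  have hρ00 : 0 ≤ ρ := (x_nonneg a0).trans hρ0
  have hs0 : ((a0 : ℝ) / 1000) ^ 2 ≤ ρ ^ 2 := pow_le_pow_left₀ (x_nonneg a0) hρ0 2
  have hs1 : ρ ^ 2 ≤ ((a1 : ℝ) / 1000) ^ 2 := pow_le_pow_left₀ hρ00 hρ1 2
  have hs2 := sq_le_one' c4.le
  have hdn : 0 ≤ d := (x_nonneg d1).trans hd0
  have hdlt : d < 1 := lt_of_le_of_lt hd1 (x_lt_one h2)
  -- concavity condition
  have hc : (1 - d ^ 2) ^ 3 ≤ lamS (ρ ^ 2) ((b : ℝ) / 1000) * (1 + 3 * d ^ 2) := by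
    have k1 := (lam_bounds (c3.trans c4) c6 c9)
    rw [← lamS_eq_lt] at k1
    have k2 := lamS_mono hs1 hs2 (x_pos c5) (x_lt_one c6)
    have k3 : lamS (((a0 : ℝ) / 1000) ^ 2) ((b : ℝ) / 1000) ≤ lamS (ρ ^ 2) ((b : ℝ) / 1000) :=
      lamS_mono hs0 (hs1.trans hs2) (x_pos c5) (x_lt_one c6)
    have k4 : (1 - ((d1 : ℝ) / 1000) ^ 2) ^ 3 ≤ (lamlo a0 a0 b : ℝ) * (1 + 3 * ((d1 : ℝ) / 1000) ^ 2) := by
      have : (((1 - q d1 ^ 2) ^ 3 : ℚ) : ℝ) ≤ ((lamlo a0 a0 b * (1 + 3 * q d1 ^ 2) : ℚ) : ℝ) := by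
        exact_mod_cast g3
      push_cast at this
      rw [q_cast] at this
      exact this
    have k5 : ((d1 : ℝ) / 1000) ^ 2 ≤ d ^ 2 := pow_le_pow_left₀ (x_nonneg d1) hd0 2
    have k6 : d ^ 2 ≤ 1 := by nlinarith
    have k7 : (1 - d ^ 2) ^ 3 ≤ (1 - ((d1 : ℝ) / 1000) ^ 2) ^ 3 :=
      pow_le_pow_left₀ (by linarith) (by linarith) 3
    have k8 : (lamlo a0 a0 b : ℝ) * (1 + 3 * ((d1 : ℝ) / 1000) ^ 2) ≤
        lamS (ρ ^ 2) ((b : ℝ) / 1000) * (1 + 3 * d ^ 2) := by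
      apply mul_le_mul (k1.1.trans k3) (by linarith) (by positivity)
      exact k1.2.2.trans k3
    linarith
  have h0 : 0 ≤ PS (ρ ^ 2) 0 d ((b : ℝ) / 1000) := by
    have := seg_at hcom g0 hs0 hs1 h1 hd0 hd1
    simpa using this
  have hm1' := x_le_one h3
  have fixm : ∀ d' : ℕ, d1 < d' → d ≤ (d' : ℝ) / 1000 → segOK a0 a1 c b m1 d1 m1 d' m1 = true →
      0 ≤ PS (ρ ^ 2) ((m1 : ℝ) / 1000) d ((b : ℝ) / 1000) := by
    intro d' hd' hdd hseg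
    have := seg_at hcom hseg hs0 hs1 hd' hd0 hdd
    rw [← add_mul, ← add_div] at this
    have h12 : (d1 : ℝ) < d' := by exact_mod_cast hd'
    have e : ((d' : ℝ) / 1000 - d + (d - (d1 : ℝ) / 1000)) / ((d' : ℝ) / 1000 - (d1 : ℝ) / 1000) = 1 := by
      rw [div_eq_one_iff_eq (by linarith)]
      ring
    rw [e, one_mul] at this
    exact this
  have e1000 : ((1000 - m1 : ℕ) : ℝ) = 1000 - m1 := by
    rw [Nat.cast_sub h3]
    norm_num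
  rcases le_or_gt d2 (1000 - m1) with hA | hB
  · -- `d ≤ 1 - m1`
    have hle : ¬ (1000 - m1 ≤ d1) := by omega
    have g1' := g1.resolve_left hle
    rw [min_eq_left hA] at g1'
    have hdm : (m1 : ℝ) / 1000 + d ≤ 1 := by
      have : (d2 : ℝ) ≤ ((1000 - m1 : ℕ) : ℝ) := by exact_mod_cast hA
      rw [e1000] at this
      linarith
    exact PS_interp (hs1.trans hs2) hdn hdlt hc (x_nonneg m1) hdm hm h0 (fixm d2 h1 hd1 g1')
  · rcases le_or_gt (((1000 - m1 : ℕ) : ℝ) / 1000) d with hC | hC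
    · -- edge
      have g2' := g2.resolve_left (by omega)
      set e1 := max d1 (1000 - m1) with he1
      have he1d : (e1 : ℝ) / 1000 ≤ d := by
        rcases max_choice d1 (1000 - m1) with hh | hh
        · rw [he1, hh]; exact hd0
        · rw [he1, hh]; exact hC
      have he1lt : e1 < d2 := max_lt h1 hB
      have key := seg_at hcom g2' hs0 hs1 he1lt he1d hd1
      have hlt' : (e1 : ℝ) < d2 := by exact_mod_cast he1lt
      have e2 : ((1000 - e1 : ℕ) : ℝ) = 1000 - e1 := by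
        rw [Nat.cast_sub (by omega)]
        norm_num
      have e3 : ((1000 - d2 : ℕ) : ℝ) = 1000 - d2 := by
        rw [Nat.cast_sub (by omega)]
        norm_num
      rw [e2, e3] at key
      have hpos : (d2 : ℝ) / 1000 - (e1 : ℝ) / 1000 ≠ 0 := by
        have : 0 < (d2 : ℝ) / 1000 - (e1 : ℝ) / 1000 := by linarith
        exact this.ne'
      have e4 : ((d2 : ℝ) / 1000 - d) / ((d2 : ℝ) / 1000 - (e1 : ℝ) / 1000) * ((1000 - (e1 : ℝ)) / 1000) +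
          (d - (e1 : ℝ) / 1000) / ((d2 : ℝ) / 1000 - (e1 : ℝ) / 1000) * ((1000 - (d2 : ℝ)) / 1000) =
            1 - d := by
        rw [div_mul_eq_mul_div, div_mul_eq_mul_div, ← add_div, div_eq_iff hpos]
        ring
      rw [e4] at key
      exact PS_interp (hs1.trans hs2) hdn hdlt hc (by linarith) (by linarith) (by linarith) h0 key
    · have hlt1 : d1 < 1000 - m1 := by
        have : (d1 : ℝ) < ((1000 - m1 : ℕ) : ℝ) := by linarith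
        exact_mod_cast this
      have g1' := g1.resolve_left (by omega)
      rw [min_eq_right hB.le] at g1'
      have hdm : (m1 : ℝ) / 1000 + d ≤ 1 := by
        rw [e1000] at hC
        linarith
      exact PS_interp (hs1.trans hs2) hdn hdlt hc (x_nonneg m1) hdm hm h0
        (fixm (1000 - m1) hlt1 hC.le g1')

/-- a row: `ρ ∈ [a0,a1]`, consecutive `d` cuts with their `t` -/
def rowOK (a0 a1 c m1 : ℕ) : ℕ → List (ℕ × ℕ) → Bool
  | _, [] => true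
  | d1, (d2, b) :: l => boxOK a0 a1 c m1 d1 d2 b && rowOK a0 a1 c m1 d2 l

/-- the last cut -/
def lastD : ℕ → List (ℕ × ℕ) → ℕ
  | d1, [] => d1
  | _, (d2, _) :: l => lastD d2 l

theorem rowOK_sound {a0 a1 c m1 : ℕ} {l : List (ℕ × ℕ)} : ∀ {d1 : ℕ},
    rowOK a0 a1 c m1 d1 l = true → ∀ {ρ d m : ℝ},
    (a0 : ℝ) / 1000 ≤ ρ → ρ ≤ (a1 : ℝ) / 1000 → (d1 : ℝ) / 1000 < d →
    d ≤ (lastD d1 l : ℝ) / 1000 → |m| ≤ (m1 : ℝ) / 1000 → |m| + d ≤ 1 →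
    ∃ t : ℝ, 0 < t ∧ t < 1 ∧ 0 ≤ PS (ρ ^ 2) m d t := by
  induction l with
  | nil =>
    intro d1 _ ρ d m _ _ h1 h2
    exfalso
    have : lastD d1 [] = d1 := rfl
    rw [this] at h2
    linarith
  | cons x l ih =>
    obtain ⟨d2, b⟩ := x
    intro d1 h ρ d m hρ0 hρ1 h1 h2 hm hmd
    have h' : boxOK a0 a1 c m1 d1 d2 b = true ∧ rowOK a0 a1 c m1 d2 l = true := by
      simpa [rowOK] using h
    rcases le_or_gt d ((d2 : ℝ) / 1000) with hd | hd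
    · obtain ⟨t0, t1, t2⟩ := boxOK_sound h'.1 hρ0 hρ1 h1.le hd hm hmd
      exact ⟨_, t0, t1, t2⟩
    · exact ih h'.2 hρ0 hρ1 hd h2 hm hmd

end Vale.Agent.P322.BM
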