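import Vale.Agent.P322.BSeg

/-!
# P322: concavity of `Ψ` in `m²`

For fixed `s, d, t`, `Ψ(m) = const + τ(1-λ) m² + (1-s)(ψ(m) - λ ψbar(m))` is concave as a function of `m²`
on `[0,(1-d)²]` as soon as `(1-d²)³ ≤ λ (1+3d²)`.
-/

namespace Vale.Agent.P322.BM

open Real Set Vale.Agent.P322.Ind

lemma conc_apply {S : Set ℝ} {f : ℝ → ℝ} (hf : ConcaveOn ℝ S f) {x y : ℝ} (hx : x ∈ S)
    (hy : y ∈ S) {a b : ℝ} (ha : 0 ≤ a) (hb : 0 ≤ b) (hab : a + b = 1) :
    a * f x + b * f y ≤ f (a * x + b * y) := by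
  have := hf.2 hx hy ha hb hab
  simpa only [smul_eq_mul] using this

/-- `κ(M)` -/
noncomputable def kap (lam d M : ℝ) : ℝ :=
  1 / (1 - M) - lam / 2 * ((1 - d) / ((1 - d) ^ 2 - M) + (1 + d) / ((1 + d) ^ 2 - M))

lemma hasDerivAt_kap {lam d M : ℝ} (hd0 : 0 ≤ d) (hd1 : d < 1) (hM1 : M < (1 - d) ^ 2) :
    HasDerivAt (kap lam d) (1 / (1 - M) ^ 2 -
      lam / 2 * ((1 - d) / ((1 - d) ^ 2 - M) ^ 2 + (1 + d) / ((1 + d) ^ 2 - M) ^ 2)) M := by
  have h1 : 1 - M ≠ 0 := by nlinarith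
  have h2 : (1 - d) ^ 2 - M ≠ 0 := by linarith
  have h3 : (1 + d) ^ 2 - M ≠ 0 := by nlinarith
  have e : ∀ (p q : ℝ), q - M ≠ 0 → HasDerivAt (fun x : ℝ => p / (q - x)) (p / (q - M) ^ 2) M := by
    intro p q hq
    have h := ((hasDerivAt_id M).const_sub q)
    have h' := (hasDerivAt_const M p).div h hq
    refine h'.congr_deriv ?_
    simp
  have := (e 1 1 h1).sub (((e (1 - d) ((1 - d) ^ 2) h2).add (e (1 + d) ((1 + d) ^ 2) h3)).const_mul
    (lam / 2))
  exact this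

/-- the algebraic inequality behind the concavity -/
lemma alg_ineq {d M : ℝ} (hd0 : 0 ≤ d) (hd1 : d < 1) (hM0 : 0 ≤ M) (hM1 : M < (1 - d) ^ 2) :
    (1 / (1 - d) ^ 3 + 1 / (1 + d) ^ 3) ≤
      ((1 - d) / ((1 - d) ^ 2 - M) ^ 2 + (1 + d) / ((1 + d) ^ 2 - M) ^ 2) * (1 - M) ^ 2 := by
  set A := 1 - d with hA
  set B := 1 + d with hB
  have hA0 : 0 < A := by linarith
  have hB0 : 0 < B := by linarith
  have hAB : A ≤ B := by linarith
  have hA2 : 0 < A ^ 2 - M := by linarith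
  have hAB2 : A ^ 2 ≤ B ^ 2 := by nlinarith
  have hB2 : 0 < B ^ 2 - M := by linarith
  have hA1 : A ^ 2 ≤ 1 := by nlinarith
  have hM1' : 0 ≤ 1 - M := by linarith
  -- u = (1-M)/(A²-M), v = (1-M)/(B²-M)
  have e1 : A / (A ^ 2 - M) ^ 2 * (1 - M) ^ 2 - 1 / A ^ 3 =
      M * ((1 - A ^ 2) / (A * (A ^ 2 - M))) * ((1 - M) / (A ^ 2 - M) + 1 / A ^ 2) := by
    field_simp
    ring
  have e2 : 1 / B ^ 3 - B / (B ^ 2 - M) ^ 2 * (1 - M) ^ 2 =
      M * ((B ^ 2 - 1) / (B * (B ^ 2 - M))) * ((1 - M) / (B ^ 2 - M) + 1 / B ^ 2) := by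
    field_simp
    ring
  have f1 : (B ^ 2 - 1) / (B * (B ^ 2 - M)) ≤ (1 - A ^ 2) / (A * (A ^ 2 - M)) := by
    rw [div_le_div_iff₀ (by positivity) (by positivity)]
    have g1 : B ^ 2 - 1 = d * (2 + d) := by rw [hB]; ring
    have g2 : 1 - A ^ 2 = d * (2 - d) := by rw [hA]; ring
    rw [g1, g2]
    have g3 : (2 + d) * A ≤ (2 - d) * B := by rw [hA, hB]; nlinarith
    have g4 : (2 + d) * A * (A ^ 2 - M) ≤ (2 - d) * B * (B ^ 2 - M) :=
      mul_le_mul g3 (by linarith) hA2.le (by nlinarith)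
    calc d * (2 + d) * (A * (A ^ 2 - M)) = d * ((2 + d) * A * (A ^ 2 - M)) := by ring
      _ ≤ d * ((2 - d) * B * (B ^ 2 - M)) := mul_le_mul_of_nonneg_left g4 hd0
      _ = _ := by ring
  have f2 : (1 - M) / (B ^ 2 - M) + 1 / B ^ 2 ≤ (1 - M) / (A ^ 2 - M) + 1 / A ^ 2 := by
    apply add_le_add
    · exact div_le_div_of_nonneg_left hM1' hA2 (by linarith)
    · exact one_div_le_one_div_of_le (by positivity) hAB2
  have f3 : 0 ≤ (B ^ 2 - 1) / (B * (B ^ 2 - M)) := by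
    apply div_nonneg _ (by positivity)
    rw [hB]
    nlinarith
  have f4 : 0 ≤ (1 - M) / (B ^ 2 - M) + 1 / B ^ 2 := by positivity
  have f5 : M * ((B ^ 2 - 1) / (B * (B ^ 2 - M))) * ((1 - M) / (B ^ 2 - M) + 1 / B ^ 2) ≤
      M * ((1 - A ^ 2) / (A * (A ^ 2 - M))) * ((1 - M) / (A ^ 2 - M) + 1 / A ^ 2) := by
    apply mul_le_mul (mul_le_mul_of_nonneg_left f1 hM0) f2 f4
    exact mul_nonneg hM0 (f3.trans f1)
  rw [add_mul]
  linarith

lemma kap_anti {lam d : ℝ} (hd0 : 0 ≤ d) (hd1 : d < 1)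
    (hc : (1 - d ^ 2) ^ 3 ≤ lam * (1 + 3 * d ^ 2)) :
    AntitoneOn (kap lam d) (Ico 0 ((1 - d) ^ 2)) := by
  have hlam : 0 ≤ lam := by
    have h1 : 0 ≤ (1 - d ^ 2) ^ 3 := by
      have : 0 ≤ 1 - d ^ 2 := by nlinarith
      positivity
    by_contra h
    push Not at h
    nlinarith [sq_nonneg d]
  apply antitoneOn_of_deriv_nonpos (convex_Ico _ _)
  · intro x hx
    exact (hasDerivAt_kap hd0 hd1 hx.2).continuousAt.continuousWithinAt
  · rw [interior_Ico]
    intro x hx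
    exact (hasDerivAt_kap hd0 hd1 hx.2).differentiableAt.differentiableWithinAt
  · rw [interior_Ico]
    intro x hx
    rw [(hasDerivAt_kap hd0 hd1 hx.2).deriv]
    have h1 := alg_ineq hd0 hd1 hx.1.le hx.2
    have hx1 : 0 < 1 - x := by nlinarith [hx.2]
    have h2 := mul_le_mul_of_nonneg_left h1 (by linarith : 0 ≤ lam / 2)
    have hd2 : 0 < 1 - d ^ 2 := by nlinarith
    have h3 : 1 ≤ lam / 2 * (1 / (1 - d) ^ 3 + 1 / (1 + d) ^ 3) := by
      have hA0 : 0 < 1 - d := by linarith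
      have hB0 : 0 < 1 + d := by linarith
      have e : 1 / (1 - d) ^ 3 + 1 / (1 + d) ^ 3 = 2 * (1 + 3 * d ^ 2) / (1 - d ^ 2) ^ 3 := by
        have : (1 - d ^ 2) = (1 - d) * (1 + d) := by ring
        rw [this, mul_pow]
        field_simp
        ring
      rw [e, ← mul_div_assoc, le_div_iff₀ (by positivity)]
      linarith
    have h4 : 1 / (1 - x) ^ 2 ≤
        lam / 2 * ((1 - d) / ((1 - d) ^ 2 - x) ^ 2 + (1 + d) / ((1 + d) ^ 2 - x) ^ 2) := by
      rw [div_le_iff₀ (by positivity)]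
      linarith
    linarith

/-- `k(m) = artanh m - λ (artanh(m+d) + artanh(m-d))/2` -/
noncomputable def kk (lam d m : ℝ) : ℝ := ath m - lam * ((ath (m + d) + ath (m - d)) / 2)

lemma hasDerivAt_kk {lam d m : ℝ} (hd0 : 0 ≤ d) (hm0 : 0 ≤ m) (hm1 : m < 1 - d) :
    HasDerivAt (kk lam d) (kap lam d (m ^ 2)) m := by
  have h1 := ath_hasDerivAt (x := m) (by linarith) (by linarith)
  have h2 := (ath_hasDerivAt (x := m + d) (by linarith) (by linarith)).comp_add_const m d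
  have h3 := (ath_hasDerivAt (x := m - d) (by linarith) (by linarith)).comp_sub_const m d
  have h4 := h1.sub (((h2.add h3).div_const 2).const_mul lam)
  refine h4.congr_deriv ?_
  unfold kap
  have n1 : 1 - d - m ≠ 0 := by linarith
  have n2 : 1 - d + m ≠ 0 := by linarith
  have n3 : 1 + d - m ≠ 0 := by linarith
  have n4 : 1 + d + m ≠ 0 := by linarith
  have a1 : (1 - d) ^ 2 - m ^ 2 = (1 - d - m) * (1 - d + m) := by ring
  have a2 : (1 + d) ^ 2 - m ^ 2 = (1 + d - m) * (1 + d + m) := by ring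
  have a3 : 1 - (m + d) ^ 2 = (1 - d - m) * (1 + d + m) := by ring
  have a4 : 1 - (m - d) ^ 2 = (1 + d - m) * (1 - d + m) := by ring
  rw [a1, a2, a3, a4]
  have key : 1 / ((1 - d - m) * (1 + d + m)) + 1 / ((1 + d - m) * (1 - d + m)) =
      (1 - d) / ((1 - d - m) * (1 - d + m)) + (1 + d) / ((1 + d - m) * (1 + d + m)) := by
    field_simp
    ring
  rw [key]
  ring

lemma kk_zero (lam d : ℝ) : kk lam d 0 = 0 := by
  unfold kk
  have h : ath (0 - d) = - ath d := by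
    unfold ath
    rw [zero_sub, sub_neg_eq_add, ← sub_eq_add_neg]
    ring
  rw [h, ath_zero, zero_add]
  ring

lemma kk_concave {lam d : ℝ} (hd0 : 0 ≤ d) (hd1 : d < 1)
    (hc : (1 - d ^ 2) ^ 3 ≤ lam * (1 + 3 * d ^ 2)) :
    ConcaveOn ℝ (Ico 0 (1 - d)) (kk lam d) := by
  apply AntitoneOn.concaveOn_of_deriv (convex_Ico _ _)
  · intro x hx
    exact (hasDerivAt_kk hd0 hx.1 hx.2).continuousAt.continuousWithinAt
  · rw [interior_Ico]
    intro x hx
    exact (hasDerivAt_kk hd0 hx.1.le hx.2).differentiableAt.differentiableWithinAt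
  · rw [interior_Ico]
    intro x hx y hy hxy
    rw [(hasDerivAt_kk hd0 hx.1.le hx.2).deriv, (hasDerivAt_kk hd0 hy.1.le hy.2).deriv]
    apply kap_anti hd0 hd1 hc
    · exact ⟨by positivity, by nlinarith [hx.1, hx.2]⟩
    · exact ⟨by positivity, by nlinarith [hy.1, hy.2]⟩
    · nlinarith [hx.1, hxy]

lemma kk_ratio {lam d : ℝ} (hd0 : 0 ≤ d) (hd1 : d < 1)
    (hc : (1 - d ^ 2) ^ 3 ≤ lam * (1 + 3 * d ^ 2)) {x y : ℝ} (hx : 0 < x) (hxy : x ≤ y)
    (hy : y < 1 - d) : kk lam d y / y ≤ kk lam d x / x := by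
  have hy0 : 0 < y := lt_of_lt_of_le hx hxy
  have h := conc_apply (kk_concave hd0 hd1 hc) (x := 0) (y := y) ⟨le_rfl, by linarith⟩
    ⟨hy0.le, hy⟩ (a := 1 - x / y) (b := x / y) (by
      rw [sub_nonneg, div_le_one hy0]
      exact hxy) (by positivity) (by ring)
  simp only [mul_zero, zero_add, kk_zero] at h
  rw [div_mul_cancel₀ _ hy0.ne'] at h
  rw [div_le_div_iff₀ hy0 hx]
  calc kk lam d y * x = (x / y * kk lam d y) * y := by field_simp
    _ ≤ kk lam d x * y := mul_le_mul_of_nonneg_right h hy0.le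

/-- `h(M) = ψ(√M) - λ (ψ(√M + d) + ψ(√M - d))/2` -/
noncomputable def hM (lam d M : ℝ) : ℝ :=
  psi (Real.sqrt M) - lam * ((psi (Real.sqrt M + d) + psi (Real.sqrt M - d)) / 2)

lemma hasDerivAt_hM {lam d M : ℝ} (hd0 : 0 ≤ d) (hd1 : d < 1) (hM0 : 0 < M)
    (hM1 : M < (1 - d) ^ 2) :
    HasDerivAt (hM lam d) (kk lam d (Real.sqrt M) / (2 * Real.sqrt M)) M := by
  have hs0 : 0 < Real.sqrt M := Real.sqrt_pos.mpr hM0
  have hs1 : Real.sqrt M < 1 - d := by
    rw [Real.sqrt_lt' (by linarith)]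
    exact hM1
  have h2 : HasDerivAt Real.sqrt (1 / (2 * Real.sqrt M)) M := Real.hasDerivAt_sqrt hM0.ne'
  have p1 := (psi_hasDerivAt' (x := Real.sqrt M) (by linarith) (by linarith)).comp M h2
  have p2 := (psi_hasDerivAt' (x := Real.sqrt M + d) (by linarith) (by linarith)).comp M
    (h2.add_const d)
  have p3 := (psi_hasDerivAt' (x := Real.sqrt M - d) (by linarith) (by linarith)).comp M
    (h2.sub_const d)
  have := p1.sub (((p2.add p3).div_const 2).const_mul lam)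
  refine this.congr_deriv ?_
  unfold kk
  ring

lemma hM_concave {lam d : ℝ} (hd0 : 0 ≤ d) (hd1 : d < 1)
    (hc : (1 - d ^ 2) ^ 3 ≤ lam * (1 + 3 * d ^ 2)) :
    ConcaveOn ℝ (Icc 0 ((1 - d) ^ 2)) (hM lam d) := by
  apply AntitoneOn.concaveOn_of_deriv (convex_Icc _ _)
  · apply Continuous.continuousOn
    unfold hM
    have h1 := psi_continuous
    have h2 := Real.continuous_sqrt
    exact (h1.comp h2).sub (continuous_const.mul
      (((h1.comp (h2.add continuous_const)).add (h1.comp (h2.sub continuous_const))).div_const 2))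
  · rw [interior_Icc]
    intro x hx
    exact (hasDerivAt_hM hd0 hd1 hx.1 hx.2).differentiableAt.differentiableWithinAt
  · rw [interior_Icc]
    intro x hx y hy hxy
    rw [(hasDerivAt_hM hd0 hd1 hx.1 hx.2).deriv, (hasDerivAt_hM hd0 hd1 hy.1 hy.2).deriv]
    have hy1 : Real.sqrt y < 1 - d := by
      rw [Real.sqrt_lt' (by linarith)]
      exact hy.2
    have h := kk_ratio hd0 hd1 hc (Real.sqrt_pos.mpr hx.1) (Real.sqrt_le_sqrt hxy) hy1
    have e : ∀ z w : ℝ, w / (2 * z) = w / z / 2 := fun z w => by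
      rw [mul_comm, ← div_div]
    rw [e, e]
    linarith

lemma PS_eq (s m d t : ℝ) : PS s m d t =
    lamS s t * ((1 - s) * Real.log 2 + tauS s * (1 - d ^ 2) - d * H t / t) +
      d * phi (s * t ^ 2) / t - ((1 - s) * Real.log 2 + tauS s)
      + tauS s * (1 - lamS s t) * m ^ 2
      + (1 - s) * (psi m - lamS s t * ((psi (m + d) + psi (m - d)) / 2)) := by
  unfold PS KS GS psi
  ring

lemma PS_even (s m d t : ℝ) : PS s (-m) d t = PS s m d t := by
  rw [PS_eq, PS_eq, psi_neg]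
  have h1 : psi (-m + d) = psi (m - d) := by
    rw [← psi_neg]
    congr 1
    ring
  have h2 : psi (-m - d) = psi (m + d) := by
    rw [← psi_neg]
    congr 1
    ring
  rw [h1, h2]
  ring

/-- **Reduction to `m = 0` and `m = m1`.** -/
theorem PS_interp {s t d m1 m : ℝ} (hs1 : s ≤ 1) (hd0 : 0 ≤ d) (hd1 : d < 1)
    (hc : (1 - d ^ 2) ^ 3 ≤ lamS s t * (1 + 3 * d ^ 2)) (hm1 : 0 ≤ m1) (hm1d : m1 + d ≤ 1)
    (hm : |m| ≤ m1) (h0 : 0 ≤ PS s 0 d t) (h1 : 0 ≤ PS s m1 d t) : 0 ≤ PS s m d t := by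
  -- wlog `0 ≤ m`
  have key : ∀ m : ℝ, 0 ≤ m → m ≤ m1 → 0 ≤ PS s m d t := by
    intro m hm0 hmm
    rcases eq_or_lt_of_le hm1 with h | h
    · have : m = 0 := by linarith
      rw [this]
      exact h0
    have hc' := hM_concave hd0 hd1 hc
    have hq0 : 0 ≤ m ^ 2 / m1 ^ 2 := by positivity
    have hq1 : m ^ 2 / m1 ^ 2 ≤ 1 := by
      rw [div_le_one (by positivity)]
      exact pow_le_pow_left₀ hm0 hmm 2
    have h2 := conc_apply hc' (x := 0) (y := m1 ^ 2) ⟨le_rfl, by positivity⟩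
      ⟨by positivity, pow_le_pow_left₀ hm1 (by linarith) 2⟩
      (a := 1 - m ^ 2 / m1 ^ 2) (b := m ^ 2 / m1 ^ 2) (by linarith) hq0 (by ring)
    simp only [mul_zero, zero_add] at h2
    rw [div_mul_cancel₀ _ (by positivity)] at h2
    unfold hM at h2
    rw [Real.sqrt_sq hm0, Real.sqrt_sq hm1, Real.sqrt_zero, zero_add, zero_sub, psi_neg,
      psi_zero] at h2
    set w := m ^ 2 / m1 ^ 2 with hw
    have e1 : m ^ 2 = w * m1 ^ 2 := by
      rw [hw]
      field_simp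
    have g0 := mul_nonneg (by linarith : 0 ≤ 1 - w) h0
    have g1 := mul_nonneg hq0 h1
    have g2 := mul_le_mul_of_nonneg_left h2 (by linarith : 0 ≤ 1 - s)
    rw [PS_eq] at g0 g1 ⊢
    rw [zero_add, zero_sub, psi_neg, psi_zero] at g0
    rw [e1]
    nlinarith
  rcases le_total 0 m with h | h
  · exact key m h (by rwa [abs_of_nonneg h] at hm)
  · have := key (-m) (by linarith) (by rwa [abs_of_nonpos h] at hm)
    rwa [PS_even] at this

end Vale.Agent.P322.BM
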