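import Vale.Agent.P322.LnEval
import Vale.Agent.P322.BConc

/-!
# P322: kernel checker for certificate B on boxes

All parameters are natural numbers `x`, standing for `x/1000`.
-/

namespace Vale.Agent.P322.BM

open Real Set Vale.Agent.P322.Ind

/-- lower bound of `H (u/v)` -/
def HL (u v : ℕ) : ℚ :=
  lnL (2 * v) - (((v + u : ℕ) : ℚ) * lnU (v + u) + ((v - u : ℕ) : ℚ) * lnU (v - u)) / (2 * v : ℕ)

/-- upper bound of `H (u/v)` -/
def HU (u v : ℕ) : ℚ :=
  lnU (2 * v) - (((v + u : ℕ) : ℚ) * lnL (v + u) + ((v - u : ℕ) : ℚ) * lnL (v - u)) / (2 * v : ℕ)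

/-- bounds of `L (u/v)` -/
def LLo (u v : ℕ) : ℚ := lnL (2 * v) - (lnU (v + u) + lnU (v - u)) / 2
def LHi (u v : ℕ) : ℚ := lnU (2 * v) - (lnL (v + u) + lnL (v - u)) / 2

/-- bounds of `artanh (u/v)` -/
def AL (u v : ℕ) : ℚ := (lnL (v + u) - lnU (v - u)) / 2
def AU (u v : ℕ) : ℚ := (lnU (v + u) - lnL (v - u)) / 2

lemma H_formula {u v : ℕ} (hv : 0 < v) (huv : u ≤ v) :
    H ((u : ℝ) / v) = Real.log (2 * v : ℕ) - (((v + u : ℕ) : ℝ) * Real.log (v + u : ℕ) +
      ((v - u : ℕ) : ℝ) * Real.log (v - u : ℕ)) / (2 * v : ℕ) := by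
  have hv0 : (0 : ℝ) < v := by exact_mod_cast hv
  have hu0 : (0 : ℝ) ≤ u := by positivity
  have h1 : H ((u : ℝ) / v) = Real.log 2 - psi ((u : ℝ) / v) := by
    unfold psi
    ring
  rw [h1, Vale.Agent.P322.Ind.psi_eq, Nat.cast_sub huv]
  unfold Real.negMulLog
  push_cast
  have e1 : 1 + (u : ℝ) / v = (v + u) / v := by field_simp
  have e2 : 1 - (u : ℝ) / v = (v - u) / v := by field_simp
  have e3 : Real.log (2 * (v : ℝ)) = Real.log 2 + Real.log v :=
    Real.log_mul (by norm_num) hv0.ne'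
  rw [e1, e2, e3, Real.log_div (by positivity) hv0.ne']
  rcases eq_or_lt_of_le huv with h | h
  · subst h
    simp only [sub_self, zero_div, zero_mul, add_zero]
    field_simp
    ring
  · have h' : (u : ℝ) < v := by exact_mod_cast h
    rw [Real.log_div (by linarith) hv0.ne']
    field_simp
    ring

lemma HL_le {u v : ℕ} (hv : 0 < v) (huv : u ≤ v) : (HL u v : ℝ) ≤ H ((u : ℝ) / v) := by
  rw [H_formula hv huv]
  have h1 := lnL_le (n := 2 * v) (by omega)
  have h2 := le_lnU (n := v + u) (by omega)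
  have h3 : ((v - u : ℕ) : ℝ) * Real.log (v - u : ℕ) ≤ ((v - u : ℕ) : ℝ) * (lnU (v - u) : ℝ) := by
    rcases Nat.eq_zero_or_pos (v - u) with h | h
    · rw [h]; simp
    · exact mul_le_mul_of_nonneg_left (le_lnU h) (by positivity)
  have h4 := mul_le_mul_of_nonneg_left h2 (Nat.cast_nonneg (α := ℝ) (v + u))
  unfold HL
  push_cast at h1 h4 h3 ⊢
  have h5 : (0 : ℝ) < 2 * v := by
    have : (0 : ℝ) < v := by exact_mod_cast hv
    linarith
  have h6 : (((v : ℝ) + u) * Real.log (v + u) + ((v - u : ℕ) : ℝ) * Real.log ((v - u : ℕ) : ℝ)) /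
      (2 * v) ≤ (((v : ℝ) + u) * (lnU (v + u) : ℝ) + ((v - u : ℕ) : ℝ) * (lnU (v - u) : ℝ)) /
      (2 * v) := by
    apply div_le_div_of_nonneg_right _ h5.le
    linarith
  linarith

lemma le_HU {u v : ℕ} (hv : 0 < v) (huv : u ≤ v) : H ((u : ℝ) / v) ≤ (HU u v : ℝ) := by
  rw [H_formula hv huv]
  have h1 := le_lnU (n := 2 * v) (by omega)
  have h2 := lnL_le (n := v + u) (by omega)
  have h3 : ((v - u : ℕ) : ℝ) * (lnL (v - u) : ℝ) ≤ ((v - u : ℕ) : ℝ) * Real.log (v - u : ℕ) := by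
    rcases Nat.eq_zero_or_pos (v - u) with h | h
    · rw [h]; simp
    · exact mul_le_mul_of_nonneg_left (lnL_le h) (by positivity)
  have h4 := mul_le_mul_of_nonneg_left h2 (Nat.cast_nonneg (α := ℝ) (v + u))
  unfold HU
  push_cast at h1 h4 h3 ⊢
  have h5 : (0 : ℝ) < 2 * v := by
    have : (0 : ℝ) < v := by exact_mod_cast hv
    linarith
  have h6 : (((v : ℝ) + u) * (lnL (v + u) : ℝ) + ((v - u : ℕ) : ℝ) * (lnL (v - u) : ℝ)) /
      (2 * v) ≤ (((v : ℝ) + u) * Real.log (v + u) + ((v - u : ℕ) : ℝ) * Real.log ((v - u : ℕ) : ℝ)) /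
      (2 * v) := by
    apply div_le_div_of_nonneg_right _ h5.le
    linarith
  linarith

lemma L_formula {u v : ℕ} (huv : u < v) :
    L ((u : ℝ) / v) = Real.log (2 * v : ℕ) -
      (Real.log (v + u : ℕ) + Real.log (v - u : ℕ)) / 2 := by
  have hv0 : (0 : ℝ) < v := by
    have : 0 < v := by omega
    exact_mod_cast this
  have hu0 : (0 : ℝ) ≤ u := by positivity
  have h' : (u : ℝ) < v := by exact_mod_cast huv
  unfold L
  rw [Nat.cast_sub huv.le]
  push_cast
  have e : 1 - ((u : ℝ) / v) ^ 2 = (v + u) * (v - u) / (v * v) := by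
    field_simp
    ring
  rw [e, Real.log_div (by
    have : 0 < (v : ℝ) - u := by linarith
    positivity) (by positivity), Real.log_mul (by positivity) (by linarith),
    Real.log_mul hv0.ne' hv0.ne', Real.log_mul (by norm_num) hv0.ne']
  ring

lemma LLo_le {u v : ℕ} (huv : u < v) : (LLo u v : ℝ) ≤ L ((u : ℝ) / v) := by
  rw [L_formula huv]
  have h1 := lnL_le (n := 2 * v) (by omega)
  have h2 := le_lnU (n := v + u) (by omega)
  have h3 := le_lnU (n := v - u) (by omega)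
  unfold LLo
  push_cast at h1 h2 h3 ⊢
  linarith

lemma le_LHi {u v : ℕ} (huv : u < v) : L ((u : ℝ) / v) ≤ (LHi u v : ℝ) := by
  rw [L_formula huv]
  have h1 := le_lnU (n := 2 * v) (by omega)
  have h2 := lnL_le (n := v + u) (by omega)
  have h3 := lnL_le (n := v - u) (by omega)
  unfold LHi
  push_cast at h1 h2 h3 ⊢
  linarith

lemma ath_formula {u v : ℕ} (huv : u < v) :
    ath ((u : ℝ) / v) = (Real.log (v + u : ℕ) - Real.log (v - u : ℕ)) / 2 := by
  have hv0 : (0 : ℝ) < v := by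
    have : 0 < v := by omega
    exact_mod_cast this
  have hu0 : (0 : ℝ) ≤ u := by positivity
  have h' : (u : ℝ) < v := by exact_mod_cast huv
  unfold ath
  rw [Nat.cast_sub huv.le]
  push_cast
  have e1 : 1 + (u : ℝ) / v = (v + u) / v := by field_simp
  have e2 : 1 - (u : ℝ) / v = (v - u) / v := by field_simp
  rw [e1, e2, Real.log_div (by positivity) hv0.ne', Real.log_div (by linarith) hv0.ne']
  ring

lemma AL_le {u v : ℕ} (huv : u < v) : (AL u v : ℝ) ≤ ath ((u : ℝ) / v) := by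
  rw [ath_formula huv]
  have h2 := lnL_le (n := v + u) (by omega)
  have h3 := le_lnU (n := v - u) (by omega)
  unfold AL
  push_cast at h2 h3 ⊢
  linarith

lemma le_AU {u v : ℕ} (huv : u < v) : ath ((u : ℝ) / v) ≤ (AU u v : ℝ) := by
  rw [ath_formula huv]
  have h2 := le_lnU (n := v + u) (by omega)
  have h3 := lnL_le (n := v - u) (by omega)
  unfold AU
  push_cast at h2 h3 ⊢
  linarith

/-- the rational number `x/1000` -/
def q (x : ℕ) : ℚ := (x : ℚ) / 1000

/-- `|x - y|` -/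
def absd (x y : ℕ) : ℕ := (x - y) + (y - x)

/-- lower bound of `τ(s)`, `s = (a/1000)²` -/
def tauL (a : ℕ) : ℚ := HL a 1000 - (1 - q a ^ 2) * lnU 2

/-- upper bound of `τ(s)` -/
def tauU (a : ℕ) : ℚ := HU a 1000 - (1 - q a ^ 2) * lnL 2

/-- lower bound of `G` at `x/1000` -/
def GLo (a x : ℕ) : ℚ := (1 - q a ^ 2) * HL x 1000 + tauL a * (1 - q x ^ 2)

/-- lower bound of `K` -/
def KL (a m d b : ℕ) : ℚ :=
  (GLo a (absd m d) + GLo a (m + d)) / 2 - (d : ℚ) * HU b 1000 / b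

/-- the rational correction in the tangent value of `λ` -/
def ecor (c a b : ℕ) : ℚ :=
  q b ^ 2 * (q a ^ 2 - q c ^ 2) / (2 * (1 - q c ^ 2 * q b ^ 2))

/-- bounds of the tangent value `lt (c²) (a²) b` -/
def lamlo (c a b : ℕ) : ℚ := (LLo (c * b) 1000000 + ecor c a b) / LHi b 1000
def lamhi (c a b : ℕ) : ℚ := (LHi (c * b) 1000000 + ecor c a b) / LLo b 1000

/-- upper bound of `tt (c²) (a²)` -/
def ttU (c a : ℕ) : ℚ :=
  tauU c + max ((lnU 2 - AL c 1000 / (2 * q c)) * (q a ^ 2 - q c ^ 2))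
    ((lnL 2 - AU c 1000 / (2 * q c)) * (q a ^ 2 - q c ^ 2))

/-- lower bound of `RR` -/
def RL (lL lU tU : ℚ) (a m d b ms : ℕ) : ℚ :=
  min (lL * KL a m d b) (lU * KL a m d b) + (d : ℚ) * HL (a * b) 1000000 / b -
    ((1 - q a ^ 2) * (HU ms 1000 + max (-(AL ms 1000 * (q m - q ms))) (-(AU ms 1000 * (q m - q ms)))) +
      tU * (1 - q ms ^ 2 - 2 * q ms * (q m - q ms)))

end Vale.Agent.P322.BM
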