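import Vale.Agent.P322.Basic

/-!
# P322: scalar facts on `H`, `psi`, `M` used by the induction

* `H` is even, continuous, concave on `[-1,1]`, with values in `[0, log 2]`;
* `psi x ≥ x^2/2`, `psi (ρ x) ≤ ρ^2 psi x`;
* the decomposition `H(w+x) + H(w-x) = 2 H w - (1+w) psi(x/(1+w)) - (1-w) psi(x/(1-w))`;
* the two-point strong data processing inequality;
* joint convexity of `J(u,v) = H((u+v)/2) - (H u + H v)/2`.
-/

namespace Vale.Agent.P322.Ind

open Real Finset

lemma H_neg (x : ℝ) : H (-x) = H x := by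
  unfold H
  rw [show (1 + -x) / 2 = 1 - (1 + x) / 2 by ring, Real.binEntropy_one_sub]

lemma H_one : H 1 = 0 := by
  unfold H; norm_num

lemma H_neg_one : H (-1) = 0 := by
  rw [H_neg, H_one]

lemma H_zero : H 0 = Real.log 2 := by
  unfold H
  have : (1 + (0:ℝ)) / 2 = 2⁻¹ := by norm_num
  rw [this, Real.binEntropy_two_inv]

lemma H_continuous : Continuous H := by
  unfold H
  exact Real.binEntropy_continuous.comp (by fun_prop)

lemma H_nonneg {x : ℝ} (h : |x| ≤ 1) : 0 ≤ H x := by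
  have := abs_le.mp h
  unfold H
  exact Real.binEntropy_nonneg (by linarith) (by linarith)

lemma H_le_log_two (x : ℝ) : H x ≤ Real.log 2 := by
  unfold H
  exact Real.binEntropy_le_log_two

lemma H_concaveOn : ConcaveOn ℝ (Set.Icc (-1) 1) H := by
  have h := Real.strictConcave_binEntropy.concaveOn
  refine ⟨convex_Icc _ _, ?_⟩
  intro x hx y hy a b ha hb hab
  have h2 := h.2 (x := (1 + x) / 2) (y := (1 + y) / 2)
    ⟨by linarith [hx.1], by linarith [hx.2]⟩ ⟨by linarith [hy.1], by linarith [hy.2]⟩ ha hb hab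
  unfold H
  simp only [smul_eq_mul] at h2 ⊢
  refine h2.trans (le_of_eq ?_)
  congr 1
  linear_combination (1 / 2) * hab

lemma psi_convexOn : ConvexOn ℝ (Set.Icc (-1) 1) psi := by
  have h := H_concaveOn
  refine ⟨convex_Icc _ _, ?_⟩
  intro x hx y hy a b ha hb hab
  have h2 := h.2 hx hy ha hb hab
  unfold psi
  simp only [smul_eq_mul] at h2 ⊢
  have e : a * Real.log 2 + b * Real.log 2 = Real.log 2 := by rw [← add_mul, hab, one_mul]
  linarith

lemma psi_nonneg (x : ℝ) : 0 ≤ psi x := by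
  unfold psi; linarith [H_le_log_two x]

lemma psi_zero : psi 0 = 0 := by
  unfold psi; rw [H_zero]; ring

lemma psi_neg (x : ℝ) : psi (-x) = psi x := by
  unfold psi; rw [H_neg]

lemma psi_one : psi 1 = Real.log 2 := by
  unfold psi; rw [H_one]; ring

lemma psi_continuous : Continuous psi := by
  unfold psi
  exact continuous_const.sub H_continuous

/-- `psi` through `negMulLog`. -/
lemma psi_eq (t : ℝ) : psi t = -(negMulLog (1 + t) + negMulLog (1 - t)) / 2 := by
  unfold psi H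
  rw [Real.binEntropy_eq_negMulLog_add_negMulLog_one_sub]
  have e1 : (1 + t) / 2 = (1 + t) * 2⁻¹ := by ring
  have e2 : 1 - (1 + t) / 2 = (1 - t) * 2⁻¹ := by ring
  rw [e1, show 1 - (1 + t) * 2⁻¹ = (1 - t) * 2⁻¹ by ring, Real.negMulLog_mul, Real.negMulLog_mul]
  have e3 : negMulLog (2⁻¹ : ℝ) = Real.log 2 / 2 := by
    unfold negMulLog
    rw [Real.log_inv]; ring
  rw [e3]; ring

lemma nml_pair (m t : ℝ) :
    negMulLog (m * (1 + t)) + negMulLog (m * (1 - t)) = 2 * negMulLog m - 2 * m * psi t := by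
  rw [Real.negMulLog_mul, Real.negMulLog_mul, psi_eq]; ring

/-- The decomposition of a symmetric pair. -/
lemma H_pair {w x : ℝ} (h : |w| + |x| ≤ 1) :
    H (w + x) + H (w - x)
      = 2 * H w - (1 + w) * psi (x / (1 + w)) - (1 - w) * psi (x / (1 - w)) := by
  have hx0 := abs_nonneg x
  have hw0 := abs_nonneg w
  rcases eq_or_ne (1 + w) 0 with h1 | h1
  · have hw : w = -1 := by linarith
    have hx : x = 0 := by
      have : |x| ≤ 0 := by
        rw [hw] at h; norm_num at h; exact abs_nonpos_iff.mpr h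
      exact abs_eq_zero.mp (le_antisymm this hx0)
    subst hx
    simp [psi_zero]; ring
  rcases eq_or_ne (1 - w) 0 with h2 | h2
  · have hw : w = 1 := by linarith
    have hx : x = 0 := by
      have : |x| ≤ 0 := by
        rw [hw] at h; norm_num at h; exact abs_nonpos_iff.mpr h
      exact abs_eq_zero.mp (le_antisymm this hx0)
    subst hx
    simp [psi_zero]; ring
  unfold H
  simp only [Real.binEntropy_eq_negMulLog_add_negMulLog_one_sub]
  have k1 := nml_pair ((1 + w) / 2) (x / (1 + w))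
  have k2 := nml_pair ((1 - w) / 2) (x / (1 - w))
  have a1 : (1 + w) / 2 * (1 + x / (1 + w)) = (1 + (w + x)) / 2 := by field_simp; ring
  have a2 : (1 + w) / 2 * (1 - x / (1 + w)) = (1 + (w - x)) / 2 := by field_simp; ring
  have a3 : (1 - w) / 2 * (1 + x / (1 - w)) = 1 - (1 + (w - x)) / 2 := by field_simp; ring
  have a4 : (1 - w) / 2 * (1 - x / (1 - w)) = 1 - (1 + (w + x)) / 2 := by field_simp; ring
  rw [a1, a2] at k1
  rw [a3, a4] at k2
  have a5 : 1 - (1 + w) / 2 = (1 - w) / 2 := by ring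
  rw [a5]
  linear_combination k1 + k2

/-- Derivative of `psi` on `(-1,1)`. -/
lemma psi_hasDerivAt {x : ℝ} (h1 : -1 < x) (h2 : x < 1) :
    HasDerivAt psi ((Real.log (1 + x) - Real.log (1 - x)) / 2) x := by
  have e : psi = fun t => Real.log 2 - Real.binEntropy ((1 + t) / 2) := by
    funext t; rfl
  rw [e]
  have hb := Real.hasDerivAt_binEntropy (p := (1 + x) / 2) (by linarith) (by linarith)
  have hl : HasDerivAt (fun t : ℝ => (1 + t) / 2) (1 / 2) x :=
    ((hasDerivAt_id x).const_add 1).div_const 2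
  have hc := (hb.comp x hl).const_sub (Real.log 2)
  refine hc.congr_deriv ?_
  have e1 : 1 - (1 + x) / 2 = (1 - x) / 2 := by ring
  rw [e1, Real.log_div (by linarith) (by norm_num), Real.log_div (by linarith) (by norm_num)]
  ring

lemma log_ratio_hasDerivAt {x : ℝ} (h1 : -1 < x) (h2 : x < 1) :
    HasDerivAt (fun x : ℝ => (Real.log (1 + x) - Real.log (1 - x)) / 2) (1 / (1 - x ^ 2)) x := by
  have ha : HasDerivAt (fun x : ℝ => Real.log (1 + x)) (1 / (1 + x)) x :=
    ((hasDerivAt_id x).const_add 1).log (by simpa using (by linarith : (0:ℝ) < 1 + x).ne')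
  have hb : HasDerivAt (fun x : ℝ => Real.log (1 - x)) (-1 / (1 - x)) x :=
    ((hasDerivAt_id x).const_sub 1).log (by simpa using (by linarith : (0:ℝ) < 1 - x).ne')
  refine ((ha.sub hb).div_const 2).congr_deriv ?_
  have n1 : (1 + x) ≠ 0 := by linarith
  have n2 : (1 - x) ≠ 0 := by linarith
  have n3 : 1 - x ^ 2 ≠ 0 := by
    have : 0 < (1 - x) * (1 + x) := by apply mul_pos <;> linarith
    nlinarith
  field_simp
  ring

/-- `artanh x` as half a log-ratio. -/
noncomputable def ath (x : ℝ) : ℝ := (Real.log (1 + x) - Real.log (1 - x)) / 2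

lemma ath_zero : ath 0 = 0 := by simp [ath]

lemma ath_hasDerivAt {x : ℝ} (h1 : -1 < x) (h2 : x < 1) :
    HasDerivAt ath (1 / (1 - x ^ 2)) x := log_ratio_hasDerivAt h1 h2

lemma psi_hasDerivAt' {x : ℝ} (h1 : -1 < x) (h2 : x < 1) : HasDerivAt psi (ath x) x :=
  psi_hasDerivAt h1 h2

/-- A nonnegative derivative criterion on `[0,1)`. -/
lemma nonneg_of_deriv {F F' : ℝ → ℝ} (h0 : 0 ≤ F 0)
    (hd : ∀ x, 0 ≤ x → x < 1 → HasDerivAt F (F' x) x)
    (hn : ∀ x, 0 ≤ x → x < 1 → 0 ≤ F' x) {x : ℝ} (hx0 : 0 ≤ x) (hx1 : x < 1) : 0 ≤ F x := by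
  have hmono : MonotoneOn F (Set.Icc 0 x) := by
    apply monotoneOn_of_deriv_nonneg (convex_Icc _ _)
    · intro y hy
      exact (hd y hy.1 (lt_of_le_of_lt hy.2 hx1)).continuousAt.continuousWithinAt
    · intro y hy
      rw [interior_Icc] at hy
      exact (hd y hy.1.le (hy.2.trans hx1)).differentiableAt.differentiableWithinAt
    · intro y hy
      rw [interior_Icc] at hy
      rw [(hd y hy.1.le (hy.2.trans hx1)).deriv]
      exact hn y hy.1.le (hy.2.trans hx1)
  exact h0.trans (hmono ⟨le_refl _, hx0⟩ ⟨hx0, le_refl _⟩ hx0)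

lemma ath_mul_le {r x : ℝ} (hr0 : 0 ≤ r) (hr1 : r ≤ 1) (hx0 : 0 ≤ x) (hx1 : x < 1) :
    ath (r * x) ≤ r * ath x := by
  have h := nonneg_of_deriv (F := fun x => r * ath x - ath (r * x))
    (F' := fun x => r * (1 / (1 - x ^ 2)) - 1 / (1 - (r * x) ^ 2) * r)
    (by simp [ath_zero])
    (by
      intro y hy0 hy1
      have hry : r * y < 1 := by nlinarith
      have hry0 : 0 ≤ r * y := mul_nonneg hr0 hy0
      have h1 := (ath_hasDerivAt (x := y) (by linarith) hy1).const_mul r
      have h2 := (ath_hasDerivAt (x := r * y) (by linarith) hry)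
      have h3 : HasDerivAt (fun y : ℝ => r * y) r y := by
        simpa using (hasDerivAt_id y).const_mul r
      exact h1.sub (h2.comp y h3))
    (by
      intro y hy0 hy1
      have hry : r * y ≤ y := by nlinarith
      have hry0 : 0 ≤ r * y := mul_nonneg hr0 hy0
      have k1 : (r * y) ^ 2 ≤ y ^ 2 := by gcongr
      have k2 : y ^ 2 < 1 := by nlinarith
      have : 1 / (1 - (r * y) ^ 2) ≤ 1 / (1 - y ^ 2) :=
        one_div_le_one_div_of_le (by linarith) (by linarith)
      nlinarith)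
    hx0 hx1
  linarith

lemma le_ath {x : ℝ} (hx0 : 0 ≤ x) (hx1 : x < 1) : x ≤ ath x := by
  have h := nonneg_of_deriv (F := fun x => ath x - x)
    (F' := fun x => (1 / (1 - x ^ 2)) - 1)
    (by simp [ath_zero])
    (by
      intro y hy0 hy1
      exact (ath_hasDerivAt (x := y) (by linarith) hy1).sub (hasDerivAt_id y))
    (by
      intro y hy0 hy1
      have k2 : y ^ 2 < 1 := by nlinarith
      have : 1 / 1 ≤ 1 / (1 - y ^ 2) :=
        one_div_le_one_div_of_le (by linarith) (by nlinarith [sq_nonneg y])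
      linarith)
    hx0 hx1
  linarith

/-- `psi x ≥ x^2/2`. -/
lemma sq_div_two_le_psi {x : ℝ} (hx : |x| ≤ 1) : x ^ 2 / 2 ≤ psi x := by
  have main : ∀ y : ℝ, 0 ≤ y → y < 1 → y ^ 2 / 2 ≤ psi y := by
    intro y hy0 hy1
    have h := nonneg_of_deriv (F := fun x => psi x - x ^ 2 / 2)
      (F' := fun x => ath x - x)
      (by simp [psi_zero])
      (by
        intro z hz0 hz1
        have h1 := psi_hasDerivAt' (x := z) (by linarith) hz1
        have h2 : HasDerivAt (fun x : ℝ => x ^ 2 / 2) z z := by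
          have := (hasDerivAt_pow 2 z).div_const 2
          refine this.congr_deriv ?_
          ring
        exact h1.sub h2)
      (by
        intro z hz0 hz1
        linarith [le_ath hz0 hz1])
      hy0 hy1
    linarith
  have closed : ∀ y : ℝ, 0 ≤ y → y ≤ 1 → y ^ 2 / 2 ≤ psi y := by
    intro y hy0 hy1
    rcases hy1.lt_or_eq with h | h
    · exact main y hy0 h
    · subst h
      rw [psi_one]
      have := Real.log_two_gt_d9
      norm_num; linarith
  rcases le_total 0 x with h | h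
  · exact closed x h (abs_le.mp hx).2
  · have := closed (-x) (by linarith) (by linarith [(abs_le.mp hx).1])
    rw [psi_neg] at this
    nlinarith

/-- `psi (r x) ≤ r^2 psi x`. -/
lemma psi_mul_le {r x : ℝ} (hr0 : 0 ≤ r) (hr1 : r ≤ 1) (hx : |x| ≤ 1) :
    psi (r * x) ≤ r ^ 2 * psi x := by
  have main : ∀ y : ℝ, 0 ≤ y → y < 1 → psi (r * y) ≤ r ^ 2 * psi y := by
    intro y hy0 hy1
    have h := nonneg_of_deriv (F := fun x => r ^ 2 * psi x - psi (r * x))
      (F' := fun x => r ^ 2 * ath x - ath (r * x) * r)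
      (by simp [psi_zero])
      (by
        intro z hz0 hz1
        have hrz : r * z < 1 := by nlinarith
        have hrz0 : 0 ≤ r * z := mul_nonneg hr0 hz0
        have h1 := (psi_hasDerivAt' (x := z) (by linarith) hz1).const_mul (r ^ 2)
        have h2 := (psi_hasDerivAt' (x := r * z) (by linarith) hrz)
        have h3 : HasDerivAt (fun y : ℝ => r * y) r z := by
          simpa using (hasDerivAt_id z).const_mul r
        exact h1.sub (h2.comp z h3))
      (by
        intro z hz0 hz1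
        have := ath_mul_le hr0 hr1 hz0 hz1
        nlinarith)
      hy0 hy1
    linarith
  have closed : ∀ y : ℝ, 0 ≤ y → y ≤ 1 → psi (r * y) ≤ r ^ 2 * psi y := by
    intro y hy0 hy1
    have hc : Set.Icc (0:ℝ) 1 ⊆ {y | psi (r * y) ≤ r ^ 2 * psi y} := by
      have hcl : IsClosed {y : ℝ | psi (r * y) ≤ r ^ 2 * psi y} :=
        isClosed_le (psi_continuous.comp (by fun_prop)) (continuous_const.mul psi_continuous)
      rw [← closure_Ico (zero_ne_one)]
      exact closure_minimal (fun y hy => main y hy.1 hy.2) hcl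
    exact hc ⟨hy0, hy1⟩
  rcases le_total 0 x with h | h
  · exact closed x h (abs_le.mp hx).2
  · have := closed (-x) (by linarith) (by linarith [(abs_le.mp hx).1])
    rw [psi_neg, show r * -x = -(r * x) by ring, psi_neg] at this
    exact this

/-- `|w| + |d| ≤ 1` for `w, d` the half sum and half difference of two numbers of `[-1,1]`. -/
lemma half_bound {u v : ℝ} (hu : |u| ≤ 1) (hv : |v| ≤ 1) :
    |(u + v) / 2| + |(v - u) / 2| ≤ 1 := by
  rw [abs_le] at hu hv
  rcases abs_cases ((u + v) / 2) with h1 | h1 <;> rcases abs_cases ((v - u) / 2) with h2 | h2 <;>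
    linarith

lemma abs_div_le_one {x c : ℝ} (h : |x| ≤ c) : |x / c| ≤ 1 := by
  have hc : 0 ≤ c := (abs_nonneg x).trans h
  rw [abs_div, abs_of_nonneg hc]
  exact div_le_one_of_le₀ h hc

lemma J_eq {u v : ℝ} (hu : |u| ≤ 1) (hv : |v| ≤ 1) :
    H ((u + v) / 2) - (H u + H v) / 2
      = ((1 + (u + v) / 2) * psi ((v - u) / 2 / (1 + (u + v) / 2))
        + (1 - (u + v) / 2) * psi ((v - u) / 2 / (1 - (u + v) / 2))) / 2 := by
  have h := H_pair (half_bound hu hv)
  have e1 : (u + v) / 2 + (v - u) / 2 = v := by ring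
  have e2 : (u + v) / 2 - (v - u) / 2 = u := by ring
  rw [e1, e2] at h
  linarith

lemma M_eq {r u v : ℝ} (hr0 : 0 ≤ r) (hr1 : r ≤ 1) (hu : |u| ≤ 1) (hv : |v| ≤ 1) :
    M r u v = H ((u + v) / 2)
      - ((1 + (u + v) / 2) * psi (r * ((v - u) / 2 / (1 + (u + v) / 2)))
        + (1 - (u + v) / 2) * psi (r * ((v - u) / 2 / (1 - (u + v) / 2)))) / 2 := by
  have hb := half_bound hu hv
  have hb' : |(u + v) / 2| + |r * ((v - u) / 2)| ≤ 1 := by
    rw [abs_mul, abs_of_nonneg hr0]
    have := abs_nonneg ((v - u) / 2)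
    nlinarith
  have h := H_pair hb'
  rw [mul_div_assoc r ((v - u) / 2) (1 + (u + v) / 2),
    mul_div_assoc r ((v - u) / 2) (1 - (u + v) / 2)] at h
  unfold M
  linarith

/-- Two-point strong data processing inequality. -/
lemma sdpi_two {r u v : ℝ} (hr0 : 0 ≤ r) (hr1 : r ≤ 1) (hu : |u| ≤ 1) (hv : |v| ≤ 1) :
    (1 - r ^ 2) * H ((u + v) / 2) + r ^ 2 * ((H u + H v) / 2) ≤ M r u v := by
  rw [M_eq hr0 hr1 hu hv]
  have hJ := J_eq hu hv
  have hb := half_bound hu hv
  have n1 := abs_nonneg ((v - u) / 2)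
  have n2 := neg_abs_le ((u + v) / 2)
  have n3 := le_abs_self ((u + v) / 2)
  have p1 : |(v - u) / 2 / (1 + (u + v) / 2)| ≤ 1 := abs_div_le_one (by linarith)
  have p2 : |(v - u) / 2 / (1 - (u + v) / 2)| ≤ 1 := abs_div_le_one (by linarith)
  have q1 := psi_mul_le hr0 hr1 p1
  have q2 := psi_mul_le hr0 hr1 p2
  have m1 := mul_le_mul_of_nonneg_left q1 (show 0 ≤ 1 + (u + v) / 2 by linarith)
  have m2 := mul_le_mul_of_nonneg_left q2 (show 0 ≤ 1 - (u + v) / 2 by linarith)
  nlinarith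

/-- Jensen's inequality for the perspective of `psi`. -/
lemma persp_jensen {ι : Type*} (s : Finset ι) (w m d : ι → ℝ) (hw : ∀ i ∈ s, 0 ≤ w i)
    (hd : ∀ i ∈ s, |d i| ≤ m i) :
    (∑ i ∈ s, w i * m i) * psi ((∑ i ∈ s, w i * d i) / (∑ i ∈ s, w i * m i))
      ≤ ∑ i ∈ s, w i * (m i * psi (d i / m i)) := by
  have hm : ∀ i ∈ s, 0 ≤ m i := fun i hi => (abs_nonneg _).trans (hd i hi)
  have hs0 : 0 ≤ ∑ i ∈ s, w i * m i :=
    Finset.sum_nonneg fun i hi => mul_nonneg (hw i hi) (hm i hi)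
  have hr0 : 0 ≤ ∑ i ∈ s, w i * (m i * psi (d i / m i)) :=
    Finset.sum_nonneg fun i hi => mul_nonneg (hw i hi) (mul_nonneg (hm i hi) (psi_nonneg _))
  rcases hs0.eq_or_lt with h0 | h0
  · rw [← h0, zero_mul]; exact hr0
  set S := ∑ i ∈ s, w i * m i with hS
  have key := psi_convexOn.map_sum_le (t := s) (w := fun i => w i * m i / S)
    (p := fun i => d i / m i)
    (fun i hi => div_nonneg (mul_nonneg (hw i hi) (hm i hi)) h0.le)
    (by rw [← Finset.sum_div, ← hS, div_self h0.ne'])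
    (fun i hi => by
      have := abs_le.mp (abs_div_le_one (hd i hi))
      exact ⟨this.1, this.2⟩)
  simp only [smul_eq_mul] at key
  have e1 : ∑ i ∈ s, w i * m i / S * (d i / m i) = (∑ i ∈ s, w i * d i) / S := by
    rw [Finset.sum_div]
    refine Finset.sum_congr rfl fun i hi => ?_
    rcases (hm i hi).eq_or_lt with hz | hz
    · have : d i = 0 := by
        have := hd i hi
        rw [← hz] at this
        exact abs_nonpos_iff.mp this
      rw [this]; simp
    · field_simp
  have e2 : ∑ i ∈ s, w i * m i / S * psi (d i / m i)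
      = (∑ i ∈ s, w i * (m i * psi (d i / m i))) / S := by
    rw [Finset.sum_div]
    refine Finset.sum_congr rfl fun i hi => ?_
    ring
  rw [e1, e2, le_div_iff₀ h0] at key
  linarith

/-- Jensen's inequality for `J(u,v) = H((u+v)/2) - (H u + H v)/2`. -/
lemma J_jensen {ι : Type*} (s : Finset ι) (w U V : ι → ℝ) (hw : ∀ i ∈ s, 0 ≤ w i)
    (hw1 : ∑ i ∈ s, w i = 1) (hU : ∀ i ∈ s, |U i| ≤ 1) (hV : ∀ i ∈ s, |V i| ≤ 1) :
    H ((∑ i ∈ s, w i * U i + ∑ i ∈ s, w i * V i) / 2)
        - (H (∑ i ∈ s, w i * U i) + H (∑ i ∈ s, w i * V i)) / 2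
      ≤ ∑ i ∈ s, w i * (H ((U i + V i) / 2) - (H (U i) + H (V i)) / 2) := by
  have habs : ∀ X : ι → ℝ, (∀ i ∈ s, |X i| ≤ 1) → |∑ i ∈ s, w i * X i| ≤ 1 := by
    intro X hX
    refine (Finset.abs_sum_le_sum_abs _ _).trans ?_
    rw [← hw1]
    refine Finset.sum_le_sum fun i hi => ?_
    rw [abs_mul, abs_of_nonneg (hw i hi)]
    have := hX i hi
    have := hw i hi
    nlinarith
  rw [J_eq (habs U hU) (habs V hV)]
  have e : ∑ i ∈ s, w i * (H ((U i + V i) / 2) - (H (U i) + H (V i)) / 2)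
      = (∑ i ∈ s, w i * ((1 + (U i + V i) / 2) * psi ((V i - U i) / 2 / (1 + (U i + V i) / 2)))
        + ∑ i ∈ s, w i * ((1 - (U i + V i) / 2)
          * psi ((V i - U i) / 2 / (1 - (U i + V i) / 2)))) / 2 := by
    rw [← Finset.sum_add_distrib, Finset.sum_div]
    refine Finset.sum_congr rfl fun i hi => ?_
    rw [J_eq (hU i hi) (hV i hi)]
    ring
  rw [e]
  have b : ∀ i ∈ s, |(V i - U i) / 2| ≤ 1 + (U i + V i) / 2 ∧
      |(V i - U i) / 2| ≤ 1 - (U i + V i) / 2 := by
    intro i hi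
    have hb := half_bound (hU i hi) (hV i hi)
    have n2 := neg_abs_le ((U i + V i) / 2)
    have n3 := le_abs_self ((U i + V i) / 2)
    constructor <;> linarith
  have k1 := persp_jensen s w (fun i => 1 + (U i + V i) / 2) (fun i => (V i - U i) / 2) hw
    (fun i hi => (b i hi).1)
  have k2 := persp_jensen s w (fun i => 1 - (U i + V i) / 2) (fun i => (V i - U i) / 2) hw
    (fun i hi => (b i hi).2)
  have s1 : ∑ i ∈ s, w i * (1 + (U i + V i) / 2)
      = 1 + (∑ i ∈ s, w i * U i + ∑ i ∈ s, w i * V i) / 2 := by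
    rw [← Finset.sum_add_distrib, Finset.sum_div]
    nth_rewrite 2 [← hw1]
    rw [← Finset.sum_add_distrib]
    refine Finset.sum_congr rfl fun i hi => ?_
    ring
  have s2 : ∑ i ∈ s, w i * (1 - (U i + V i) / 2)
      = 1 - (∑ i ∈ s, w i * U i + ∑ i ∈ s, w i * V i) / 2 := by
    rw [← Finset.sum_add_distrib, Finset.sum_div]
    nth_rewrite 2 [← hw1]
    rw [← Finset.sum_sub_distrib]
    refine Finset.sum_congr rfl fun i hi => ?_
    ring
  have s3 : ∑ i ∈ s, w i * ((V i - U i) / 2)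
      = (∑ i ∈ s, w i * V i - ∑ i ∈ s, w i * U i) / 2 := by
    rw [← Finset.sum_sub_distrib, Finset.sum_div]
    refine Finset.sum_congr rfl fun i hi => ?_
    ring
  rw [s1, s3] at k1
  rw [s2, s3] at k2
  linarith

/-- The potential `G` dominates the target. -/
lemma G_ge {r a : ℝ} (hr : |r| ≤ 1) (ha : |a| ≤ 1) : H a + H r - Real.log 2 ≤ G r a := by
  have h1 := sq_div_two_le_psi hr
  have h2 := sq_div_two_le_psi ha
  have h3 : Real.log 2 < 1 := by
    have := Real.log_two_lt_d9; linarith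
  have h4 : G r a - (H a + H r - Real.log 2)
      = r ^ 2 * psi a + a ^ 2 * psi r - a ^ 2 * r ^ 2 * Real.log 2 := by
    unfold G psi; ring
  have h5 : r ^ 2 * (a ^ 2 / 2) ≤ r ^ 2 * psi a := mul_le_mul_of_nonneg_left h2 (sq_nonneg _)
  have h6 : a ^ 2 * (r ^ 2 / 2) ≤ a ^ 2 * psi r := mul_le_mul_of_nonneg_left h1 (sq_nonneg _)
  have h7 : 0 ≤ a ^ 2 * r ^ 2 * (1 - Real.log 2) :=
    mul_nonneg (mul_nonneg (sq_nonneg _) (sq_nonneg _)) (by linarith)
  nlinarith

end Vale.Agent.P322.Ind
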