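import Vale.Agent.P322.Basic
import Vale.Agent.P322.Ind1

/-!
# P322: segment lemma for certificate B

For fixed `t` the function `Ψ(m,d;s)` of certificate B is bounded below on a box
`[s0,s1] × segment` by its values at the end points (concave parts by chords, convex parts by
tangents; the product `λ K` is an increasing times a decreasing linear function, hence concave).
-/

namespace Vale.Agent.P322.BM

open Real Set Vale.Agent.P322.Ind

/-- `φ(s) = H(√s)` -/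
noncomputable def phi (s : ℝ) : ℝ := H (Real.sqrt s)

noncomputable def tauS (s : ℝ) : ℝ := phi s - (1 - s) * Real.log 2

noncomputable def GS (s a : ℝ) : ℝ := (1 - s) * H a + tauS s * (1 - a ^ 2)

noncomputable def lamS (s t : ℝ) : ℝ := (Real.log 2 - Real.log (1 - s * t ^ 2) / 2) / L t

/-- the bracket `K` -/
noncomputable def KS (s m d t : ℝ) : ℝ := (GS s (m - d) + GS s (m + d)) / 2 - d * H t / t

/-- the function `Ψ` of certificate B -/
noncomputable def PS (s m d t : ℝ) : ℝ :=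
  lamS s t * KS s m d t + d * phi (s * t ^ 2) / t - GS s m

/-- derivative of `phi` -/
noncomputable def dphi (s : ℝ) : ℝ := -(ath (Real.sqrt s) / (2 * Real.sqrt s))

lemma ath_div_mono {x y : ℝ} (hx : 0 < x) (hxy : x ≤ y) (hy : y < 1) : ath x / x ≤ ath y / y := by
  have hy0 : 0 < y := lt_of_lt_of_le hx hxy
  have h := ath_mul_le (r := x / y) (x := y) (by positivity) (by rw [div_le_one hy0]; exact hxy)
    hy0.le hy
  rw [div_mul_cancel₀ _ hy0.ne'] at h
  rw [div_le_div_iff₀ hx hy0]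
  calc ath x * y ≤ (x / y * ath y) * y := mul_le_mul_of_nonneg_right h hy0.le
    _ = ath y * x := by field_simp

lemma hasDerivAt_phi' {s : ℝ} (h0 : 0 < s) (h1 : s < 1) : HasDerivAt phi (dphi s) s := by
  have hs0 : 0 < Real.sqrt s := Real.sqrt_pos.mpr h0
  have hs1 : Real.sqrt s < 1 := by
    rw [Real.sqrt_lt' one_pos]
    simpa using h1
  have h2 : HasDerivAt Real.sqrt (1 / (2 * Real.sqrt s)) s := Real.hasDerivAt_sqrt h0.ne'
  have h3 : HasDerivAt psi (ath (Real.sqrt s)) (Real.sqrt s) :=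
    psi_hasDerivAt' (by linarith) hs1
  have h4 := (h3.comp s h2).const_sub (Real.log 2)
  have e : phi = fun y => Real.log 2 - (psi ∘ Real.sqrt) y := by
    funext y
    simp only [Function.comp, phi, psi]
    ring
  rw [e]
  refine h4.congr_deriv ?_
  unfold dphi
  ring

lemma phi_concave : ConcaveOn ℝ (Icc (0 : ℝ) 1) phi := by
  apply AntitoneOn.concaveOn_of_deriv (convex_Icc _ _)
  · exact (H_continuous.comp Real.continuous_sqrt).continuousOn
  · rw [interior_Icc]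
    intro s hs
    exact (hasDerivAt_phi' hs.1 hs.2).differentiableAt.differentiableWithinAt
  · rw [interior_Icc]
    intro x hx y hy hxy
    rw [(hasDerivAt_phi' hx.1 hx.2).deriv, (hasDerivAt_phi' hy.1 hy.2).deriv]
    have hx0 : 0 < Real.sqrt x := Real.sqrt_pos.mpr hx.1
    have hy1 : Real.sqrt y < 1 := by
      rw [Real.sqrt_lt' one_pos]
      simpa using hy.2
    have h := ath_div_mono hx0 (Real.sqrt_le_sqrt hxy) hy1
    unfold dphi
    have e : ∀ z : ℝ, ath z / (2 * z) = ath z / z / 2 := fun z => by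
      rw [mul_comm, ← div_div]
    rw [e, e]
    linarith

lemma phi_chord {x y : ℝ} (hx : x ∈ Icc (0 : ℝ) 1) (hy : y ∈ Icc (0 : ℝ) 1) {a b : ℝ}
    (ha : 0 ≤ a) (hb : 0 ≤ b) (hab : a + b = 1) :
    a * phi x + b * phi y ≤ phi (a * x + b * y) := by
  have := phi_concave.2 hx hy ha hb hab
  simpa only [smul_eq_mul] using this

lemma phi_tangent' {x y : ℝ} (hx : x ∈ Icc (0 : ℝ) 1) (hy0 : 0 < y) (hy1 : y < 1) :
    phi x ≤ phi y + dphi y * (x - y) := by
  have hyI : y ∈ Icc (0 : ℝ) 1 := ⟨hy0.le, hy1.le⟩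
  have hd := hasDerivAt_phi' hy0 hy1
  rcases lt_trichotomy x y with h | h | h
  · have := phi_concave.le_slope_of_hasDerivAt hx hyI h hd
    rw [slope_def_field, le_div_iff₀ (by linarith)] at this
    linarith
  · subst h
    simp
  · have := phi_concave.slope_le_of_hasDerivAt hyI hx h hd
    rw [slope_def_field, div_le_iff₀ (by linarith)] at this
    linarith

lemma H_tangent {x y : ℝ} (hx : x ∈ Icc (-1 : ℝ) 1) (hy0 : -1 < y) (hy1 : y < 1) :
    H x ≤ H y - ath y * (x - y) := by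
  have hyI : y ∈ Icc (-1 : ℝ) 1 := ⟨hy0.le, hy1.le⟩
  have hd : HasDerivAt H (-ath y) y := by
    have h := (psi_hasDerivAt' hy0 hy1).const_sub (Real.log 2)
    have e : H = fun z => Real.log 2 - psi z := by
      funext z
      unfold psi
      ring
    rw [e]
    exact h
  rcases lt_trichotomy x y with h | h | h
  · have := H_concaveOn.le_slope_of_hasDerivAt hx hyI h hd
    rw [slope_def_field, le_div_iff₀ (by linarith)] at this
    linarith
  · subst h
    simp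
  · have := H_concaveOn.slope_le_of_hasDerivAt hyI hx h hd
    rw [slope_def_field, div_le_iff₀ (by linarith)] at this
    linarith

lemma H_chord {x y : ℝ} (hx : x ∈ Icc (-1 : ℝ) 1) (hy : y ∈ Icc (-1 : ℝ) 1) {a b : ℝ}
    (ha : 0 ≤ a) (hb : 0 ≤ b) (hab : a + b = 1) :
    a * H x + b * H y ≤ H (a * x + b * y) := by
  have := H_concaveOn.2 hx hy ha hb hab
  simpa only [smul_eq_mul] using this

lemma H_ge_log {a : ℝ} (ha : |a| ≤ 1) : Real.log 2 * (1 - a ^ 2) ≤ H a := by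
  have h := psi_mul_le (r := |a|) (x := 1) (abs_nonneg _) ha (by simp)
  rw [mul_one, psi_one, sq_abs] at h
  have h2 : psi |a| = psi a := by
    rcases abs_choice a with h | h
    · rw [h]
    · rw [h, psi_neg]
  rw [h2] at h
  unfold psi at h
  linarith

/-- `τ ≥ 0` -/
lemma tauS_nonneg {s : ℝ} (h0 : 0 ≤ s) (h1 : s ≤ 1) : 0 ≤ tauS s := by
  have h := H_ge_log (a := Real.sqrt s) (by
    rw [abs_of_nonneg (Real.sqrt_nonneg _)]
    exact Real.sqrt_le_one.mpr h1)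
  rw [Real.sq_sqrt h0] at h
  unfold tauS phi
  linarith

lemma GS_chord {s : ℝ} (h0 : 0 ≤ s) (h1 : s ≤ 1) {x y : ℝ} (hx : x ∈ Icc (-1 : ℝ) 1)
    (hy : y ∈ Icc (-1 : ℝ) 1) {a b : ℝ} (ha : 0 ≤ a) (hb : 0 ≤ b) (hab : a + b = 1) :
    a * GS s x + b * GS s y ≤ GS s (a * x + b * y) := by
  have hH := H_chord hx hy ha hb hab
  have ht := tauS_nonneg h0 h1
  have hq : a * (1 - x ^ 2) + b * (1 - y ^ 2) ≤ 1 - (a * x + b * y) ^ 2 := by
    have hb' : b = 1 - a := by linarith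
    subst hb'
    nlinarith [mul_nonneg ha hb, sq_nonneg (x - y), mul_nonneg (mul_nonneg ha hb) (sq_nonneg (x - y))]
  unfold GS
  have e1 := mul_le_mul_of_nonneg_left hH (by linarith : 0 ≤ 1 - s)
  have e2 := mul_le_mul_of_nonneg_left hq ht
  linarith

/-- `phi` is antitone -/
lemma phi_anti {x y : ℝ} (hx : 0 ≤ x) (hxy : x ≤ y) (hy : y ≤ 1) : phi y ≤ phi x := by
  rcases eq_or_lt_of_le hxy with h | h
  · rw [h]
  · have hy0 : 0 < y := lt_of_le_of_lt hx h
    -- `x = (1 - c) * 0 + c * y`, `phi 0 = log 2`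
    set c := x / y with hc
    have hc0 : 0 ≤ c := by positivity
    have hc1 : c ≤ 1 := by
      rw [hc, div_le_one hy0]
      exact hxy
    have h1 := phi_chord (x := 0) (y := y) ⟨le_rfl, zero_le_one⟩ ⟨hy0.le, hy⟩
      (a := 1 - c) (b := c) (by linarith) hc0 (by ring)
    have e : (1 - c) * 0 + c * y = x := by
      rw [hc]
      field_simp
      ring
    rw [e] at h1
    have h2 : phi 0 = Real.log 2 := by
      unfold phi
      rw [Real.sqrt_zero, H_zero]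
    have h3 : phi y ≤ Real.log 2 := H_le_log_two _
    rw [h2] at h1
    nlinarith

lemma GS_anti {x y a : ℝ} (hx : 0 ≤ x) (hxy : x ≤ y) (hy : y ≤ 1) (ha : |a| ≤ 1) :
    GS y a ≤ GS x a := by
  have h1 := H_ge_log ha
  have h2 := phi_anti hx hxy hy
  have ha2 : 0 ≤ 1 - a ^ 2 := by
    have := abs_le.mp ha
    nlinarith
  unfold GS tauS
  nlinarith [mul_le_mul_of_nonneg_right h2 ha2]

lemma GS_s_chord {x y m : ℝ} (hx : x ∈ Icc (0 : ℝ) 1) (hy : y ∈ Icc (0 : ℝ) 1) (hm : |m| ≤ 1)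
    {a b : ℝ} (ha : 0 ≤ a) (hb : 0 ≤ b) (hab : a + b = 1) :
    a * GS x m + b * GS y m ≤ GS (a * x + b * y) m := by
  have h := phi_chord hx hy ha hb hab
  have hm2 : 0 ≤ 1 - m ^ 2 := by
    have := abs_le.mp hm
    nlinarith
  have hb' : b = 1 - a := by linarith
  subst hb'
  unfold GS tauS
  nlinarith [mul_le_mul_of_nonneg_right h hm2]

/-- upper tangent bound for `GS` in `s` -/
lemma GS_le_tan {s c m : ℝ} (hs : s ∈ Icc (0 : ℝ) 1) (hc0 : 0 < c) (hc1 : c < 1) (hm : |m| ≤ 1) :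
    GS s m ≤ (1 - s) * H m +
      (tauS c + (dphi c + Real.log 2) * (s - c)) * (1 - m ^ 2) := by
  have h := phi_tangent' hs hc0 hc1
  have hm2 : 0 ≤ 1 - m ^ 2 := by
    have := abs_le.mp hm
    nlinarith
  unfold GS tauS
  nlinarith [mul_le_mul_of_nonneg_right h hm2]

lemma one_sub_pos {s t : ℝ} (hs1 : s ≤ 1) (ht0 : 0 < t) (ht1 : t < 1) : 0 < 1 - s * t ^ 2 := by
  nlinarith [pow_pos ht0 2]

lemma mul_sq_mem {s t : ℝ} (hs0 : 0 ≤ s) (hs1 : s ≤ 1) (ht0 : 0 < t) (ht1 : t < 1) :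
    s * t ^ 2 ∈ Icc (0 : ℝ) 1 := by
  have h2 : t ^ 2 ≤ 1 := by nlinarith
  exact ⟨by positivity, by nlinarith [pow_pos ht0 2]⟩

lemma L_pos {t : ℝ} (ht0 : 0 < t) (ht1 : t < 1) : 0 < L t := by
  have hl : 0 < Real.log 2 := Real.log_pos (by norm_num)
  unfold L
  have : Real.log (1 - t ^ 2) ≤ 0 := Real.log_nonpos (by nlinarith) (by nlinarith)
  linarith

/-- lower tangent bound for `lamS` -/
lemma lamS_ge_tan {s c t : ℝ} (hs1 : s ≤ 1) (hc1 : c ≤ 1) (ht0 : 0 < t) (ht1 : t < 1) :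
    (Real.log 2 - Real.log (1 - c * t ^ 2) / 2 + t ^ 2 * (s - c) / (2 * (1 - c * t ^ 2))) / L t ≤
      lamS s t := by
  unfold lamS
  have hp := one_sub_pos hs1 ht0 ht1
  have hq := one_sub_pos hc1 ht0 ht1
  apply div_le_div_of_nonneg_right _ (L_pos ht0 ht1).le
  have h := Real.log_le_sub_one_of_pos (x := (1 - s * t ^ 2) / (1 - c * t ^ 2)) (by positivity)
  rw [Real.log_div hp.ne' hq.ne'] at h
  have hq' := hq.ne'
  have e : (1 - s * t ^ 2) / (1 - c * t ^ 2) - 1 = - (2 * (t ^ 2 * (s - c) / (2 * (1 - c * t ^ 2)))) := by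
    have e2 : t ^ 2 * (s - c) / (2 * (1 - c * t ^ 2)) = t ^ 2 * (s - c) / (1 - c * t ^ 2) / 2 := by
      rw [div_div, mul_comm 2]
    rw [e2, div_sub_one hq']
    ring
  rw [e] at h
  linarith

/-- upper chord bound for `lamS` -/
lemma lamS_le_chord {x y t : ℝ} (hx1 : x ≤ 1) (hy1 : y ≤ 1) (ht0 : 0 < t) (ht1 : t < 1)
    {a b : ℝ} (ha : 0 ≤ a) (hb : 0 ≤ b) (hab : a + b = 1) :
    lamS (a * x + b * y) t ≤ a * lamS x t + b * lamS y t := by
  unfold lamS
  have hp := one_sub_pos hx1 ht0 ht1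
  have hq := one_sub_pos hy1 ht0 ht1
  have h := strictConcaveOn_log_Ioi.concaveOn.2 (x := 1 - x * t ^ 2) (y := 1 - y * t ^ 2) hp hq
    ha hb hab
  simp only [smul_eq_mul] at h
  have e : a * (1 - x * t ^ 2) + b * (1 - y * t ^ 2) = 1 - (a * x + b * y) * t ^ 2 := by
    have hb' : b = 1 - a := by linarith
    subst hb'
    ring
  rw [e] at h
  have hL := L_pos ht0 ht1
  rw [← mul_div_assoc, ← mul_div_assoc, ← add_div]
  apply div_le_div_of_nonneg_right _ hL.le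
  have hb' : b = 1 - a := by linarith
  subst hb'
  linarith

lemma lamS_nonneg {s t : ℝ} (hs0 : 0 ≤ s) (hs1 : s ≤ 1) (ht0 : 0 < t) (ht1 : t < 1) :
    0 ≤ lamS s t := by
  unfold lamS
  have hp := one_sub_pos hs1 ht0 ht1
  have hl : 0 < Real.log 2 := Real.log_pos (by norm_num)
  have : Real.log (1 - s * t ^ 2) ≤ 0 := Real.log_nonpos hp.le (by nlinarith [pow_pos ht0 2])
  exact div_nonneg (by linarith) (L_pos ht0 ht1).le

lemma lamS_mono {x y t : ℝ} (hxy : x ≤ y) (hy1 : y ≤ 1) (ht0 : 0 < t) (ht1 : t < 1) :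
    lamS x t ≤ lamS y t := by
  unfold lamS
  have hq := one_sub_pos hy1 ht0 ht1
  apply div_le_div_of_nonneg_right _ (L_pos ht0 ht1).le
  have : Real.log (1 - y * t ^ 2) ≤ Real.log (1 - x * t ^ 2) :=
    Real.log_le_log hq (by nlinarith [pow_pos ht0 2])
  linarith

/-- the remainder functional at an end point: `lam` a value for `λ`, `ta` a value for `τ` -/
noncomputable def RR (lam ta s m d t ms : ℝ) : ℝ :=
  lam * KS s m d t + d * phi (s * t ^ 2) / t -
    ((1 - s) * (H ms - ath ms * (m - ms)) + ta * (1 - ms ^ 2 - 2 * ms * (m - ms)))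

/-- tangent value of `λ` -/
noncomputable def lt (c s t : ℝ) : ℝ :=
  (Real.log 2 - Real.log (1 - c * t ^ 2) / 2 + t ^ 2 * (s - c) / (2 * (1 - c * t ^ 2))) / L t

/-- tangent value of `τ` -/
noncomputable def tt (c s : ℝ) : ℝ := tauS c + (dphi c + Real.log 2) * (s - c)

lemma abs_conv {m1 d1 m2 d2 a b : ℝ} (h1 : |m1| + d1 ≤ 1) (h2 : |m2| + d2 ≤ 1) (ha : 0 ≤ a)
    (hb : 0 ≤ b) (hab : a + b = 1) : |a * m1 + b * m2| + (a * d1 + b * d2) ≤ 1 := by
  have h3 : |a * m1 + b * m2| ≤ a * |m1| + b * |m2| := by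
    refine (abs_add_le _ _).trans (le_of_eq ?_)
    rw [abs_mul, abs_mul, abs_of_nonneg ha, abs_of_nonneg hb]
  have h4 := mul_le_mul_of_nonneg_left h1 ha
  have h5 := mul_le_mul_of_nonneg_left h2 hb
  linarith

/-- step in the `d` direction -/
lemma seg_d {s t ms lam ta : ℝ} (hs0 : 0 ≤ s) (hs1 : s ≤ 1) (hlam : 0 ≤ lam) (hta : 0 ≤ ta)
    (hms0 : -1 < ms) (hms1 : ms < 1) {m1 d1 m2 d2 : ℝ} (hd1 : 0 ≤ d1) (hd2 : 0 ≤ d2)
    (h1 : |m1| + d1 ≤ 1) (h2 : |m2| + d2 ≤ 1) (hR1 : 0 ≤ RR lam ta s m1 d1 t ms)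
    (hR2 : 0 ≤ RR lam ta s m2 d2 t ms) {a b : ℝ} (ha : 0 ≤ a) (hb : 0 ≤ b) (hab : a + b = 1) :
    0 ≤ lam * KS s (a * m1 + b * m2) (a * d1 + b * d2) t +
      (a * d1 + b * d2) * phi (s * t ^ 2) / t -
        ((1 - s) * H (a * m1 + b * m2) + ta * (1 - (a * m1 + b * m2) ^ 2)) := by
  have k1 := abs_le.mp (show |m1| ≤ 1 - d1 by linarith)
  have k2 := abs_le.mp (show |m2| ≤ 1 - d2 by linarith)
  have c1 := GS_chord hs0 hs1 (x := m1 - d1) (y := m2 - d2) ⟨by linarith, by linarith⟩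
    ⟨by linarith, by linarith⟩ ha hb hab
  have c2 := GS_chord hs0 hs1 (x := m1 + d1) (y := m2 + d2) ⟨by linarith, by linarith⟩
    ⟨by linarith, by linarith⟩ ha hb hab
  have e1 : a * (m1 - d1) + b * (m2 - d2) = (a * m1 + b * m2) - (a * d1 + b * d2) := by ring
  have e2 : a * (m1 + d1) + b * (m2 + d2) = (a * m1 + b * m2) + (a * d1 + b * d2) := by ring
  rw [e1] at c1
  rw [e2] at c2
  set m := a * m1 + b * m2 with hm
  set d := a * d1 + b * d2 with hd
  have hK : a * KS s m1 d1 t + b * KS s m2 d2 t ≤ KS s m d t := by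
    unfold KS
    have e3 : d * H t / t = a * (d1 * H t / t) + b * (d2 * H t / t) := by
      rw [hd]
      ring
    rw [e3]
    linarith
  have hmI : m ∈ Icc (-1 : ℝ) 1 := by
    have h3 := abs_conv h1 h2 ha hb hab
    have h4 : 0 ≤ a * d1 + b * d2 := by positivity
    have h5 := abs_le.mp (show |a * m1 + b * m2| ≤ 1 by linarith)
    exact ⟨h5.1, h5.2⟩
  have hT := H_tangent hmI hms0 hms1
  have hq : 1 - m ^ 2 ≤ 1 - ms ^ 2 - 2 * ms * (m - ms) := by nlinarith [sq_nonneg (m - ms)]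
  have g1 := mul_le_mul_of_nonneg_left hK hlam
  have g2 := mul_le_mul_of_nonneg_left hT (by linarith : 0 ≤ 1 - s)
  have g3 := mul_le_mul_of_nonneg_left hq hta
  have g4 : 0 ≤ a * RR lam ta s m1 d1 t ms + b * RR lam ta s m2 d2 t ms := by positivity
  have g5 : a * RR lam ta s m1 d1 t ms + b * RR lam ta s m2 d2 t ms =
      lam * (a * KS s m1 d1 t + b * KS s m2 d2 t) + d * phi (s * t ^ 2) / t -
        ((1 - s) * (H ms - ath ms * (m - ms)) + ta * (1 - ms ^ 2 - 2 * ms * (m - ms))) := by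
    unfold RR
    rw [hm, hd]
    have hb' : b = 1 - a := by linarith
    subst hb'
    ring
  rw [g5] at g4
  linarith

/-- product of an increasing and a decreasing linear function -/
lemma prod_conc {l0 l1 k0 k1 a b : ℝ} (ha : 0 ≤ a) (hb : 0 ≤ b) (hab : a + b = 1)
    (hl : l0 ≤ l1) (hk : k1 ≤ k0) :
    a * (l0 * k0) + b * (l1 * k1) ≤ (a * l0 + b * l1) * (a * k0 + b * k1) := by
  have hb' : b = 1 - a := by linarith
  subst hb'
  nlinarith [mul_nonneg (mul_nonneg ha hb) (mul_nonneg (sub_nonneg.mpr hl) (sub_nonneg.mpr hk))]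

lemma final_arith {p q l0 l1 lam K K0 K1 F F0 F1 G D0 D1 : ℝ} (hp : 0 ≤ p) (hq : 0 ≤ q)
    (h1 : (p * l0 + q * l1) * (p * K0 + q * K1) ≤ lam * (p * K0 + q * K1))
    (h2 : lam * (p * K0 + q * K1) ≤ lam * K)
    (h4 : p * (l0 * K0) + q * (l1 * K1) ≤ (p * l0 + q * l1) * (p * K0 + q * K1))
    (hF : p * F0 + q * F1 ≤ F) (hG : G ≤ p * D0 + q * D1) (A0 : 0 ≤ l0 * K0 + F0 - D0)
    (A1 : 0 ≤ l1 * K1 + F1 - D1) : 0 ≤ lam * K + F - G := by
  have a0 := mul_nonneg hp A0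
  have a1 := mul_nonneg hq A1
  linarith

/-- **Segment lemma.** -/
theorem segment {s0 s1 c t ms : ℝ} (hs0 : 0 ≤ s0) (hs01 : s0 ≤ s1) (hs1 : s1 ≤ 1)
    (hc0 : 0 < c) (hc1 : c < 1) (ht0 : 0 < t) (ht1 : t < 1) (hms0 : -1 < ms) (hms1 : ms < 1)
    (hlt : 0 ≤ lt c s0 t) (htt0 : 0 ≤ tt c s0) (htt1 : 0 ≤ tt c s1)
    {m1 d1 m2 d2 : ℝ} (hd1 : 0 ≤ d1) (hd2 : 0 ≤ d2)
    (h1 : |m1| + d1 ≤ 1) (h2 : |m2| + d2 ≤ 1)
    (r1 : 0 ≤ RR (lt c s0 t) (tt c s0) s0 m1 d1 t ms)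
    (r2 : 0 ≤ RR (lt c s0 t) (tt c s0) s0 m2 d2 t ms)
    (r3 : 0 ≤ RR (lt c s1 t) (tt c s1) s1 m1 d1 t ms)
    (r4 : 0 ≤ RR (lt c s1 t) (tt c s1) s1 m2 d2 t ms)
    (r5 : 0 ≤ RR (lamS s0 t) (tt c s0) s0 m1 d1 t ms)
    (r6 : 0 ≤ RR (lamS s0 t) (tt c s0) s0 m2 d2 t ms)
    (r7 : 0 ≤ RR (lamS s1 t) (tt c s1) s1 m1 d1 t ms)
    (r8 : 0 ≤ RR (lamS s1 t) (tt c s1) s1 m2 d2 t ms)
    {a b : ℝ} (ha : 0 ≤ a) (hb : 0 ≤ b) (hab : a + b = 1)
    {p q : ℝ} (hp : 0 ≤ p) (hq : 0 ≤ q) (hpq : p + q = 1) :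
    0 ≤ PS (p * s0 + q * s1) (a * m1 + b * m2) (a * d1 + b * d2) t := by
  have k1 := abs_le.mp (show |m1| ≤ 1 - d1 by linarith)
  have k2 := abs_le.mp (show |m2| ≤ 1 - d2 by linarith)
  have hs00 : 0 ≤ s1 := hs0.trans hs01
  have hs11 : s0 ≤ 1 := hs01.trans hs1
  have hL := L_pos ht0 ht1
  have hltm : lt c s0 t ≤ lt c s1 t := by
    unfold lt
    apply div_le_div_of_nonneg_right _ hL.le
    have hq' := one_sub_pos hc1.le ht0 ht1
    have : t ^ 2 * (s0 - c) / (2 * (1 - c * t ^ 2)) ≤ t ^ 2 * (s1 - c) / (2 * (1 - c * t ^ 2)) := by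
      apply div_le_div_of_nonneg_right _ (by linarith)
      exact mul_le_mul_of_nonneg_left (by linarith) (by positivity)
    linarith
  have hltn : 0 ≤ lt c s1 t := hlt.trans hltm
  have hln0 := lamS_nonneg hs0 hs11 ht0 ht1
  have hln1 := lamS_nonneg hs00 hs1 ht0 ht1
  have hlm := lamS_mono hs01 hs1 ht0 ht1
  -- values on the segment for the two end points in `s`
  have A0 := seg_d hs0 hs11 hlt htt0 hms0 hms1 hd1 hd2 h1 h2 r1 r2 ha hb hab
  have A1 := seg_d hs00 hs1 hltn htt1 hms0 hms1 hd1 hd2 h1 h2 r3 r4 ha hb hab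
  have B0 := seg_d hs0 hs11 hln0 htt0 hms0 hms1 hd1 hd2 h1 h2 r5 r6 ha hb hab
  have B1 := seg_d hs00 hs1 hln1 htt1 hms0 hms1 hd1 hd2 h1 h2 r7 r8 ha hb hab
  set m := a * m1 + b * m2 with hm
  set d := a * d1 + b * d2 with hd
  have hd0 : 0 ≤ d := by positivity
  have hmd : |m| + d ≤ 1 := abs_conv h1 h2 ha hb hab
  have hml := abs_le.mp (show |m| ≤ 1 - d by linarith)
  have hm1 : |m| ≤ 1 := by linarith
  have hmd1 : |m - d| ≤ 1 := abs_le.mpr ⟨by linarith, by linarith⟩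
  have hmd2 : |m + d| ≤ 1 := abs_le.mpr ⟨by linarith, by linarith⟩
  set s := p * s0 + q * s1 with hs
  have hsI : s ∈ Icc (0 : ℝ) 1 := by
    constructor
    · positivity
    · have e1 := mul_le_mul_of_nonneg_left hs11 hp
      have e2 := mul_le_mul_of_nonneg_left hs1 hq
      linarith
  have hs0I : s0 ∈ Icc (0 : ℝ) 1 := ⟨hs0, hs11⟩
  have hs1I : s1 ∈ Icc (0 : ℝ) 1 := ⟨hs00, hs1⟩
  -- K
  have hK : p * KS s0 m d t + q * KS s1 m d t ≤ KS s m d t := by
    have g1 := GS_s_chord hs0I hs1I hmd1 hp hq hpq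
    have g2 := GS_s_chord hs0I hs1I hmd2 hp hq hpq
    unfold KS
    have : d * H t / t = p * (d * H t / t) + q * (d * H t / t) := by
      rw [← add_mul, hpq, one_mul]
    linarith
  have hKm : KS s1 m d t ≤ KS s0 m d t := by
    have g1 := GS_anti hs0 hs01 hs1 hmd1
    have g2 := GS_anti hs0 hs01 hs1 hmd2
    unfold KS
    linarith
  -- phi
  have hphi : p * phi (s0 * t ^ 2) + q * phi (s1 * t ^ 2) ≤ phi (s * t ^ 2) := by
    have g := phi_chord (x := s0 * t ^ 2) (y := s1 * t ^ 2)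
      (mul_sq_mem hs0 hs11 ht0 ht1) (mul_sq_mem hs00 hs1 ht0 ht1) hp hq hpq
    have e : p * (s0 * t ^ 2) + q * (s1 * t ^ 2) = s * t ^ 2 := by
      rw [hs]
      ring
    rwa [e] at g
  have hphi' : p * (d * phi (s0 * t ^ 2) / t) + q * (d * phi (s1 * t ^ 2) / t) ≤
      d * phi (s * t ^ 2) / t := by
    have g := mul_le_mul_of_nonneg_left hphi (show 0 ≤ d / t by positivity)
    have e1 : d * phi (s * t ^ 2) / t = d / t * phi (s * t ^ 2) := by ring
    have e2 : p * (d * phi (s0 * t ^ 2) / t) + q * (d * phi (s1 * t ^ 2) / t) =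
      d / t * (p * phi (s0 * t ^ 2) + q * phi (s1 * t ^ 2)) := by ring
    rw [e1, e2]
    exact g
  -- G
  have hG := GS_le_tan hsI hc0 hc1 hm1
  have hG' : GS s m ≤ p * ((1 - s0) * H m + tt c s0 * (1 - m ^ 2)) +
      q * ((1 - s1) * H m + tt c s1 * (1 - m ^ 2)) := by
    refine hG.trans (le_of_eq ?_)
    unfold tt
    rw [hs]
    have hq' : q = 1 - p := by linarith
    subst hq'
    ring
  unfold PS
  have hlam0 : 0 ≤ lamS s t := lamS_nonneg hsI.1 hsI.2 ht0 ht1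
  have hLK : lamS s t * (p * KS s0 m d t + q * KS s1 m d t) ≤ lamS s t * KS s m d t :=
    mul_le_mul_of_nonneg_left hK hlam0
  rcases le_total 0 (p * KS s0 m d t + q * KS s1 m d t) with hc | hc
  · have g1 : lt c s t ≤ lamS s t := lamS_ge_tan hsI.2 hc1.le ht0 ht1
    have g2 : lt c s t = p * lt c s0 t + q * lt c s1 t := by
      unfold lt
      rw [hs]
      have hq' : q = 1 - p := by linarith
      subst hq'
      ring
    have g3 := mul_le_mul_of_nonneg_right g1 hc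
    rw [g2] at g3
    exact final_arith hp hq g3 hLK (prod_conc hp hq hpq hltm hKm) hphi' hG' A0 A1
  · have g1 : lamS s t ≤ p * lamS s0 t + q * lamS s1 t := lamS_le_chord hs11 hs1 ht0 ht1 hp hq hpq
    have g3 := mul_le_mul_of_nonpos_right g1 hc
    exact final_arith hp hq g3 hLK (prod_conc hp hq hpq hlm hKm) hphi' hG' B0 B1

end Vale.Agent.P322.BM
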