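import Mathlib

/-!
# P322 (Courtade-Kumar): scalar functions and the plan

Everything in nats, variables `x ∈ [-1,1]` (mean of a sign), `p = (1+x)/2`.
-/

namespace Vale.Agent.P322

open Real

/-- Entropy (nats) of a sign with mean `x`. -/
noncomputable def H (x : ℝ) : ℝ := Real.binEntropy ((1 + x) / 2)

/-- `ψ = log 2 - H`. -/
noncomputable def psi (x : ℝ) : ℝ := Real.log 2 - H x

/-- `L x = H x - x H' x = log 2 - (1/2) log (1 - x^2)`. -/
noncomputable def L (x : ℝ) : ℝ := Real.log 2 - Real.log (1 - x ^ 2) / 2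

/-- The two-point average: `M ρ u v = (H(w + ρ d) + H(w - ρ d))/2`, `w = (u+v)/2`, `d = (v-u)/2`. -/
noncomputable def M (ρ u v : ℝ) : ℝ :=
  (H ((u + v) / 2 + ρ * ((v - u) / 2)) + H ((u + v) / 2 - ρ * ((v - u) / 2))) / 2

/-- The induction potential. -/
noncomputable def G (ρ a : ℝ) : ℝ :=
  (1 - ρ ^ 2) * H a + (H ρ - (1 - ρ ^ 2) * Real.log 2) * (1 - a ^ 2)

/-- `ell x = - log ((1-x)/2)`. -/
noncomputable def ell (x : ℝ) : ℝ := - Real.log ((1 - x) / 2)

/-- The multiplier of Lemma A. -/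
noncomputable def theta (ρ a b : ℝ) : ℝ :=
  (ell ((a + b) / 2 - ρ * ((b - a) / 2)) + ell ((a + b) / 2 + ρ * ((b - a) / 2)))
    / (ell a + ell b)

/-- The multiplier of Lemma B. -/
noncomputable def lamB (ρ t : ℝ) : ℝ := L (ρ * t) / L t

end Vale.Agent.P322
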