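import Mathlib
import Vale.Agent.P322.Basic

/-!
# P322: kernel-evaluable rational bounds for `log n`, `H (u/v)`, `L (u/v)`
-/

namespace Vale.Agent.P322

namespace BM

open Finset

/-- partial sum of the `artanh` series at `a/b`, scale `10^9`, rounded down termwise -/
def lnSum (a b : ℕ) : ℕ → ℕ
  | 0 => 0
  | (i + 1) => lnSum a b i + 10 ^ 9 * a ^ (2 * i + 1) / ((2 * i + 1) * b ^ (2 * i + 1))

/-- rational lower bound for `log n` -/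
def lnL (n : ℕ) : ℚ :=
  ((Nat.log2 n * 693147180 + 2 * lnSum (n - 2 ^ Nat.log2 n) (n + 2 ^ Nat.log2 n) 9 : ℕ) : ℚ) /
    1000000000

/-- rational upper bound for `log n` -/
def lnU (n : ℕ) : ℚ :=
  ((Nat.log2 n * 693147181 + 2 * lnSum (n - 2 ^ Nat.log2 n) (n + 2 ^ Nat.log2 n) 9 + 20 : ℕ) : ℚ) /
    1000000000

lemma lnSum_le (a b : ℕ) (hb : 0 < b) (N : ℕ) :
    (lnSum a b N : ℝ) ≤ 10 ^ 9 * ∑ i ∈ range N, ((a : ℝ) / b) ^ (2 * i + 1) / (2 * i + 1) := by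
  induction N with
  | zero => simp [lnSum]
  | succ N ih =>
    rw [sum_range_succ, mul_add, lnSum]
    push_cast
    apply add_le_add ih
    have h1 : ((10 ^ 9 * a ^ (2 * N + 1) / ((2 * N + 1) * b ^ (2 * N + 1)) : ℕ) : ℝ) ≤
        ((10 ^ 9 * a ^ (2 * N + 1) : ℕ) : ℝ) / (((2 * N + 1) * b ^ (2 * N + 1) : ℕ) : ℝ) :=
      Nat.cast_div_le
    refine h1.trans (le_of_eq ?_)
    have hb' : (b : ℝ) ≠ 0 := by exact_mod_cast hb.ne'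
    push_cast
    rw [div_pow]
    field_simp
    ring

lemma le_lnSum (a b : ℕ) (hb : 0 < b) (N : ℕ) :
    10 ^ 9 * ∑ i ∈ range N, ((a : ℝ) / b) ^ (2 * i + 1) / (2 * i + 1) ≤ lnSum a b N + N := by
  induction N with
  | zero => simp [lnSum]
  | succ N ih =>
    rw [sum_range_succ, mul_add, lnSum]
    push_cast
    have hb' : (b : ℝ) ≠ 0 := by exact_mod_cast hb.ne'
    have h1 : ((10 ^ 9 * a ^ (2 * N + 1) : ℕ) : ℝ) / (((2 * N + 1) * b ^ (2 * N + 1) : ℕ) : ℝ) ≤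
        ((10 ^ 9 * a ^ (2 * N + 1) / ((2 * N + 1) * b ^ (2 * N + 1)) : ℕ) : ℝ) + 1 := by
      rw [div_le_iff₀ (by positivity)]
      have h2 := Nat.lt_div_mul_add (a := 10 ^ 9 * a ^ (2 * N + 1))
        (b := (2 * N + 1) * b ^ (2 * N + 1)) (by positivity)
      have h3 : ((10 ^ 9 * a ^ (2 * N + 1) : ℕ) : ℝ) ≤
          ((10 ^ 9 * a ^ (2 * N + 1) / ((2 * N + 1) * b ^ (2 * N + 1)) *
            ((2 * N + 1) * b ^ (2 * N + 1)) + (2 * N + 1) * b ^ (2 * N + 1) : ℕ) : ℝ) := by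
        exact_mod_cast h2.le
      refine h3.trans (le_of_eq ?_)
      rw [Nat.cast_add, Nat.cast_mul]
      ring
    have h4 : (10 : ℝ) ^ 9 * (((a : ℝ) / b) ^ (2 * N + 1) / (2 * N + 1)) =
        ((10 ^ 9 * a ^ (2 * N + 1) : ℕ) : ℝ) / (((2 * N + 1) * b ^ (2 * N + 1) : ℕ) : ℝ) := by
      push_cast
      rw [div_pow]
      field_simp
      ring
    rw [h4]
    linarith

lemma log_split {n : ℕ} (hn : 1 ≤ n) :
    Real.log n = Nat.log2 n * Real.log 2 + 2 * (1 / 2 * Real.log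
      ((1 + ((n - 2 ^ Nat.log2 n : ℕ) : ℝ) / ((n + 2 ^ Nat.log2 n : ℕ) : ℝ)) /
        (1 - ((n - 2 ^ Nat.log2 n : ℕ) : ℝ) / ((n + 2 ^ Nat.log2 n : ℕ) : ℝ)))) := by
  set k := Nat.log2 n
  have h1 : 2 ^ k ≤ n := Nat.log2_self_le (by omega)
  have hk : (0 : ℝ) < 2 ^ k := by positivity
  have hn0 : (0 : ℝ) < n := by exact_mod_cast hn
  have h2 : (1 + ((n - 2 ^ k : ℕ) : ℝ) / ((n + 2 ^ k : ℕ) : ℝ)) /
        (1 - ((n - 2 ^ k : ℕ) : ℝ) / ((n + 2 ^ k : ℕ) : ℝ)) = n / 2 ^ k := by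
    rw [Nat.cast_sub h1]
    push_cast
    have h3 : (n : ℝ) + 2 ^ k ≠ 0 := by positivity
    have e1 : (1 : ℝ) + (n - 2 ^ k) / (n + 2 ^ k) = 2 * n / (n + 2 ^ k) := by
      field_simp
      ring
    have e2 : (1 : ℝ) - (n - 2 ^ k) / (n + 2 ^ k) = 2 * 2 ^ k / (n + 2 ^ k) := by
      field_simp
      ring
    rw [e1, e2]
    field_simp
  rw [h2, Real.log_div hn0.ne' hk.ne', Real.log_pow]
  ring

lemma x_bounds {n : ℕ} (hn : 1 ≤ n) :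
    0 ≤ ((n - 2 ^ Nat.log2 n : ℕ) : ℝ) / ((n + 2 ^ Nat.log2 n : ℕ) : ℝ) ∧
      ((n - 2 ^ Nat.log2 n : ℕ) : ℝ) / ((n + 2 ^ Nat.log2 n : ℕ) : ℝ) ≤ 1 / 3 := by
  set k := Nat.log2 n
  refine ⟨by positivity, ?_⟩
  have h1 : 2 ^ k ≤ n := Nat.log2_self_le (by omega)
  have h2 : n < 2 ^ (k + 1) := Nat.lt_log2_self
  have h3 : 3 * (n - 2 ^ k) ≤ n + 2 ^ k := by
    rw [pow_succ] at h2
    omega
  have h4 : (0 : ℝ) < ((n + 2 ^ k : ℕ) : ℝ) := by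
    have : 0 < n + 2 ^ k := by positivity
    exact_mod_cast this
  rw [div_le_iff₀ h4]
  have h5 : (3 : ℝ) * ((n - 2 ^ k : ℕ) : ℝ) ≤ ((n + 2 ^ k : ℕ) : ℝ) := by exact_mod_cast h3
  linarith

lemma lnL_le {n : ℕ} (hn : 1 ≤ n) : (lnL n : ℝ) ≤ Real.log n := by
  rw [log_split hn]
  obtain ⟨hx0, hx1⟩ := x_bounds hn
  have h1 := Real.sum_range_le_log_div hx0 (by linarith) 9
  have h2 := lnSum_le (n - 2 ^ Nat.log2 n) (n + 2 ^ Nat.log2 n) (by positivity) 9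
  have h3 := Real.log_two_gt_d9
  unfold lnL
  push_cast at h2 ⊢
  rw [div_le_iff₀ (by norm_num)]
  have h4 : (0 : ℝ) ≤ (Nat.log2 n : ℝ) := by positivity
  push_cast at h1
  nlinarith

lemma le_lnU {n : ℕ} (hn : 1 ≤ n) : Real.log n ≤ (lnU n : ℝ) := by
  rw [log_split hn]
  obtain ⟨hx0, hx1⟩ := x_bounds hn
  have h1 := Real.log_div_le_sum_range_add hx0 (by linarith) 9
  have h2 := le_lnSum (n - 2 ^ Nat.log2 n) (n + 2 ^ Nat.log2 n) (by positivity) 9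
  have h3 := Real.log_two_lt_d9
  have h5 : (((n - 2 ^ Nat.log2 n : ℕ) : ℝ) / ((n + 2 ^ Nat.log2 n : ℕ) : ℝ)) ^ (2 * 9 + 1) /
      (1 - (((n - 2 ^ Nat.log2 n : ℕ) : ℝ) / ((n + 2 ^ Nat.log2 n : ℕ) : ℝ)) ^ 2) ≤
        1 / 10 ^ 9 := by
    set x := ((n - 2 ^ Nat.log2 n : ℕ) : ℝ) / ((n + 2 ^ Nat.log2 n : ℕ) : ℝ)
    have e1 : x ^ (2 * 9 + 1) ≤ (1 / 3) ^ (2 * 9 + 1) := pow_le_pow_left₀ hx0 hx1 _
    have e2 : x ^ 2 ≤ (1 / 3) ^ 2 := pow_le_pow_left₀ hx0 hx1 _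
    rw [div_le_iff₀ (by linarith)]
    have e3 : (1 : ℝ) / 10 ^ 9 * (1 - (1 / 3) ^ 2) ≤ 1 / 10 ^ 9 * (1 - x ^ 2) := by
      apply mul_le_mul_of_nonneg_left _ (by norm_num)
      linarith
    refine e1.trans (le_trans ?_ e3)
    norm_num
  unfold lnU
  push_cast at h2 ⊢
  rw [le_div_iff₀ (by norm_num)]
  have h4 : (0 : ℝ) ≤ (Nat.log2 n : ℝ) := by positivity
  push_cast at h1 h5
  nlinarith

end BM

end Vale.Agent.P322
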