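import Vale.Agent.P322.BPsi
import Vale.Agent.P322.LnEval
import Vale.Agent.P322.BSeg

/-!
# P322: the Lemma B certificate in the corner `d ≥ 95/100`
-/

namespace Vale.Agent.P322.Corner

open Real

/-- Entropy at a rational point of the form `p = a/(a+b)`. -/
lemma H_rat {a b : ℕ} (ha : 0 < a) (hb : 0 < b) {x : ℝ} (hx : (1 + x) / 2 = (a : ℝ) / (a + b)) :
    H x = Real.log ((a + b : ℕ) : ℝ) - (a : ℝ) / (a + b) * Real.log a
      - (b : ℝ) / (a + b) * Real.log b := by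
  have ha' : (0 : ℝ) < a := by exact_mod_cast ha
  have hb' : (0 : ℝ) < b := by exact_mod_cast hb
  have hs : (0 : ℝ) < (a : ℝ) + b := by linarith
  unfold H
  rw [hx, Real.binEntropy_eq_negMulLog_add_negMulLog_one_sub]
  have e : 1 - (a : ℝ) / (a + b) = b / (a + b) := by field_simp; ring
  rw [e]
  unfold negMulLog
  rw [Real.log_div ha'.ne' hs.ne', Real.log_div hb'.ne' hs.ne']
  push_cast
  field_simp
  ring

lemma ath_rat {a b : ℕ} (ha : 0 < a) (hb : 0 < b) {x : ℝ} (hx : x = ((a : ℝ) - b) / (a + b)) :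
    Ind.ath x = (Real.log a - Real.log b) / 2 := by
  have ha' : (0 : ℝ) < a := by exact_mod_cast ha
  have hb' : (0 : ℝ) < b := by exact_mod_cast hb
  have hs : (0 : ℝ) < (a : ℝ) + b := by linarith
  unfold Ind.ath
  have e1 : 1 + x = (2 * a) / (a + b) := by rw [hx]; field_simp; ring
  have e2 : 1 - x = (2 * b) / (a + b) := by rw [hx]; field_simp; ring
  rw [e1, e2, Real.log_div (by positivity) hs.ne', Real.log_div (by positivity) hs.ne',
    Real.log_mul (by norm_num) ha'.ne', Real.log_mul (by norm_num) hb'.ne']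
  ring

lemma lo {n : ℕ} (q : ℚ) (hn : 1 ≤ n) (h : q ≤ BM.lnL n) : (q : ℝ) ≤ Real.log n :=
  le_trans (by exact_mod_cast h) (BM.lnL_le hn)

lemma up {n : ℕ} (q : ℚ) (hn : 1 ≤ n) (h : BM.lnU n ≤ q) : Real.log n ≤ (q : ℝ) :=
  le_trans (BM.le_lnU hn) (by exact_mod_cast h)

/-- lower bound for `H` at a rational point -/
lemma H_lo {a b : ℕ} (ha : 0 < a) (hb : 0 < b) {x : ℝ} (hx : (1 + x) / 2 = (a : ℝ) / (a + b))
    (q : ℚ) (h : q ≤ BM.lnL (a + b) - (a : ℚ) / (a + b) * BM.lnU a - (b : ℚ) / (a + b) * BM.lnU b) :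
    (q : ℝ) ≤ H x := by
  rw [H_rat ha hb hx]
  have h1 := BM.lnL_le (n := a + b) (by omega)
  have h2 := BM.le_lnU (n := a) (by omega)
  have h3 := BM.le_lnU (n := b) (by omega)
  have h4 : (q : ℝ) ≤ ((BM.lnL (a + b) - (a : ℚ) / (a + b) * BM.lnU a
    - (b : ℚ) / (a + b) * BM.lnU b : ℚ) : ℝ) := by exact_mod_cast h
  push_cast at h4 h1 ⊢
  have h5 : (a : ℝ) / (a + b) * Real.log a ≤ (a : ℝ) / (a + b) * (BM.lnU a : ℝ) :=
    mul_le_mul_of_nonneg_left h2 (by positivity)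
  have h6 : (b : ℝ) / (a + b) * Real.log b ≤ (b : ℝ) / (a + b) * (BM.lnU b : ℝ) :=
    mul_le_mul_of_nonneg_left h3 (by positivity)
  linarith

/-- upper bound for `H` at a rational point -/
lemma H_up {a b : ℕ} (ha : 0 < a) (hb : 0 < b) {x : ℝ} (hx : (1 + x) / 2 = (a : ℝ) / (a + b))
    (q : ℚ) (h : BM.lnU (a + b) - (a : ℚ) / (a + b) * BM.lnL a - (b : ℚ) / (a + b) * BM.lnL b ≤ q) :
    H x ≤ (q : ℝ) := by
  rw [H_rat ha hb hx]
  have h1 := BM.le_lnU (n := a + b) (by omega)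
  have h2 := BM.lnL_le (n := a) (by omega)
  have h3 := BM.lnL_le (n := b) (by omega)
  have h4 : ((BM.lnU (a + b) - (a : ℚ) / (a + b) * BM.lnL a
    - (b : ℚ) / (a + b) * BM.lnL b : ℚ) : ℝ) ≤ (q : ℝ) := by exact_mod_cast h
  push_cast at h4 h1 ⊢
  have h5 : (a : ℝ) / (a + b) * (BM.lnL a : ℝ) ≤ (a : ℝ) / (a + b) * Real.log a :=
    mul_le_mul_of_nonneg_left h2 (by positivity)
  have h6 : (b : ℝ) / (a + b) * (BM.lnL b : ℝ) ≤ (b : ℝ) / (a + b) * Real.log b :=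
    mul_le_mul_of_nonneg_left h3 (by positivity)
  linarith

lemma H728 : (39763 / 100000 : ℝ) ≤ H (91 / 125) := by
  have := H_lo (a := 108) (b := 17) (by norm_num) (by norm_num) (x := 91 / 125) (by norm_num)
    (39763 / 100000) (by decide +kernel)
  push_cast at this
  exact this

lemma H79 : (33593 / 100000 : ℝ) ≤ H (79 / 100) := by
  have := H_lo (a := 179) (b := 21) (by norm_num) (by norm_num) (x := 79 / 100) (by norm_num)
    (33593 / 100000) (by decide +kernel)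
  push_cast at this
  exact this

lemma H85 : (26638 / 100000 : ℝ) ≤ H (85 / 100) := by
  have := H_lo (a := 37) (b := 3) (by norm_num) (by norm_num) (x := 85 / 100) (by norm_num)
    (26638 / 100000) (by decide +kernel)
  push_cast at this
  exact this

lemma H759 : H (759 / 1000) ≤ (367921 / 1000000 : ℝ) := by
  have := H_up (a := 1759) (b := 241) (by norm_num) (by norm_num) (x := 759 / 1000) (by norm_num)
    (367921 / 1000000) (by decide +kernel)
  push_cast at this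
  exact this

lemma H82 : H (82 / 100) ≤ (302538 / 1000000 : ℝ) := by
  have := H_up (a := 91) (b := 9) (by norm_num) (by norm_num) (x := 82 / 100) (by norm_num)
    (302538 / 1000000) (by decide +kernel)
  push_cast at this
  exact this

lemma ld_lo {a b : ℕ} (ha : 1 ≤ a) (hb : 1 ≤ b) (q : ℚ) (h : q ≤ BM.lnL a - BM.lnU b) :
    (q : ℝ) ≤ Real.log a - Real.log b := by
  have h1 := BM.lnL_le ha
  have h2 := BM.le_lnU hb
  have h3 : (q : ℝ) ≤ ((BM.lnL a - BM.lnU b : ℚ) : ℝ) := by exact_mod_cast h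
  push_cast at h3
  linarith

lemma ld_up {a b : ℕ} (ha : 1 ≤ a) (hb : 1 ≤ b) (q : ℚ) (h : BM.lnU a - BM.lnL b ≤ q) :
    Real.log a - Real.log b ≤ (q : ℝ) := by
  have h1 := BM.lnL_le hb
  have h2 := BM.le_lnU ha
  have h3 : ((BM.lnU a - BM.lnL b : ℚ) : ℝ) ≤ (q : ℝ) := by exact_mod_cast h
  push_cast at h3
  linarith

lemma ath759 : (65471 / 100000 : ℝ) ≤ Ind.ath (759 / 1000) / (2 * (759 / 1000)) ∧
    Ind.ath (759 / 1000) / (2 * (759 / 1000)) ≤ (65472 / 100000 : ℝ) := by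
  rw [ath_rat (a := 1759) (b := 241) (by norm_num) (by norm_num) (by norm_num)]
  have h1 := ld_lo (a := 1759) (b := 241) (by norm_num) (by norm_num)
    (65471 / 100000 * 4 * (759 / 1000)) (by decide +kernel)
  have h2 := ld_up (a := 1759) (b := 241) (by norm_num) (by norm_num)
    (65472 / 100000 * 4 * (759 / 1000)) (by decide +kernel)
  push_cast at h1 h2 ⊢
  constructor
  · rw [le_div_iff₀ (by norm_num)]; linarith
  · rw [div_le_iff₀ (by norm_num)]; linarith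

lemma ath82 : (70537 / 100000 : ℝ) ≤ Ind.ath (82 / 100) / (2 * (82 / 100)) ∧
    Ind.ath (82 / 100) / (2 * (82 / 100)) ≤ (70538 / 100000 : ℝ) := by
  rw [ath_rat (a := 91) (b := 9) (by norm_num) (by norm_num) (by norm_num)]
  have h1 := ld_lo (a := 91) (b := 9) (by norm_num) (by norm_num)
    (70537 / 100000 * 4 * (82 / 100)) (by decide +kernel)
  have h2 := ld_up (a := 91) (b := 9) (by norm_num) (by norm_num)
    (70538 / 100000 * 4 * (82 / 100)) (by decide +kernel)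
  push_cast at h1 h2 ⊢
  constructor
  · rw [le_div_iff₀ (by norm_num)]; linarith
  · rw [div_le_iff₀ (by norm_num)]; linarith

lemma phi_sq {r : ℝ} (hr : 0 ≤ r) : BM.phi (r ^ 2) = H r := by
  unfold BM.phi; rw [Real.sqrt_sq hr]

/-- chord bound -/
lemma H_chord' {r a b A B : ℝ} (ha : 0 ≤ a) (hab : a < b) (hb : b ≤ 1) (h0 : a ≤ r) (h1 : r ≤ b)
    (hA : A ≤ H a) (hB : B ≤ H b) :
    A + (B - A) * ((r ^ 2 - a ^ 2) / (b ^ 2 - a ^ 2)) ≤ H r := by
  have hsq : a ^ 2 < b ^ 2 := by nlinarith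
  have hr0 : 0 ≤ r := by linarith
  set w := (r ^ 2 - a ^ 2) / (b ^ 2 - a ^ 2) with hw
  have hw0 : 0 ≤ w := div_nonneg (by nlinarith) (by linarith)
  have hw1 : w ≤ 1 := by rw [hw, div_le_one (by linarith)]; nlinarith
  have h := BM.phi_chord (x := a ^ 2) (y := b ^ 2) ⟨by positivity, by nlinarith⟩
    ⟨by positivity, by nlinarith⟩ (a := 1 - w) (b := w) (by linarith) hw0 (by ring)
  have e : (1 - w) * a ^ 2 + w * b ^ 2 = r ^ 2 := by
    have : w * (b ^ 2 - a ^ 2) = r ^ 2 - a ^ 2 := by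
      rw [hw]; field_simp
      rw [mul_div_assoc, div_self (by linarith), mul_one]
    linarith
  rw [e, phi_sq ha, phi_sq (by linarith), phi_sq hr0] at h
  nlinarith

/-- tangent bound -/
lemma H_tan' {r c u q0 q1 : ℝ} (hr0 : 0 ≤ r) (hr1 : r ≤ 1) (hc0 : 0 < c) (hc1 : c < 1)
    (hu : H c ≤ u) (hq0 : q0 ≤ Ind.ath c / (2 * c)) (hq1 : Ind.ath c / (2 * c) ≤ q1) :
    H r ≤ u - q0 * (r ^ 2 - c ^ 2) ∨ H r ≤ u - q1 * (r ^ 2 - c ^ 2) := by
  have h := BM.phi_tangent' (x := r ^ 2) (y := c ^ 2) ⟨by positivity, by nlinarith⟩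
    (by positivity) (by nlinarith)
  unfold BM.dphi at h
  rw [phi_sq hr0, phi_sq hc0.le, Real.sqrt_sq hc0.le] at h
  rcases le_total 0 (r ^ 2 - c ^ 2) with h1 | h1
  · left; nlinarith
  · right; nlinarith

/-- Bounds for `κ = H ρ` on `[91/125, 79/100]`. -/
lemma kapA {r : ℝ} (h0 : 91 / 125 ≤ r) (h1 : r ≤ 79 / 100) :
    39763 / 100000 - 65558 / 100000 * (r ^ 2 - 529984 / 1000000) ≤ H r ∧
    H r ≤ 36793 / 100000 - 6547 / 10000 * (r ^ 2 - 576081 / 1000000) := by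
  have hs0 : (529984 / 1000000 : ℝ) ≤ r ^ 2 := by nlinarith
  have hs1 : r ^ 2 ≤ (6241 / 10000 : ℝ) := by nlinarith
  constructor
  · have := H_chord' (r := r) (a := 91 / 125) (b := 79 / 100) (by norm_num) (by norm_num)
      (by norm_num) h0 h1 H728 H79
    norm_num at this ⊢
    linarith
  · rcases H_tan' (r := r) (c := 759 / 1000) (by linarith) (by linarith) (by norm_num)
      (by norm_num) H759 ath759.1 ath759.2 with h | h <;> norm_num at h ⊢ <;> linarith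

lemma kapB {r : ℝ} (h0 : 79 / 100 ≤ r) (h1 : r ≤ 85 / 100) :
    33593 / 100000 - 70681 / 100000 * (r ^ 2 - 6241 / 10000) ≤ H r ∧
    H r ≤ 30255 / 100000 - 7054 / 10000 * (r ^ 2 - 6724 / 10000) := by
  have hs0 : (6241 / 10000 : ℝ) ≤ r ^ 2 := by nlinarith
  have hs1 : r ^ 2 ≤ (7225 / 10000 : ℝ) := by nlinarith
  constructor
  · have := H_chord' (r := r) (a := 79 / 100) (b := 85 / 100) (by norm_num) (by norm_num)
      (by norm_num) h0 h1 H79 H85
    norm_num at this ⊢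
    linarith
  · rcases H_tan' (r := r) (c := 82 / 100) (by linarith) (by linarith) (by norm_num)
      (by norm_num) H82 ath82.1 ath82.2 with h | h <;> norm_num at h ⊢ <;> linarith

lemma log44 : Real.log (44 / 100) ≤ -82098 / 100000 := by
  have h := ld_up (a := 44) (b := 100) (by norm_num) (by norm_num)
    (-82098 / 100000) (by decide +kernel)
  rw [Real.log_div (by norm_num) (by norm_num)]
  push_cast at h
  exact h

lemma log347 : Real.log (347 / 1000) ≤ -105843 / 100000 := by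
  have h := ld_up (a := 347) (b := 1000) (by norm_num) (by norm_num)
    (-105843 / 100000) (by decide +kernel)
  rw [Real.log_div (by norm_num) (by norm_num)]
  push_cast at h
  exact h

lemma log509 : (17147 / 10000 : ℝ) ≤ Real.log (50 / 9) ∧ Real.log (50 / 9) ≤ 17148 / 10000 := by
  have h1 := ld_lo (a := 50) (b := 9) (by norm_num) (by norm_num)
    (17147 / 10000) (by decide +kernel)
  have h2 := ld_up (a := 50) (b := 9) (by norm_num) (by norm_num)
    (17148 / 10000) (by decide +kernel)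
  rw [Real.log_div (by norm_num) (by norm_num)]
  push_cast at h1 h2
  exact ⟨h1, h2⟩

lemma log20 : (2995 / 1000 : ℝ) ≤ Real.log 20 := by
  have h := lo (n := 20) (2995 / 1000) (by norm_num) (by decide +kernel)
  push_cast at h
  exact h

lemma log1003 : (3506 / 1000 : ℝ) ≤ Real.log (100 / 3) := by
  have h := ld_lo (a := 100) (b := 3) (by norm_num) (by norm_num)
    (3506 / 1000) (by decide +kernel)
  rw [Real.log_div (by norm_num) (by norm_num)]
  push_cast at h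
  exact h

lemma core {s x x0 κ Lr Lt2 c1 c2 l2 L2 b0 gm klo ku ll : ℝ}
    (hx : x0 ≤ x) (hklo : klo ≤ κ) (hku : κ ≤ ku) (hll : ll ≤ Lr) (hll0 : 0 ≤ ll)
    (hLt : Lt2 ≤ x + b0) (hxb : 0 ≤ x + b0) (hκ0 : 0 ≤ κ) (hl2 : l2 ≤ L2) (hs1 : s ≤ 1)
    (hc2 : 0 ≤ c2) (hgm : 0 ≤ gm)
    (hA : 0 ≤ (1 - s) * (x0 + c1) + 4 * c2 * (klo - (1 - s) * L2) - 9 / 25)
    (hS : 0 ≤ ll * (1 - s) - ku)
    (hP : 0 ≤ ll * ((1 - s) * (x0 + c1) + 4 * c2 * (klo - (1 - s) * L2) - 9 / 25)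
      - (x0 + b0) * ku + gm * (klo - (1 - s) * L2 + (1 - s) / 2)) :
    0 ≤ Lr * ((1 - s) * (x + c1) + 4 * c2 * (κ - (1 - s) * l2) - 9 / 25) - Lt2 * κ
      + gm * ((κ - (1 - s) * l2) + (1 - s) / 2) := by
  have h1s : 0 ≤ 1 - s := by linarith
  have t1 : klo - (1 - s) * L2 ≤ κ - (1 - s) * l2 := by
    have := mul_le_mul_of_nonneg_left hl2 h1s
    linarith
  have t2 : 4 * c2 * (klo - (1 - s) * L2) ≤ 4 * c2 * (κ - (1 - s) * l2) :=
    mul_le_mul_of_nonneg_left t1 (by linarith)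
  have t3 : (1 - s) * (x0 + c1) ≤ (1 - s) * (x + c1) :=
    mul_le_mul_of_nonneg_left (by linarith) h1s
  have t4 : ll * ((1 - s) * (x + c1) + 4 * c2 * (klo - (1 - s) * L2) - 9 / 25)
      ≤ Lr * ((1 - s) * (x + c1) + 4 * c2 * (κ - (1 - s) * l2) - 9 / 25) :=
    mul_le_mul hll (by linarith) (by linarith) (by linarith)
  have t5 : Lt2 * κ ≤ (x + b0) * ku := mul_le_mul hLt hku hκ0 hxb
  have t6 : gm * (klo - (1 - s) * L2 + (1 - s) / 2) ≤ gm * ((κ - (1 - s) * l2) + (1 - s) / 2) :=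
    mul_le_mul_of_nonneg_left (by linarith) hgm
  have t7 : 0 ≤ (x - x0) * (ll * (1 - s) - ku) := mul_nonneg (by linarith) hS
  nlinarith [t4, t5, t6, t7]

/-- tangent bound for `L (ρ t)` -/
lemma L_tan {r t T v w : ℝ} (hv : 0 < v) (hw : w = 2 * v) (hT : T ≤ t ^ 2) (h1 : (r * t) ^ 2 < 1) :
    Real.log 2 - Real.log v / 2 + 1 / 2 - (1 - r ^ 2 * T) / w ≤ L (r * t) := by
  subst hw
  unfold L
  have h := Real.log_le_sub_one_of_pos (x := (1 - (r * t) ^ 2) / v) (div_pos (by linarith) hv)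
  rw [Real.log_div (by linarith) hv.ne'] at h
  have h2 : (1 - (r * t) ^ 2) / v ≤ (1 - r ^ 2 * T) / v := by
    apply div_le_div_of_nonneg_right _ hv.le
    rw [mul_pow]
    nlinarith [sq_nonneg r]
  have h3 : (1 - r ^ 2 * T) / (2 * v) = (1 - r ^ 2 * T) / v / 2 := by
    rw [mul_comm 2 v, ← div_div]
  rw [h3]
  linarith

lemma core_IA {r x Lr Lt2 : ℝ} (h0 : 91 / 125 ≤ r) (h1 : r ≤ 79 / 100)
    (hx : 2995 / 1000 ≤ x)
    (hLr : Real.log 2 - Real.log (44 / 100) / 2 + 1 / 2 - (1 - r ^ 2 * (9643 / 10000)) / (88 / 100) ≤ Lr)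
    (hLt : Lt2 ≤ x + 17239 / 10000) :
    0 ≤ Lr * ((1 - r ^ 2) * (x + 97375 / 100000) + 4 * (95 / 100) * (H r - (1 - r ^ 2) * Real.log 2) - 9 / 25)
      - Lt2 * H r + 141 / 1000 * ((H r - (1 - r ^ 2) * Real.log 2) + (1 - r ^ 2) / 2) := by
  obtain ⟨hk, hu⟩ := kapA h0 h1
  have hs0 : (529984 / 1000000 : ℝ) ≤ r ^ 2 := by nlinarith
  have hs1 : r ^ 2 ≤ (6241 / 10000 : ℝ) := by nlinarith
  have l1 := Real.log_two_gt_d9
  have l2 := Real.log_two_lt_d9
  have l3 := log44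
  have hH0 : 0 ≤ H r := Ind.H_nonneg (by rw [abs_of_nonneg (by linarith)]; linarith)
  generalize hsr : r ^ 2 = s at *
  have hq : 0 ≤ (s - 529984 / 1000000) * (6241 / 10000 - s) := mul_nonneg (by linarith) (by linarith)
  refine core (x0 := 2995 / 1000) (L2 := 6931472 / 10000000) (b0 := 17239 / 10000)
    (ll := 16036 / 10000 - (1 - s * (9643 / 10000)) / (88 / 100))
    hx hk hu ?_ ?_ hLt ?_ hH0 ?_ ?_ (by norm_num) (by norm_num) ?_ ?_ ?_
  · linarith
  · linarith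
  · linarith
  · linarith
  · linarith
  · nlinarith
  · nlinarith
  · nlinarith

lemma core_IB {r x Lr Lt2 : ℝ} (h0 : 79 / 100 ≤ r) (h1 : r ≤ 85 / 100)
    (hx : 2995 / 1000 ≤ x)
    (hLr : Real.log 2 - Real.log (347 / 1000) / 2 + 1 / 2 - (1 - r ^ 2 * (9643 / 10000)) / (694 / 1000) ≤ Lr)
    (hLt : Lt2 ≤ x + 17239 / 10000) :
    0 ≤ Lr * ((1 - r ^ 2) * (x + 97375 / 100000) + 4 * (95 / 100) * (H r - (1 - r ^ 2) * Real.log 2) - 9 / 25)
      - Lt2 * H r + 141 / 1000 * ((H r - (1 - r ^ 2) * Real.log 2) + (1 - r ^ 2) / 2) := by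
  obtain ⟨hk, hu⟩ := kapB h0 h1
  have hs0 : (6241 / 10000 : ℝ) ≤ r ^ 2 := by nlinarith
  have hs1 : r ^ 2 ≤ (7225 / 10000 : ℝ) := by nlinarith
  have l1 := Real.log_two_gt_d9
  have l2 := Real.log_two_lt_d9
  have l3 := log347
  have hH0 : 0 ≤ H r := Ind.H_nonneg (by rw [abs_of_nonneg (by linarith)]; linarith)
  generalize hsr : r ^ 2 = s at *
  have hq : 0 ≤ (s - 6241 / 10000) * (7225 / 10000 - s) := mul_nonneg (by linarith) (by linarith)
  refine core (x0 := 2995 / 1000) (L2 := 6931472 / 10000000) (b0 := 17239 / 10000)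
    (ll := 17223 / 10000 - (1 - s * (9643 / 10000)) / (694 / 1000))
    hx hk hu ?_ ?_ hLt ?_ hH0 ?_ ?_ (by norm_num) (by norm_num) ?_ ?_ ?_
  · linarith
  · linarith
  · linarith
  · linarith
  · linarith
  · nlinarith
  · nlinarith
  · nlinarith

lemma core_IIA {r x Lr Lt2 : ℝ} (h0 : 91 / 125 ≤ r) (h1 : r ≤ 79 / 100)
    (hx : 3506 / 1000 ≤ x)
    (hLr : Real.log 2 - Real.log (44 / 100) / 2 + 1 / 2 - (1 - r ^ 2 * (9785 / 10000)) / (88 / 100) ≤ Lr)
    (hLt : Lt2 ≤ x + 17203 / 10000) :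
    0 ≤ Lr * ((1 - r ^ 2) * (x + 98455 / 100000) + 4 * (97 / 100) * (H r - (1 - r ^ 2) * Real.log 2) - 9 / 25)
      - Lt2 * H r + 0 * ((H r - (1 - r ^ 2) * Real.log 2) + (1 - r ^ 2) / 2) := by
  obtain ⟨hk, hu⟩ := kapA h0 h1
  have hs0 : (529984 / 1000000 : ℝ) ≤ r ^ 2 := by nlinarith
  have hs1 : r ^ 2 ≤ (6241 / 10000 : ℝ) := by nlinarith
  have l1 := Real.log_two_gt_d9
  have l2 := Real.log_two_lt_d9
  have l3 := log44
  have hH0 : 0 ≤ H r := Ind.H_nonneg (by rw [abs_of_nonneg (by linarith)]; linarith)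
  generalize hsr : r ^ 2 = s at *
  have hq : 0 ≤ (s - 529984 / 1000000) * (6241 / 10000 - s) := mul_nonneg (by linarith) (by linarith)
  refine core (x0 := 3506 / 1000) (L2 := 6931472 / 10000000) (b0 := 17203 / 10000)
    (ll := 16036 / 10000 - (1 - s * (9785 / 10000)) / (88 / 100))
    hx hk hu ?_ ?_ hLt ?_ hH0 ?_ ?_ (by norm_num) (by norm_num) ?_ ?_ ?_
  · linarith
  · linarith
  · linarith
  · linarith
  · linarith
  · nlinarith
  · nlinarith
  · nlinarith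

lemma core_IIB {r x Lr Lt2 : ℝ} (h0 : 79 / 100 ≤ r) (h1 : r ≤ 85 / 100)
    (hx : 3506 / 1000 ≤ x)
    (hLr : Real.log 2 - Real.log (347 / 1000) / 2 + 1 / 2 - (1 - r ^ 2 * (9785 / 10000)) / (694 / 1000) ≤ Lr)
    (hLt : Lt2 ≤ x + 17203 / 10000) :
    0 ≤ Lr * ((1 - r ^ 2) * (x + 98455 / 100000) + 4 * (97 / 100) * (H r - (1 - r ^ 2) * Real.log 2) - 9 / 25)
      - Lt2 * H r + 0 * ((H r - (1 - r ^ 2) * Real.log 2) + (1 - r ^ 2) / 2) := by
  obtain ⟨hk, hu⟩ := kapB h0 h1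
  have hs0 : (6241 / 10000 : ℝ) ≤ r ^ 2 := by nlinarith
  have hs1 : r ^ 2 ≤ (7225 / 10000 : ℝ) := by nlinarith
  have l1 := Real.log_two_gt_d9
  have l2 := Real.log_two_lt_d9
  have l3 := log347
  have hH0 : 0 ≤ H r := Ind.H_nonneg (by rw [abs_of_nonneg (by linarith)]; linarith)
  generalize hsr : r ^ 2 = s at *
  have hq : 0 ≤ (s - 6241 / 10000) * (7225 / 10000 - s) := mul_nonneg (by linarith) (by linarith)
  refine core (x0 := 3506 / 1000) (L2 := 6931472 / 10000000) (b0 := 17203 / 10000)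
    (ll := 17223 / 10000 - (1 - s * (9785 / 10000)) / (694 / 1000))
    hx hk hu ?_ ?_ hLt ?_ hH0 ?_ ?_ (by norm_num) (by norm_num) ?_ ?_ ?_
  · linarith
  · linarith
  · linarith
  · linarith
  · linarith
  · nlinarith
  · nlinarith
  · nlinarith

lemma H_eq_L {x : ℝ} (hx : |x| < 1) : H x = L x - x * Ind.ath x := by
  have hx' := abs_lt.mp hx
  have h1 : Real.log (1 - x ^ 2) = Real.log (1 + x) + Real.log (1 - x) := by
    rw [← Real.log_mul (by linarith) (by linarith)]; congr 1; ring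
  have e : H x = Real.log 2 - psi x := by unfold psi; ring
  rw [e, Ind.psi_eq]
  unfold L Ind.ath negMulLog
  rw [h1]
  ring

/-- lower bound for the slope constant -/
lemma slope_ge {r t : ℝ} (hr0 : 0 ≤ r) (hr1 : r < 1) (ht0 : 0 < t) (ht1 : t < 1) :
    H r - lamB r t * (Real.log 2 - Real.log (1 + t)) ≤ (H (r * t) - lamB r t * H t) / t := by
  have hrt0 : 0 ≤ r * t := by positivity
  have hrt1 : r * t < 1 := by nlinarith
  have hL : 0 < L t := BM.L_pos ht0 ht1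
  have e1 := H_eq_L (x := t) (by rw [abs_of_pos ht0]; exact ht1)
  have e2 := H_eq_L (x := r * t) (by rw [abs_of_nonneg hrt0]; exact hrt1)
  have e3 : lamB r t * L t = L (r * t) := by
    unfold lamB; rw [div_mul_cancel₀ _ hL.ne']
  have e4 : Ind.ath t = L t - (Real.log 2 - Real.log (1 + t)) := by
    unfold L Ind.ath
    have h1 : Real.log (1 - t ^ 2) = Real.log (1 + t) + Real.log (1 - t) := by
      rw [← Real.log_mul (by linarith) (by linarith)]; congr 1; ring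
    rw [h1]; ring
  have e5 := BM.H_tangent (x := r) (y := r * t) ⟨by linarith, by linarith⟩ (by linarith) hrt1
  rw [le_div_iff₀ ht0]
  have e6 : H (r * t) - lamB r t * H t
      = t * (L (r * t) - lamB r t * (Real.log 2 - Real.log (1 + t)) - r * Ind.ath (r * t)) := by
    rw [e1, e2, e4]
    linear_combination (-(1 : ℝ) + t) * e3
  rw [e6]
  rw [e2] at e5
  have e7 : H r ≤ L (r * t) - r * Ind.ath (r * t) := by nlinarith
  nlinarith

lemma G_zero (r : ℝ) : G r 0 = H r := by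
  unfold G; rw [Ind.H_zero]; ring

/-- entropy near the end -/
lemma H_end {y : ℝ} (h0 : 0 < y) (h1 : y ≤ 1 / 2) :
    y * (-Real.log y) + y * (2 * (1 - y) / (2 - y)) ≤ H (1 - 2 * y) := by
  unfold H
  have e : (1 + (1 - 2 * y)) / 2 = 1 - y := by ring
  rw [e, Real.binEntropy_one_sub, Real.binEntropy_eq_negMulLog_add_negMulLog_one_sub]
  unfold negMulLog
  have h2 : 0 < 2 - y := by linarith
  have h3 : 0 < 1 - y := by linarith
  have k := Ind.le_ath (x := y / (2 - y)) (by positivity) (by rw [div_lt_one h2]; linarith)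
  unfold Ind.ath at k
  have k1 : 1 + y / (2 - y) = 2 / (2 - y) := by field_simp; ring
  have k2 : 1 - y / (2 - y) = 2 * (1 - y) / (2 - y) := by field_simp; ring
  rw [k1, k2, Real.log_div (by norm_num) h2.ne', Real.log_div (by positivity) h2.ne',
    Real.log_mul (by norm_num) h3.ne'] at k
  have k3 : 2 * (y / (2 - y)) ≤ -Real.log (1 - y) := by linarith
  have k4 := mul_le_mul_of_nonneg_left k3 h3.le
  have k5 : y * (2 * (1 - y) / (2 - y)) = (1 - y) * (2 * (y / (2 - y))) := by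
    field_simp
  rw [k5]
  linarith

lemma ell_le {e t : ℝ} (he0 : 0 < e) (he1 : e ≤ 1 / 20) (ht : t = 1 - 9 / 25 * e) :
    2 * (1 - e) * (Real.log 2 - Real.log (1 + t)) ≤ 9 / 25 * e := by
  have h3 : 0 < 1 - 9 / 50 * e := by linarith
  have h3' := h3.ne'
  have k1 : Real.log 2 - Real.log (1 + t) ≤ (9 / 50 * e) / (1 - 9 / 50 * e) := by
    have h := Real.one_sub_inv_le_log_of_pos (x := (1 + t) / 2) (by linarith)
    rw [Real.log_div (by linarith) (by norm_num)] at h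
    have h2 : (1 + t) / 2 = 1 - 9 / 50 * e := by rw [ht]; ring
    rw [h2] at h
    have h4 : 1 - (1 - 9 / 50 * e)⁻¹ = -((9 / 50 * e) / (1 - 9 / 50 * e)) := by
      rw [inv_eq_one_div, ← neg_div, sub_eq_iff_eq_add, ← add_div, eq_div_iff h3']
      ring
    rw [h4] at h
    linarith
  have k2 : 2 * (1 - e) * (Real.log 2 - Real.log (1 + t))
      ≤ 2 * (1 - e) * ((9 / 50 * e) / (1 - 9 / 50 * e)) :=
    mul_le_mul_of_nonneg_left k1 (by linarith)
  refine k2.trans ?_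
  rw [mul_div_assoc', div_le_iff₀ h3]
  nlinarith

lemma G_ge0 {r e c1 c2 : ℝ} (hs0 : 0 ≤ 1 - r ^ 2) (he0 : 0 < e) (he1 : e ≤ 1 / 20)
    (hc1 : c1 ≤ 2 * (1 - e) / (2 - e)) (hc2 : c2 ≤ 1 - e)
    (htau0 : 0 ≤ H r - (1 - r ^ 2) * Real.log 2) :
    e * ((1 - r ^ 2) * (-Real.log e + c1) + 4 * c2 * (H r - (1 - r ^ 2) * Real.log 2))
      + e * ((1 - r ^ 2) * Real.log 2) ≤ 2 * G r (1 - e) := by
  have k1 := H_end (y := e / 2) (by linarith) (by linarith)
  have k2 : 1 - 2 * (e / 2) = 1 - e := by ring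
  rw [k2, Real.log_div he0.ne' (by norm_num)] at k1
  have k3 : c1 ≤ 2 * (1 - e / 2) / (2 - e / 2) := by
    refine hc1.trans ?_
    rw [div_le_div_iff₀ (by linarith) (by linarith)]
    nlinarith
  have k4 : e / 2 * (-Real.log e + c1 + Real.log 2) ≤ H (1 - e) := by
    have := mul_le_mul_of_nonneg_left k3 (by linarith : 0 ≤ e / 2)
    linarith
  have k5 := mul_le_mul_of_nonneg_left k4 hs0
  have k6 : 4 * c2 * (H r - (1 - r ^ 2) * Real.log 2)
      ≤ 4 * (1 - e / 2) * (H r - (1 - r ^ 2) * Real.log 2) :=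
    mul_le_mul_of_nonneg_right (by linarith) htau0
  have k7 := mul_le_mul_of_nonneg_left k6 he0.le
  unfold G
  generalize H r - (1 - r ^ 2) * Real.log 2 = tau at *
  linarith

lemma G_ge1 {r e c1 c2 : ℝ} (hs0 : 0 ≤ 1 - r ^ 2) (he0 : 0 < e) (he1 : e ≤ 1 / 20)
    (hc1 : c1 ≤ 2 * (1 - e) / (2 - e)) (hc2 : c2 ≤ 1 - e)
    (htau0 : 0 ≤ H r - (1 - r ^ 2) * Real.log 2) :
    e * ((1 - r ^ 2) * (-Real.log e + c1) + 4 * c2 * (H r - (1 - r ^ 2) * Real.log 2))
      ≤ G r (1 - 2 * e) := by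
  have k1 := H_end (y := e) he0 (by linarith)
  have k4 : e * (-Real.log e + c1) ≤ H (1 - 2 * e) := by
    have := mul_le_mul_of_nonneg_left hc1 he0.le
    linarith
  have k5 := mul_le_mul_of_nonneg_left k4 hs0
  have k6 : 4 * c2 * (H r - (1 - r ^ 2) * Real.log 2)
      ≤ 4 * (1 - e) * (H r - (1 - r ^ 2) * Real.log 2) :=
    mul_le_mul_of_nonneg_right (by linarith) htau0
  have k7 := mul_le_mul_of_nonneg_left k6 he0.le
  unfold G
  generalize H r - (1 - r ^ 2) * Real.log 2 = tau at *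
  linarith

lemma G_small {r e : ℝ} (hs0 : 0 ≤ 1 - r ^ 2) (he0 : 0 < e) (he1 : e ≤ 1 / 20) :
    G r e ≤ H r - e ^ 2 * ((H r - (1 - r ^ 2) * Real.log 2) + (1 - r ^ 2) / 2) := by
  have b1 := Ind.sq_div_two_le_psi (x := e) (by rw [abs_of_pos he0]; linarith)
  have b2 : H e ≤ Real.log 2 - e ^ 2 / 2 := by unfold psi at b1; linarith
  have b3 := mul_le_mul_of_nonneg_left b2 hs0
  unfold G
  linarith

/-- Lower bound for `PsiB` at `m = 0`. -/
lemma psiB_zero_ge {r e t : ℝ} (hr0 : 91 / 125 ≤ r) (hr1 : r ≤ 17 / 20)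
    (he1 : e ≤ 1 / 20) (ht0 : 0 < t) (ht1 : t < 1) :
    lamB r t * (G r (1 - e) - (1 - e) * (Real.log 2 - Real.log (1 + t))) - e * H r
      ≤ PsiB r t 0 (1 - e) := by
  have hsl := slope_ge (r := r) (t := t) (by linarith) (by linarith) ht0 ht1
  unfold PsiB
  have a1 : G r (0 - (1 - e)) = G r (1 - e) := by rw [zero_sub, Ind.G_neg]
  have a2 : G r (0 + (1 - e)) = G r (1 - e) := by rw [zero_add]
  rw [a1, a2, G_zero]
  have a3 := mul_le_mul_of_nonneg_right hsl (by linarith : 0 ≤ 1 - e)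
  linarith

/-- Lower bound for `PsiB` at `m = e`. -/
lemma psiB_end_ge {r e t : ℝ} (hr0 : 91 / 125 ≤ r) (hr1 : r ≤ 17 / 20) (he0 : 0 < e)
    (he1 : e ≤ 1 / 20) (ht0 : 0 < t) (ht1 : t < 1) :
    lamB r t * (G r (1 - 2 * e) / 2 - (1 - e) * (Real.log 2 - Real.log (1 + t))) - e * H r
        + e ^ 2 * ((H r - (1 - r ^ 2) * Real.log 2) + (1 - r ^ 2) / 2)
      ≤ PsiB r t e (1 - e) := by
  have hsl := slope_ge (r := r) (t := t) (by linarith) (by linarith) ht0 ht1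
  have hs0 : 0 ≤ 1 - r ^ 2 := by nlinarith
  have a4 := G_small hs0 he0 he1
  unfold PsiB
  have a1 : G r (e - (1 - e)) = G r (1 - 2 * e) := by
    rw [← Ind.G_neg]; congr 1; ring
  have a2 : G r (e + (1 - e)) = 0 := by
    rw [show e + (1 - e) = 1 by ring, Ind.G_one]
  rw [a1, a2]
  have a3 := mul_le_mul_of_nonneg_right hsl (by linarith : 0 ≤ 1 - e)
  linarith

/-- Pure algebra for the end `m = 0`. -/
lemma alg0 {lam Lt Lr e G1 ell κ X W gt : ℝ} (e3 : lam * Lt = Lr) (hLt : 0 < Lt) (hLr0 : 0 ≤ Lr)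
    (he0 : 0 < e) (hell : 2 * (1 - e) * ell ≤ 9 / 25 * e) (hG : e * X + e * W ≤ 2 * G1)
    (hg : gt ≤ Lr * W) (hc : 0 ≤ Lr * (X - 9 / 25) - 2 * Lt * κ + gt) :
    0 ≤ lam * (G1 - (1 - e) * ell) - e * κ := by
  have k2 : 0 ≤ (2 * Lt) * (lam * (G1 - (1 - e) * ell) - e * κ) := by
    have a1 : (2 * Lt) * (lam * (G1 - (1 - e) * ell) - e * κ)
        = (lam * Lt) * (2 * G1 - 2 * (1 - e) * ell) - 2 * Lt * e * κ := by ring
    rw [a1, e3]
    have a2 : e * X + e * W - 9 / 25 * e ≤ 2 * G1 - 2 * (1 - e) * ell := by linarith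
    have a3 := mul_le_mul_of_nonneg_left a2 hLr0
    have a4 := mul_le_mul_of_nonneg_left hg he0.le
    have a5 := mul_nonneg he0.le hc
    linarith
  exact nonneg_of_mul_nonneg_right k2 (by linarith)

lemma alg1 {lam Lt Lr e G1 ell κ X gm V : ℝ} (e3 : lam * Lt = Lr) (hLt : 0 < Lt) (hLr0 : 0 ≤ Lr)
    (he0 : 0 < e) (hell : 2 * (1 - e) * ell ≤ 9 / 25 * e) (hG : e * X ≤ G1) (hV : 0 ≤ V)
    (hg : gm ≤ 2 * Lt * e) (hc : 0 ≤ Lr * (X - 9 / 25) - 2 * Lt * κ + gm * V) :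
    0 ≤ lam * (G1 / 2 - (1 - e) * ell) - e * κ + e ^ 2 * V := by
  have k2 : 0 ≤ (2 * Lt) * (lam * (G1 / 2 - (1 - e) * ell) - e * κ + e ^ 2 * V) := by
    have a1 : (2 * Lt) * (lam * (G1 / 2 - (1 - e) * ell) - e * κ + e ^ 2 * V)
        = (lam * Lt) * (G1 - 2 * (1 - e) * ell) - 2 * Lt * e * κ
          + e * ((2 * Lt * e) * V) := by ring
    rw [a1, e3]
    have a2 : e * X - 9 / 25 * e ≤ G1 - 2 * (1 - e) * ell := by linarith
    have a3 := mul_le_mul_of_nonneg_left a2 hLr0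
    have a4 : gm * V ≤ (2 * Lt * e) * V := mul_le_mul_of_nonneg_right hg hV
    have a4' := mul_le_mul_of_nonneg_left a4 he0.le
    have a5 := mul_nonneg he0.le hc
    linarith
  exact nonneg_of_mul_nonneg_right k2 (by linarith)

lemma psiB_ends {r e c1 c2 gm : ℝ} (hr0 : 91 / 125 ≤ r) (hr1 : r ≤ 17 / 20) (he0 : 0 < e)
    (he1 : e ≤ 1 / 20) (hc1 : c1 ≤ 2 * (1 - e) / (2 - e)) (hc2 : c2 ≤ 1 - e)
    (hgm0 : gm * ((H r - (1 - r ^ 2) * Real.log 2) + (1 - r ^ 2) / 2)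
      ≤ L (r * (1 - 9 / 25 * e)) * ((1 - r ^ 2) * Real.log 2))
    (hgm1 : gm ≤ 2 * L (1 - 9 / 25 * e) * e)
    (hcore : 0 ≤ L (r * (1 - 9 / 25 * e)) * ((1 - r ^ 2) * (-Real.log e + c1)
        + 4 * c2 * (H r - (1 - r ^ 2) * Real.log 2) - 9 / 25)
      - 2 * L (1 - 9 / 25 * e) * H r
      + gm * ((H r - (1 - r ^ 2) * Real.log 2) + (1 - r ^ 2) / 2)) :
    0 ≤ PsiB r (1 - 9 / 25 * e) 0 (1 - e) ∧ 0 ≤ PsiB r (1 - 9 / 25 * e) e (1 - e) := by
  obtain ⟨t, ht⟩ : ∃ t, t = 1 - 9 / 25 * e := ⟨_, rfl⟩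
  rw [← ht] at hgm0 hgm1 hcore ⊢
  have ht0 : 0 < t := by rw [ht]; linarith
  have ht1 : t < 1 := by rw [ht]; linarith
  have hLt : 0 < L t := BM.L_pos ht0 ht1
  have hlam0 := lamB_nonneg (ρ := r) (t := t) (by linarith) (by linarith) ht0 ht1
  have e3 : lamB r t * L t = L (r * t) := by
    unfold lamB; rw [div_mul_cancel₀ _ hLt.ne']
  have hLr0 : 0 ≤ L (r * t) := by rw [← e3]; positivity
  have hs0 : 0 ≤ 1 - r ^ 2 := by nlinarith
  have htau0 : 0 ≤ H r - (1 - r ^ 2) * Real.log 2 := by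
    have := BM.H_ge_log (a := r) (by rw [abs_of_nonneg (by linarith)]; linarith)
    linarith
  have hell := ell_le he0 he1 ht
  constructor
  · refine le_trans ?_ (psiB_zero_ge hr0 hr1 he1 ht0 ht1)
    exact alg0 e3 hLt hLr0 he0 hell (G_ge0 hs0 he0 he1 hc1 hc2 htau0) hgm0 hcore
  · refine le_trans ?_ (psiB_end_ge hr0 hr1 he0 he1 ht0 ht1)
    exact alg1 e3 hLt hLr0 he0 hell (G_ge1 hs0 he0 he1 hc1 hc2 htau0)
      (by positivity) hgm1 hcore

lemma Lt2_eq {e : ℝ} (he0 : 0 < e) (he1 : e ≤ 1 / 20) :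
    2 * L (1 - 9 / 25 * e) = -Real.log e + Real.log (50 / 9) - Real.log (1 - 9 / 50 * e) := by
  have h3 : 0 < 1 - 9 / 50 * e := by linarith
  unfold L
  have e1 : 1 - (1 - 9 / 25 * e) ^ 2 = e * (18 / 25) * (1 - 9 / 50 * e) := by ring
  have e2 : Real.log (50 / 9) = 2 * Real.log 2 - Real.log (18 / 25) := by
    have : (50 / 9 : ℝ) = 2 * 2 / (18 / 25) := by norm_num
    rw [this, Real.log_div (by norm_num) (by norm_num), Real.log_mul (by norm_num) (by norm_num)]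
    ring
  rw [e1, Real.log_mul (by positivity) h3.ne', Real.log_mul he0.ne' (by norm_num), e2]
  ring

lemma Lt2_bounds {e b : ℝ} (he0 : 0 < e) (he1 : e ≤ 1 / 20)
    (hb : 9 / 50 * e ≤ b * (1 - 9 / 50 * e)) :
    2 * L (1 - 9 / 25 * e) ≤ -Real.log e + (17148 / 10000 + b) ∧
    -Real.log e + 17147 / 10000 ≤ 2 * L (1 - 9 / 25 * e) := by
  have h3 : 0 < 1 - 9 / 50 * e := by linarith
  rw [Lt2_eq he0 he1]
  have h := Real.one_sub_inv_le_log_of_pos (x := 1 - 9 / 50 * e) h3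
  have h2 := Real.log_le_sub_one_of_pos (x := 1 - 9 / 50 * e) h3
  have h4 : (1 - 9 / 50 * e)⁻¹ - 1 ≤ b := by
    rw [inv_eq_one_div, sub_le_iff_le_add, div_le_iff₀ h3]
    linarith
  obtain ⟨l1, l2⟩ := log509
  constructor <;> linarith

lemma log_two_le_L {x : ℝ} (h : x ^ 2 < 1) : Real.log 2 ≤ L x := by
  unfold L
  have : Real.log (1 - x ^ 2) ≤ 0 := Real.log_nonpos (by linarith) (by nlinarith [sq_nonneg x])
  linarith

lemma gm_zero_le {r Lr : ℝ} (hr0 : 91 / 125 ≤ r) (hr1 : r ≤ 17 / 20) (hLr : Real.log 2 ≤ Lr) :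
    141 / 1000 * ((H r - (1 - r ^ 2) * Real.log 2) + (1 - r ^ 2) / 2)
      ≤ Lr * ((1 - r ^ 2) * Real.log 2) := by
  have h1 := Ind.H_le_log_two r
  have l1 := Real.log_two_gt_d9
  have l2 := Real.log_two_lt_d9
  have hs0 : (529984 / 1000000 : ℝ) ≤ r ^ 2 := by nlinarith
  have hs1 : r ^ 2 ≤ (7225 / 10000 : ℝ) := by nlinarith
  generalize r ^ 2 = s at *
  generalize Real.log 2 = l at *
  have h2 : l * ((1 - s) * l) ≤ Lr * ((1 - s) * l) :=
    mul_le_mul_of_nonneg_right hLr (mul_nonneg (by linarith) (by linarith))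
  refine le_trans ?_ h2
  have h3 : (693 / 1000) * ((1 - s) * (693 / 1000)) ≤ l * ((1 - s) * l) :=
    mul_le_mul (by linarith) (mul_le_mul_of_nonneg_left (by linarith) (by linarith))
      (mul_nonneg (by linarith) (by norm_num)) (by linarith)
  have h4 : (1 - s) * (693 / 1000) ≤ (1 - s) * l :=
    mul_le_mul_of_nonneg_left (by linarith) (by linarith)
  linarith

/-- Both ends. -/
lemma ends {r e : ℝ} (hr0 : 91 / 125 ≤ r) (hr1 : r ≤ 17 / 20) (he0 : 0 < e)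
    (he1 : e ≤ 1 / 20) :
    0 ≤ PsiB r (1 - 9 / 25 * e) 0 (1 - e) ∧ 0 ≤ PsiB r (1 - 9 / 25 * e) e (1 - e) := by
  have hrt : (r * (1 - 9 / 25 * e)) ^ 2 < 1 := by
    have h1 : 0 ≤ r * (1 - 9 / 25 * e) := mul_nonneg (by linarith) (by linarith)
    have h2 : r * (1 - 9 / 25 * e) ≤ 17 / 20 * 1 :=
      mul_le_mul hr1 (by linarith) (by linarith) (by norm_num)
    nlinarith
  have hLr := log_two_le_L hrt
  have hs0 : 0 ≤ 1 - r ^ 2 := by nlinarith
  have hlog : 0 ≤ Real.log 2 := Real.log_nonneg (by norm_num)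
  rcases le_total e (3 / 100) with h | h
  · -- case II
    have hx : 3506 / 1000 ≤ -Real.log e := by
      have h1 := Real.log_le_log he0 h
      have h2 := log1003
      have h3 : Real.log (100 / 3) = -Real.log (3 / 100) := by
        rw [← Real.log_inv]; norm_num
      linarith
    obtain ⟨u1, u2⟩ := Lt2_bounds (b := 55 / 10000) he0 he1 (by linarith)
    have hLt : 2 * L (1 - 9 / 25 * e) ≤ -Real.log e + 17203 / 10000 := by linarith
    have hT : (9785 / 10000 : ℝ) ≤ (1 - 9 / 25 * e) ^ 2 := by nlinarith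
    refine psiB_ends (c1 := 98455 / 100000) (c2 := 97 / 100) (gm := 0) hr0 hr1 he0 he1 ?_ ?_ ?_ ?_ ?_
    · rw [le_div_iff₀ (by linarith)]; linarith
    · linarith
    · rw [zero_mul]
      exact mul_nonneg (by linarith) (mul_nonneg hs0 hlog)
    · have : 0 ≤ 2 * L (1 - 9 / 25 * e) := by linarith
      exact mul_nonneg this he0.le
    · rcases le_total r (79 / 100) with hr | hr
      · exact core_IIA hr0 hr hx
          (L_tan (v := 44 / 100) (w := 88 / 100) (by norm_num) (by norm_num) hT hrt) hLt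
      · exact core_IIB hr (by linarith) hx
          (L_tan (v := 347 / 1000) (w := 694 / 1000) (by norm_num) (by norm_num) hT hrt) hLt
  · have hx : 2995 / 1000 ≤ -Real.log e := by
      have h1 := Real.log_le_log he0 he1
      have h2 := log20
      have h3 : Real.log (20) = -Real.log (1 / 20) := by
        rw [← Real.log_inv]; norm_num
      linarith
    obtain ⟨u1, u2⟩ := Lt2_bounds (b := 91 / 10000) he0 he1 (by linarith)
    have hLt : 2 * L (1 - 9 / 25 * e) ≤ -Real.log e + 17239 / 10000 := by linarith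
    have hT : (9643 / 10000 : ℝ) ≤ (1 - 9 / 25 * e) ^ 2 := by nlinarith
    refine psiB_ends (c1 := 97375 / 100000) (c2 := 95 / 100) (gm := 141 / 1000) hr0 hr1 he0 he1
      ?_ ?_ ?_ ?_ ?_
    · rw [le_div_iff₀ (by linarith)]; linarith
    · linarith
    · exact gm_zero_le hr0 hr1 hLr
    · nlinarith
    · rcases le_total r (79 / 100) with hr | hr
      · exact core_IA hr0 hr hx
          (L_tan (v := 44 / 100) (w := 88 / 100) (by norm_num) (by norm_num) hT hrt) hLt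
      · exact core_IB hr (by linarith) hx
          (L_tan (v := 347 / 1000) (w := 694 / 1000) (by norm_num) (by norm_num) hT hrt) hLt

end Vale.Agent.P322.Corner

namespace Vale.Agent.P322

open Corner in
/-- The corner `d ≥ 95/100`. -/
theorem psiB_corner {ρ m d : ℝ} (h0 : 91 / 125 ≤ ρ) (h1 : ρ ≤ 17 / 20) (hd0 : 95 / 100 ≤ d)
    (hd1 : d < 1) (hm : |m| ≤ 1 - d) : 0 ≤ PsiB ρ (1 - 9 / 25 * (1 - d)) m d := by
  obtain ⟨e, he⟩ : ∃ e, e = 1 - d := ⟨_, rfl⟩
  have hd : d = 1 - e := by linarith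
  subst hd
  have he0 : 0 < e := by linarith
  have he1 : e ≤ 1 / 20 := by linarith
  have hE : 1 - (1 - e) = e := by ring
  rw [hE] at hm ⊢
  obtain ⟨p1, p2⟩ := ends h0 h1 he0 he1
  have ht0 : 0 < 1 - 9 / 25 * e := by linarith
  have ht1 : 1 - 9 / 25 * e < 1 := by linarith
  have hlam := lamB_nonneg (ρ := ρ) (t := 1 - 9 / 25 * e) (by linarith) (by linarith) ht0 ht1
  refine psiB_conc (m1 := e) (by linarith) (by linarith) hlam (by linarith) he0 (by linarith)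
    ?_ p1 p2 hm
  -- `(1 - d^2)^3 ≤ lam (1 + 3 d^2)`
  have hLt : 0 < L (1 - 9 / 25 * e) := BM.L_pos ht0 ht1
  have hrt : (ρ * (1 - 9 / 25 * e)) ^ 2 < 1 := by
    have h1' : 0 ≤ ρ * (1 - 9 / 25 * e) := mul_nonneg (by linarith) (by linarith)
    have h2 : ρ * (1 - 9 / 25 * e) ≤ 17 / 20 * 1 :=
      mul_le_mul h1 (by linarith) (by linarith) (by norm_num)
    nlinarith
  have hLr := log_two_le_L hrt
  have l1 := Real.log_two_gt_d9
  obtain ⟨u1, u2⟩ := Lt2_bounds (b := 91 / 10000) he0 he1 (by linarith)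
  have hlog : -Real.log e * e ≤ 1 := by
    have := Real.one_sub_inv_le_log_of_pos he0
    have h3 : -Real.log e ≤ e⁻¹ := by linarith
    calc -Real.log e * e ≤ e⁻¹ * e := mul_le_mul_of_nonneg_right h3 he0.le
      _ = 1 := inv_mul_cancel₀ he0.ne'
  unfold lamB
  rw [div_mul_eq_mul_div, le_div_iff₀ hLt]
  have k1 : (1 - (1 - e) ^ 2) ^ 3 ≤ 8 * e ^ 3 := by
    have a1 : 1 - (1 - e) ^ 2 = e * (2 - e) := by ring
    have a2 : (e * (2 - e)) ^ 3 ≤ (e * 2) ^ 3 :=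
      pow_le_pow_left₀ (mul_nonneg he0.le (by linarith))
        (mul_le_mul_of_nonneg_left (by linarith) he0.le) 3
    rw [a1]
    refine a2.trans (le_of_eq (by ring))
  have k2 : 2 * L (1 - 9 / 25 * e) * e ≤ 2 := by nlinarith
  have k3 : (1 - (1 - e) ^ 2) ^ 3 * L (1 - 9 / 25 * e) ≤ 8 * e ^ 3 * L (1 - 9 / 25 * e) :=
    mul_le_mul_of_nonneg_right k1 hLt.le
  have k4 : 8 * e ^ 3 * L (1 - 9 / 25 * e) = 4 * e ^ 2 * (2 * L (1 - 9 / 25 * e) * e) := by ring
  have k5 : 4 * e ^ 2 * (2 * L (1 - 9 / 25 * e) * e) ≤ 4 * e ^ 2 * 2 :=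
    mul_le_mul_of_nonneg_left k2 (by positivity)
  have k6 : 4 * e ^ 2 * 2 ≤ 1 / 10 := by nlinarith
  have k7 : 1 / 10 ≤ L (ρ * (1 - 9 / 25 * e)) * (1 + 3 * (1 - e) ^ 2) := by nlinarith [sq_nonneg (1 - e)]
  linarith

/-- **Lemma B certificate in the corner.** -/
theorem certB_corner {ρ m d : ℝ} (h0 : 91 / 125 ≤ ρ) (h1 : ρ ≤ 17 / 20) (hd0 : 95 / 100 ≤ d)
    (hd1 : d < 1) (hm : |m| ≤ 1 - d) : CertB ρ (G ρ) (m - d) (m + d) :=
  certB_of_psiB (by linarith) (by linarith) (by linarith) (by linarith)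
    (psiB_corner h0 h1 hd0 hd1 hm)

end Vale.Agent.P322
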