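import Vale.Agent.P322.BMid
import Vale.Agent.P322.BCorner

/-!
# P322: certificate B in the middle range `91/125 ≤ ρ ≤ 17/20`, unconditional
-/

namespace Vale.Agent.P322.BM

open Real Set Vale.Agent.P322.Ind

theorem corner : Corner := by
  intro ρ m d hs h0 h1 hd0 hd1 hm
  have hρ : 91 / 125 ≤ ρ := by
    by_contra hh
    push Not at hh
    nlinarith
  refine ⟨1 - 9 / 25 * (1 - d), by linarith, by linarith, ?_⟩
  rw [PS_eq_PsiB h0 (by linarith)]
  exact psiB_corner hρ h1 (by linarith) hd1 hm

lemma good_mid' {ρ m d : ℝ} (hρ0 : 91 / 125 ≤ ρ) (hd0 : 0 < d)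
    (hmd : |m| + d < 1)
    (h : (ρ ≤ 3 / 4 ∧ |m| ≤ 1 / 4) ∨ (3 / 4 ≤ ρ ∧ ρ ≤ 4 / 5 ∧ |m| ≤ 1 / 2) ∨
      (4 / 5 ≤ ρ ∧ ρ ≤ 17 / 20 ∧ |m| ≤ 7 / 10)) : Good ρ m d := by
  have hρ1 : 728 / 1000 ≤ ρ := by linarith
  have hm0 := abs_nonneg m
  have hρ2 : ρ ≤ 17 / 20 := by
    rcases h with h | h | h <;> linarith [h.1, h.2]
  rcases le_or_gt d (1 / 10) with hd1 | hd1
  · rcases h with h | h | h
    · exact smallOK_sound small0 (by push_cast; linarith) (by push_cast; linarith [h.1]) hd0 hd1
        (by push_cast; linarith [h.2])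
    · exact smallOK_sound small1 (by push_cast; linarith [h.1]) (by push_cast; linarith [h.2.1])
        hd0 hd1 (by push_cast; linarith [h.2.2])
    · rcases le_total ρ (825 / 1000) with h' | h'
      · exact smallOK_sound small2 (by push_cast; linarith [h.1]) (by push_cast; linarith)
          hd0 hd1 (by push_cast; linarith [h.2.2])
      · exact smallOK_sound small3 (by push_cast; linarith) (by push_cast; linarith [h.2.1])
          hd0 hd1 (by push_cast; linarith [h.2.2])
  rcases le_or_gt d (97 / 100) with hd2 | hd2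
  · rcases h with h | h | h
    · have hm : |m| ≤ ((250 : ℕ) : ℝ) / 1000 := by push_cast; linarith [h.2]
      rcases le_total ρ (734 / 1000) with h1 | h1
      · exact good_row row0 (by decide) (by push_cast; linarith) (by push_cast; linarith) hd1 hd2
          hm hmd.le
      rcases le_total ρ (740 / 1000) with h2 | h2
      · exact good_row row1 (by decide) (by push_cast; linarith) (by push_cast; linarith) hd1 hd2
          hm hmd.le
      rcases le_total ρ (745 / 1000) with h3 | h3
      · exact good_row row2 (by decide) (by push_cast; linarith) (by push_cast; linarith) hd1 hd2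
          hm hmd.le
      · exact good_row row3 (by decide) (by push_cast; linarith) (by push_cast; linarith [h.1])
          hd1 hd2 hm hmd.le
    · have hm : |m| ≤ ((500 : ℕ) : ℝ) / 1000 := by push_cast; linarith [h.2.2]
      rcases le_total ρ (762 / 1000) with h1 | h1
      · exact good_row row4 (by decide) (by push_cast; linarith [h.1]) (by push_cast; linarith)
          hd1 hd2 hm hmd.le
      rcases le_total ρ (774 / 1000) with h2 | h2
      · exact good_row row5 (by decide) (by push_cast; linarith) (by push_cast; linarith) hd1 hd2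
          hm hmd.le
      rcases le_total ρ (787 / 1000) with h3 | h3
      · exact good_row row6 (by decide) (by push_cast; linarith) (by push_cast; linarith) hd1 hd2
          hm hmd.le
      · exact good_row row7 (by decide) (by push_cast; linarith) (by push_cast; linarith [h.2.1])
          hd1 hd2 hm hmd.le
    · have hm : |m| ≤ ((700 : ℕ) : ℝ) / 1000 := by push_cast; linarith [h.2.2]
      rcases le_total ρ (816 / 1000) with h1 | h1
      · exact good_row row8 (by decide) (by push_cast; linarith [h.1]) (by push_cast; linarith)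
          hd1 hd2 hm hmd.le
      rcases le_total ρ (833 / 1000) with h2 | h2
      · exact good_row row9 (by decide) (by push_cast; linarith) (by push_cast; linarith) hd1 hd2
          hm hmd.le
      · exact good_row row10 (by decide) (by push_cast; linarith) (by push_cast; linarith [h.2.1])
          hd1 hd2 hm hmd.le
  · refine ⟨1 - 9 / 25 * (1 - d), by linarith, by linarith, ?_⟩
    rw [PS_eq_PsiB (by linarith) (by linarith)]
    exact psiB_corner hρ0 hρ2 (by linarith) (by linarith) (by linarith)

/-- **Certificate B in the middle range** `91/125 ≤ ρ ≤ 17/20`. -/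
theorem certB_mid {ρ a b : ℝ} (hρ0 : 91 / 125 ≤ ρ)
    (ha : -1 < a) (hab : a < b) (hb : b < 1)
    (h : (ρ ≤ 3 / 4 ∧ |(a + b) / 2| ≤ 1 / 4) ∨ (3 / 4 ≤ ρ ∧ ρ ≤ 4 / 5 ∧ |(a + b) / 2| ≤ 1 / 2) ∨
      (4 / 5 ≤ ρ ∧ ρ ≤ 17 / 20 ∧ |(a + b) / 2| ≤ 7 / 10)) : CertB ρ (G ρ) a b := by
  have hmd : |(a + b) / 2| + (b - a) / 2 < 1 := by
    rcases abs_cases ((a + b) / 2) with h | h <;> linarith
  obtain ⟨t, ht0, ht1, ht⟩ := good_mid' hρ0 (d := (b - a) / 2) (by linarith) hmd h
  rw [PS_eq_PsiB (by linarith) ht0.le] at ht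
  have hρ1 : ρ ≤ 1 := by
    rcases h with h | h | h <;> linarith [h.1, h.2]
  have := certB_of_psiB (by linarith) hρ1 ht0 ht1 ht
  have e1 : (a + b) / 2 - (b - a) / 2 = a := by ring
  have e2 : (a + b) / 2 + (b - a) / 2 = b := by ring
  rwa [e1, e2] at this

end Vale.Agent.P322.BM
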