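import Vale.Agent.P322.Glue

/-!
# P322: the Lemma B certificate along a fixed `(d, t)`

`PsiB ρ t m d ≥ 0` is the Lemma B certificate at the pair `(m - d, m + d)`.
As a function of `m^2` it lies above its chord on `[0, m1^2]` as soon as
`(1 - d^2)^3 ≤ lamB ρ t * (1 + 3 d^2)`, so only `m = 0` and `m = m1` need a check.
-/

namespace Vale.Agent.P322

open Real Finset

/-- The Lemma B certificate quantity at the pair `(m - d, m + d)`. -/
noncomputable def PsiB (ρ t m d : ℝ) : ℝ :=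
  lamB ρ t * ((G ρ (m - d) + G ρ (m + d)) / 2) + (H (ρ * t) - lamB ρ t * H t) / t * d - G ρ m

theorem certB_of_psiB {ρ t m d : ℝ} (h0 : 0 ≤ ρ) (h1 : ρ ≤ 1) (ht0 : 0 < t) (ht1 : t < 1)
    (h : 0 ≤ PsiB ρ t m d) : CertB ρ (G ρ) (m - d) (m + d) := by
  refine ⟨t, ht0, ht1, ?_⟩
  have l0 := lamB_nonneg h0 h1 ht0 ht1
  have e1 : (m - d + (m + d)) / 2 = m := by ring
  have e2 : (m + d - (m - d)) / 2 = d := by ring
  rw [e1, e2]
  have k1 : G ρ (m - d) ≤ Ind.gt ρ (G ρ) (m - d) := le_max_left _ _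
  have k2 : G ρ (m + d) ≤ Ind.gt ρ (G ρ) (m + d) := le_max_left _ _
  unfold PsiB at h
  have k3 : lamB ρ t * ((G ρ (m - d) + G ρ (m + d)) / 2)
      ≤ lamB ρ t * ((Ind.gt ρ (G ρ) (m - d) + Ind.gt ρ (G ρ) (m + d)) / 2) :=
    mul_le_mul_of_nonneg_left (by linarith) l0
  linarith

/-- Power series of `psi`. -/
lemma psi_hasSum {x : ℝ} (hx : |x| < 1) :
    HasSum (fun k : ℕ => 1 / ((2 * (k : ℝ) + 1) * (2 * k + 2)) * (x ^ 2) ^ (k + 1)) (psi x) := by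
  have hx' := abs_lt.mp hx
  have hx2 : x ^ 2 < 1 := by nlinarith
  have s1 := (Real.hasSum_log_sub_log_of_abs_lt_one hx).mul_left (x / 2)
  have s2 := (Real.hasSum_pow_div_log_of_abs_lt_one (x := x ^ 2) (by
    rw [abs_of_nonneg (sq_nonneg x)]; exact hx2)).mul_left (1 / 2)
  have s3 := s1.sub s2
  have e : x / 2 * (Real.log (1 + x) - Real.log (1 - x)) - 1 / 2 * -Real.log (1 - x ^ 2)
      = psi x := by
    have h1 : Real.log (1 - x ^ 2) = Real.log (1 + x) + Real.log (1 - x) := by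
      rw [← Real.log_mul (by linarith) (by linarith)]; congr 1; ring
    rw [Ind.psi_eq, h1]
    unfold negMulLog
    ring
  rw [e] at s3
  refine s3.congr_fun fun k => ?_
  have k1 : (2 * (k : ℝ) + 1) ≠ 0 := by positivity
  have k2 : (k : ℝ) + 1 ≠ 0 := by positivity
  have k3 : x ^ (2 * k + 1) * x = (x ^ 2) ^ (k + 1) := by
    rw [← pow_mul, ← pow_succ]; congr 1
  rw [← k3]
  field_simp
  ring

/-- Coefficient growth. -/
lemma coef_ge {d lam : ℝ} (hd0 : 0 ≤ d) (hd1 : d < 1) (hl : 0 ≤ lam)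
    (hb : (1 - d ^ 2) ^ 3 ≤ lam * (1 + 3 * d ^ 2)) (k : ℕ) :
    1 ≤ lam / 2 * ((1 / (1 + d)) ^ (2 * k + 3) + (1 / (1 - d)) ^ (2 * k + 3)) := by
  have hp : 0 < 1 + d := by linarith
  have hm : 0 < 1 - d := by linarith
  set c := 1 / (1 + d) with hc
  set e := 1 / (1 - d) with he
  have hc0 : 0 < c := by positivity
  have he0 : 0 < e := by positivity
  have hce : c ≤ e := by
    rw [hc, he]; exact one_div_le_one_div_of_le hm (by linarith)
  have hprod : 1 ≤ c * e := by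
    rw [hc, he, one_div_mul_one_div, one_le_div (by positivity)]
    nlinarith
  have hsq : 1 - c ^ 2 ≤ e ^ 2 - 1 := by nlinarith [sq_nonneg (e - c)]
  have he1 : 1 ≤ e := by
    rw [he, one_le_div hm]; linarith
  have step : ∀ n : ℕ, c ^ n + e ^ n ≤ c ^ (n + 2) + e ^ (n + 2) := by
    intro n
    have h1 : c ^ n ≤ e ^ n := pow_le_pow_left₀ hc0.le hce n
    have h2 : 0 < c ^ n := by positivity
    have h3 : 0 ≤ e ^ 2 - 1 := by nlinarith
    have h4 : c ^ n * (1 - c ^ 2) ≤ e ^ n * (e ^ 2 - 1) :=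
      (mul_le_mul_of_nonneg_left hsq h2.le).trans (mul_le_mul_of_nonneg_right h1 h3)
    have h5 : c ^ (n + 2) = c ^ n * c ^ 2 := pow_add _ _ _
    have h6 : e ^ (n + 2) = e ^ n * e ^ 2 := pow_add _ _ _
    rw [h5, h6]
    nlinarith
  have base : 1 ≤ lam / 2 * (c ^ 3 + e ^ 3) := by
    have h7 : lam / 2 * (c ^ 3 + e ^ 3) = lam * (1 + 3 * d ^ 2) / (1 - d ^ 2) ^ 3 := by
      rw [hc, he]
      have : (1 - d ^ 2) = (1 - d) * (1 + d) := by ring
      rw [this]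
      field_simp
      ring
    rw [h7, one_le_div (by
      have : 0 < 1 - d ^ 2 := by nlinarith
      positivity)]
    exact hb
  induction k with
  | zero => simpa using base
  | succ k ih =>
    have h8 := step (2 * k + 3)
    have h9 : 2 * (k + 1) + 3 = 2 * k + 3 + 2 := by ring
    rw [h9]
    refine ih.trans (mul_le_mul_of_nonneg_left h8 (by positivity))

/-- The part of `PsiB` not affine in `m^2`. -/
noncomputable def Fd (lam d x : ℝ) : ℝ :=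
  psi x - lam / 2 * ((1 + d) * psi (x / (1 + d)) + (1 - d) * psi (x / (1 - d)))

lemma Fd_continuous (lam d : ℝ) : Continuous (Fd lam d) := by
  unfold Fd
  have h1 : Continuous fun x : ℝ => psi (x / (1 + d)) :=
    Ind.psi_continuous.comp (continuous_id.div_const _)
  have h2 : Continuous fun x : ℝ => psi (x / (1 - d)) :=
    Ind.psi_continuous.comp (continuous_id.div_const _)
  exact Ind.psi_continuous.sub (continuous_const.mul
    ((continuous_const.mul h1).add (continuous_const.mul h2)))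

lemma Fd_hasSum {lam d x : ℝ} (hd0 : 0 ≤ d) (hd1 : d < 1) (hx : |x| < 1 - d) :
    HasSum (fun k : ℕ => 1 / ((2 * (k : ℝ) + 1) * (2 * k + 2)) * (x ^ 2) ^ (k + 1)
      * (1 - lam / 2 * ((1 / (1 + d)) ^ (2 * k + 1) + (1 / (1 - d)) ^ (2 * k + 1))))
      (Fd lam d x) := by
  have hp : 0 < 1 + d := by linarith
  have hm : 0 < 1 - d := by linarith
  have s0 := psi_hasSum (x := x) (by linarith)
  have s1 := (psi_hasSum (x := x / (1 + d)) (by
    rw [abs_div, abs_of_pos hp, div_lt_one hp]; linarith)).mul_left (1 + d)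
  have s2 := (psi_hasSum (x := x / (1 - d)) (by
    rw [abs_div, abs_of_pos hm, div_lt_one hm]; linarith)).mul_left (1 - d)
  have s3 := s0.sub ((s1.add s2).mul_left (lam / 2))
  unfold Fd
  refine s3.congr_fun fun k => ?_
  have k1 : (1 + d) * (((x / (1 + d)) ^ 2) ^ (k + 1)) = (x ^ 2) ^ (k + 1) * (1 / (1 + d)) ^ (2 * k + 1) := by
    rw [div_pow, div_pow, ← pow_mul (1 + d), one_div_pow, show 2 * (k + 1) = 2 * k + 1 + 1 by ring,
      pow_succ (1 + d)]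
    field_simp
  have k2 : (1 - d) * (((x / (1 - d)) ^ 2) ^ (k + 1)) = (x ^ 2) ^ (k + 1) * (1 / (1 - d)) ^ (2 * k + 1) := by
    rw [div_pow, div_pow, ← pow_mul (1 - d), one_div_pow, show 2 * (k + 1) = 2 * k + 1 + 1 by ring,
      pow_succ (1 - d)]
    field_simp
  have k3 : (1 + d) * (1 / ((2 * (k : ℝ) + 1) * (2 * k + 2)) * ((x / (1 + d)) ^ 2) ^ (k + 1))
      = 1 / ((2 * (k : ℝ) + 1) * (2 * k + 2)) * ((x ^ 2) ^ (k + 1) * (1 / (1 + d)) ^ (2 * k + 1)) := by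
    rw [← k1]; ring
  have k4 : (1 - d) * (1 / ((2 * (k : ℝ) + 1) * (2 * k + 2)) * ((x / (1 - d)) ^ 2) ^ (k + 1))
      = 1 / ((2 * (k : ℝ) + 1) * (2 * k + 2)) * ((x ^ 2) ^ (k + 1) * (1 / (1 - d)) ^ (2 * k + 1)) := by
    rw [← k2]; ring
  rw [k3, k4]
  ring

lemma Fd_chord_lt {lam d m1 m : ℝ} (hd0 : 0 ≤ d) (hd1 : d < 1) (hl : 0 ≤ lam)
    (hb : (1 - d ^ 2) ^ 3 ≤ lam * (1 + 3 * d ^ 2)) (h1 : m1 < 1 - d)
    (hm : |m| ≤ m1) : m ^ 2 * Fd lam d m1 ≤ m1 ^ 2 * Fd lam d m := by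
  have hm0 := abs_nonneg m
  have s1 := (Fd_hasSum (lam := lam) (x := m1) hd0 hd1 (by rw [abs_of_nonneg (by linarith)]; exact h1)).mul_left (m ^ 2)
  have s2 := (Fd_hasSum (lam := lam) (x := m) hd0 hd1 (by linarith)).mul_left (m1 ^ 2)
  refine hasSum_le (fun k => ?_) s1 s2
  set a := 1 / ((2 * (k : ℝ) + 1) * (2 * k + 2)) with ha
  have ha0 : 0 < a := by positivity
  rcases Nat.eq_zero_or_pos k with hk | hk
  · subst hk
    apply le_of_eq
    ring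
  · obtain ⟨j, rfl⟩ : ∃ j, k = j + 1 := ⟨k - 1, by omega⟩
    have hc := coef_ge hd0 hd1 hl hb j
    rw [show 2 * j + 3 = 2 * (j + 1) + 1 by ring] at hc
    set B := lam / 2 * ((1 / (1 + d)) ^ (2 * (j + 1) + 1) + (1 / (1 - d)) ^ (2 * (j + 1) + 1))
    have hsq : m ^ 2 ≤ m1 ^ 2 := by
      rw [← sq_abs m]; exact pow_le_pow_left₀ hm0 hm 2
    have hpow : (m ^ 2) ^ (j + 1) ≤ (m1 ^ 2) ^ (j + 1) := pow_le_pow_left₀ (sq_nonneg m) hsq _
    have e1 : (m1 ^ 2) ^ (j + 1 + 1) = (m1 ^ 2) ^ (j + 1) * m1 ^ 2 := pow_succ _ _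
    have e2 : (m ^ 2) ^ (j + 1 + 1) = (m ^ 2) ^ (j + 1) * m ^ 2 := pow_succ _ _
    rw [e1, e2]
    have h3 : 0 ≤ a * (m ^ 2 * m1 ^ 2) * ((m1 ^ 2) ^ (j + 1) - (m ^ 2) ^ (j + 1)) * (B - 1) := by
      apply mul_nonneg (mul_nonneg (by positivity) (by linarith)) (by linarith)
    nlinarith [h3]

lemma Fd_chord {lam d m1 m : ℝ} (hd0 : 0 ≤ d) (hl : 0 ≤ lam)
    (hb : (1 - d ^ 2) ^ 3 ≤ lam * (1 + 3 * d ^ 2)) (h0 : 0 < m1) (h1 : m1 + d ≤ 1)
    (hm : |m| ≤ m1) : m ^ 2 * Fd lam d m1 ≤ m1 ^ 2 * Fd lam d m := by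
  have hd1 : d < 1 := by linarith
  rcases hm.lt_or_eq with hlt | heq
  · -- limit
    have hne : (Set.Ioo |m| m1).Nonempty := ⟨(|m| + m1) / 2, by constructor <;> linarith⟩
    have hcl : m1 ∈ closure (Set.Ioo |m| m1) := by
      rw [closure_Ioo hlt.ne]; exact ⟨hlt.le, le_rfl⟩
    have c1 : Continuous fun x : ℝ => m ^ 2 * Fd lam d x :=
      continuous_const.mul (Fd_continuous lam d)
    have c2 : Continuous fun x : ℝ => x ^ 2 * Fd lam d m := by fun_prop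
    have := le_on_closure (s := Set.Ioo |m| m1) (f := fun x : ℝ => m ^ 2 * Fd lam d x)
      (g := fun x : ℝ => x ^ 2 * Fd lam d m)
      (fun x hx => Fd_chord_lt hd0 hd1 hl hb (by linarith [hx.2]) hx.1.le)
      c1.continuousOn c2.continuousOn hcl
    exact this
  · rw [← heq, sq_abs]
    rcases abs_choice m with h | h
    · rw [h]
    · rw [h]
      have : Fd lam d (-m) = Fd lam d m := by
        unfold Fd
        rw [Ind.psi_neg, neg_div, neg_div, Ind.psi_neg, Ind.psi_neg]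
      rw [this]

lemma psiB_eq {ρ t m d : ℝ} (hd0 : 0 ≤ d) (hm : |m| + d ≤ 1) :
    PsiB ρ t m d = (1 - ρ ^ 2) * Fd (lamB ρ t) d m
      + (lamB ρ t * ((1 - ρ ^ 2) * H d + (H ρ - (1 - ρ ^ 2) * Real.log 2) * (1 - d ^ 2))
        + (H (ρ * t) - lamB ρ t * H t) / t * d - H ρ)
      + (H ρ - (1 - ρ ^ 2) * Real.log 2) * (1 - lamB ρ t) * m ^ 2 := by
  have hp := Ind.H_pair (w := d) (x := m) (by rw [abs_of_nonneg hd0]; linarith)
  have e1 : H (m - d) = H (d - m) := by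
    rw [← Ind.H_neg]; congr 1; ring
  have e2 : H (m + d) = H (d + m) := by rw [add_comm]
  have e3 : H m = Real.log 2 - psi m := by unfold psi; ring
  unfold PsiB G Fd
  rw [e1, e2, e3]
  set A := H (d + m)
  set B := H (d - m)
  have e4 : A + B = 2 * H d - (1 + d) * psi (m / (1 + d)) - (1 - d) * psi (m / (1 - d)) := hp
  linear_combination (lamB ρ t * (1 - ρ ^ 2) / 2) * e4

/-- Only the ends of the `m`-range need a check. -/
theorem psiB_conc {ρ t m m1 d : ℝ} (hρ0 : 0 ≤ ρ) (hρ1 : ρ ≤ 1) (hl : 0 ≤ lamB ρ t)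
    (hd0 : 0 ≤ d) (h0 : 0 < m1) (h1 : m1 + d ≤ 1)
    (hb : (1 - d ^ 2) ^ 3 ≤ lamB ρ t * (1 + 3 * d ^ 2))
    (hA : 0 ≤ PsiB ρ t 0 d) (hB : 0 ≤ PsiB ρ t m1 d) (hm : |m| ≤ m1) :
    0 ≤ PsiB ρ t m d := by
  have hc := Fd_chord hd0 hl hb h0 h1 hm
  have hm0 := abs_nonneg m
  rw [psiB_eq hd0 (by simpa using by linarith)] at hA
  rw [psiB_eq hd0 (by rw [abs_of_pos h0]; exact h1)] at hB
  rw [psiB_eq hd0 (by linarith)]
  have hF0 : Fd (lamB ρ t) d 0 = 0 := by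
    unfold Fd; simp [Ind.psi_zero]
  rw [hF0] at hA
  set F1 := Fd (lamB ρ t) d m1
  set F := Fd (lamB ρ t) d m
  set C0 := lamB ρ t * ((1 - ρ ^ 2) * H d + (H ρ - (1 - ρ ^ 2) * Real.log 2) * (1 - d ^ 2))
        + (H (ρ * t) - lamB ρ t * H t) / t * d - H ρ
  set C1 := (H ρ - (1 - ρ ^ 2) * Real.log 2) * (1 - lamB ρ t)
  have hs : 0 ≤ 1 - ρ ^ 2 := by nlinarith
  have hsq : m ^ 2 ≤ m1 ^ 2 := by
    rw [← sq_abs m]; exact pow_le_pow_left₀ hm0 hm 2
  have hm1 : 0 < m1 ^ 2 := by positivity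
  have hA' : 0 ≤ C0 := by nlinarith
  have k1 : 0 ≤ m ^ 2 * ((1 - ρ ^ 2) * F1 + C0 + C1 * m1 ^ 2) := mul_nonneg (sq_nonneg m) hB
  have k2 : 0 ≤ (m1 ^ 2 - m ^ 2) * C0 := mul_nonneg (by linarith) hA'
  have k3 := mul_le_mul_of_nonneg_left hc hs
  have k4 : 0 ≤ m1 ^ 2 * ((1 - ρ ^ 2) * F + C0 + C1 * m ^ 2) := by nlinarith
  exact nonneg_of_mul_nonneg_right k4 hm1

end Vale.Agent.P322
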