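import Vale.Agent.P322.BBox

/-!
# P322: certificate B for small `d`
-/

namespace Vale.Agent.P322.BM

open Real Set Vale.Agent.P322.Ind

lemma ath_le_cub {y : ℝ} (hy0 : 0 ≤ y) (hy1 : y < 1) :
    ath (2 / 5 * y) ≤ 2 / 5 * y + 2 / 5 * (2 / 5 * y) ^ 3 := by
  have h := nonneg_of_deriv (F := fun x => 2 / 5 * x + 2 / 5 * (2 / 5 * x) ^ 3 - ath (2 / 5 * x))
    (F' := fun x => 2 / 5 + 2 / 5 * (3 * (2 / 5 * x) ^ 2 * (2 / 5)) -
      1 / (1 - (2 / 5 * x) ^ 2) * (2 / 5))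
    (by simp [ath_zero])
    (by
      intro z hz0 hz1
      have h3 : HasDerivAt (fun y : ℝ => 2 / 5 * y) (2 / 5) z := by
        simpa using (hasDerivAt_id z).const_mul (2 / 5 : ℝ)
      have h2 := (ath_hasDerivAt (x := 2 / 5 * z) (by linarith) (by linarith)).comp z h3
      have h4 := (h3.pow 3).const_mul (2 / 5 : ℝ)
      have h5 := (h3.add h4).sub h2
      refine h5.congr_deriv ?_
      norm_num)
    (by
      intro z hz0 hz1
      have k1 : (2 / 5 * z) ^ 2 ≤ 1 / 6 := by nlinarith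
      have k0 : 0 ≤ (2 / 5 * z) ^ 2 := sq_nonneg _
      set w := (2 / 5 * z) ^ 2
      have k2 : 1 / (1 - w) ≤ 1 + 6 / 5 * w := by
        rw [div_le_iff₀ (by linarith)]
        nlinarith
      nlinarith)
    hy0 hy1
  linarith

lemma psi_le_quart' {y : ℝ} (hy0 : 0 ≤ y) (hy1 : y < 1) :
    psi (2 / 5 * y) ≤ (2 / 5 * y) ^ 2 / 2 + (2 / 5 * y) ^ 4 / 10 := by
  have h := nonneg_of_deriv (F := fun x => (2 / 5 * x) ^ 2 / 2 + (2 / 5 * x) ^ 4 / 10 -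
      psi (2 / 5 * x))
    (F' := fun x => (2 / 5 * x) * (2 / 5) + (4 * (2 / 5 * x) ^ 3 * (2 / 5)) / 10 -
      ath (2 / 5 * x) * (2 / 5))
    (by simp [psi_zero])
    (by
      intro z hz0 hz1
      have h3 : HasDerivAt (fun y : ℝ => 2 / 5 * y) (2 / 5) z := by
        simpa using (hasDerivAt_id z).const_mul (2 / 5 : ℝ)
      have h2 := (psi_hasDerivAt' (x := 2 / 5 * z) (by linarith) (by linarith)).comp z h3
      have h4 := (h3.pow 4).div_const (10 : ℝ)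
      have h6 := (h3.pow 2).div_const (2 : ℝ)
      have h5 := (h6.add h4).sub h2
      refine h5.congr_deriv ?_
      norm_num
      ring)
    (by
      intro z hz0 hz1
      have := ath_le_cub hz0 hz1
      nlinarith)
    hy0 hy1
  linarith

/-- `ψ x ≤ x²/2 + x⁴/10` for small `x` -/
lemma psi_le_quart {x : ℝ} (h0 : 0 ≤ x) (h1 : x ≤ 1 / 3) : psi x ≤ x ^ 2 / 2 + x ^ 4 / 10 := by
  have h := psi_le_quart' (y := 5 / 2 * x) (by linarith) (by linarith)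
  have e : 2 / 5 * (5 / 2 * x) = x := by ring
  rwa [e] at h

lemma psibar_le {m d : ℝ} (hd0 : 0 < d) (hm : |m| + 3 * d ≤ 1) :
    (psi (m + d) + psi (m - d)) / 2 - psi m ≤
      d ^ 2 / (2 * (1 - m ^ 2)) + d ^ 4 / 10 * ((1 + 3 * m ^ 2) / (1 - m ^ 2) ^ 3) := by
  have h1 := abs_le.mp (show |m| ≤ 1 - 3 * d by linarith)
  have hp : 0 < 1 + m := by linarith
  have hn : 0 < 1 - m := by linarith
  have hm2 : 0 < 1 - m ^ 2 := by nlinarith
  have h2 := H_pair (w := m) (x := d) (by rw [abs_of_pos hd0]; linarith)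
  have h3 := psi_le_quart (x := d / (1 + m)) (by positivity) (by
    rw [div_le_iff₀ hp]
    linarith)
  have h4 := psi_le_quart (x := d / (1 - m)) (by positivity) (by
    rw [div_le_iff₀ hn]
    linarith)
  have h5 := mul_le_mul_of_nonneg_left h3 hp.le
  have h6 := mul_le_mul_of_nonneg_left h4 hn.le
  have e1 : (1 + m) * ((d / (1 + m)) ^ 2 / 2 + (d / (1 + m)) ^ 4 / 10) +
      (1 - m) * ((d / (1 - m)) ^ 2 / 2 + (d / (1 - m)) ^ 4 / 10) =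
      2 * (d ^ 2 / (2 * (1 - m ^ 2)) + d ^ 4 / 10 * ((1 + 3 * m ^ 2) / (1 - m ^ 2) ^ 3)) := by
    have : (1 - m ^ 2) = (1 - m) * (1 + m) := by ring
    rw [this, mul_pow]
    field_simp
    ring
  unfold psi at *
  linarith

lemma phi_ge_of_t {s t : ℝ} (hs0 : 0 ≤ s) (hs1 : s ≤ 1) (ht0 : 0 ≤ t) (ht1 : t ≤ 1) :
    (1 - s) * t ^ 2 / 2 ≤ phi (s * t ^ 2) - H t := by
  have h1 : Real.sqrt (s * t ^ 2) = Real.sqrt s * t := by
    rw [Real.sqrt_mul hs0, Real.sqrt_sq ht0]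
  have h2 := psi_mul_le (r := Real.sqrt s) (x := t) (Real.sqrt_nonneg _)
    (Real.sqrt_le_one.mpr hs1) (by rw [abs_of_nonneg ht0]; exact ht1)
  rw [Real.sq_sqrt hs0] at h2
  have h3 := sq_div_two_le_psi (x := t) (by rw [abs_of_nonneg ht0]; exact ht1)
  unfold phi
  rw [h1]
  have h4 : (1 - s) * (t ^ 2 / 2) ≤ (1 - s) * psi t :=
    mul_le_mul_of_nonneg_left h3 (by linarith)
  unfold psi at h2 h4
  linarith

lemma logN_ge {s t : ℝ} (hs0 : 0 ≤ s) (hs1 : s ≤ 1) (ht0 : 0 < t) (ht1 : t < 1) :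
    (1 - s) * t ^ 2 / 2 ≤ (Real.log (1 - s * t ^ 2) - Real.log (1 - t ^ 2)) / 2 := by
  have hp := one_sub_pos hs1 ht0 ht1
  have hq : 0 < 1 - t ^ 2 := by nlinarith
  have h := Real.log_le_sub_one_of_pos (x := (1 - t ^ 2) / (1 - s * t ^ 2)) (by positivity)
  rw [Real.log_div hq.ne' hp.ne'] at h
  have h2 : (1 - t ^ 2) / (1 - s * t ^ 2) - 1 ≤ -((1 - s) * t ^ 2) := by
    rw [div_sub_one hp.ne', div_le_iff₀ hp]
    have : 0 ≤ (1 - s) * t ^ 2 * (s * t ^ 2) := by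
      have : 0 ≤ 1 - s := by linarith
      positivity
    nlinarith
  linarith

lemma L_mono {x y : ℝ} (hx : 0 ≤ x) (hxy : x ≤ y) (hy : y < 1) : L x ≤ L y := by
  unfold L
  have : Real.log (1 - y ^ 2) ≤ Real.log (1 - x ^ 2) :=
    Real.log_le_log (by nlinarith) (by nlinarith)
  linarith

lemma H_anti {x y : ℝ} (hx : 0 ≤ x) (hxy : x ≤ y) (hy : y ≤ 1) : H y ≤ H x := by
  have := phi_anti (x := x ^ 2) (y := y ^ 2) (by positivity) (by nlinarith) (by nlinarith)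
  rwa [phi_sq (hx.trans hxy), phi_sq hx] at this

lemma affine_ge {B0 k M M1 z : ℝ} (hM0 : 0 ≤ M) (hM1 : M ≤ M1) (h0 : z ≤ B0)
    (h1 : z ≤ B0 + M1 * k) : z ≤ B0 + M * k := by
  rcases le_total 0 k with h | h
  · nlinarith
  · nlinarith

/-- bound of the curvature term -/
lemma curv_le {d m M1 : ℝ} (hd0 : 0 < d) (hd1 : d ≤ 1 / 10) (hM : m ^ 2 ≤ M1) (hM1 : M1 < 1) :
    d ^ 2 / (2 * (1 - m ^ 2)) + d ^ 4 / 10 * ((1 + 3 * m ^ 2) / (1 - m ^ 2) ^ 3) ≤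
      d ^ 2 * (1 / 2 + m ^ 2 * (1 / (2 * (1 - M1))) +
        1 / 1000 * ((1 + 3 * M1) / (1 - M1) ^ 3)) := by
  have hm20 : 0 ≤ m ^ 2 := sq_nonneg m
  generalize m ^ 2 = M at *
  have q1 : 0 < 1 - M := by linarith
  have q2 : 0 < 1 - M1 := by linarith
  have r1 : 1 / (2 * (1 - M)) ≤ 1 / 2 + M * (1 / (2 * (1 - M1))) := by
    have : 1 / (2 * (1 - M)) = 1 / 2 + M * (1 / (2 * (1 - M))) := by
      field_simp
      ring
    rw [this]
    have : 1 / (2 * (1 - M)) ≤ 1 / (2 * (1 - M1)) :=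
      one_div_le_one_div_of_le (by linarith) (by linarith)
    have := mul_le_mul_of_nonneg_left this hm20
    linarith
  have r2 : (1 + 3 * M) / (1 - M) ^ 3 ≤ (1 + 3 * M1) / (1 - M1) ^ 3 := by
    apply div_le_div₀ (by linarith) (by linarith) (by positivity)
    exact pow_le_pow_left₀ q2.le (by linarith) 3
  have r3 : 0 ≤ (1 + 3 * M) / (1 - M) ^ 3 := by positivity
  have r4 : d ^ 2 ≤ 1 / 100 := by nlinarith
  have r5 : d ^ 4 / 10 * ((1 + 3 * M) / (1 - M) ^ 3) ≤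
      d ^ 2 * (1 / 1000 * ((1 + 3 * M1) / (1 - M1) ^ 3)) := by
    have e : d ^ 4 / 10 * ((1 + 3 * M) / (1 - M) ^ 3) =
        d ^ 2 * (d ^ 2 / 10 * ((1 + 3 * M) / (1 - M) ^ 3)) := by ring
    rw [e]
    apply mul_le_mul_of_nonneg_left _ (by positivity)
    exact mul_le_mul (by linarith) r2 r3 (by norm_num)
  have r6 : d ^ 2 / (2 * (1 - M)) ≤ d ^ 2 * (1 / 2 + M * (1 / (2 * (1 - M1)))) := by
    have e : d ^ 2 / (2 * (1 - M)) = d ^ 2 * (1 / (2 * (1 - M))) := by ring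
    rw [e]
    exact mul_le_mul_of_nonneg_left r1 (by positivity)
  linarith

/-- final arithmetic, with `A = c/2 + c²/(2Lu) X0 - 1/2 - E`, `K = c²/(2Lu) σ0/2`, `R = 1/(2(1-M1))` -/
lemma small_arith {σ σ0 τ τ1 A K R M M1 : ℝ} (hM0 : 0 ≤ M) (hM1 : M ≤ M1) (hσ0 : 0 < σ0)
    (hσ : σ0 ≤ σ) (hτ0 : 0 ≤ τ) (hτ : τ ≤ τ1) (h0 : τ1 ≤ σ0 * A)
    (h1 : τ1 ≤ σ0 * (A + M1 * (K - R))) : τ ≤ σ * (A + M * (K - R)) := by
  have a1 : τ1 ≤ σ0 * A + M * (σ0 * (K - R)) := by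
    apply affine_ge hM0 hM1 h0
    linarith
  have a2 : τ1 ≤ σ0 * (A + M * (K - R)) := by linarith
  have a3 : 0 ≤ A + M * (K - R) := by
    by_contra h
    push Not at h
    have := mul_neg_of_pos_of_neg hσ0 h
    linarith
  exact hτ.trans (a2.trans (mul_le_mul_of_nonneg_right hσ a3))

/-- the decomposition of `PS` at `t = c d` -/
lemma PS_small_eq {s d m c : ℝ} (hd0 : 0 < d) (hc : 0 < c) (hct : c * d < 1) :
    PS s m d (c * d) = (phi (s * (c * d) ^ 2) - H (c * d)) / c +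
      (Real.log (1 - s * (c * d) ^ 2) - Real.log (1 - (c * d) ^ 2)) / 2 / L (c * d) *
        (H (c * d) / c - (GS s (m - d) + GS s (m + d)) / 2) -
      ((1 - s) * ((psi (m + d) + psi (m - d)) / 2 - psi m) + tauS s * d ^ 2) := by
  have ht0 : 0 < c * d := by positivity
  have hLt := L_pos ht0 hct
  have hlam : lamS s (c * d) =
      1 - (Real.log (1 - s * (c * d) ^ 2) - Real.log (1 - (c * d) ^ 2)) / 2 / L (c * d) := by
    unfold lamS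
    rw [eq_sub_iff_add_eq, ← add_div, div_eq_one_iff_eq hLt.ne']
    unfold L
    ring
  have hdt : ∀ z : ℝ, d * z / (c * d) = z / c := by
    intro z
    field_simp
  unfold PS KS
  rw [hlam, hdt, hdt]
  unfold GS psi
  ring

lemma g_le {s m : ℝ} (hs0 : 0 ≤ s) (hs1 : s ≤ 1) (hm : |m| ≤ 1) :
    GS s m ≤ phi s - m ^ 2 * ((1 - s) / 2) := by
  have hτ0 := tauS_nonneg hs0 hs1
  have h5 := sq_div_two_le_psi (x := m) hm
  have h6 := mul_le_mul_of_nonneg_left h5 (by linarith : 0 ≤ 1 - s)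
  have h7 : 0 ≤ tauS s * m ^ 2 := by positivity
  unfold GS
  unfold psi at h6
  have h8 : phi s = tauS s + (1 - s) * Real.log 2 := by unfold tauS; ring
  rw [h8]
  linarith

/-- **Small `d`.** -/
theorem small_core {s d m c t1 Lu X0 M1 σ0 τ1 : ℝ} (hs0 : 0 ≤ s) (hs1 : s ≤ 1) (hd0 : 0 < d)
    (hd1 : d ≤ 1 / 10) (hc : 0 < c) (ht1 : t1 < 1) (hct : c * d ≤ t1) (hLu : L t1 ≤ Lu)
    (hX0 : 0 ≤ X0) (hX : X0 ≤ H t1 / c - phi s) (hM : m ^ 2 ≤ M1) (hM1 : M1 < 1)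
    (hmd : |m| + 3 * d ≤ 1) (hσ0 : 0 < σ0) (hσ : σ0 ≤ 1 - s) (hτ : tauS s ≤ τ1)
    (h0 : τ1 ≤ σ0 * (c / 2 + c ^ 2 / (2 * Lu) * X0 - 1 / 2 -
      1 / 1000 * ((1 + 3 * M1) / (1 - M1) ^ 3)))
    (h1 : τ1 ≤ σ0 * (c / 2 + c ^ 2 / (2 * Lu) * X0 - 1 / 2 -
      1 / 1000 * ((1 + 3 * M1) / (1 - M1) ^ 3) +
        M1 * (c ^ 2 / (2 * Lu) * σ0 / 2 - 1 / (2 * (1 - M1))))) :
    0 ≤ PS s m d (c * d) := by
  have htl : c * d < 1 := lt_of_le_of_lt hct ht1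
  rw [PS_small_eq hd0 hc htl]
  have ht0 : 0 < c * d := by positivity
  have hLt := L_pos ht0 htl
  have hLtu : L (c * d) ≤ Lu := (L_mono ht0.le hct ht1).trans hLu
  have hLu0 : 0 < Lu := lt_of_lt_of_le hLt hLtu
  have hHt : H t1 ≤ H (c * d) := H_anti ht0.le hct ht1.le
  have h1m := abs_le.mp (show |m| ≤ 1 - 3 * d by linarith)
  have hN1 := logN_ge hs0 hs1 ht0 htl
  have hf := phi_ge_of_t hs0 hs1 ht0.le htl.le
  have hσ' : 0 ≤ 1 - s := by linarith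
  have hGb := GS_chord hs0 hs1 (x := m - d) (y := m + d) ⟨by linarith, by linarith⟩
      ⟨by linarith, by linarith⟩ (a := 1 / 2) (b := 1 / 2) (by norm_num) (by norm_num) (by norm_num)
  have e : 1 / 2 * (m - d) + 1 / 2 * (m + d) = m := by ring
  rw [e] at hGb
  have hgle := g_le (m := m) hs0 hs1 (by rw [abs_le]; constructor <;> linarith)
  have hb1 : X0 + m ^ 2 * ((1 - s) / 2) ≤
      H (c * d) / c - (GS s (m - d) + GS s (m + d)) / 2 := by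
    have : H t1 / c ≤ H (c * d) / c := div_le_div_of_nonneg_right hHt hc.le
    linarith
  have hσm : X0 + m ^ 2 * (σ0 / 2) ≤ X0 + m ^ 2 * ((1 - s) / 2) := by
    have := mul_le_mul_of_nonneg_left hσ (sq_nonneg m)
    linarith
  have hσm0 : 0 ≤ X0 + m ^ 2 * (σ0 / 2) := by positivity
  have hNL : (1 - s) * (c * d) ^ 2 / 2 / Lu ≤
      (Real.log (1 - s * (c * d) ^ 2) - Real.log (1 - (c * d) ^ 2)) / 2 / L (c * d) := by
    apply div_le_div₀ _ hN1 hLt hLtu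
    refine le_trans ?_ hN1
    positivity
  have hNL0 : 0 ≤ (1 - s) * (c * d) ^ 2 / 2 / Lu := by positivity
  have hterm2 := mul_le_mul hNL (hσm.trans hb1) hσm0 (hNL0.trans hNL)
  have hterm1 : (1 - s) * (c * d) ^ 2 / 2 / c ≤ (phi (s * (c * d) ^ 2) - H (c * d)) / c :=
    div_le_div_of_nonneg_right hf hc.le
  have hP2 := mul_le_mul_of_nonneg_left ((psibar_le hd0 hmd).trans (curv_le hd0 hd1 hM hM1)) hσ'
  have hkey := small_arith (sq_nonneg m) hM hσ0 hσ (tauS_nonneg hs0 hs1) hτ h0 h1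
  have hfin := mul_le_mul_of_nonneg_left hkey (sq_nonneg d)
  have e1 : (1 - s) * (c * d) ^ 2 / 2 / c = d ^ 2 * ((1 - s) * (c / 2)) := by
    field_simp
  have e2 : (1 - s) * (c * d) ^ 2 / 2 / Lu * (X0 + m ^ 2 * (σ0 / 2)) =
      d ^ 2 * ((1 - s) * (c ^ 2 / (2 * Lu) * X0 + m ^ 2 * (c ^ 2 / (2 * Lu) * σ0 / 2))) := by
    field_simp
  rw [e1] at hterm1
  rw [e2] at hterm2
  have e3 : d ^ 2 * ((1 - s) * (c / 2 + c ^ 2 / (2 * Lu) * X0 - 1 / 2 -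
      1 / 1000 * ((1 + 3 * M1) / (1 - M1) ^ 3) +
        m ^ 2 * (c ^ 2 / (2 * Lu) * σ0 / 2 - 1 / (2 * (1 - M1))))) =
      d ^ 2 * ((1 - s) * (c / 2)) + d ^ 2 * ((1 - s) * (c ^ 2 / (2 * Lu) * X0 +
        m ^ 2 * (c ^ 2 / (2 * Lu) * σ0 / 2))) - (1 - s) * (d ^ 2 * (1 / 2 + m ^ 2 *
          (1 / (2 * (1 - M1))) + 1 / 1000 * ((1 + 3 * M1) / (1 - M1) ^ 3))) := by ring
  rw [e3] at hfin
  linarith

/-- lower bound of `H(t1)/c - H(ρ)`, `t1 = cN/1000`, `c = cN/100` -/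
def sX (a0 cN : ℕ) : ℚ := HL cN 1000 / ((cN : ℚ) / 100) - HU a0 1000

/-- the constant `A` -/
def sA (a0 cN m1 : ℕ) : ℚ :=
  (cN : ℚ) / 100 / 2 + ((cN : ℚ) / 100) ^ 2 / (2 * LHi cN 1000) * sX a0 cN - 1 / 2 -
    1 / 1000 * ((1 + 3 * q m1 ^ 2) / (1 - q m1 ^ 2) ^ 3)

/-- upper bound of `τ` -/
def sT (a0 a1 cc : ℕ) : ℚ := max (ttU cc a0) (ttU cc a1)

/-- numerical conditions for `0 < d ≤ 1/10`, `ρ ∈ [a0,a1]`, `|m| ≤ m1` with `t = (cN/100) d` -/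
def smallOK (a0 a1 cc cN m1 : ℕ) : Bool :=
  decide (0 < cN) && decide (cN < 1000) && decide (a0 ≤ a1) && decide (a1 < 1000) &&
    decide (m1 ≤ 700) && decide (0 < cc) && decide (cc < 1000) && decide (0 ≤ sX a0 cN) &&
    decide (sT a0 a1 cc ≤ (1 - q a1 ^ 2) * sA a0 cN m1) &&
    decide (sT a0 a1 cc ≤ (1 - q a1 ^ 2) * (sA a0 cN m1 + q m1 ^ 2 *
      (((cN : ℚ) / 100) ^ 2 / (2 * LHi cN 1000) * (1 - q a1 ^ 2) / 2 -
        1 / (2 * (1 - q m1 ^ 2)))))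

lemma tt_mid {cc a0 a1 : ℕ} (hc0 : 0 < cc) (hc1 : cc < 1000) {s : ℝ}
    (h0 : ((a0 : ℝ) / 1000) ^ 2 ≤ s) (h1 : s ≤ ((a1 : ℝ) / 1000) ^ 2) (hs1 : s ≤ 1) :
    tauS s ≤ (sT a0 a1 cc : ℝ) := by
  have hcc0 := x_pos hc0
  have hcc1 := x_lt_one hc1
  have hs0 : 0 ≤ s := le_trans (by positivity) h0
  have hA : tauS s ≤ tt (((cc : ℝ) / 1000) ^ 2) s := by
    have := phi_tangent' (x := s) (y := ((cc : ℝ) / 1000) ^ 2) ⟨hs0, hs1⟩ (by positivity)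
      (by nlinarith)
    unfold tt tauS
    linarith
  refine hA.trans ?_
  have b0 := tt_le (a := a0) hc0 hc1
  have b1 := tt_le (a := a1) hc0 hc1
  unfold sT
  push_cast
  have key : tt (((cc : ℝ) / 1000) ^ 2) s ≤
      max (tt (((cc : ℝ) / 1000) ^ 2) (((a0 : ℝ) / 1000) ^ 2))
        (tt (((cc : ℝ) / 1000) ^ 2) (((a1 : ℝ) / 1000) ^ 2)) := by
    unfold tt
    rcases le_total 0 (dphi (((cc : ℝ) / 1000) ^ 2) + Real.log 2) with h | h
    · refine le_trans ?_ (le_max_right _ _)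
      have := mul_le_mul_of_nonneg_left h1 h
      linarith
    · refine le_trans ?_ (le_max_left _ _)
      have := mul_le_mul_of_nonpos_left h0 h
      linarith
  exact key.trans (max_le_max b0 b1)

theorem smallOK_sound {a0 a1 cc cN m1 : ℕ} (h : smallOK a0 a1 cc cN m1 = true) {ρ d m : ℝ}
    (hρ0 : (a0 : ℝ) / 1000 ≤ ρ) (hρ1 : ρ ≤ (a1 : ℝ) / 1000) (hd0 : 0 < d) (hd1 : d ≤ 1 / 10)
    (hm : |m| ≤ (m1 : ℝ) / 1000) : ∃ t : ℝ, 0 < t ∧ t < 1 ∧ 0 ≤ PS (ρ ^ 2) m d t := by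
  unfold smallOK at h
  simp only [Bool.and_eq_true, decide_eq_true_iff] at h
  obtain ⟨⟨⟨⟨⟨⟨⟨⟨⟨c1, c2⟩, c3⟩, c4⟩, c5⟩, c6⟩, c7⟩, c8⟩, c9⟩, c10⟩ := h
  have hρn : 0 ≤ ρ := le_trans (x_nonneg a0) hρ0
  have ha1 := x_lt_one c4
  have hρl : ρ < 1 := lt_of_le_of_lt hρ1 ha1
  have hc : (0 : ℝ) < (cN : ℝ) / 100 := by positivity
  have hs0 : ((a0 : ℝ) / 1000) ^ 2 ≤ ρ ^ 2 := pow_le_pow_left₀ (x_nonneg a0) hρ0 2
  have hs1 : ρ ^ 2 ≤ ((a1 : ℝ) / 1000) ^ 2 := pow_le_pow_left₀ hρn hρ1 2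
  have hm1 : (m1 : ℝ) / 1000 ≤ 7 / 10 := by
    have : (m1 : ℝ) ≤ 700 := by exact_mod_cast c5
    linarith
  have hct : (cN : ℝ) / 100 * d ≤ (cN : ℝ) / 1000 := by nlinarith
  have k1 : ((sT a0 a1 cc : ℚ) : ℝ) ≤ (((1 - q a1 ^ 2) * sA a0 cN m1 : ℚ) : ℝ) := by
    exact_mod_cast c9
  have k2 : ((sT a0 a1 cc : ℚ) : ℝ) ≤ (((1 - q a1 ^ 2) * (sA a0 cN m1 + q m1 ^ 2 *
      (((cN : ℚ) / 100) ^ 2 / (2 * LHi cN 1000) * (1 - q a1 ^ 2) / 2 -
        1 / (2 * (1 - q m1 ^ 2)))) : ℚ) : ℝ) := by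
    exact_mod_cast c10
  have k3 : (0 : ℝ) ≤ (sX a0 cN : ℝ) := by exact_mod_cast c8
  unfold sA at k1 k2
  push_cast at k1 k2
  rw [q_cast, q_cast] at k1 k2
  refine ⟨(cN : ℝ) / 100 * d, by positivity, lt_of_le_of_lt hct (x_lt_one c2), ?_⟩
  refine small_core (t1 := (cN : ℝ) / 1000) (Lu := (LHi cN 1000 : ℝ)) (X0 := (sX a0 cN : ℝ))
    (M1 := ((m1 : ℝ) / 1000) ^ 2) (σ0 := 1 - ((a1 : ℝ) / 1000) ^ 2) (τ1 := (sT a0 a1 cc : ℝ))
    (sq_nonneg _) (by nlinarith) hd0 hd1 hc (x_lt_one c2) hct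
    (by simpa using le_LHi (u := cN) (v := 1000) c2) k3 ?_ ?_ ?_ ?_ ?_ ?_ ?_ k1 k2
  · unfold sX
    push_cast
    have h1 := HL_le' c2.le
    have h2 : phi (ρ ^ 2) ≤ (HU a0 1000 : ℝ) := by
      rw [phi_sq hρn]
      exact (H_anti (x_nonneg a0) hρ0 hρl.le).trans (le_HU' (c3.trans c4.le))
    have h3 := div_le_div_of_nonneg_right h1 hc.le
    linarith
  · rw [← sq_abs m]
    exact pow_le_pow_left₀ (abs_nonneg _) hm 2
  · have := x_nonneg m1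
    nlinarith
  · linarith
  · have := x_nonneg a1
    nlinarith
  · linarith
  · exact tt_mid c6 c7 hs0 hs1 (by nlinarith)

theorem small0 : smallOK 728 750 800 169 250 = true := by decide +kernel
theorem small1 : smallOK 750 800 800 179 500 = true := by decide +kernel
theorem small2 : smallOK 800 825 800 205 700 = true := by decide +kernel
theorem small3 : smallOK 825 850 800 222 700 = true := by decide +kernel

end Vale.Agent.P322.BM
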