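import Vale.Agent.P322.BTable
import Vale.Agent.P322.BSmall
import Vale.Agent.P322.BPsi

/-!
# P322: assembly of certificate B for `ρ² ≥ 53/100`, `ρ ≤ 17/20`
-/

namespace Vale.Agent.P322.BM

open Real Set Vale.Agent.P322.Ind

lemma PS_eq_PsiB {ρ : ℝ} (h0 : 0 ≤ ρ) {t : ℝ} (ht : 0 ≤ t) (m d : ℝ) :
    PS (ρ ^ 2) m d t = PsiB ρ t m d := by
  have e1 : lamS (ρ ^ 2) t = lamB ρ t := by
    unfold lamS lamB
    have : L (ρ * t) = Real.log 2 - Real.log (1 - ρ ^ 2 * t ^ 2) / 2 := by
      unfold L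
      rw [mul_pow]
    rw [this]
  have e2 : ∀ a : ℝ, GS (ρ ^ 2) a = G ρ a := by
    intro a
    unfold GS G tauS
    rw [phi_sq h0]
  have e3 : phi (ρ ^ 2 * t ^ 2) = H (ρ * t) := by
    rw [← mul_pow, phi_sq (mul_nonneg h0 ht)]
  unfold PS KS PsiB
  rw [e1, e2, e2, e2, e3]
  ring

/-- existence of a good parameter -/
def Good (ρ m d : ℝ) : Prop := ∃ t : ℝ, 0 < t ∧ t < 1 ∧ 0 ≤ PS (ρ ^ 2) m d t

/-- the corner `d > 97/100` -/
def Corner : Prop := ∀ ρ m d : ℝ, 53 / 100 ≤ ρ ^ 2 → 0 ≤ ρ → ρ ≤ 17 / 20 → 97 / 100 ≤ d → d < 1 →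
  |m| ≤ 1 - d → Good ρ m d

lemma good_row {a0 a1 c m1 : ℕ} {l : List (ℕ × ℕ)} (h : rowOK a0 a1 c m1 100 l = true)
    (hl : lastD 100 l = 970) {ρ m d : ℝ} (h0 : (a0 : ℝ) / 1000 ≤ ρ) (h1 : ρ ≤ (a1 : ℝ) / 1000)
    (hd0 : 1 / 10 < d) (hd1 : d ≤ 97 / 100) (hm : |m| ≤ (m1 : ℝ) / 1000) (hmd : |m| + d ≤ 1) :
    Good ρ m d := by
  refine rowOK_sound h h0 h1 (by push_cast; linarith) ?_ hm hmd
  rw [hl]
  push_cast
  linarith

lemma good_mid (hcor : Corner) {ρ m d : ℝ} (hρ0 : 0 ≤ ρ) (hs : 53 / 100 ≤ ρ ^ 2) (hd0 : 0 < d)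
    (hmd : |m| + d < 1)
    (h : (ρ ≤ 3 / 4 ∧ |m| ≤ 1 / 4) ∨ (3 / 4 ≤ ρ ∧ ρ ≤ 4 / 5 ∧ |m| ≤ 1 / 2) ∨
      (4 / 5 ≤ ρ ∧ ρ ≤ 17 / 20 ∧ |m| ≤ 7 / 10)) : Good ρ m d := by
  have hρ1 : 728 / 1000 ≤ ρ := by
    by_contra hh
    push Not at hh
    nlinarith
  have hm0 := abs_nonneg m
  have hρ2 : ρ ≤ 17 / 20 := by
    rcases h with h | h | h <;> linarith [h.1, h.2]
  rcases le_or_gt d (1 / 10) with hd1 | hd1
  · rcases h with h | h | h
    · exact smallOK_sound small0 (by push_cast; linarith) (by push_cast; linarith [h.1]) hd0 hd1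
        (by push_cast; linarith [h.2])
    · exact smallOK_sound small1 (by push_cast; linarith [h.1]) (by push_cast; linarith [h.2.1])
        hd0 hd1 (by push_cast; linarith [h.2.2])
    · rcases le_total ρ (825 / 1000) with h' | h'
      · exact smallOK_sound small2 (by push_cast; linarith [h.1]) (by push_cast; linarith)
          hd0 hd1 (by push_cast; linarith [h.2.2])
      · exact smallOK_sound small3 (by push_cast; linarith) (by push_cast; linarith [h.2.1])
          hd0 hd1 (by push_cast; linarith [h.2.2])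
  rcases le_or_gt d (97 / 100) with hd2 | hd2
  · rcases h with h | h | h
    · have hm : |m| ≤ ((250 : ℕ) : ℝ) / 1000 := by push_cast; linarith [h.2]
      rcases le_total ρ (734 / 1000) with h1 | h1
      · exact good_row row0 (by decide) (by push_cast; linarith) (by push_cast; linarith) hd1 hd2
          hm hmd.le
      rcases le_total ρ (740 / 1000) with h2 | h2
      · exact good_row row1 (by decide) (by push_cast; linarith) (by push_cast; linarith) hd1 hd2
          hm hmd.le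
      rcases le_total ρ (745 / 1000) with h3 | h3
      · exact good_row row2 (by decide) (by push_cast; linarith) (by push_cast; linarith) hd1 hd2
          hm hmd.le
      · exact good_row row3 (by decide) (by push_cast; linarith) (by push_cast; linarith [h.1])
          hd1 hd2 hm hmd.le
    · have hm : |m| ≤ ((500 : ℕ) : ℝ) / 1000 := by push_cast; linarith [h.2.2]
      rcases le_total ρ (762 / 1000) with h1 | h1
      · exact good_row row4 (by decide) (by push_cast; linarith [h.1]) (by push_cast; linarith)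
          hd1 hd2 hm hmd.le
      rcases le_total ρ (774 / 1000) with h2 | h2
      · exact good_row row5 (by decide) (by push_cast; linarith) (by push_cast; linarith) hd1 hd2
          hm hmd.le
      rcases le_total ρ (787 / 1000) with h3 | h3
      · exact good_row row6 (by decide) (by push_cast; linarith) (by push_cast; linarith) hd1 hd2
          hm hmd.le
      · exact good_row row7 (by decide) (by push_cast; linarith) (by push_cast; linarith [h.2.1])
          hd1 hd2 hm hmd.le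
    · have hm : |m| ≤ ((700 : ℕ) : ℝ) / 1000 := by push_cast; linarith [h.2.2]
      rcases le_total ρ (816 / 1000) with h1 | h1
      · exact good_row row8 (by decide) (by push_cast; linarith [h.1]) (by push_cast; linarith)
          hd1 hd2 hm hmd.le
      rcases le_total ρ (833 / 1000) with h2 | h2
      · exact good_row row9 (by decide) (by push_cast; linarith) (by push_cast; linarith) hd1 hd2
          hm hmd.le
      · exact good_row row10 (by decide) (by push_cast; linarith) (by push_cast; linarith [h.2.1])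
          hd1 hd2 hm hmd.le
  · exact hcor ρ m d hs hρ0 hρ2 hd2.le (by linarith) (by linarith)

/-- **Certificate B in the middle range**, given the corner. -/
theorem certB_mid_of_corner (hcor : Corner) {ρ a b : ℝ} (hρ0 : 0 ≤ ρ) (hs : 53 / 100 ≤ ρ ^ 2)
    (ha : -1 < a) (hab : a < b) (hb : b < 1)
    (h : (ρ ≤ 3 / 4 ∧ |(a + b) / 2| ≤ 1 / 4) ∨ (3 / 4 ≤ ρ ∧ ρ ≤ 4 / 5 ∧ |(a + b) / 2| ≤ 1 / 2) ∨
      (4 / 5 ≤ ρ ∧ ρ ≤ 17 / 20 ∧ |(a + b) / 2| ≤ 7 / 10)) : CertB ρ (G ρ) a b := by
  have hmd : |(a + b) / 2| + (b - a) / 2 < 1 := by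
    rcases abs_cases ((a + b) / 2) with h | h <;> linarith
  obtain ⟨t, ht0, ht1, ht⟩ := good_mid hcor hρ0 hs (d := (b - a) / 2) (by linarith) hmd h
  rw [PS_eq_PsiB hρ0 ht0.le] at ht
  have hρ1 : ρ ≤ 1 := by
    rcases h with h | h | h <;> linarith [h.1, h.2]
  have := certB_of_psiB hρ0 hρ1 ht0 ht1 ht
  have e1 : (a + b) / 2 - (b - a) / 2 = a := by ring
  have e2 : (a + b) / 2 + (b - a) / 2 = b := by ring
  rwa [e1, e2] at this

end Vale.Agent.P322.BM
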