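import Vale.Agent.P322.BBox

/-!
# P322: kernel evaluation of the boxes for certificate B
-/

namespace Vale.Agent.P322.BM

set_option maxRecDepth 100000

theorem row0 : rowOK 728 734 731 250 100 [(271, 253), (581, 591), (784, 904), (866, 931), (941, 965), (970, 985)] = true := by decide +kernel

theorem row1 : rowOK 734 740 737 250 100 [(271, 255), (581, 594), (819, 909), (911, 950), (970, 981)] = true := by decide +kernel

theorem row2 : rowOK 740 745 743 250 100 [(271, 256), (581, 597), (819, 911), (911, 952), (970, 982)] = true := by decide +kernel

theorem row3 : rowOK 745 750 748 250 100 [(271, 258), (581, 600), (819, 913), (911, 953), (970, 982)] = true := by decide +kernel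

theorem row4 : rowOK 750 762 756 500 100 [(223, 258), (426, 546), (551, 816), (633, 838), (741, 881), (860, 930), (939, 968), (970, 987)] = true := by decide +kernel

theorem row5 : rowOK 762 774 768 500 100 [(245, 280), (442, 588), (611, 829), (746, 885), (862, 935), (953, 974), (970, 989)] = true := by decide +kernel

theorem row6 : rowOK 774 787 781 500 100 [(245, 284), (442, 595), (641, 843), (786, 906), (918, 958), (970, 986)] = true := by decide +kernel

theorem row7 : rowOK 787 800 794 500 100 [(245, 288), (442, 603), (676, 860), (829, 928), (948, 973), (970, 990)] = true := by decide +kernel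

theorem row8 : rowOK 800 816 808 700 100 [(189, 311), (283, 550), (418, 727), (594, 827), (790, 913), (920, 966), (970, 989)] = true := by decide +kernel

theorem row9 : rowOK 816 833 825 700 100 [(205, 338), (297, 614), (480, 771), (697, 880), (894, 956), (970, 988)] = true := by decide +kernel

theorem row10 : rowOK 833 850 842 700 100 [(205, 345), (333, 646), (537, 807), (763, 917), (938, 976), (970, 992)] = true := by decide +kernel

end Vale.Agent.P322.BM
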