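import Vale.Agent.P322.CertACore

/-!
# The corner `(a,b) → (-1,1)` of the S3 inequality at `ρ = 91/125`
-/

namespace Vale.Agent.P322

open Real Vale.Agent.P322.Num

lemma psi_le_taylor {r v v1 : ℝ} (hr0 : 0 ≤ r) (hr : r ≤ v1) (hv0 : 0 ≤ v) (hv : v ≤ v1)
    (hv1 : v1 < 1) :
    psi v ≤ psi r + Ind.ath r * (v - r) + 1 / (1 - v1 ^ 2) / 2 * (v - r) ^ 2 := by
  obtain ⟨C, hC⟩ : ∃ C, C = 1 / (1 - v1 ^ 2) := ⟨_, rfl⟩
  rw [← hC]
  have hv10 : 0 ≤ v1 := hr0.trans hr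
  have hder : ∀ t : ℝ, 0 ≤ t → t ≤ v1 → HasDerivAt (fun t => C * t - Ind.ath t)
      (C * 1 - 1 / (1 - t ^ 2)) t := fun t h0 h1 =>
    ((hasDerivAt_id t).const_mul C).sub (Ind.ath_hasDerivAt (by linarith) (by linarith))
  have hmono : MonotoneOn (fun t => C * t - Ind.ath t) (Set.Icc 0 v1) := by
    apply monotoneOn_of_deriv_nonneg (convex_Icc _ _)
    · intro t ht
      exact (hder t ht.1 ht.2).continuousAt.continuousWithinAt
    · intro t ht
      rw [interior_Icc] at ht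
      exact (hder t ht.1.le ht.2.le).differentiableAt.differentiableWithinAt
    · intro t ht
      rw [interior_Icc] at ht
      rw [(hder t ht.1.le ht.2.le).deriv, hC]
      have k1 : t ^ 2 ≤ v1 ^ 2 := pow_le_pow_left₀ ht.1.le ht.2.le 2
      have k2 : v1 ^ 2 < 1 := by nlinarith
      have : 1 / (1 - t ^ 2) ≤ 1 / (1 - v1 ^ 2) :=
        one_div_le_one_div_of_le (by linarith) (by linarith)
      linarith
  obtain ⟨k, hk⟩ : ∃ k : ℝ → ℝ, k = fun t => psi r + Ind.ath r * (t - r) + C / 2 * (t - r) ^ 2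
      - psi t := ⟨_, rfl⟩
  have hkd : ∀ t : ℝ, 0 ≤ t → t ≤ v1 → HasDerivAt k
      ((C * t - Ind.ath t) - (C * r - Ind.ath r)) t := by
    intro t h0 h1
    have d1 : HasDerivAt (fun t : ℝ => t - r) 1 t := (hasDerivAt_id t).sub_const r
    have d2 := (d1.const_mul (Ind.ath r)).const_add (psi r)
    have d3 := (d1.pow 2).const_mul (C / 2)
    have d4 := (d2.add d3).sub (Ind.psi_hasDerivAt' (x := t) (by linarith) (by linarith))
    rw [hk]
    refine d4.congr_deriv ?_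
    push_cast
    ring
  have hkr : k r = 0 := by rw [hk]; simp
  have goal : 0 ≤ k v := by
    rcases le_total r v with h | h
    · have hm : MonotoneOn k (Set.Icc r v1) := by
        apply monotoneOn_of_deriv_nonneg (convex_Icc _ _)
        · intro t ht
          exact (hkd t (hr0.trans ht.1) ht.2).continuousAt.continuousWithinAt
        · intro t ht
          rw [interior_Icc] at ht
          exact (hkd t (hr0.trans ht.1.le) ht.2.le).differentiableAt.differentiableWithinAt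
        · intro t ht
          rw [interior_Icc] at ht
          rw [(hkd t (hr0.trans ht.1.le) ht.2.le).deriv]
          have := hmono ⟨hr0, hr⟩ ⟨hr0.trans ht.1.le, ht.2.le⟩ ht.1.le
          simp only at this
          linarith
      have := hm ⟨le_refl _, hr⟩ ⟨h, hv⟩ h
      rwa [hkr] at this
    · have hm : AntitoneOn k (Set.Icc 0 r) := by
        apply antitoneOn_of_deriv_nonpos (convex_Icc _ _)
        · intro t ht
          exact (hkd t ht.1 (ht.2.trans hr)).continuousAt.continuousWithinAt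
        · intro t ht
          rw [interior_Icc] at ht
          exact (hkd t ht.1.le (ht.2.le.trans hr)).differentiableAt.differentiableWithinAt
        · intro t ht
          rw [interior_Icc] at ht
          rw [(hkd t ht.1.le (ht.2.le.trans hr)).deriv]
          have := hmono ⟨ht.1.le, ht.2.le.trans hr⟩ ⟨hr0, hr⟩ ht.2.le
          simp only at this
          linarith
      have := hm ⟨hv0, h⟩ ⟨hr0, le_refl _⟩ h
      rwa [hkr] at this
  rw [hk] at goal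
  simp only at goal
  linarith

lemma H_le_near {α : ℝ} (h1 : α < 2) :
    H (-1 + α) ≤ α / 2 * (1 + log (2 / α)) := by
  unfold H
  rw [show (1 + (-1 + α)) / 2 = α / 2 by ring, binEntropy_eq']
  have hp : 0 < 1 - α / 2 := by linarith
  have h2 := one_sub_inv_le_log_of_pos hp
  have h3 : -((1 - α / 2) * log (1 - α / 2)) ≤ α / 2 := by
    have := mul_le_mul_of_nonneg_left h2 hp.le
    have e : (1 - α / 2) * (1 - (1 - α / 2)⁻¹) = -(α / 2) := by
      rw [mul_sub, mul_inv_cancel₀ hp.ne']; ring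
    linarith
  have h4 : log (2 / α) = -log (α / 2) := by rw [← log_inv, inv_div]
  rw [h4]
  linarith

/-- numerical helper -/
lemma log_ge_of {n d k : ℕ} (hd : 0 < d) (hn : d ≤ n) (h : k ≤ lnLoR 12 n d) :
    (k : ℝ) / S ≤ log ((n : ℝ) / d) := by
  refine le_trans ?_ (lnLoR_le 12 hd hn)
  have : (k : ℝ) ≤ (lnLoR 12 n d : ℝ) := by exact_mod_cast h
  have hS := S_posR
  gcongr

lemma log_le_of {n d k : ℕ} (hd : 0 < d) (hn : d ≤ n) (h : lnHiR 12 n d ≤ k) :
    log ((n : ℝ) / d) ≤ (k : ℝ) / S := by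
  refine le_trans (lnHiR_ge 12 hd hn) ?_
  have : (lnHiR 12 n d : ℝ) ≤ (k : ℝ) := by exact_mod_cast h
  have hS := S_posR
  gcongr

lemma T_ge_of {rn rd k : ℕ} (h0 : 0 < rn) (h1 : rn < rd) (h : k + pHi rn rd ≤ L2lo) :
    (k : ℝ) / S ≤ log 2 - psi ((rn : ℝ) / rd) / ((rn : ℝ) / rd) ^ 2 := by
  have hrd : (0 : ℝ) < rd := by exact_mod_cast (by omega : 0 < rd)
  have hrn : (0 : ℝ) < rn := by exact_mod_cast h0
  have k1 := pHi_ge h0 h1 (x := (rn : ℝ) / rd) (by positivity) (le_refl _)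
  have k2 := L2lo_le
  have hS := S_posR
  have k3 : (k : ℝ) + pHi rn rd ≤ L2lo := by exact_mod_cast h
  have k4 : ((k : ℝ) + pHi rn rd) / S ≤ (L2lo : ℝ) / S := by gcongr
  rw [add_div] at k4
  unfold Ps at k1
  linarith

lemma T_le_of {rn rd k : ℕ} (h0 : 0 < rn) (h1 : rn < rd) (h : L2hi ≤ k + pLo rn rd) :
    log 2 - psi ((rn : ℝ) / rd) / ((rn : ℝ) / rd) ^ 2 ≤ (k : ℝ) / S := by
  have hrd : (0 : ℝ) < rd := by exact_mod_cast (by omega : 0 < rd)
  have hrn : (0 : ℝ) < rn := by exact_mod_cast h0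
  have hr1 : (rn : ℝ) / rd ≤ 1 := by
    rw [div_le_one hrd]; exact_mod_cast h1.le
  have k1 := pLo_le (n := rn) (d := rd) (by omega) h1.le (x := (rn : ℝ) / rd) (by positivity)
    hr1 (le_refl _)
  have k2 := L2hi_ge
  have hS := S_posR
  have k3 : (L2hi : ℝ) ≤ (k : ℝ) + pLo rn rd := by exact_mod_cast h
  have k4 : (L2hi : ℝ) / S ≤ ((k : ℝ) + pLo rn rd) / S := by gcongr
  rw [add_div] at k4
  unfold Ps at k1
  linarith


lemma c91_nc : log (15625 / 1836) ≤ 21416 / 10000 := by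
  have h := log_le_of (n := 15625) (d := 1836) (k := 2354700000000) (by norm_num) (by norm_num)
    (by decide +kernel)
  have e : ((15625 : ℕ) : ℝ) / ((1836 : ℕ) : ℝ) = 15625 / 1836 := by norm_num
  rw [e] at h
  refine h.trans ?_
  unfold S
  norm_num

lemma c91_na : 18488 / 10000 ≤ log (108 / 17) := by
  have h := log_ge_of (n := 108) (d := 17) (k := 2032800000000) (by norm_num) (by norm_num)
    (by decide +kernel)
  have e : ((108 : ℕ) : ℝ) / ((17 : ℕ) : ℝ) = 108 / 17 := by norm_num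
  rw [e] at h
  refine le_trans ?_ h
  unfold S
  norm_num

lemma c91_nl : 62 / 10 ≤ log 500 := by
  have h := log_ge_of (n := 500) (d := 1) (k := 6817000000000) (by norm_num) (by norm_num)
    (by decide +kernel)
  have e : ((500 : ℕ) : ℝ) / ((1 : ℕ) : ℝ) = 500 := by norm_num
  rw [e] at h
  refine le_trans ?_ h
  unfold S
  norm_num

lemma c91_n52 : log (5 / 2) ≤ 1 := by
  have h := log_le_of (n := 5) (d := 2) (k := 1099511627776) (by norm_num) (by norm_num)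
    (by decide +kernel)
  have e : ((5 : ℕ) : ℝ) / ((2 : ℕ) : ℝ) = 5 / 2 := by norm_num
  rw [e] at h
  refine h.trans ?_
  unfold S
  norm_num

lemma c91_T : 1355 / 10000 ≤ log 2 - psi (91 / 125) / (91 / 125) ^ 2 := by
  have h := T_ge_of (rn := 91) (rd := 125) (k := 149050717574) (by norm_num) (by norm_num)
    (by decide +kernel)
  have e : ((91 : ℕ) : ℝ) / ((125 : ℕ) : ℝ) = 91 / 125 := by norm_num
  rw [e] at h
  refine le_trans ?_ h
  unfold S
  norm_num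

lemma c91_T2 : log 2 - psi (91 / 125) / (91 / 125) ^ 2 ≤ 1 / 2 := by
  have h := T_le_of (rn := 91) (rd := 125) (k := 149050725575) (by norm_num) (by norm_num)
    (by decide +kernel)
  have e : ((91 : ℕ) : ℝ) / ((125 : ℕ) : ℝ) = 91 / 125 := by norm_num
  rw [e] at h
  refine h.trans ?_
  unfold S
  norm_num

lemma c91_M {a b m δ w s κ P C : ℝ} (hmm : m = (a + b) / 2) (hδ : δ = (b - a) / 2)
    (hδw : δ = 1 - w) (hw0 : 0 < w) (hw1 : w ≤ 3 / 1000) (hm0 : m ≤ 0) (hmw : -m ≤ w)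
    (hs : s = (91 / 125) ^ 2) (hκ : κ = H (91 / 125)) (hP : P = Ind.ath (91 / 125))
    (hC : C = 1 / (1 - (729 / 1000 : ℝ) ^ 2)) :
    κ + P * (91 / 125 * w) - C / 2 * (s * w ^ 2 + m ^ 2) ≤ M (91 / 125) a b := by
  have h1 := psi_le_taylor (r := 91 / 125) (v := 91 / 125 * δ + m) (v1 := 729 / 1000)
    (by norm_num) (by norm_num) (by rw [hδw]; linarith) (by rw [hδw]; linarith) (by norm_num)
  have h2 := psi_le_taylor (r := 91 / 125) (v := 91 / 125 * δ - m) (v1 := 729 / 1000)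
    (by norm_num) (by norm_num) (by rw [hδw]; linarith) (by rw [hδw]; linarith) (by norm_num)
  have eM : M (91 / 125) a b = log 2 - (psi (91 / 125 * δ + m) + psi (91 / 125 * δ - m)) / 2 := by
    unfold M
    rw [← hmm, ← hδ]
    rw [show m - 91 / 125 * δ = -(91 / 125 * δ - m) by ring, Ind.H_neg,
      show m + 91 / 125 * δ = 91 / 125 * δ + m by ring]
    unfold psi; ring
  have eκ : κ = log 2 - psi (91 / 125) := by rw [hκ]; unfold psi; ring
  rw [eM, eκ]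
  rw [← hC, ← hP] at h1 h2
  have k : (P * (91 / 125 * δ + m - 91 / 125) + C / 2 * (91 / 125 * δ + m - 91 / 125) ^ 2
      + (P * (91 / 125 * δ - m - 91 / 125) + C / 2 * (91 / 125 * δ - m - 91 / 125) ^ 2)) / 2
      = -(P * (91 / 125 * w)) + C / 2 * (s * w ^ 2 + m ^ 2) := by
    rw [hs, hδw]; ring
  linarith

lemma c91_theta {a b m δ w β Λ θ : ℝ} (ha : -1 < a) (hb : b < 1) (hm : a + b ≤ 0) (hab : a < b)
    (hmm : m = (a + b) / 2) (hδ : δ = (b - a) / 2) (hδw : δ = 1 - w) (hw0 : 0 < w)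
    (hw1 : w ≤ 3 / 1000) (hm0 : m ≤ 0) (hmw : -m ≤ w) (hβ' : β = 1 - b)
    (hΛ : Λ = log (2 / β)) (hΛ1 : 62 / 10 ≤ Λ) (hθ : θ = theta (91 / 125) a b) (hθ0 : 0 < θ) :
    θ * Λ ≤ log (15625 / 1836) := by
  have hE : Λ ≤ ell a + ell b := by
    have h1 : 0 ≤ ell a := by
      unfold ell
      have := log_nonpos (x := (1 - a) / 2) (by linarith) (by linarith)
      linarith
    have h2 : ell b = Λ := by
      unfold ell; rw [hΛ, ← log_inv, hβ', inv_div]
    linarith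
  have hEpos : 0 < ell a + ell b := by linarith
  have h1 : θ * (ell a + ell b) = ell (m - 91 / 125 * δ) + ell (m + 91 / 125 * δ) := by
    rw [hθ]; unfold theta
    rw [← hmm, ← hδ, div_mul_cancel₀ _ hEpos.ne']
  have q1 : 0 < (1 - (m - 91 / 125 * δ)) / 2 := by rw [hδw]; linarith
  have q2 : 0 < (1 - (m + 91 / 125 * δ)) / 2 := by rw [hδw]; linarith
  have h2 : ell (m - 91 / 125 * δ) + ell (m + 91 / 125 * δ) ≤ log (15625 / 1836) := by
    unfold ell
    rw [← neg_add, ← log_mul q1.ne' q2.ne', ← log_inv]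
    apply log_le_log
    · rw [inv_pos]; exact mul_pos q1 q2
    · rw [inv_le_comm₀ (mul_pos q1 q2) (by norm_num)]
      have h3 : δ ^ 2 ≤ 1 := by rw [hδw]; nlinarith
      have h4 : (1 - (m - 91 / 125 * δ)) / 2 * ((1 - (m + 91 / 125 * δ)) / 2)
          = ((1 - m) ^ 2 - 8281 / 15625 * δ ^ 2) / 4 := by ring
      rw [h4]
      have h5 : 1 ≤ (1 - m) ^ 2 := by nlinarith
      rw [inv_div]
      linarith
  calc θ * Λ ≤ θ * (ell a + ell b) := mul_le_mul_of_nonneg_left hE hθ0.le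
    _ ≤ _ := by rw [h1]; exact h2

lemma c91_H {a b α β w Λ : ℝ} (hα' : α = 1 + a) (hβ' : β = 1 - b) (hα0 : 0 < α) (hβ0 : 0 < β)
    (hα1 : α < 2) (hβ1 : β < 2) (hαβ : α ≤ β) (hw : w = (α + β) / 2) (hΛ : Λ = log (2 / β)) :
    (H a + H b) / 2 ≤ w * (7 / 10 + Λ / 2) := by
  have hHa : H a ≤ α / 2 * (1 + log (2 / α)) := by
    have := H_le_near hα1
    rwa [hα', show -1 + (1 + a) = a by ring, ← hα'] at this
  have hHb : H b ≤ β / 2 * (1 + Λ) := by
    have := H_le_near hβ1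
    rw [show -1 + β = -b by rw [hβ']; ring, Ind.H_neg, ← hΛ] at this
    exact this
  have hlα : α * log (2 / α) ≤ α * Λ + 2 / 5 * β := by
    have h1 : log (2 / α) = Λ + log (β / α) := by
      rw [hΛ, ← log_mul (by positivity) (by positivity)]
      congr 1
      field_simp
    have h2 : log (β / α) ≤ 2 / 5 * (β / α) := by
      have h3 := log_le_sub_one_of_pos (x := 2 / 5 * (β / α)) (by positivity)
      have h4 : log (2 / 5 * (β / α)) = log (β / α) - log (5 / 2) := by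
        rw [log_mul (by norm_num) (by positivity), show (2 / 5 : ℝ) = (5 / 2)⁻¹ by norm_num,
          log_inv]
        ring
      have := c91_n52
      linarith
    have h5 := mul_le_mul_of_nonneg_left h2 hα0.le
    have h6 : α * (2 / 5 * (β / α)) = 2 / 5 * β := by field_simp
    rw [h1, mul_add]
    linarith
  have h1 : w * (7 / 10 + Λ / 2) = (α + β) / 4 * Λ + 7 / 20 * (α + β) := by rw [hw]; ring
  rw [h1]
  have h2 : α / 2 * (1 + log (2 / α)) = α / 2 + α * log (2 / α) / 2 := by ring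
  rw [h2] at hHa
  have h3 : β / 2 * (1 + Λ) = β / 2 + β * Λ / 2 := by ring
  rw [h3] at hHb
  linarith

lemma c91_thd {θ Λ c2 s w D : ℝ} (hθ0 : 0 < θ) (hΛ1 : 62 / 10 ≤ Λ) (hθΛ : θ * Λ ≤ c2)
    (nc : c2 ≤ 21416 / 10000) (hs0 : 0 < s) (hw0 : 0 < w)
    (hdiff : D ≤ s * (w * (7 / 10 + Λ / 2 - 2 * (1355 / 10000) * (1 - 3 / 1000)))) :
    θ * D ≤ s * w * (21416 / 10000 * (43 / 620 + 1 / 2)) := by
  have hθ1 : θ * (7 / 10 - 2 * (1355 / 10000) * (1 - 3 / 1000)) ≤ c2 * (43 / 620) := by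
    have h1 : θ * (62 / 10) ≤ c2 :=
      (mul_le_mul_of_nonneg_left hΛ1 hθ0.le).trans hθΛ
    linarith
  have h1 := mul_le_mul_of_nonneg_left hdiff hθ0.le
  have h2 : θ * (s * (w * (7 / 10 + Λ / 2 - 2 * (1355 / 10000) * (1 - 3 / 1000))))
      = s * w * (θ * (7 / 10 - 2 * (1355 / 10000) * (1 - 3 / 1000)) + θ * Λ / 2) := by ring
  rw [h2] at h1
  have h3 : 0 < s * w := by positivity
  refine h1.trans (mul_le_mul_of_nonneg_left ?_ h3.le)
  linarith

lemma c91_fin {κ m s T P w C : ℝ} (hsv : s = 8281 / 15625) (nT : 1355 / 10000 ≤ T)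
    (hw0 : 0 < w) (hw1 : w ≤ 3 / 1000) (hm2 : m ^ 2 ≤ w ^ 2) (hPv : 9244 / 10000 ≤ P)
    (hC1 : C ≤ 2135 / 1000) (hC2 : 2134 / 1000 ≤ C) :
    κ - m ^ 2 * ((1 - s) / 2 + s * T)
      ≤ κ + P * (91 / 125 * w) - C / 2 * (s * w ^ 2 + m ^ 2)
        - s * w * (21416 / 10000 * (43 / 620 + 1 / 2)) := by
  have h1 : w ^ 2 ≤ 3 / 1000 * w := by nlinarith
  have h2 : m ^ 2 * (C / 2 - (1 - s) / 2 - s * T) ≤ w * (1 / 250) := by
    have h3 : C / 2 - (1 - s) / 2 - s * T ≤ 1 := by rw [hsv]; linarith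
    have h4 : m ^ 2 * (C / 2 - (1 - s) / 2 - s * T) ≤ m ^ 2 * 1 :=
      mul_le_mul_of_nonneg_left h3 (sq_nonneg m)
    linarith
  have h5 : C / 2 * (s * w ^ 2) ≤ w * (1 / 500) := by
    have h6 : C / 2 * s ≤ 6 / 10 := by rw [hsv]; linarith
    have h7 := mul_le_mul h6 h1 (sq_nonneg w) (by norm_num)
    linarith
  have h8 : 9244 / 10000 * (91 / 125 * w) ≤ P * (91 / 125 * w) :=
    mul_le_mul_of_nonneg_right hPv (by positivity)
  have h9 : s * w * (21416 / 10000 * (43 / 620 + 1 / 2)) ≤ 65 / 100 * w := by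
    rw [hsv]; linarith
  have h10 : κ + P * (91 / 125 * w) - C / 2 * (s * w ^ 2 + m ^ 2)
        - s * w * (21416 / 10000 * (43 / 620 + 1 / 2)) - (κ - m ^ 2 * ((1 - s) / 2 + s * T))
      = P * (91 / 125 * w) - C / 2 * (s * w ^ 2) - m ^ 2 * (C / 2 - (1 - s) / 2 - s * T)
        - s * w * (21416 / 10000 * (43 / 620 + 1 / 2)) := by ring
  linarith

/-- Corner lemma: the certificate `CertA` for `ρ = 91/125` near `(a,b) = (-1,1)`. -/
theorem corner91 {a b : ℝ} (ha : -1 < a) (hb : b < 1) (hm : a + b ≤ 0)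
    (hα : 1 + a ≤ 1 / 512) (hβ : 1 - b ≤ 1 / 250) :
    CertA (91 / 125) (G (91 / 125)) a b := by
  obtain ⟨α, hα'⟩ : ∃ α, α = 1 + a := ⟨_, rfl⟩
  obtain ⟨β, hβ'⟩ : ∃ β, β = 1 - b := ⟨_, rfl⟩
  rw [← hα'] at hα
  rw [← hβ'] at hβ
  have hα0 : 0 < α := by linarith
  have hβ0 : 0 < β := by linarith
  have hαβ : α ≤ β := by linarith
  have hab : a < b := by linarith
  obtain ⟨w, hw⟩ : ∃ w, w = (α + β) / 2 := ⟨_, rfl⟩
  obtain ⟨m, hmm⟩ : ∃ m, m = (a + b) / 2 := ⟨_, rfl⟩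
  obtain ⟨δ, hδ⟩ : ∃ δ, δ = (b - a) / 2 := ⟨_, rfl⟩
  have hw0 : 0 < w := by linarith
  have hw1 : w ≤ 3 / 1000 := by linarith
  have hδw : δ = 1 - w := by rw [hδ, hw, hα', hβ']; ring
  have hmw : m = (α - β) / 2 := by rw [hmm, hα', hβ']; ring
  have hm0 : m ≤ 0 := by linarith
  have hmw' : -m ≤ w := by linarith
  have hm2 : m ^ 2 ≤ w ^ 2 := by nlinarith
  obtain ⟨T, hT⟩ : ∃ T, T = log 2 - psi (91 / 125) / (91 / 125) ^ 2 := ⟨_, rfl⟩
  have nT : 1355 / 10000 ≤ T := by rw [hT]; exact c91_T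
  have nT2 : T ≤ 1 / 2 := by rw [hT]; exact c91_T2
  obtain ⟨s, hs⟩ : ∃ s : ℝ, s = (91 / 125) ^ 2 := ⟨_, rfl⟩
  have hsv : s = 8281 / 15625 := by rw [hs]; norm_num
  obtain ⟨κ, hκ⟩ : ∃ κ : ℝ, κ = H (91 / 125) := ⟨_, rfl⟩
  have hκT : κ = (1 - s) * log 2 + s * T := by
    rw [hκ, hT, hs]; unfold psi; ring
  have eG : ∀ c : ℝ, G (91 / 125) c = (1 - s) * H c + s * T * (1 - c ^ 2) := by
    intro c
    unfold G
    rw [← hκ, ← hs, hκT]
    ring
  obtain ⟨P, hP⟩ : ∃ P, P = Ind.ath (91 / 125) := ⟨_, rfl⟩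
  have hPv : 9244 / 10000 ≤ P := by
    have na := c91_na
    rw [hP]; unfold Ind.ath
    rw [← log_div (by norm_num) (by norm_num),
      show (1 + 91 / 125 : ℝ) / (1 - 91 / 125) = 108 / 17 by norm_num]
    linarith
  obtain ⟨C, hC⟩ : ∃ C : ℝ, C = 1 / (1 - (729 / 1000 : ℝ) ^ 2) := ⟨_, rfl⟩
  have hC1 : C ≤ 2135 / 1000 := by rw [hC]; norm_num
  have hC2 : 2134 / 1000 ≤ C := by rw [hC]; norm_num
  have hM := c91_M hmm hδ hδw hw0 hw1 hm0 hmw' hs hκ hP hC
  have hGm : G (91 / 125) m ≤ κ - m ^ 2 * ((1 - s) / 2 + s * T) := by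
    rw [eG, hκT]
    have h1 : m ^ 2 / 2 ≤ psi m := Ind.sq_div_two_le_psi (by rw [abs_le]; constructor <;> linarith)
    have h2 : H m ≤ log 2 - m ^ 2 / 2 := by unfold psi at h1; linarith
    have h3 : 0 ≤ 1 - s := by rw [hsv]; norm_num
    have h4 := mul_le_mul_of_nonneg_left h2 h3
    linarith
  obtain ⟨Λ, hΛ⟩ : ∃ Λ, Λ = log (2 / β) := ⟨_, rfl⟩
  have hΛ1 : 62 / 10 ≤ Λ := by
    rw [hΛ]
    refine c91_nl.trans (log_le_log (by norm_num) ?_)
    rw [le_div_iff₀ hβ0]; linarith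
  obtain ⟨θ, hθ⟩ : ∃ θ, θ = theta (91 / 125) a b := ⟨_, rfl⟩
  have hθ0 : 0 < θ := by rw [hθ]; exact theta_pos (by norm_num) (by norm_num) ha hab hb hm
  have hθΛ := c91_theta ha hb hm hab hmm hδ hδw hw0 hw1 hm0 hmw' hβ' hΛ hΛ1 hθ hθ0
  have hHbar := c91_H hα' hβ' hα0 hβ0 (by linarith) (by linarith) hαβ hw hΛ
  have nc := c91_nc
  obtain ⟨c2, hc2⟩ : ∃ c2 : ℝ, c2 = log (15625 / 1836) := ⟨_, rfl⟩
  rw [← hc2] at hθΛ nc
  have eR : (G (91 / 125) a + G (91 / 125) b) / 2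
      = (1 - s) * ((H a + H b) / 2) + s * (T * (1 - m ^ 2 - δ ^ 2)) := by
    rw [eG, eG, hmm, hδ]; ring
  have hR : 2 * w * (1 - w) ≤ 1 - m ^ 2 - δ ^ 2 := by
    rw [hδw]; linarith
  have hdiff : (H a + H b) / 2 - (G (91 / 125) a + G (91 / 125) b) / 2
      ≤ s * (w * (7 / 10 + Λ / 2 - 2 * (1355 / 10000) * (1 - 3 / 1000))) := by
    rw [eR]
    have h1 : T * (2 * w * (1 - w)) ≤ T * (1 - m ^ 2 - δ ^ 2) :=
      mul_le_mul_of_nonneg_left hR (by linarith)
    have h2 : 2 * (1355 / 10000) * (1 - 3 / 1000) * w ≤ T * (2 * w * (1 - w)) := by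
      have h0 : (1355 / 10000 : ℝ) * (1 - 3 / 1000) ≤ T * (1 - w) :=
        mul_le_mul nT (by linarith) (by norm_num) (by linarith)
      have h00 := mul_le_mul_of_nonneg_left h0 (show 0 ≤ 2 * w by linarith)
      calc 2 * (1355 / 10000) * (1 - 3 / 1000) * w = 2 * w * (1355 / 10000 * (1 - 3 / 1000)) := by
            ring
        _ ≤ _ := h00
        _ = _ := by ring
    have h3 : 0 < s := by rw [hsv]; norm_num
    have h4 : (H a + H b) / 2 - T * (1 - m ^ 2 - δ ^ 2)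
        ≤ w * (7 / 10 + Λ / 2 - 2 * (1355 / 10000) * (1 - 3 / 1000)) := by
      linarith
    have h5 := mul_le_mul_of_nonneg_left h4 h3.le
    linarith
  have hθd := c91_thd hθ0 hΛ1 hθΛ nc (by rw [hsv]; norm_num) hw0 hdiff
  have hgt : (G (91 / 125) a + G (91 / 125) b) / 2
      ≤ (Ind.gt (91 / 125) (G (91 / 125)) a + Ind.gt (91 / 125) (G (91 / 125)) b) / 2 := by
    have k1 : G (91 / 125) a ≤ Ind.gt (91 / 125) (G (91 / 125)) a := le_max_left _ _
    have k2 : G (91 / 125) b ≤ Ind.gt (91 / 125) (G (91 / 125)) b := le_max_left _ _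
    linarith
  have hfin := c91_fin (κ := κ) hsv nT hw0 hw1 hm2 hPv hC1 hC2
  have k9 := mul_le_mul_of_nonneg_left hgt hθ0.le
  unfold CertA
  rw [← hmm, ← hθ]
  rw [mul_sub] at hθd ⊢
  linarith

end Vale.Agent.P322
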