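import Vale.Agent.P322.NumPsi

/-!
# Box checker for the S3 inequality (definitions)
-/

namespace Vale.Agent.P322.Num

/-- resolution of the boxes -/
def N : ℕ := 1048576

/-- final comparison -/
def chk3 (g0 b u La Q1 Q2 : ℕ) : Bool :=
  match Nat.ble (La * Q2 + 1) (b * u) with
  | true => true
  | false => match g0 with
    | 0 => false
    | _ + 1 => Nat.ble (La * Q1 + 1) (b * u)

def chk2 (rn rd Tlo Thi x1 g0 g1 b0 bs dX dY PsX PsY lh0 ng lhH : ℕ) : Bool :=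
  chk3 g0
    (b0 - (rn * rn * bs / (rd * rd) + 1))
    (lh0 + ng * N / (N + g1) - (4 * N * N * Thi / ((N + g0) * (N + g0)) + 1
      + (x1 * x1 * (N * PsX + g1 * PsY) / (N * N * (N + g0)) + 1)))
    (lhH + (g1 * (x1 * x1) * (rn * rn) * bs / (N * N * N * (rd * rd)) + 1))
    ((N * ((Thi - dX) * N / g0 + 1 + (Thi - dY)) / (N + g0) + 1)
      - Tlo * ((N - g1) * (N - g1)) * N / ((N + g1) * (N + g1) * g1))
    ((4 * N * N * Thi / ((N + g0) * (N + g0)) + 1)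
      - N * (dX * N / g1 + dY) / (N + g1))

def lhHi (g0 : ℕ) : ℕ := match g0 with
  | 0 => S
  | k + 1 => lnHi (N + (k + 1)) N * N / (k + 1) + 1

def chk (rn rd Tlo Thi x0 x1 g0 g1 : ℕ) : Bool :=
  chk2 rn rd Tlo Thi x1 g0 g1
    (bLo (x0 * g0) (N * N)) (bHi (rn * x1 * g1) (rd * N * N))
    (pLo x0 N - pHi (rn * x1) (rd * N)) (pLo (x0 * g0) (N * N) - pHi (rn * x1 * g1) (rd * N * N))
    (pHi (rn * x1) (rd * N)) (pHi (rn * x1 * g1) (rd * N * N))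
    (lnLo (N + g1) N * N / g1) (lnLoR 12 N g1) (lhHi g0)

/-- bisection -/
def bis (rn rd Tlo Thi CX CG : ℕ) : ℕ → ℕ → ℕ → ℕ → ℕ → Bool
  | 0, _, _, _, _ => false
  | n + 1, x0, x1, g0, g1 =>
    cond (Nat.ble CX x0 && Nat.ble CG g0) true
      (cond (chk rn rd Tlo Thi x0 x1 g0 g1) true
        (cond (Nat.ble (g1 - g0) (x1 - x0))
          (bis rn rd Tlo Thi CX CG n x0 ((x0 + x1) / 2) g0 g1
            && bis rn rd Tlo Thi CX CG n ((x0 + x1) / 2) x1 g0 g1)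
          (bis rn rd Tlo Thi CX CG n x0 x1 g0 ((g0 + g1) / 2)
            && bis rn rd Tlo Thi CX CG n x0 x1 ((g0 + g1) / 2) g1)))

theorem bis_cases {rn rd Tlo Thi CX CG n x0 x1 g0 g1 : ℕ}
    (h : bis rn rd Tlo Thi CX CG (n + 1) x0 x1 g0 g1 = true) :
    (Nat.ble CX x0 = true ∧ Nat.ble CG g0 = true) ∨ chk rn rd Tlo Thi x0 x1 g0 g1 = true ∨
    (bis rn rd Tlo Thi CX CG n x0 ((x0 + x1) / 2) g0 g1 = true ∧
      bis rn rd Tlo Thi CX CG n ((x0 + x1) / 2) x1 g0 g1 = true) ∨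
    (bis rn rd Tlo Thi CX CG n x0 x1 g0 ((g0 + g1) / 2) = true ∧
      bis rn rd Tlo Thi CX CG n x0 x1 ((g0 + g1) / 2) g1 = true) := by
  rw [bis] at h
  generalize chk rn rd Tlo Thi x0 x1 g0 g1 = B at h ⊢
  generalize bis rn rd Tlo Thi CX CG n x0 ((x0 + x1) / 2) g0 g1 = B1 at h ⊢
  generalize bis rn rd Tlo Thi CX CG n ((x0 + x1) / 2) x1 g0 g1 = B2 at h ⊢
  generalize bis rn rd Tlo Thi CX CG n x0 x1 g0 ((g0 + g1) / 2) = B3 at h ⊢
  generalize bis rn rd Tlo Thi CX CG n x0 x1 ((g0 + g1) / 2) g1 = B4 at h ⊢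
  generalize Nat.ble (g1 - g0) (x1 - x0) = C at h
  generalize Nat.ble CX x0 = A1 at h ⊢
  generalize Nat.ble CG g0 = A2 at h ⊢
  revert h
  revert A1 A2 B B1 B2 B3 B4 C
  decide

end Vale.Agent.P322.Num
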