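import Vale.Agent.P322.BoxDef

/-!
# Kernel check of the boxes, `ρ = 91/125`, part 4
-/

namespace Vale.Agent.P322.Num

theorem box91_e1 : bis 91 125 149050717574 149050725575 1046528 1046528 40
    1015808 1048576 0 983040 = true := by
  decide +kernel

theorem box91_e2 : bis 91 125 149050717574 149050725575 1046528 1046528 40
    1015808 1048576 983040 1015808 = true := by
  decide +kernel

end Vale.Agent.P322.Num
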