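import Vale.Agent.P322.BoxDef

/-!
# Kernel check of the boxes, `ρ = 3/4, 4/5, 17/20`
-/

namespace Vale.Agent.P322.Num

theorem box34 : bis 3 4 143705227034 143705235035 1048577 1048577 40
    0 1048576 0 629146 = true := by
  decide +kernel

theorem box45 : bis 4 5 129793887739 129793895740 1048577 1048577 40
    0 1048576 0 349526 = true := by
  decide +kernel

theorem box1720 : bis 17 20 112669304711 112669312712 1048577 1048577 40
    0 1048576 0 188744 = true := by
  decide +kernel

end Vale.Agent.P322.Num
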