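import Mathlib

/-!
# P322: the objects in the question
-/

namespace Vale.Agent.P322

open Finset

/-- Law of the noise vector `Z`: independent signs with `P(Z i = -1) = ε`. -/
noncomputable def noise (ε : ℝ) {n : ℕ} (z : Fin n → ℤˣ) : ℝ :=
  ∏ i, if z i = -1 then ε else 1 - ε

/-- Joint law of `(f X, Y)`, where `X` is uniform on sign vectors of length `n`, `Z` is an
independent noise vector and `Y i = X i * Z i`. -/
noncomputable def joint (ε : ℝ) {n : ℕ} (f : (Fin n → ℤˣ) → ℤˣ) (b : ℤˣ) (y : Fin n → ℤˣ) : ℝ :=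
  ∑ x : Fin n → ℤˣ, ∑ z : Fin n → ℤˣ,
    if f x = b ∧ (fun i => x i * z i) = y then (1 / 2 : ℝ) ^ n * noise ε z else 0

/-- Mutual information, in bits, of a joint probability mass function on `A × B`. -/
noncomputable def mutualInfo {A B : Type*} [Fintype A] [Fintype B] (p : A → B → ℝ) : ℝ :=
  ∑ a, ∑ b, p a b * Real.logb 2 (p a b / ((∑ b', p a b') * (∑ a', p a' b)))

/-- Binary entropy in bits. -/
noncomputable def h2 (p : ℝ) : ℝ := -p * Real.logb 2 p - (1 - p) * Real.logb 2 (1 - p)

end Vale.Agent.P322
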