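import Vale.Agent.P322.Cube
import Vale.Agent.P322.Defs

/-!
# P322: from the entropy bound to mutual information
-/

namespace Vale.Agent.P322.Ind

open Real Finset

/-- The sign-valued function as a real function. -/
noncomputable def rl {n : ℕ} (f : (Fin n → ℤˣ) → ℤˣ) (x : Fin n → ℤˣ) : ℝ := ((f x : ℤ) : ℝ)

lemma rl_sign {n : ℕ} (f : (Fin n → ℤˣ) → ℤˣ) (x : Fin n → ℤˣ) : rl f x = 1 ∨ rl f x = -1 := by
  unfold rl
  rcases Int.units_eq_one_or (f x) with h | h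
  · left; rw [h]; simp
  · right; rw [h]; simp

lemma ker_eq_noise (ε : ℝ) {n : ℕ} (x y : Fin n → ℤˣ) :
    ∑ z : Fin n → ℤˣ, (if (fun i => x i * z i) = y then (1 / 2 : ℝ) ^ n * noise ε z else 0)
      = (1 / 2 : ℝ) ^ n * ker ε x y := by
  have huniq : ∀ z : Fin n → ℤˣ, ((fun i => x i * z i) = y) ↔ z = fun i => x i * y i := by
    intro z
    constructor
    · intro h
      funext i
      have := congrFun h i
      rw [← this, ← mul_assoc, Int.units_mul_self, one_mul]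
    · intro h
      rw [h]
      funext i
      rw [← mul_assoc, Int.units_mul_self, one_mul]
  simp only [huniq]
  rw [Finset.sum_ite_eq' Finset.univ]
  simp only [Finset.mem_univ, if_true]
  congr 1
  unfold noise ker ch
  refine Finset.prod_congr rfl fun i _ => ?_
  show (if x i * y i = -1 then ε else 1 - ε) = if x i = y i then 1 - ε else ε
  rcases Int.units_eq_one_or (x i) with h1 | h1 <;> rcases Int.units_eq_one_or (y i) with h2 | h2
  · rw [h1, h2, if_neg (by decide), if_pos rfl]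
  · rw [h1, h2, if_pos (by decide), if_neg (by decide)]
  · rw [h1, h2, if_pos (by decide), if_neg (by decide)]
  · rw [h1, h2, if_neg (by decide), if_pos rfl]

lemma ind_eq (a b : ℤˣ) (c : ℝ) :
    (if a = b then c else 0) = c * ((1 + ((b : ℤ) : ℝ) * ((a : ℤ) : ℝ)) / 2) := by
  rcases Int.units_eq_one_or a with h1 | h1 <;> rcases Int.units_eq_one_or b with h2 | h2 <;>
    rw [h1, h2] <;> norm_num

lemma joint_eq (ε : ℝ) {n : ℕ} (f : (Fin n → ℤˣ) → ℤˣ) (b : ℤˣ) (y : Fin n → ℤˣ) :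
    joint ε f b y = (1 / 2 : ℝ) ^ n * ((1 + ((b : ℤ) : ℝ) * T ε (rl f) y) / 2) := by
  unfold joint
  have e1 : ∀ x : Fin n → ℤˣ, (∑ z : Fin n → ℤˣ,
      if f x = b ∧ (fun i => x i * z i) = y then (1 / 2 : ℝ) ^ n * noise ε z else 0)
      = (1 / 2 : ℝ) ^ n * ker ε x y * ((1 + ((b : ℤ) : ℝ) * rl f x) / 2) := by
    intro x
    rw [← ker_eq_noise]
    unfold rl
    rw [← ind_eq]
    by_cases h : f x = b
    · simp [h]
    · simp [h]
  simp only [e1]
  have e2 : ∀ x : Fin n → ℤˣ, (1 / 2 : ℝ) ^ n * ker ε x y * ((1 + ((b : ℤ) : ℝ) * rl f x) / 2)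
      = (1 / 2 : ℝ) ^ n * (1 / 2) * ker ε x y
        + (1 / 2 : ℝ) ^ n * (((b : ℤ) : ℝ) / 2) * (ker ε x y * rl f x) := by
    intro x; ring
  simp only [e2]
  rw [Finset.sum_add_distrib, ← Finset.mul_sum, ← Finset.mul_sum, ker_sum]
  unfold T
  ring

lemma marg_b (ε : ℝ) {n : ℕ} (f : (Fin n → ℤˣ) → ℤˣ) (b : ℤˣ) :
    ∑ y, joint ε f b y = (1 + ((b : ℤ) : ℝ) * avg (rl f)) / 2 := by
  simp only [joint_eq]
  have e2 : ∀ y : Fin n → ℤˣ, (1 / 2 : ℝ) ^ n * ((1 + ((b : ℤ) : ℝ) * T ε (rl f) y) / 2)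
      = (1 / 2) * (1 / 2 : ℝ) ^ n
        + (((b : ℤ) : ℝ) / 2) * ((1 / 2 : ℝ) ^ n * T ε (rl f) y) := by
    intro y; ring
  simp only [e2]
  rw [Finset.sum_add_distrib, ← Finset.mul_sum, ← Finset.mul_sum, pow_half_sum]
  have := avg_T ε (rl f)
  unfold avg at this ⊢
  rw [this]; ring

lemma marg_y (ε : ℝ) {n : ℕ} (f : (Fin n → ℤˣ) → ℤˣ) (y : Fin n → ℤˣ) :
    ∑ b, joint ε f b y = (1 / 2 : ℝ) ^ n := by
  rw [sum_units]
  simp only [joint_eq]
  push_cast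
  ring

lemma H_eq_log (x : ℝ) : H x = -(((1 + x) / 2) * Real.log ((1 + x) / 2)
    + ((1 - x) / 2) * Real.log ((1 - x) / 2)) := by
  unfold H
  rw [Real.binEntropy_eq_negMulLog_add_negMulLog_one_sub]
  unfold negMulLog
  rw [show 1 - (1 + x) / 2 = (1 - x) / 2 by ring]
  ring

/-- If an average of nonnegative terms vanishes, all terms vanish. -/
lemma zero_of_avg_zero {n : ℕ} {F : (Fin n → ℤˣ) → ℝ} (hF : ∀ y, 0 ≤ F y) (h : avg F = 0)
    (y : Fin n → ℤˣ) : F y = 0 := by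
  unfold avg at h
  have := (Finset.sum_eq_zero_iff_of_nonneg (fun y _ => mul_nonneg (by positivity) (hF y))).mp h y
    (Finset.mem_univ y)
  have h2 : (1 / 2 : ℝ) ^ n ≠ 0 := by positivity
  exact (mul_eq_zero.mp this).resolve_left h2

/-- Each term of the mutual information. -/
lemma term_eq {c P Q : ℝ} (hc : 0 < c) (hP : P ≠ 0 → Q ≠ 0) :
    c * P * Real.logb 2 (c * P / (Q * c)) = c * (P * Real.log P - P * Real.log Q) / Real.log 2 := by
  rcases eq_or_ne P 0 with h | h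
  · subst h; simp
  · have hQ := hP h
    have e : c * P / (Q * c) = P / Q := by field_simp
    rw [e, Real.logb, Real.log_div h hQ]
    ring

theorem mutualInfo_eq {ε : ℝ} (h0 : 0 ≤ ε) (h1 : ε ≤ 1) {n : ℕ} (f : (Fin n → ℤˣ) → ℤˣ) :
    mutualInfo (joint ε f) = (H (avg (rl f)) - avg (fun y => H (T ε (rl f) y))) / Real.log 2 := by
  have hfb : ∀ x, |rl f x| ≤ 1 := by
    intro x
    rcases rl_sign f x with h | h <;> rw [h] <;> norm_num
  have hTb : ∀ y, |T ε (rl f) y| ≤ 1 := T_abs_le h0 h1 hfb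
  unfold mutualInfo
  simp only [marg_b, marg_y]
  simp only [joint_eq]
  have hc : (0 : ℝ) < (1 / 2) ^ n := by positivity
  -- the vanishing alternative
  have hz : ∀ b : ℤˣ, ∀ y : Fin n → ℤˣ, (1 + ((b : ℤ) : ℝ) * T ε (rl f) y) / 2 ≠ 0 →
      (1 + ((b : ℤ) : ℝ) * avg (rl f)) / 2 ≠ 0 := by
    intro b y hy hm
    apply hy
    have hF : ∀ y, 0 ≤ (1 + ((b : ℤ) : ℝ) * T ε (rl f) y) / 2 := by
      intro y
      have := abs_le.mp (hTb y)
      rcases Int.units_eq_one_or b with h | h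
      · rw [h]; push_cast; linarith
      · rw [h]; push_cast; linarith
    refine zero_of_avg_zero (F := fun y => (1 + ((b : ℤ) : ℝ) * T ε (rl f) y) / 2) hF ?_ y
    rw [← hm, ← marg_b ε]
    unfold avg
    exact Finset.sum_congr rfl fun y _ => (joint_eq ε f b y).symm
  have e : ∀ b : ℤˣ, ∀ y : Fin n → ℤˣ,
      (1 / 2 : ℝ) ^ n * ((1 + ((b : ℤ) : ℝ) * T ε (rl f) y) / 2)
        * Real.logb 2 ((1 / 2 : ℝ) ^ n * ((1 + ((b : ℤ) : ℝ) * T ε (rl f) y) / 2)
          / ((1 + ((b : ℤ) : ℝ) * avg (rl f)) / 2 * (1 / 2 : ℝ) ^ n))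
      = (1 / 2 : ℝ) ^ n * (((1 + ((b : ℤ) : ℝ) * T ε (rl f) y) / 2)
          * Real.log ((1 + ((b : ℤ) : ℝ) * T ε (rl f) y) / 2)
        - ((1 + ((b : ℤ) : ℝ) * T ε (rl f) y) / 2)
          * Real.log ((1 + ((b : ℤ) : ℝ) * avg (rl f)) / 2)) / Real.log 2 :=
    fun b y => term_eq hc (hz b y)
  simp only [e]
  rw [Finset.sum_comm]
  simp only [sum_units]
  push_cast
  -- rewrite the right side as a sum
  have hm : avg (rl f) = avg (T ε (rl f)) := (avg_T ε (rl f)).symm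
  have k1 : H (avg (rl f)) = -(((1 + avg (T ε (rl f))) / 2) * Real.log ((1 + avg (rl f)) / 2)
      + ((1 - avg (T ε (rl f))) / 2) * Real.log ((1 - avg (rl f)) / 2)) := by
    rw [← hm]; exact H_eq_log _
  have k2 : ∑ y : Fin n → ℤˣ, (1 / 2 : ℝ) ^ n * ((1 + T ε (rl f) y) / 2)
      = (1 + avg (T ε (rl f))) / 2 := by
    have : ∀ y : Fin n → ℤˣ, (1 / 2 : ℝ) ^ n * ((1 + T ε (rl f) y) / 2)
        = (1 / 2) * (1 / 2 : ℝ) ^ n + (1 / 2) * ((1 / 2 : ℝ) ^ n * T ε (rl f) y) := by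
      intro y; ring
    simp only [this]
    rw [Finset.sum_add_distrib, ← Finset.mul_sum, ← Finset.mul_sum, pow_half_sum]
    unfold avg; ring
  have k3 : ∑ y : Fin n → ℤˣ, (1 / 2 : ℝ) ^ n * ((1 - T ε (rl f) y) / 2)
      = (1 - avg (T ε (rl f))) / 2 := by
    have : ∀ y : Fin n → ℤˣ, (1 / 2 : ℝ) ^ n * ((1 - T ε (rl f) y) / 2)
        = (1 / 2) * (1 / 2 : ℝ) ^ n - (1 / 2) * ((1 / 2 : ℝ) ^ n * T ε (rl f) y) := by
      intro y; ring
    simp only [this]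
    rw [Finset.sum_sub_distrib, ← Finset.mul_sum, ← Finset.mul_sum, pow_half_sum]
    unfold avg; ring
  rw [k1, ← k2, ← k3]
  unfold avg
  rw [Finset.sum_mul, Finset.sum_mul, ← Finset.sum_add_distrib, ← Finset.sum_neg_distrib,
    ← Finset.sum_sub_distrib, Finset.sum_div]
  refine Finset.sum_congr rfl fun y _ => ?_
  simp only [H_eq_log (T ε (rl f) y)]
  ring_nf

/-- Binary entropy in bits against `H`. -/
lemma h2_eq (ε : ℝ) : h2 ε = H (1 - 2 * ε) / Real.log 2 := by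
  unfold h2
  rw [H_eq_log]
  rw [show (1 + (1 - 2 * ε)) / 2 = 1 - ε by ring, show (1 - (1 - 2 * ε)) / 2 = ε by ring]
  simp only [Real.logb]
  ring

/-- Reduction of the conjecture at one noise level to the scalar two-point statement. -/
theorem main_of_twoPoint {ε : ℝ} (h0 : 0 ≤ ε) (h1 : ε ≤ 1 / 2) {g : ℝ → ℝ}
    (hge : ∀ x, g (-x) = g x) (hgc : ContinuousOn g (Set.Icc (-1) 1)) (hg1 : g 1 ≤ 0)
    (hlow : ∀ a, |a| ≤ 1 → H a + H (1 - 2 * ε) - Real.log 2 ≤ g a)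
    (hT : TwoPoint (1 - 2 * ε) g) (n : ℕ) (f : (Fin n → ℤˣ) → ℤˣ) :
    mutualInfo (joint ε f) ≤ 1 - h2 ε := by
  have hl : 0 < Real.log 2 := Real.log_pos (by norm_num)
  rw [mutualInfo_eq h0 (by linarith), h2_eq, div_le_iff₀ hl, sub_mul, one_mul,
    div_mul_cancel₀ _ hl.ne']
  have key := induct h0 h1 hge hgc hg1 hT n (rl f) (rl_sign f)
  have h2 : g (avg (rl f)) ≤ gt (1 - 2 * ε) g (avg (rl f)) := le_max_left _ _
  have h3 := hlow (avg (rl f)) (by
    have : |∑ y, (1 / 2 : ℝ) ^ n * rl f y| ≤ 1 :=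
      abs_mean_le (w := fun _ : Fin n → ℤˣ => (1 / 2 : ℝ) ^ n) (fun _ => by positivity)
        (pow_half_sum n) (fun x => by rcases rl_sign f x with h | h <;> rw [h] <;> norm_num)
    exact this)
  linarith

/-- The two extreme noise levels. -/
theorem main_extreme {ε : ℝ} (h : ε = 0 ∨ ε = 1 / 2) (n : ℕ) (f : (Fin n → ℤˣ) → ℤˣ) :
    mutualInfo (joint ε f) ≤ 1 - h2 ε := by
  have hl : 0 < Real.log 2 := Real.log_pos (by norm_num)
  have h0 : 0 ≤ ε := by rcases h with h | h <;> rw [h]; norm_num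
  have h1 : ε ≤ 1 / 2 := by rcases h with h | h <;> rw [h]; norm_num
  rw [mutualInfo_eq h0 (by linarith), h2_eq, div_le_iff₀ hl, sub_mul, one_mul,
    div_mul_cancel₀ _ hl.ne']
  have key := sdpi h0 h1 n (rl f) (rl_sign f)
  rcases h with h | h
  · subst h
    have e : (1 : ℝ) - 2 * 0 = 1 := by norm_num
    rw [e] at key ⊢
    rw [H_one]
    have := H_le_log_two (avg (rl f))
    norm_num at key
    linarith
  · subst h
    have e : (1 : ℝ) - 2 * (1 / 2) = 0 := by norm_num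
    rw [e] at key ⊢
    rw [H_zero]
    norm_num at key
    linarith

/-- The conjecture from the scalar statement with potentials `g ρ`, `0 < ρ < 1`. -/
theorem main_of_all
    (h : ∀ ρ : ℝ, 0 < ρ → ρ < 1 → ∃ g : ℝ → ℝ, (∀ x, g (-x) = g x) ∧
      ContinuousOn g (Set.Icc (-1) 1) ∧ g 1 ≤ 0 ∧
      (∀ a, |a| ≤ 1 → H a + H ρ - Real.log 2 ≤ g a) ∧ TwoPoint ρ g)
    {ε : ℝ} (h0 : 0 ≤ ε) (h1 : ε ≤ 1 / 2) (n : ℕ) (f : (Fin n → ℤˣ) → ℤˣ) :
    mutualInfo (joint ε f) ≤ 1 - h2 ε := by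
  rcases h0.eq_or_lt with h2 | h2
  · exact main_extreme (Or.inl h2.symm) n f
  rcases h1.eq_or_lt with h3 | h3
  · exact main_extreme (Or.inr h3) n f
  obtain ⟨g, a1, a2, a3, a4, a5⟩ := h (1 - 2 * ε) (by linarith) (by linarith)
  exact main_of_twoPoint h0 h1 a1 a2 a3 a4 a5 n f

/-- `G ρ` is even. -/
lemma G_neg (ρ x : ℝ) : G ρ (-x) = G ρ x := by
  unfold G; rw [H_neg]; ring

lemma G_continuous (ρ : ℝ) : Continuous (G ρ) := by
  unfold G
  exact (continuous_const.mul H_continuous).add (by fun_prop)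

lemma G_one (ρ : ℝ) : G ρ 1 = 0 := by
  unfold G; rw [H_one]; ring

/-- The conjecture at one noise level from `TwoPoint ρ (G ρ)`. -/
theorem main_of_G {ε : ℝ} (h0 : 0 ≤ ε) (h1 : ε ≤ 1 / 2)
    (hT : TwoPoint (1 - 2 * ε) (G (1 - 2 * ε))) (n : ℕ) (f : (Fin n → ℤˣ) → ℤˣ) :
    mutualInfo (joint ε f) ≤ 1 - h2 ε :=
  main_of_twoPoint h0 h1 (G_neg _) (G_continuous _).continuousOn (G_one _).le
    (fun _ ha => G_ge (by rw [abs_le]; constructor <;> linarith) ha) hT n f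

end Vale.Agent.P322.Ind
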