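import Mathlib
import Vale.Agent.P322.Basic

/-!
# P322, Lemma B (pointwise two-point inequality)

For `0 ≤ ρ ≤ 1`, `0 < t < 1`, `|u|, |v| ≤ 1`:
`lamB ρ t * ((H u + H v)/2) + (H (ρ t) - lamB ρ t * H t)/t * ((v - u)/2) ≤ M ρ u v`.
-/

namespace Vale.Agent.P322

namespace LB

open Real Set

/-! ### Basic facts about `H` -/

lemma H_eq (x : ℝ) :
    H x = log 2 - ((1 + x) * log (1 + x) + (1 - x) * log (1 - x)) / 2 := by
  have key : ∀ y : ℝ, (y / 2) * log (y / 2) = y / 2 * log y - y / 2 * log 2 := by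
    intro y
    by_cases hy : y = 0
    · simp [hy]
    · rw [log_div hy (by norm_num)]; ring
  have h1 : H x = -((1 + x) / 2 * log ((1 + x) / 2)) - (1 - x) / 2 * log ((1 - x) / 2) := by
    unfold H
    rw [binEntropy_eq_negMulLog_add_negMulLog_one_sub, negMulLog, negMulLog]
    have : 1 - (1 + x) / 2 = (1 - x) / 2 := by ring
    rw [this]; ring
  rw [h1, key, key]; ring

lemma H_neg (x : ℝ) : H (-x) = H x := by
  rw [H_eq, H_eq]; ring_nf

lemma H_zero : H 0 = log 2 := by rw [H_eq]; simp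

lemma H_one : H 1 = 0 := by rw [H_eq]; norm_num

lemma H_continuous : Continuous H := by
  unfold H
  exact binEntropy_continuous.comp (by fun_prop)

lemma H_nonneg {x : ℝ} (h1 : -1 ≤ x) (h2 : x ≤ 1) : 0 ≤ H x :=
  binEntropy_nonneg (by linarith) (by linarith)

lemma H_pos {x : ℝ} (h1 : -1 < x) (h2 : x < 1) : 0 < H x :=
  binEntropy_pos (by linarith) (by linarith)

lemma hasDerivAt_H {x : ℝ} (h1 : -1 < x) (h2 : x < 1) :
    HasDerivAt H ((log (1 - x) - log (1 + x)) / 2) x := by
  have e : H = fun x => log 2 - ((1 + x) * log (1 + x) + (1 - x) * log (1 - x)) / 2 := by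
    funext y; exact H_eq y
  rw [e]
  have hp : (1 + x) ≠ 0 := by linarith
  have hm : (1 - x) ≠ 0 := by linarith
  have d1 : HasDerivAt (fun y : ℝ => 1 + y) 1 x := by
    simpa using (hasDerivAt_id x).const_add 1
  have d2 : HasDerivAt (fun y : ℝ => 1 - y) (-1) x := by
    simpa using (hasDerivAt_id x).const_sub 1
  have l1 := d1.mul (d1.log hp)
  have l2 := d2.mul (d2.log hm)
  have := ((l1.add l2).div_const 2).const_sub (log 2)
  refine (this.congr_deriv ?_)
  field_simp
  ring

lemma H_concave : ConcaveOn ℝ (Icc (-1) 1) H := by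
  have := strictConcave_binEntropy.concaveOn
  refine ⟨convex_Icc _ _, ?_⟩
  intro x hx y hy a b ha hb hab
  have hx' : (1 + x) / 2 ∈ Icc (0:ℝ) 1 := ⟨by linarith [hx.1], by linarith [hx.2]⟩
  have hy' : (1 + y) / 2 ∈ Icc (0:ℝ) 1 := ⟨by linarith [hy.1], by linarith [hy.2]⟩
  have h := this.2 hx' hy' ha hb hab
  simp only [smul_eq_mul] at h ⊢
  unfold H
  have e : (1 + (a * x + b * y)) / 2 = a * ((1 + x) / 2) + b * ((1 + y) / 2) := by
    have : b = 1 - a := by linarith
    subst this; ring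
  rw [e]; exact h

lemma H_anti {x y : ℝ} (hx : 0 ≤ x) (hxy : x ≤ y) (hy : y ≤ 1) : H y ≤ H x := by
  unfold H
  refine binEntropy_strictAntiOn.antitoneOn ?_ ?_ (by linarith)
  · constructor <;> linarith
  · constructor <;> linarith

/-! ### The function `L` -/

lemma L_eq {x : ℝ} (h1 : -1 < x) (h2 : x < 1) :
    L x = H x - x * ((log (1 - x) - log (1 + x)) / 2) := by
  unfold L
  rw [H_eq]
  have : 1 - x ^ 2 = (1 - x) * (1 + x) := by ring
  rw [this, log_mul (by linarith) (by linarith)]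
  ring

lemma L_pos {x : ℝ} (h1 : -1 < x) (h2 : x < 1) : 0 < L x := by
  unfold L
  have hp : 0 < log 2 := log_pos (by norm_num)
  have h0 : 0 < 1 - x ^ 2 := by nlinarith
  have : log (1 - x ^ 2) ≤ 0 := log_nonpos h0.le (by nlinarith [sq_nonneg x])
  linarith

lemma L_mono {x y : ℝ} (hx : 0 ≤ x) (hxy : x ≤ y) (hy : y < 1) : L x ≤ L y := by
  unfold L
  have h0 : 0 < 1 - y ^ 2 := by nlinarith
  have : log (1 - y ^ 2) ≤ log (1 - x ^ 2) := log_le_log h0 (by nlinarith)
  linarith

lemma lamB_nonneg {ρ t : ℝ} (h0 : 0 ≤ ρ) (h1 : ρ ≤ 1) (ht0 : 0 < t) (ht1 : t < 1) :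
    0 ≤ lamB ρ t := by
  unfold lamB
  have : ρ * t ≤ t := by nlinarith
  have : 0 ≤ ρ * t := by positivity
  exact div_nonneg (L_pos (by linarith) (by linarith)).le (L_pos (by linarith) (by linarith)).le

lemma lamB_le_one {ρ t : ℝ} (h0 : 0 ≤ ρ) (h1 : ρ ≤ 1) (ht0 : 0 < t) (ht1 : t < 1) :
    lamB ρ t ≤ 1 := by
  unfold lamB
  have h2 : ρ * t ≤ t := by nlinarith
  have h3 : 0 ≤ ρ * t := by positivity
  rw [div_le_one (L_pos (by linarith) (by linarith))]
  exact L_mono h3 h2 ht1

/-! ### `H x / x` is strictly decreasing -/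

lemma hasDerivAt_Hdiv {x : ℝ} (h1 : 0 < x) (h2 : x < 1) :
    HasDerivAt (fun y => H y / y) (-(L x / x ^ 2)) x := by
  have d := (hasDerivAt_H (by linarith) h2).div (hasDerivAt_id x) (by simpa using h1.ne')
  refine d.congr_deriv ?_
  rw [L_eq (by linarith) h2]
  simp only [id]
  have : x ≠ 0 := h1.ne'
  field_simp
  ring

lemma Hdiv_strictAnti : StrictAntiOn (fun y => H y / y) (Ioc (0:ℝ) 1) := by
  refine strictAntiOn_of_deriv_neg (convex_Ioc _ _) ?_ ?_
  · intro x hx
    exact (H_continuous.continuousAt.div continuousAt_id hx.1.ne').continuousWithinAt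
  · intro x hx
    rw [interior_Ioc] at hx
    rw [(hasDerivAt_Hdiv hx.1 hx.2).deriv]
    have := L_pos (x := x) (by linarith [hx.1]) hx.2
    have h2 : 0 < x ^ 2 := by have := hx.1; positivity
    have : 0 < L x / x ^ 2 := by positivity
    linarith

/-! ### `lamB` is decreasing in `t` -/

/-- `k y = (1 - y) (2 log 2 - log (1 - y))`. -/
noncomputable def k (y : ℝ) : ℝ := (1 - y) * (2 * log 2 - log (1 - y))

lemma two_log_two : 1 < 2 * log 2 := by
  have := Real.log_two_gt_d9
  linarith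

lemma k_anti {x y : ℝ} (hx : 0 ≤ x) (hxy : x ≤ y) (hy : y < 1) : k y ≤ k x := by
  have : AntitoneOn k (Ico 0 1) := by
    refine antitoneOn_of_deriv_nonpos (convex_Ico _ _) ?_ ?_ ?_
    · intro z hz
      have h1 : (1 - z) ≠ 0 := by linarith [hz.2]
      unfold k
      refine ContinuousAt.continuousWithinAt ?_
      refine ContinuousAt.mul (by fun_prop) (ContinuousAt.sub continuousAt_const ?_)
      exact ContinuousAt.log (by fun_prop) h1
    · intro z hz
      rw [interior_Ico] at hz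
      have h1 : (1 - z) ≠ 0 := by linarith [hz.2]
      unfold k
      refine DifferentiableAt.differentiableWithinAt ?_
      refine DifferentiableAt.mul (by fun_prop) (DifferentiableAt.sub (by fun_prop) ?_)
      exact DifferentiableAt.log (by fun_prop) h1
    · intro z hz
      rw [interior_Ico] at hz
      have h1 : (1 - z) ≠ 0 := by linarith [hz.2]
      have d2 : HasDerivAt (fun y : ℝ => 1 - y) (-1) z := by
        simpa using (hasDerivAt_id z).const_sub 1
      have d := d2.mul ((d2.log h1).const_sub (2 * log 2))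
      have e : deriv k z = -1 * (2 * log 2 - log (1 - z)) + (1 - z) * -(-1 / (1 - z)) := d.deriv
      rw [e]
      have : (1 - z) * -(-1 / (1 - z)) = 1 := by field_simp
      rw [this]
      have hl : log (1 - z) ≤ 0 := log_nonpos (by linarith [hz.2]) (by linarith [hz.1])
      have := two_log_two
      linarith
  exact this ⟨hx, by linarith⟩ ⟨by linarith, hy⟩ hxy

lemma k_pos {y : ℝ} (h0 : 0 ≤ y) (h1 : y < 1) : 0 < k y := by
  unfold k
  have hl : log (1 - y) ≤ 0 := log_nonpos (by linarith) (by linarith)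
  have := two_log_two
  exact mul_pos (by linarith) (by linarith)

lemma hasDerivAt_L {x : ℝ} (h1 : -1 < x) (h2 : x < 1) :
    HasDerivAt L (x / (1 - x ^ 2)) x := by
  have h0 : (1 - x ^ 2) ≠ 0 := by nlinarith
  have d : HasDerivAt (fun y : ℝ => 1 - y ^ 2) (-(2 * x)) x := by
    simpa using ((hasDerivAt_pow 2 x).const_sub 1)
  have := ((d.log h0).div_const 2).const_sub (log 2)
  refine this.congr_deriv ?_
  field_simp

/-- the multiplier is antitone in `t` -/
lemma lamB_anti {ρ x y : ℝ} (h0 : 0 ≤ ρ) (h1 : ρ ≤ 1) (hx : 0 < x) (hxy : x ≤ y)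
    (hy : y < 1) : lamB ρ y ≤ lamB ρ x := by
  have key : AntitoneOn (lamB ρ) (Ioo 0 1) := by
    have hd : ∀ z ∈ Ioo (0:ℝ) 1, HasDerivAt (lamB ρ)
        (((ρ * z) / (1 - (ρ * z) ^ 2) * ρ * L z - L (ρ * z) * (z / (1 - z ^ 2))) / L z ^ 2) z := by
      intro z hz
      have a1 : ρ * z ≤ z := by nlinarith [hz.1]
      have a2 : 0 ≤ ρ * z := mul_nonneg h0 hz.1.le
      have dm : HasDerivAt (fun y : ℝ => ρ * y) ρ z := by
        simpa using (hasDerivAt_id z).const_mul ρ
      have dL1 : HasDerivAt L ((ρ * z) / (1 - (ρ * z) ^ 2)) (ρ * z) :=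
        hasDerivAt_L (by linarith [hz.2]) (by linarith [hz.2])
      have dL : HasDerivAt (fun y : ℝ => L (ρ * y)) ((ρ * z) / (1 - (ρ * z) ^ 2) * ρ) z := by
        have := dL1.comp z dm
        exact this
      have dz := hasDerivAt_L (x := z) (by linarith [hz.1]) hz.2
      have hL : L z ≠ 0 := (L_pos (by linarith [hz.1]) hz.2).ne'
      exact dL.div dz hL
    refine antitoneOn_of_deriv_nonpos (convex_Ioo _ _) ?_ ?_ ?_
    · intro z hz; exact (hd z hz).continuousAt.continuousWithinAt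
    · intro z hz
      rw [interior_Ioo] at hz
      exact (hd z hz).differentiableAt.differentiableWithinAt
    · intro z hz
      rw [interior_Ioo] at hz
      rw [(hd z hz).deriv]
      have hz0 := hz.1
      have hz1 := hz.2
      have hLz : 0 < L z := L_pos (by linarith) hz1
      have a1 : ρ * z ≤ z := by nlinarith
      have a2 : 0 ≤ ρ * z := mul_nonneg h0 hz0.le
      have hLr : 0 < L (ρ * z) := L_pos (by linarith) (by linarith)
      apply div_nonpos_of_nonpos_of_nonneg _ (by positivity)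
      -- reduce to `ρ^2 k(z^2) ≤ k(ρ^2 z^2)`
      have q1 : 0 < 1 - z ^ 2 := by nlinarith
      have q2 : 0 < 1 - (ρ * z) ^ 2 := by nlinarith
      have e1 : L z = (2 * log 2 - log (1 - z ^ 2)) / 2 := by unfold L; ring
      have e2 : L (ρ * z) = (2 * log 2 - log (1 - (ρ * z) ^ 2)) / 2 := by unfold L; ring
      have k1 : k ((ρ * z) ^ 2) = 2 * (1 - (ρ * z) ^ 2) * L (ρ * z) := by
        unfold k; rw [e2]; ring
      have k2 : k (z ^ 2) = 2 * (1 - z ^ 2) * L z := by
        unfold k; rw [e1]; ring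
      have m1 : k (z ^ 2) ≤ k ((ρ * z) ^ 2) := by
        refine k_anti (by positivity) ?_ (by nlinarith)
        exact pow_le_pow_left₀ a2 a1 2
      have m0 : 0 < k (z ^ 2) := k_pos (by positivity) (by nlinarith)
      have m2 : ρ ^ 2 * k (z ^ 2) ≤ k ((ρ * z) ^ 2) := by
        have : ρ ^ 2 ≤ 1 := by nlinarith
        nlinarith
      rw [k1, k2] at m2
      have : (ρ * z) / (1 - (ρ * z) ^ 2) * ρ * L z - L (ρ * z) * (z / (1 - z ^ 2))
          = z / ((1 - (ρ * z) ^ 2) * (1 - z ^ 2)) *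
            (ρ ^ 2 * ((1 - z ^ 2) * L z) - (1 - (ρ * z) ^ 2) * L (ρ * z)) := by
        have q1' := q1.ne'
        have q2' := q2.ne'
        generalize (1 - (ρ * z) ^ 2) = A at *
        generalize (1 - z ^ 2) = B at *
        field_simp
      rw [this]
      apply mul_nonpos_of_nonneg_of_nonpos
      · positivity
      · nlinarith
  exact key ⟨hx, by linarith⟩ ⟨by linarith, hy⟩ hxy

/-! ### Step (iv) -/

lemma hasDerivAt_Hrho {ρ x : ℝ} (h0 : 0 ≤ ρ) (h1 : ρ ≤ 1) (hx0 : 0 < x) (hx1 : x < 1) :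
    HasDerivAt (fun y => H (ρ * y) / y) (-(L (ρ * x) / x ^ 2)) x := by
  have a1 : ρ * x ≤ x := by nlinarith
  have a2 : 0 ≤ ρ * x := mul_nonneg h0 hx0.le
  have dm : HasDerivAt (fun y : ℝ => ρ * y) ρ x := by
    simpa using (hasDerivAt_id x).const_mul ρ
  have dH1 : HasDerivAt H ((log (1 - ρ * x) - log (1 + ρ * x)) / 2) (ρ * x) :=
    hasDerivAt_H (by linarith) (by linarith)
  have dH : HasDerivAt (fun y : ℝ => H (ρ * y))
      ((log (1 - ρ * x) - log (1 + ρ * x)) / 2 * ρ) x := by
    have := dH1.comp x dm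
    exact this
  have d := dH.div (hasDerivAt_id x) (by simpa using hx0.ne')
  refine d.congr_deriv ?_
  rw [L_eq (by linarith) (by linarith)]
  simp only [id]
  have : x ≠ 0 := hx0.ne'
  field_simp
  ring

lemma step_iv {ρ t s : ℝ} (h0 : 0 ≤ ρ) (h1 : ρ ≤ 1) (ht0 : 0 < t) (ht1 : t < 1)
    (hs0 : 0 < s) (hs1 : s ≤ 1) :
    lamB ρ t * (H s / s) + (H (ρ * t) - lamB ρ t * H t) / t ≤ H (ρ * s) / s := by
  set g : ℝ → ℝ := fun y => H (ρ * y) / y - lamB ρ t * (H y / y) with hg
  have hd : ∀ x ∈ Ioo (0:ℝ) 1, HasDerivAt g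
      (-(L (ρ * x) / x ^ 2) - lamB ρ t * (-(L x / x ^ 2))) x := by
    intro x hx
    exact (hasDerivAt_Hrho h0 h1 hx.1 hx.2).sub ((hasDerivAt_Hdiv hx.1 hx.2).const_mul _)
  have hc : ContinuousOn g (Ioc 0 1) := by
    intro x hx
    refine ContinuousAt.continuousWithinAt ?_
    have hx0 : x ≠ 0 := hx.1.ne'
    refine ContinuousAt.sub ?_ (ContinuousAt.mul continuousAt_const ?_)
    · exact ((H_continuous.comp (continuous_const.mul continuous_id)).continuousAt).div
        continuousAt_id hx0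
    · exact H_continuous.continuousAt.div continuousAt_id hx0
  have hder : ∀ x ∈ Ioo (0:ℝ) 1, -(L (ρ * x) / x ^ 2) - lamB ρ t * (-(L x / x ^ 2))
      = (L x / x ^ 2) * (lamB ρ t - lamB ρ x) := by
    intro x hx
    have hL : L x ≠ 0 := (L_pos (by linarith [hx.1]) hx.2).ne'
    have hx0 : x ≠ 0 := hx.1.ne'
    have : lamB ρ x = L (ρ * x) / L x := rfl
    rw [this]
    field_simp
    ring
  have main : g t ≤ g s := by
    rcases le_total s t with hst | hst
    · -- g antitone on [s,t]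
      have : AntitoneOn g (Icc s t) := by
        refine antitoneOn_of_deriv_nonpos (convex_Icc _ _) ?_ ?_ ?_
        · exact hc.mono (fun x hx => ⟨by linarith [hx.1], by linarith [hx.2]⟩)
        · intro x hx
          rw [interior_Icc] at hx
          exact (hd x ⟨by linarith [hx.1], by linarith [hx.2]⟩).differentiableAt.differentiableWithinAt
        · intro x hx
          rw [interior_Icc] at hx
          have hx' : x ∈ Ioo (0:ℝ) 1 := ⟨by linarith [hx.1], by linarith [hx.2]⟩
          rw [(hd x hx').deriv, hder x hx']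
          have hL : 0 < L x := L_pos (by linarith [hx'.1]) hx'.2
          have := lamB_anti h0 h1 hx'.1 hx.2.le ht1
          apply mul_nonpos_of_nonneg_of_nonpos
          · have := hx'.1; positivity
          · linarith
      exact this ⟨le_rfl, hst⟩ ⟨hst, le_rfl⟩ hst
    · have : MonotoneOn g (Icc t s) := by
        refine monotoneOn_of_deriv_nonneg (convex_Icc _ _) ?_ ?_ ?_
        · exact hc.mono (fun x hx => ⟨by linarith [hx.1], by linarith [hx.2]⟩)
        · intro x hx
          rw [interior_Icc] at hx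
          exact (hd x ⟨by linarith [hx.1], by linarith [hx.2]⟩).differentiableAt.differentiableWithinAt
        · intro x hx
          rw [interior_Icc] at hx
          have hx' : x ∈ Ioo (0:ℝ) 1 := ⟨by linarith [hx.1], by linarith [hx.2]⟩
          rw [(hd x hx').deriv, hder x hx']
          have hL : 0 < L x := L_pos (by linarith [hx'.1]) hx'.2
          have := lamB_anti h0 h1 ht0 hx.1.le hx'.2
          apply mul_nonneg
          · have := hx'.1; positivity
          · linarith
      exact this ⟨le_rfl, hst⟩ ⟨hst, le_rfl⟩ hst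
  simp only [hg] at main
  have : (H (ρ * t) - lamB ρ t * H t) / t = H (ρ * t) / t - lamB ρ t * (H t / t) := by
    field_simp
  rw [this]; linarith

/-! ### The function `psi` and the convex function `Q x = psi x / x` -/

lemma psi_eq (x : ℝ) : psi x = ((1 + x) * log (1 + x) + (1 - x) * log (1 - x)) / 2 := by
  unfold psi; rw [H_eq]; ring

lemma phi_eq {w d : ℝ} (hw1 : -1 < w) (hw2 : w < 1) :
    H w - (H (w + d) + H (w - d)) / 2
      = ((1 + w) * psi (d / (1 + w)) + (1 - w) * psi (d / (1 - w))) / 2 := by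
  have key : ∀ c e : ℝ, 0 < c → c * ((1 + e / c) * log (1 + e / c))
      = (c + e) * log (c + e) - (c + e) * log c := by
    intro c e hc
    have hc' := hc.ne'
    have e1 : 1 + e / c = (c + e) / c := by field_simp
    rw [e1]
    by_cases h : c + e = 0
    · rw [h]; simp
    · rw [log_div h hc']; field_simp
  have key2 : ∀ c e : ℝ, 0 < c → c * ((1 - e / c) * log (1 - e / c))
      = (c - e) * log (c - e) - (c - e) * log c := by
    intro c e hc
    have := key c (-e) hc
    have e1 : 1 + -e / c = 1 - e / c := by ring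
    rw [e1] at this
    rw [this]; ring_nf
  rw [psi_eq, psi_eq, H_eq, H_eq, H_eq]
  have a1 := key (1 + w) d (by linarith)
  have a2 := key2 (1 + w) d (by linarith)
  have a3 := key (1 - w) d (by linarith)
  have a4 := key2 (1 - w) d (by linarith)
  have r1 : 1 + (w + d) = 1 + w + d := by ring
  have r2 : 1 - (w + d) = 1 - w - d := by ring
  have r3 : 1 + (w - d) = 1 + w - d := by ring
  have r4 : 1 - (w - d) = 1 - w + d := by ring
  rw [r1, r2, r3, r4]
  linarith

lemma neg_log_div_mono {x y : ℝ} (hx : 0 < x) (hxy : x ≤ y) (hy : y < 1) :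
    -log (1 - x) / x ≤ -log (1 - y) / y := by
  have hy0 : 0 < y := by linarith
  have hc := strictConcaveOn_log_Ioi.concaveOn
  have h := hc.2 (show (1:ℝ) ∈ Ioi 0 by simp)
    (show (1 - y) ∈ Ioi (0:ℝ) by simp only [mem_Ioi]; linarith)
    (show (0:ℝ) ≤ 1 - x / y by rw [sub_nonneg, div_le_one hy0]; exact hxy)
    (show (0:ℝ) ≤ x / y by positivity) (by ring)
  simp only [smul_eq_mul, log_one, mul_zero, zero_add, mul_one] at h
  have e : (1 - x / y) + x / y * (1 - y) = 1 - x := by field_simp; ring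
  rw [e] at h
  rw [div_le_div_iff₀ hx hy0]
  have h2 : x / y * log (1 - y) * y ≤ log (1 - x) * y := mul_le_mul_of_nonneg_right h hy0.le
  have e2 : x / y * log (1 - y) * y = x * log (1 - y) := by field_simp
  rw [e2] at h2
  linarith

lemma hasDerivAt_Q {x : ℝ} (h0 : 0 < x) (h1 : x < 1) :
    HasDerivAt (fun y => psi y / y) (-log (1 - x ^ 2) / x ^ 2 / 2) x := by
  have hp : HasDerivAt psi (-((log (1 - x) - log (1 + x)) / 2)) x :=
    (hasDerivAt_H (by linarith) h1).const_sub (log 2)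
  have d := hp.div (hasDerivAt_id x) (by simpa using h0.ne')
  refine d.congr_deriv ?_
  have h3 := L_eq (x := x) (by linarith) h1
  unfold L at h3
  simp only [id]
  have hx : x ≠ 0 := h0.ne'
  have : psi x = log 2 - H x := rfl
  rw [this]
  have e : H x = log 2 - log (1 - x ^ 2) / 2 + x * ((log (1 - x) - log (1 + x)) / 2) := by linarith
  rw [e]
  field_simp
  ring

lemma psi_continuous : Continuous psi := continuous_const.sub H_continuous

lemma Q_continuousOn : ContinuousOn (fun y => psi y / y) (Ioc 0 1) := by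
  intro x hx
  exact (psi_continuous.continuousAt.div continuousAt_id hx.1.ne').continuousWithinAt

lemma Q_convex : ConvexOn ℝ (Ioc (0:ℝ) 1) (fun y => psi y / y) := by
  refine MonotoneOn.convexOn_of_deriv (convex_Ioc _ _) Q_continuousOn ?_ ?_
  · intro x hx
    rw [interior_Ioc] at hx
    exact (hasDerivAt_Q hx.1 hx.2).differentiableAt.differentiableWithinAt
  · intro x hx y hy hxy
    rw [interior_Ioc] at hx hy
    rw [(hasDerivAt_Q hx.1 hx.2).deriv, (hasDerivAt_Q hy.1 hy.2).deriv]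
    have := neg_log_div_mono (x := x ^ 2) (y := y ^ 2) (by have := hx.1; positivity)
      (pow_le_pow_left₀ hx.1.le hxy 2) (by nlinarith [hy.1, hy.2])
    linarith

lemma Q_mono : MonotoneOn (fun y => psi y / y) (Ioc (0:ℝ) 1) := by
  refine monotoneOn_of_deriv_nonneg (convex_Ioc _ _) Q_continuousOn ?_ ?_
  · intro x hx
    rw [interior_Ioc] at hx
    exact (hasDerivAt_Q hx.1 hx.2).differentiableAt.differentiableWithinAt
  · intro x hx
    rw [interior_Ioc] at hx
    rw [(hasDerivAt_Q hx.1 hx.2).deriv]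
    have h0 := hx.1
    have h2 : 0 ≤ 1 - x ^ 2 := by nlinarith [hx.1, hx.2]
    have : log (1 - x ^ 2) ≤ 0 := log_nonpos h2 (by nlinarith)
    have : 0 ≤ -log (1 - x ^ 2) := by linarith
    positivity

/-- `psi x ≤ x^2 log 2`, i.e. `(1 - x^2) log 2 ≤ H x`. -/
lemma H_ge {x : ℝ} (h0 : 0 ≤ x) (h1 : x ≤ 1) : (1 - x ^ 2) * log 2 ≤ H x := by
  rcases h0.eq_or_lt with rfl | h0
  · rw [H_zero]; simp
  -- `psi x / x^2` is monotone on `(0, 1]`
  have hder : ∀ z ∈ Ioo (0:ℝ) 1, HasDerivAt (fun y => psi y / y ^ 2)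
      ((z * (-((log (1 - z) - log (1 + z)) / 2)) - 2 * psi z) / z ^ 3) z := by
    intro z hz
    have hz0 : z ≠ 0 := hz.1.ne'
    have hp : HasDerivAt psi (-((log (1 - z) - log (1 + z)) / 2)) z :=
      (hasDerivAt_H (by linarith [hz.1]) hz.2).const_sub (log 2)
    have hq : HasDerivAt (fun y : ℝ => y ^ 2) (2 * z) z := by
      simpa using hasDerivAt_pow 2 z
    have d := hp.div hq (by positivity)
    refine d.congr_deriv ?_
    field_simp
  -- numerator is nonnegative
  set N : ℝ → ℝ := fun z => z * (-((log (1 - z) - log (1 + z)) / 2)) - 2 * psi z with hN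
  have hNder : ∀ z ∈ Ioo (-1:ℝ) 1, HasDerivAt N
      (z / (1 - z ^ 2) - (-((log (1 - z) - log (1 + z)) / 2))) z := by
    intro z hz
    have hp : HasDerivAt psi (-((log (1 - z) - log (1 + z)) / 2)) z :=
      (hasDerivAt_H (by linarith [hz.1]) hz.2).const_sub (log 2)
    have m1 : (1 - z) ≠ 0 := by linarith [hz.2]
    have m2 : (1 + z) ≠ 0 := by linarith [hz.1]
    have d1 : HasDerivAt (fun y : ℝ => 1 + y) 1 z := by
      simpa using (hasDerivAt_id z).const_add 1
    have d2 : HasDerivAt (fun y : ℝ => 1 - y) (-1) z := by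
      simpa using (hasDerivAt_id z).const_sub 1
    have l : HasDerivAt (fun y : ℝ => -((log (1 - y) - log (1 + y)) / 2))
        (-((-1 / (1 - z) - 1 / (1 + z)) / 2)) z :=
      (((d2.log m1).sub (d1.log m2)).div_const 2).neg
    have d : HasDerivAt N _ z := ((hasDerivAt_id z).mul l).sub (hp.const_mul 2)
    refine d.congr_deriv ?_
    simp only [id]
    have m3 : 1 - z ^ 2 = (1 - z) * (1 + z) := by ring
    rw [m3]
    field_simp
    ring
  have hNder_nonneg : ∀ z ∈ Ico (0:ℝ) 1,
      0 ≤ z / (1 - z ^ 2) - (-((log (1 - z) - log (1 + z)) / 2)) := by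
    -- artanh z ≤ z/(1-z^2)
    intro z hz
    set A : ℝ → ℝ := fun z => z / (1 - z ^ 2) - (-((log (1 - z) - log (1 + z)) / 2)) with hA
    have hAder : ∀ z ∈ Ioo (-1:ℝ) 1, HasDerivAt A (2 * z ^ 2 / (1 - z ^ 2) ^ 2) z := by
      intro z hz
      have m1 : (1 - z) ≠ 0 := by linarith [hz.2]
      have m2 : (1 + z) ≠ 0 := by linarith [hz.1]
      have m3 : (1 - z ^ 2) ≠ 0 := by
        have : 1 - z ^ 2 = (1 - z) * (1 + z) := by ring
        rw [this]; exact mul_ne_zero m1 m2
      have d1 : HasDerivAt (fun y : ℝ => 1 + y) 1 z := by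
        simpa using (hasDerivAt_id z).const_add 1
      have d2 : HasDerivAt (fun y : ℝ => 1 - y) (-1) z := by
        simpa using (hasDerivAt_id z).const_sub 1
      have l : HasDerivAt (fun y : ℝ => -((log (1 - y) - log (1 + y)) / 2))
          (-((-1 / (1 - z) - 1 / (1 + z)) / 2)) z :=
        (((d2.log m1).sub (d1.log m2)).div_const 2).neg
      have dq : HasDerivAt (fun y : ℝ => 1 - y ^ 2) (-(2 * z)) z := by
        simpa using ((hasDerivAt_pow 2 z).const_sub 1)
      have d := ((hasDerivAt_id z).div dq m3).sub l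
      refine d.congr_deriv ?_
      simp only [id]
      have m4 : 1 - z ^ 2 = (1 - z) * (1 + z) := by ring
      rw [m4]
      field_simp
      ring
    have hmono : MonotoneOn A (Ico 0 1) := by
      refine monotoneOn_of_deriv_nonneg (convex_Ico _ _) ?_ ?_ ?_
      · intro y hy
        exact (hAder y ⟨by linarith [hy.1], hy.2⟩).continuousAt.continuousWithinAt
      · intro y hy
        rw [interior_Ico] at hy
        exact (hAder y ⟨by linarith [hy.1], hy.2⟩).differentiableAt.differentiableWithinAt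
      · intro y hy
        rw [interior_Ico] at hy
        rw [(hAder y ⟨by linarith [hy.1], hy.2⟩).deriv]
        positivity
    have h := hmono (⟨le_rfl, by norm_num⟩ : (0:ℝ) ∈ Ico (0:ℝ) 1) hz hz.1
    have hA0 : A 0 = 0 := by simp [hA]
    rw [hA0] at h
    exact h
  have hNmono : MonotoneOn N (Ico 0 1) := by
    refine monotoneOn_of_deriv_nonneg (convex_Ico _ _) ?_ ?_ ?_
    · intro y hy
      exact (hNder y ⟨by linarith [hy.1], hy.2⟩).continuousAt.continuousWithinAt
    · intro y hy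
      rw [interior_Ico] at hy
      exact (hNder y ⟨by linarith [hy.1], hy.2⟩).differentiableAt.differentiableWithinAt
    · intro y hy
      rw [interior_Ico] at hy
      rw [(hNder y ⟨by linarith [hy.1], hy.2⟩).deriv]
      exact hNder_nonneg y ⟨hy.1.le, hy.2⟩
  have hN0 : N 0 = 0 := by
    simp only [hN]; rw [psi_eq]; simp
  have hmono : MonotoneOn (fun y => psi y / y ^ 2) (Ioc (0:ℝ) 1) := by
    refine monotoneOn_of_deriv_nonneg (convex_Ioc _ _) ?_ ?_ ?_
    · intro y hy
      have : y ^ 2 ≠ 0 := by have := hy.1; positivity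
      exact (psi_continuous.continuousAt.div (continuousAt_id.pow 2) this).continuousWithinAt
    · intro y hy
      rw [interior_Ioc] at hy
      exact (hder y hy).differentiableAt.differentiableWithinAt
    · intro y hy
      rw [interior_Ioc] at hy
      rw [(hder y hy).deriv]
      have h := hNmono (⟨le_rfl, by norm_num⟩ : (0:ℝ) ∈ Ico (0:ℝ) 1) ⟨hy.1.le, hy.2⟩ hy.1.le
      rw [hN0] at h
      have : 0 < y ^ 3 := by have := hy.1; positivity
      exact div_nonneg h this.le
  have h := hmono ⟨h0, h1⟩ (⟨by norm_num, le_rfl⟩ : (1:ℝ) ∈ Ioc (0:ℝ) 1) h1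
  simp only at h
  have e1 : psi 1 / 1 ^ 2 = log 2 := by unfold psi; rw [H_one]; simp
  rw [e1, div_le_iff₀ (by positivity)] at h
  unfold psi at h
  linarith

lemma H_ge' {x : ℝ} (h0 : -1 ≤ x) (h1 : x ≤ 1) : (1 - x ^ 2) * log 2 ≤ H x := by
  rcases le_total 0 x with h | h
  · exact H_ge h h1
  · have := H_ge (x := -x) (by linarith) (by linarith)
    rw [H_neg] at this
    have e : (-x) ^ 2 = x ^ 2 := by ring
    rwa [e] at this

/-! ### Step (iii) -/

/-- `S ≤ c H(d/c)` with `c = H w / log 2`. -/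
lemma step_iii {w d : ℝ} (hd : 0 < d) (hwd : |w| + d ≤ 1) :
    (H (w + d) + H (w - d)) / 2 ≤ H w / log 2 * H (d / (H w / log 2)) := by
  have hl2 : 0 < log 2 := log_pos (by norm_num)
  have hw : |w| < 1 := by linarith
  have hw1 : -1 < w := (abs_lt.mp hw).1
  have hw2 : w < 1 := (abs_lt.mp hw).2
  have hwsq : |w| ^ 2 = w ^ 2 := sq_abs w
  have hdle : d ≤ 1 - w ^ 2 := by
    have := abs_nonneg w
    nlinarith
  set r := 1 - w ^ 2 with hr
  have hr0 : 0 < r := by linarith
  have hd1 : d ≤ 1 + w := by have := neg_abs_le w; linarith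
  have hd2 : d ≤ 1 - w := by have := le_abs_self w; linarith
  -- Jensen
  have hJ : r * psi (d / r) ≤ ((1 + w) * psi (d / (1 + w)) + (1 - w) * psi (d / (1 - w))) / 2 := by
    have p1 : d / (1 + w) ∈ Ioc (0:ℝ) 1 := by
      refine ⟨by have : 0 < 1 + w := by linarith
                 positivity, ?_⟩
      rw [div_le_one (by linarith)]; exact hd1
    have p2 : d / (1 - w) ∈ Ioc (0:ℝ) 1 := by
      refine ⟨by have : 0 < 1 - w := by linarith
                 positivity, ?_⟩
      rw [div_le_one (by linarith)]; exact hd2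
    have hc := Q_convex.2 p1 p2 (show (0:ℝ) ≤ 1 / 2 by norm_num) (show (0:ℝ) ≤ 1 / 2 by norm_num)
      (by norm_num)
    simp only [smul_eq_mul] at hc
    have m1 : (1 + w) ≠ 0 := by linarith
    have m2 : (1 - w) ≠ 0 := by linarith
    have e1 : 1 / 2 * (d / (1 + w)) + 1 / 2 * (d / (1 - w)) = d / r := by
      rw [hr]
      have : 1 - w ^ 2 = (1 + w) * (1 - w) := by ring
      rw [this]; field_simp; ring
    rw [e1] at hc
    have hm := mul_le_mul_of_nonneg_left hc hd.le
    have hr' := hr0.ne'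
    have hd' := hd.ne'
    have e2 : d * (psi (d / r) / (d / r)) = r * psi (d / r) := by field_simp
    have e3 : d * (1 / 2 * (psi (d / (1 + w)) / (d / (1 + w)))
        + 1 / 2 * (psi (d / (1 - w)) / (d / (1 - w))))
        = ((1 + w) * psi (d / (1 + w)) + (1 - w) * psi (d / (1 - w))) / 2 := by field_simp
    rw [e2, e3] at hm
    exact hm
  have hHw : 0 < H w := H_pos hw1 hw2
  set c := H w / log 2 with hc
  have hc0 : 0 < c := by positivity
  have hcr : r ≤ c := by
    rw [hc, le_div_iff₀ hl2]; exact H_ge' hw1.le hw2.le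
  have hmono : c * psi (d / c) ≤ r * psi (d / r) := by
    have p1 : d / c ∈ Ioc (0:ℝ) 1 := by
      refine ⟨by positivity, ?_⟩
      rw [div_le_one hc0]; linarith
    have p2 : d / r ∈ Ioc (0:ℝ) 1 := by
      refine ⟨by positivity, ?_⟩
      rw [div_le_one hr0]; exact hdle
    have h := Q_mono p1 p2 (div_le_div_of_nonneg_left hd.le hr0 hcr)
    simp only at h
    have hm := mul_le_mul_of_nonneg_left h hd.le
    have hr' := hr0.ne'
    have hd' := hd.ne'
    have hc' := hc0.ne'
    have e2 : d * (psi (d / r) / (d / r)) = r * psi (d / r) := by field_simp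
    have e3 : d * (psi (d / c) / (d / c)) = c * psi (d / c) := by field_simp
    rw [e2, e3] at hm
    exact hm
  have hphi := phi_eq (w := w) (d := d) hw1 hw2
  have hcl : c * log 2 = H w := by rw [hc]; field_simp
  have : c * psi (d / c) = H w - c * H (d / c) := by unfold psi; rw [mul_sub, hcl]
  linarith

/-! ### Step (ii) -/

lemma F_deriv {w d s r : ℝ} (hd : 0 < d) (hwd : |w| + d ≤ 1) (hs0 : 0 < s) (hs1 : s ≤ 1)
    (hr0 : 0 < r) (hr1 : r < 1) :
    HasDerivAt (fun r => (H (w + r * d) + H (w - r * d)) / 2 / d - H (r * s) / s)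
      ((log (((1 - r * d) ^ 2 - w ^ 2) * (1 + r * s) ^ 2)
        - log (((1 + r * d) ^ 2 - w ^ 2) * (1 - r * s) ^ 2)) / 4) r := by
  have hd1 : d ≤ 1 + w := by have := neg_abs_le w; linarith
  have hd2 : d ≤ 1 - w := by have := le_abs_self w; linarith
  have hrd : r * d < d := by nlinarith
  have hrd0 : 0 < r * d := mul_pos hr0 hd
  have hrs : r * s < 1 := by nlinarith
  have hrs0 : 0 < r * s := mul_pos hr0 hs0
  have q1 : 0 < 1 - w - r * d := by linarith
  have q2 : 0 < 1 + w + r * d := by linarith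
  have q3 : 0 < 1 - w + r * d := by linarith
  have q4 : 0 < 1 + w - r * d := by linarith
  have i1 : HasDerivAt (fun r : ℝ => w + r * d) d r := by
    simpa using ((hasDerivAt_id r).mul_const d).const_add w
  have i2 : HasDerivAt (fun r : ℝ => w - r * d) (-d) r := by
    simpa using ((hasDerivAt_id r).mul_const d).const_sub w
  have i3 : HasDerivAt (fun r : ℝ => r * s) s r := by
    simpa using (hasDerivAt_id r).mul_const s
  have b1 := (hasDerivAt_H (x := w + r * d) (by linarith) (by linarith)).comp r i1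
  have b2 := (hasDerivAt_H (x := w - r * d) (by linarith) (by linarith)).comp r i2
  have b3 := (hasDerivAt_H (x := r * s) (by linarith) (by linarith)).comp r i3
  have b := (((b1.add b2).div_const 2).div_const d).sub (b3.div_const s)
  refine HasDerivAt.congr_deriv b ?_
  have f1 : (1 - r * d) ^ 2 - w ^ 2 = (1 - w - r * d) * (1 + w - r * d) := by ring
  have f2 : (1 + r * d) ^ 2 - w ^ 2 = (1 + w + r * d) * (1 - w + r * d) := by ring
  have g1 : (0:ℝ) < 1 + r * s := by linarith
  have g2 : (0:ℝ) < 1 - r * s := by linarith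
  have t1 : 1 - (w + r * d) = 1 - w - r * d := by ring
  have t2 : 1 + (w + r * d) = 1 + w + r * d := by ring
  have t3 : 1 - (w - r * d) = 1 - w + r * d := by ring
  have t4 : 1 + (w - r * d) = 1 + w - r * d := by ring
  rw [f1, f2, log_mul (by positivity) (by positivity), log_mul (by positivity) (by positivity),
    log_mul (by positivity) (by positivity), log_mul (by positivity) (by positivity),
    log_pow, log_pow, t1, t2, t3, t4]
  push_cast
  have hd' := hd.ne'
  have hs' := hs0.ne'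
  generalize log (1 - w - r * d) = A1
  generalize log (1 + w - r * d) = A2
  generalize log (1 - w + r * d) = A3
  generalize log (1 + w + r * d) = A4
  generalize log (1 + r * s) = A5
  generalize log (1 - r * s) = A6
  field_simp
  ring

lemma sign_pos {w d s r : ℝ} (hd : 0 < d) (hwd : |w| + d ≤ 1) (hs0 : 0 < s) (hs1 : s ≤ 1)
    (hr0 : 0 < r) (hr1 : r < 1) :
    0 < ((1 - r * d) ^ 2 - w ^ 2) * (1 + r * s) ^ 2
      ∧ 0 < ((1 + r * d) ^ 2 - w ^ 2) * (1 - r * s) ^ 2 := by
  have hd1 : d ≤ 1 + w := by have := neg_abs_le w; linarith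
  have hd2 : d ≤ 1 - w := by have := le_abs_self w; linarith
  have hrd : r * d < d := by nlinarith
  have hrd0 : 0 < r * d := mul_pos hr0 hd
  have hrs : r * s < 1 := by nlinarith
  have hrs0 : 0 < r * s := mul_pos hr0 hs0
  have q1 : 0 < 1 - w - r * d := by linarith
  have q2 : 0 < 1 + w + r * d := by linarith
  have q3 : 0 < 1 - w + r * d := by linarith
  have q4 : 0 < 1 + w - r * d := by linarith
  have f1 : (1 - r * d) ^ 2 - w ^ 2 = (1 - w - r * d) * (1 + w - r * d) := by ring
  have f2 : (1 + r * d) ^ 2 - w ^ 2 = (1 + w + r * d) * (1 - w + r * d) := by ring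
  have g1 : (0:ℝ) < 1 + r * s := by linarith
  have g2 : (0:ℝ) < 1 - r * s := by linarith
  rw [f1, f2]
  exact ⟨by positivity, by positivity⟩

lemma step_ii {ρ w d s : ℝ} (h0 : 0 ≤ ρ) (h1 : ρ ≤ 1) (hd : 0 < d) (hwd : |w| + d ≤ 1)
    (hs0 : 0 < s) (hs1 : s ≤ 1) (hsd : d ≤ s)
    (hs : H s / s = (H (w + d) + H (w - d)) / 2 / d) (hF0 : log 2 / s ≤ H w / d) :
    H (ρ * s) / s ≤ (H (w + ρ * d) + H (w - ρ * d)) / 2 / d := by
  set F : ℝ → ℝ := fun r => (H (w + r * d) + H (w - r * d)) / 2 / d - H (r * s) / s with hF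
  have hFc : Continuous F := by
    have c1 : Continuous (fun r : ℝ => H (w + r * d)) := H_continuous.comp (by fun_prop)
    have c2 : Continuous (fun r : ℝ => H (w - r * d)) := H_continuous.comp (by fun_prop)
    have c3 : Continuous (fun r : ℝ => H (r * s)) := H_continuous.comp (by fun_prop)
    exact (((c1.add c2).div_const 2).div_const d).sub (c3.div_const s)
  have hF0' : 0 ≤ F 0 := by
    simp only [hF]
    have e1 : w + 0 * d = w := by ring
    have e2 : w - 0 * d = w := by ring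
    have e3 : 0 * s = 0 := by ring
    rw [e1, e2, e3, H_zero]
    have : (H w + H w) / 2 / d = H w / d := by ring
    rw [this]; linarith
  have hF1 : F 1 = 0 := by
    simp only [hF, one_mul]
    rw [hs]; ring
  have hFd : ∀ r ∈ Ioo (0:ℝ) 1, HasDerivAt F
      ((log (((1 - r * d) ^ 2 - w ^ 2) * (1 + r * s) ^ 2)
        - log (((1 + r * d) ^ 2 - w ^ 2) * (1 - r * s) ^ 2)) / 4) r :=
    fun r hr => F_deriv hd hwd hs0 hs1 hr.1 hr.2
  by_contra hcon
  have hneg : F ρ < 0 := by simp only [hF]; push Not at hcon; linarith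
  have hρ0 : 0 < ρ := by
    rcases h0.eq_or_lt with h | h
    · rw [← h] at hneg; linarith
    · exact h
  have hρ1 : ρ < 1 := by
    rcases h1.eq_or_lt with h | h
    · rw [h, hF1] at hneg; linarith
    · exact h
  obtain ⟨r1, hr1, he1⟩ := exists_hasDerivAt_eq_slope F _ hρ0 hFc.continuousOn
    (fun x hx => hFd x ⟨hx.1, by linarith [hx.2]⟩)
  obtain ⟨r2, hr2, he2⟩ := exists_hasDerivAt_eq_slope F _ hρ1 hFc.continuousOn
    (fun x hx => hFd x ⟨by linarith [hx.1], hx.2⟩)
  have s1 : (F ρ - F 0) / (ρ - 0) < 0 := div_neg_of_neg_of_pos (by linarith) (by linarith)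
  have s2 : 0 < (F 1 - F ρ) / (1 - ρ) := div_pos (by linarith) (by linarith)
  rw [← he1] at s1
  rw [← he2] at s2
  have hdiff : ∀ r : ℝ, ((1 - r * d) ^ 2 - w ^ 2) * (1 + r * s) ^ 2
      - ((1 + r * d) ^ 2 - w ^ 2) * (1 - r * s) ^ 2
      = 4 * r * ((s - d) * (1 - r ^ 2 * s * d) - s * w ^ 2) := by
    intro r; ring
  have p1 := sign_pos hd hwd hs0 hs1 hr1.1 (by linarith [hr1.2])
  have p2 := sign_pos hd hwd hs0 hs1 (r := r2) (by linarith [hr2.1]) hr2.2
  have l1 : ((1 - r1 * d) ^ 2 - w ^ 2) * (1 + r1 * s) ^ 2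
      < ((1 + r1 * d) ^ 2 - w ^ 2) * (1 - r1 * s) ^ 2 := by
    rw [← log_lt_log_iff p1.1 p1.2]; linarith
  have l2 : ((1 + r2 * d) ^ 2 - w ^ 2) * (1 - r2 * s) ^ 2
      < ((1 - r2 * d) ^ 2 - w ^ 2) * (1 + r2 * s) ^ 2 := by
    rw [← log_lt_log_iff p2.2 p2.1]; linarith
  have d1 := hdiff r1
  have d2 := hdiff r2
  have B1 : (s - d) * (1 - r1 ^ 2 * s * d) - s * w ^ 2 < 0 := by
    by_contra hh
    push Not at hh
    have : 0 ≤ 4 * r1 * ((s - d) * (1 - r1 ^ 2 * s * d) - s * w ^ 2) :=
      mul_nonneg (by linarith [hr1.1]) hh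
    linarith
  have B2 : 0 < (s - d) * (1 - r2 ^ 2 * s * d) - s * w ^ 2 := by
    by_contra hh
    push Not at hh
    have : 4 * r2 * ((s - d) * (1 - r2 ^ 2 * s * d) - s * w ^ 2) ≤ 0 :=
      mul_nonpos_of_nonneg_of_nonpos (by linarith [hr2.1]) hh
    linarith
  have hr12 : r1 ^ 2 ≤ r2 ^ 2 := pow_le_pow_left₀ hr1.1.le (by linarith [hr1.2, hr2.1]) 2
  have hsd0 : 0 ≤ s * d := by positivity
  have h5 : r1 ^ 2 * (s * d) ≤ r2 ^ 2 * (s * d) := mul_le_mul_of_nonneg_right hr12 hsd0
  have : (s - d) * (1 - r2 ^ 2 * s * d) ≤ (s - d) * (1 - r1 ^ 2 * s * d) := by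
    apply mul_le_mul_of_nonneg_left _ (by linarith)
    linarith
  linarith

/-! ### Step (i) -/

lemma core {ρ w d : ℝ} (h0 : 0 ≤ ρ) (h1 : ρ ≤ 1) (hd : 0 < d) (hwd : |w| + d ≤ 1) :
    ∃ s : ℝ, 0 < s ∧ s ≤ 1 ∧ H s / s = (H (w + d) + H (w - d)) / 2 / d ∧
      H (ρ * s) / s ≤ (H (w + ρ * d) + H (w - ρ * d)) / 2 / d := by
  have hl2 : 0 < log 2 := log_pos (by norm_num)
  have hw : |w| < 1 := by linarith
  have hw1 : -1 < w := (abs_lt.mp hw).1
  have hw2 : w < 1 := (abs_lt.mp hw).2
  have hd1 : d ≤ 1 + w := by have := neg_abs_le w; linarith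
  have hd2 : d ≤ 1 - w := by have := le_abs_self w; linarith
  have hdle1 : d ≤ 1 := by have := abs_nonneg w; linarith
  have hHw : 0 < H w := H_pos hw1 hw2
  have hS0 : 0 ≤ (H (w + d) + H (w - d)) / 2 := by
    have a := H_nonneg (x := w + d) (by linarith) (by linarith)
    have b := H_nonneg (x := w - d) (by linarith) (by linarith)
    linarith
  have hSd : (H (w + d) + H (w - d)) / 2 ≤ H d := by
    have hc := H_concave.2 (show w + d ∈ Icc (-1:ℝ) 1 from ⟨by linarith, by linarith⟩)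
      (show d - w ∈ Icc (-1:ℝ) 1 from ⟨by linarith, by linarith⟩)
      (show (0:ℝ) ≤ 1 / 2 by norm_num) (show (0:ℝ) ≤ 1 / 2 by norm_num) (by norm_num)
    simp only [smul_eq_mul] at hc
    have e : 1 / 2 * (w + d) + 1 / 2 * (d - w) = d := by ring
    have e2 : H (w - d) = H (d - w) := by rw [← H_neg]; ring_nf
    rw [e] at hc
    rw [e2]; linarith
  -- (iii)
  have h3 := step_iii hd hwd
  generalize hSS : (H (w + d) + H (w - d)) / 2 = S at hS0 hSd h3
  -- (i)
  have hcont : ContinuousOn (fun y => H y / y) (Icc d 1) := by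
    intro x hx
    have : x ≠ 0 := by linarith [hx.1]
    exact (H_continuous.continuousAt.div continuousAt_id this).continuousWithinAt
  have hivt := intermediate_value_Icc' hdle1 hcont
  have hmem : S / d ∈ Icc ((fun y => H y / y) 1) ((fun y => H y / y) d) := by
    constructor
    · simp only [H_one, zero_div]; positivity
    · exact div_le_div_of_nonneg_right hSd hd.le
  obtain ⟨s, ⟨hsd, hs1⟩, hs⟩ := hivt hmem
  simp only at hs
  have hs0 : 0 < s := by linarith
  have hcr : 1 - w ^ 2 ≤ H w / log 2 := by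
    rw [le_div_iff₀ hl2]; exact H_ge' hw1.le hw2.le
  have hc0 : 0 < H w / log 2 := by positivity
  have hwsq : |w| ^ 2 = w ^ 2 := sq_abs w
  have hdle : d ≤ 1 - w ^ 2 := by
    have := abs_nonneg w
    nlinarith
  have hdc : d / (H w / log 2) ≤ s := by
    generalize H w / log 2 = c at *
    by_contra hcon
    push Not at hcon
    have hdc0 : 0 < d / c := by positivity
    have hdc1 : d / c ≤ 1 := by rw [div_le_one hc0]; linarith
    have := Hdiv_strictAnti ⟨hs0, hs1⟩ ⟨hdc0, hdc1⟩ hcon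
    simp only at this
    rw [hs] at this
    have e : H (d / c) / (d / c) = c * H (d / c) / d := by field_simp
    rw [e] at this
    have := (div_lt_div_iff_of_pos_right hd).mp this
    linarith
  have hF0 : log 2 / s ≤ H w / d := by
    rw [div_le_div_iff₀ hs0 hd]
    rw [div_le_iff₀ hc0] at hdc
    have h6 : d * log 2 ≤ s * (H w / log 2) * log 2 := mul_le_mul_of_nonneg_right hdc hl2.le
    have e : s * (H w / log 2) * log 2 = s * H w := by field_simp
    rw [e] at h6
    linarith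
  refine ⟨s, hs0, hs1, hs, ?_⟩
  exact step_ii h0 h1 hd hwd hs0 hs1 hsd (by rw [hSS]; exact hs) hF0

lemma lemmaB_pos {ρ t w d : ℝ} (h0 : 0 ≤ ρ) (h1 : ρ ≤ 1) (ht0 : 0 < t) (ht1 : t < 1)
    (hd : 0 < d) (hwd : |w| + d ≤ 1) :
    lamB ρ t * ((H (w + d) + H (w - d)) / 2) + (H (ρ * t) - lamB ρ t * H t) / t * d
      ≤ (H (w + ρ * d) + H (w - ρ * d)) / 2 := by
  obtain ⟨s, hs0, hs1, hs, hle⟩ := core h0 h1 hd hwd
  have h4 := step_iv h0 h1 ht0 ht1 hs0 hs1
  rw [hs] at h4
  have := h4.trans hle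
  have hm := mul_le_mul_of_nonneg_right this hd.le
  have hd' := hd.ne'
  have e1 : (H (w + ρ * d) + H (w - ρ * d)) / 2 / d * d = (H (w + ρ * d) + H (w - ρ * d)) / 2 := by
    field_simp
  have e2 : (lamB ρ t * ((H (w + d) + H (w - d)) / 2 / d)
      + (H (ρ * t) - lamB ρ t * H t) / t) * d
      = lamB ρ t * ((H (w + d) + H (w - d)) / 2) + (H (ρ * t) - lamB ρ t * H t) / t * d := by
    field_simp
  rw [e1, e2] at hm
  exact hm

lemma slope_nonneg {ρ t : ℝ} (h0 : 0 ≤ ρ) (h1 : ρ ≤ 1) (ht0 : 0 < t) (ht1 : t < 1) :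
    0 ≤ (H (ρ * t) - lamB ρ t * H t) / t := by
  have a1 : ρ * t ≤ t := by nlinarith
  have a2 : 0 ≤ ρ * t := mul_nonneg h0 ht0.le
  have b1 := H_anti a2 a1 ht1.le
  have b2 := lamB_le_one h0 h1 ht0 ht1
  have b3 := H_nonneg (x := t) (by linarith) ht1.le
  apply div_nonneg _ ht0.le
  nlinarith

lemma lemmaB_wd {ρ t w d : ℝ} (h0 : 0 ≤ ρ) (h1 : ρ ≤ 1) (ht0 : 0 < t) (ht1 : t < 1)
    (hwd : |w| + |d| ≤ 1) :
    lamB ρ t * ((H (w + d) + H (w - d)) / 2) + (H (ρ * t) - lamB ρ t * H t) / t * |d|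
      ≤ (H (w + ρ * d) + H (w - ρ * d)) / 2 := by
  rcases lt_trichotomy d 0 with hd | hd | hd
  · rw [abs_of_neg hd] at hwd ⊢
    have := lemmaB_pos h0 h1 ht0 ht1 (w := w) (d := -d) (by linarith) hwd
    have e1 : w + -d = w - d := by ring
    have e2 : w - -d = w + d := by ring
    have e3 : w + ρ * -d = w - ρ * d := by ring
    have e4 : w - ρ * -d = w + ρ * d := by ring
    rw [e1, e2, e3, e4] at this
    rw [add_comm (H (w - d)), add_comm (H (w - ρ * d))] at this
    exact this
  · subst hd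
    have hw1 : -1 ≤ w := by have := neg_abs_le w; simp at hwd; linarith
    have hw2 : w ≤ 1 := by have := le_abs_self w; simp at hwd; linarith
    have b2 := lamB_le_one h0 h1 ht0 ht1
    have b3 := H_nonneg hw1 hw2
    simp only [mul_zero, add_zero, sub_zero, abs_zero]
    nlinarith
  · rw [abs_of_pos hd] at hwd ⊢
    exact lemmaB_pos h0 h1 ht0 ht1 hd hwd

end LB

open LB in
/-- **Lemma B** with `|v - u|`. -/
theorem lemmaB_abs {ρ t u v : ℝ} (h0 : 0 ≤ ρ) (h1 : ρ ≤ 1) (ht0 : 0 < t) (ht1 : t < 1)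
    (hu : |u| ≤ 1) (hv : |v| ≤ 1) :
    lamB ρ t * ((H u + H v) / 2) + (H (ρ * t) - lamB ρ t * H t) / t * (|v - u| / 2)
      ≤ M ρ u v := by
  have hu1 := (abs_le.mp hu).1
  have hu2 := (abs_le.mp hu).2
  have hv1 := (abs_le.mp hv).1
  have hv2 := (abs_le.mp hv).2
  have hwd : |(u + v) / 2| + |(v - u) / 2| ≤ 1 := by
    rcases abs_cases ((u + v) / 2) with ⟨h, _⟩ | ⟨h, _⟩ <;>
    rcases abs_cases ((v - u) / 2) with ⟨h', _⟩ | ⟨h', _⟩ <;> rw [h, h'] <;> linarith
  have := lemmaB_wd h0 h1 ht0 ht1 hwd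
  have e1 : (u + v) / 2 + (v - u) / 2 = v := by ring
  have e2 : (u + v) / 2 - (v - u) / 2 = u := by ring
  have e3 : |(v - u) / 2| = |v - u| / 2 := by rw [abs_div]; norm_num
  rw [e1, e2, e3] at this
  unfold M
  rw [add_comm (H u)]
  exact this

open LB in
/-- **Lemma B**. -/
theorem lemmaB {ρ t u v : ℝ} (h0 : 0 ≤ ρ) (h1 : ρ ≤ 1) (ht0 : 0 < t) (ht1 : t < 1)
    (hu : |u| ≤ 1) (hv : |v| ≤ 1) :
    lamB ρ t * ((H u + H v) / 2) + (H (ρ * t) - lamB ρ t * H t) / t * ((v - u) / 2)
      ≤ M ρ u v := by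
  refine le_trans ?_ (lemmaB_abs h0 h1 ht0 ht1 hu hv)
  have hs := slope_nonneg h0 h1 ht0 ht1
  have : (v - u) / 2 ≤ |v - u| / 2 := by have := le_abs_self (v - u); linarith
  have := mul_le_mul_of_nonneg_left this hs
  linarith

end Vale.Agent.P322
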