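import Vale.Agent.P322.LemmaA
import Vale.Agent.P322.LemmaB
import Vale.Agent.P322.Info

/-!
# P322: from the pointwise Lemmas A and B to the two-point statement for laws
-/

namespace Vale.Agent.P322

open Real Finset

/-- Certificate from Lemma A at the base point `(a,b)`. -/
def CertA (ρ : ℝ) (g : ℝ → ℝ) (a b : ℝ) : Prop :=
  g ((a + b) / 2) ≤
    M ρ a b - theta ρ a b * ((H a + H b) / 2 - (Ind.gt ρ g a + Ind.gt ρ g b) / 2)

/-- Certificate from Lemma B with parameter `t`. -/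
def CertB (ρ : ℝ) (g : ℝ → ℝ) (a b : ℝ) : Prop :=
  ∃ t : ℝ, 0 < t ∧ t < 1 ∧ g ((a + b) / 2) ≤
    lamB ρ t * ((Ind.gt ρ g a + Ind.gt ρ g b) / 2)
      + (H (ρ * t) - lamB ρ t * H t) / t * ((b - a) / 2)

lemma lamB_nonneg {ρ t : ℝ} (h0 : 0 ≤ ρ) (h1 : ρ ≤ 1) (ht0 : 0 < t) (ht1 : t < 1) :
    0 ≤ lamB ρ t := by
  have hl : 0 < Real.log 2 := Real.log_pos (by norm_num)
  have k : ∀ x : ℝ, 0 ≤ x → x < 1 → 0 < L x := by
    intro x hx0 hx1
    unfold L
    have : Real.log (1 - x ^ 2) ≤ 0 := Real.log_nonpos (by nlinarith) (by nlinarith)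
    linarith
  unfold lamB
  have hrt : ρ * t < 1 := by nlinarith
  exact (div_pos (k _ (mul_nonneg h0 ht0.le) hrt) (k _ ht0.le ht1)).le

lemma lamB_le_one {ρ t : ℝ} (h0 : 0 ≤ ρ) (h1 : ρ ≤ 1) (ht0 : 0 < t) (ht1 : t < 1) :
    lamB ρ t ≤ 1 := by
  have hl : 0 < Real.log 2 := Real.log_pos (by norm_num)
  unfold lamB
  have hLt : 0 < L t := by
    unfold L
    have : Real.log (1 - t ^ 2) ≤ 0 := Real.log_nonpos (by nlinarith) (by nlinarith)
    linarith
  rw [div_le_one hLt]
  unfold L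
  have h2 : Real.log (1 - t ^ 2) ≤ Real.log (1 - (ρ * t) ^ 2) := by
    apply Real.log_le_log (by nlinarith)
    have : (ρ * t) ^ 2 ≤ t ^ 2 := by
      have h3 : ρ * t ≤ t := by nlinarith
      have h4 : 0 ≤ ρ * t := mul_nonneg h0 ht0.le
      gcongr
    linarith
  linarith

/-- The two-point statement follows if every pair of means has a certificate. -/
theorem twoPoint_of_cert {ρ : ℝ} (h0 : 0 < ρ) (h1 : ρ < 1) {g : ℝ → ℝ}
    (hc : ∀ a b : ℝ, -1 < a → a < b → b < 1 → a + b ≤ 0 →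
      (1 - ρ ^ 2) * H ((a + b) / 2) < g ((a + b) / 2) → CertA ρ g a b ∨ CertB ρ g a b) :
    Ind.TwoPoint ρ g := by
  intro ι _ w U V hw hw1 hU hV ha hab hb hsum hg
  set a := ∑ i, w i * U i with hadef
  set b := ∑ i, w i * V i with hbdef
  set s := ∑ i, w i * ((H (U i) + H (V i)) / 2) with hsdef
  rcases hc a b ha hab hb hsum hg with hA | hB
  · obtain ⟨A, B, hAB⟩ := lemmaA h0 h1 ha hab hb hsum
    have hθ0 := theta_pos h0 h1 ha hab hb hsum
    have hθ1 := theta_le_one h0 h1 ha hab hb hsum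
    have k1 : ∑ i, w i * (M ρ a b - theta ρ a b * ((H a + H b) / 2 - (H (U i) + H (V i)) / 2)
        + A * (U i - a) + B * (V i - b)) ≤ ∑ i, w i * M ρ (U i) (V i) :=
      Finset.sum_le_sum fun i _ => mul_le_mul_of_nonneg_left (hAB _ _ (hU i) (hV i)) (hw i)
    have k2 : ∑ i, w i * (M ρ a b - theta ρ a b * ((H a + H b) / 2 - (H (U i) + H (V i)) / 2)
        + A * (U i - a) + B * (V i - b))
        = M ρ a b - theta ρ a b * ((H a + H b) / 2 - s) := by
      have e : ∀ i, w i * (M ρ a b - theta ρ a b * ((H a + H b) / 2 - (H (U i) + H (V i)) / 2)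
          + A * (U i - a) + B * (V i - b))
          = (M ρ a b - theta ρ a b * ((H a + H b) / 2) - A * a - B * b) * w i
            + theta ρ a b * (w i * ((H (U i) + H (V i)) / 2)) + A * (w i * U i)
            + B * (w i * V i) := fun i => by ring
      simp only [e]
      rw [Finset.sum_add_distrib, Finset.sum_add_distrib, Finset.sum_add_distrib,
        ← Finset.mul_sum, ← Finset.mul_sum, ← Finset.mul_sum, ← Finset.mul_sum, hw1,
        ← hadef, ← hbdef, ← hsdef]
      ring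
    rw [k2] at k1
    unfold CertA at hA
    refine le_trans ?_ k1
    have k3 : theta ρ a b * ((Ind.gt ρ g a + Ind.gt ρ g b) / 2 - s)
        ≤ max 0 ((Ind.gt ρ g a + Ind.gt ρ g b) / 2 - s) := by
      rcases le_total 0 ((Ind.gt ρ g a + Ind.gt ρ g b) / 2 - s) with h | h
      · refine le_trans ?_ (le_max_right _ _)
        nlinarith
      · refine le_trans ?_ (le_max_left _ _)
        nlinarith
    linarith
  · obtain ⟨t, ht0, ht1, hB⟩ := hB
    have k1 : ∑ i, w i * (lamB ρ t * ((H (U i) + H (V i)) / 2)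
        + (H (ρ * t) - lamB ρ t * H t) / t * ((V i - U i) / 2)) ≤ ∑ i, w i * M ρ (U i) (V i) :=
      Finset.sum_le_sum fun i _ => mul_le_mul_of_nonneg_left
        (lemmaB h0.le h1.le ht0 ht1 (hU i) (hV i)) (hw i)
    have k2 : ∑ i, w i * (lamB ρ t * ((H (U i) + H (V i)) / 2)
        + (H (ρ * t) - lamB ρ t * H t) / t * ((V i - U i) / 2))
        = lamB ρ t * s + (H (ρ * t) - lamB ρ t * H t) / t * ((b - a) / 2) := by
      have e : ∀ i, w i * (lamB ρ t * ((H (U i) + H (V i)) / 2)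
          + (H (ρ * t) - lamB ρ t * H t) / t * ((V i - U i) / 2))
          = lamB ρ t * (w i * ((H (U i) + H (V i)) / 2))
            + (H (ρ * t) - lamB ρ t * H t) / t / 2 * (w i * V i)
            - (H (ρ * t) - lamB ρ t * H t) / t / 2 * (w i * U i) := fun i => by ring
      simp only [e]
      rw [Finset.sum_sub_distrib, Finset.sum_add_distrib,
        ← Finset.mul_sum, ← Finset.mul_sum, ← Finset.mul_sum,
        ← hadef, ← hbdef, ← hsdef]
      ring
    rw [k2] at k1
    refine le_trans ?_ k1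
    have l0 := lamB_nonneg h0.le h1.le ht0 ht1
    have l1 := lamB_le_one h0.le h1.le ht0 ht1
    have k3 : lamB ρ t * ((Ind.gt ρ g a + Ind.gt ρ g b) / 2 - s)
        ≤ max 0 ((Ind.gt ρ g a + Ind.gt ρ g b) / 2 - s) := by
      rcases le_total 0 ((Ind.gt ρ g a + Ind.gt ρ g b) / 2 - s) with h | h
      · refine le_trans ?_ (le_max_right _ _)
        nlinarith
      · refine le_trans ?_ (le_max_left _ _)
        nlinarith
    linarith

end Vale.Agent.P322
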