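import Vale.Agent.P322.BoxSound
import Vale.Agent.P322.Glue

/-!
# From the core two-variable inequality to the certificate `CertA` for `G`
-/

namespace Vale.Agent.P322

open Real Vale.Agent.P322.Num

theorem theta_eq_frac {ρ a b : ℝ} (hρ0 : 0 < ρ) (hρ1 : ρ < 1) (ha : -1 < a) (hab : a < b)
    (hb : b < 1) (hm : a + b ≤ 0) {m y : ℝ} (hmm : m = (a + b) / 2)
    (hy : y = (b - a) / 2 / (1 - m)) :
    theta ρ a b = (-log ((1 - m) / 2) + -log (1 - ρ ^ 2 * y ^ 2) / 2)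
      / (-log ((1 - m) / 2) + -log (1 - y ^ 2) / 2) := by
  obtain ⟨δ, hδ⟩ : ∃ δ, δ = (b - a) / 2 := ⟨_, rfl⟩
  have hδ0 : 0 < δ := by linarith
  have hm1 : 0 < 1 - m := by linarith
  have hδm : δ < 1 - m := by linarith
  rw [← hδ] at hy
  have hy0 : 0 < y := by rw [hy]; positivity
  have hy1 : y < 1 := by rw [hy, div_lt_one hm1]; exact hδm
  obtain ⟨p1, p2⟩ := den_pos hρ0 hρ1 hy0.le hy1
  have hrd : ρ * δ < δ := by nlinarith
  have hrd0 : 0 < ρ * δ := by positivity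
  have e1 : ell (m - ρ * δ) + ell (m + ρ * δ) =
      -(2 * log ((1 - m) / 2) + log (1 - ρ ^ 2 * y ^ 2)) := by
    have : (1 - (m - ρ * δ)) / 2 * ((1 - (m + ρ * δ)) / 2) =
        ((1 - m) / 2) ^ 2 * (1 - ρ ^ 2 * y ^ 2) := by
      rw [hy, div_pow]; field_simp; ring
    unfold ell
    rw [← neg_add, ← log_mul (by linarith) (by linarith), this,
      log_mul (by positivity) p2.ne', log_pow]
    push_cast; ring
  have e2 : ell a + ell b = -(2 * log ((1 - m) / 2) + log (1 - y ^ 2)) := by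
    have : (1 - a) / 2 * ((1 - b) / 2) = ((1 - m) / 2) ^ 2 * (1 - y ^ 2) := by
      rw [show a = m - δ by linarith, show b = m + δ by linarith, hy, div_pow]; field_simp; ring
    unfold ell
    rw [← neg_add, ← log_mul (by linarith) (by linarith), this,
      log_mul (by positivity) p1.ne', log_pow]
    push_cast; ring
  have e4 : theta ρ a b = (ell (m - ρ * δ) + ell (m + ρ * δ)) / (ell a + ell b) := by
    unfold theta; rw [← hmm, ← hδ]
  rw [e4, e1, e2]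
  have k1 : -(2 * log ((1 - m) / 2) + log (1 - ρ ^ 2 * y ^ 2))
      = 2 * (-log ((1 - m) / 2) + -log (1 - ρ ^ 2 * y ^ 2) / 2) := by ring
  have k2 : -(2 * log ((1 - m) / 2) + log (1 - y ^ 2))
      = 2 * (-log ((1 - m) / 2) + -log (1 - y ^ 2) / 2) := by ring
  rw [k1, k2, mul_div_mul_left _ _ (by norm_num)]

/-- The core inequality implies the certificate. -/
theorem certA_of_core {ρ a b : ℝ} (hρ0 : 0 < ρ) (hρ1 : ρ < 1) (ha : -1 < a) (hab : a < b)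
    (hb : b < 1) (hm : a + b ≤ 0) {m δ x g T : ℝ} (hmm : m = (a + b) / 2)
    (hδ : δ = (b - a) / 2) (hx : x = δ / (1 + m)) (hg : g = (1 + m) / (1 - m))
    (hT : T = log 2 - psi ρ / ρ ^ 2)
    (hcore : La ρ x g * QQ ρ T x g ≤ bb ρ x g * uu ρ T x g) :
    CertA ρ (G ρ) a b := by
  have hm1 : 0 < 1 - m := by linarith
  have hm2 : 0 < 1 + m := by linarith
  have hδ0 : 0 < δ := by linarith
  have hx0 : 0 < x := by rw [hx]; positivity
  have hg0 : 0 < g := by rw [hg]; positivity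
  obtain ⟨y, hy⟩ : ∃ y, y = δ / (1 - m) := ⟨_, rfl⟩
  have hygx : g * x = y := by rw [hg, hx, hy]; field_simp
  have hy0 : 0 < y := by rw [hy]; positivity
  have hy1 : y < 1 := by rw [hy, div_lt_one hm1]; linarith
  have hρ2 : 0 < ρ ^ 2 := by positivity
  -- logs
  obtain ⟨l, hl⟩ : ∃ l, l = log (1 + g) := ⟨_, rfl⟩
  have hl' : -log ((1 - m) / 2) = l := by
    rw [hl, ← log_inv]
    congr 1
    rw [hg]; field_simp; ring
  obtain ⟨A, hA⟩ : ∃ A, A = -log (1 - ρ ^ 2 * y ^ 2) / 2 := ⟨_, rfl⟩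
  obtain ⟨B, hB⟩ : ∃ B, B = -log (1 - y ^ 2) / 2 := ⟨_, rfl⟩
  obtain ⟨p1, p2⟩ := den_pos hρ0 hρ1 hy0.le hy1
  have hlpos : 0 < l := by rw [hl]; exact log_pos (by linarith)
  have hA0 : 0 ≤ A := by
    rw [hA]
    have : log (1 - ρ ^ 2 * y ^ 2) ≤ 0 := log_nonpos p2.le (by
      have : 0 < ρ ^ 2 * y ^ 2 := by positivity
      linarith)
    linarith
  have hB0 : 0 ≤ B := by
    rw [hB]
    have : log (1 - y ^ 2) ≤ 0 := log_nonpos p1.le (by nlinarith)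
    linarith
  have hθ : theta ρ a b = (l + A) / (l + B) := by
    rw [theta_eq_frac hρ0 hρ1 ha hab hb hm hmm (show y = (b - a) / 2 / (1 - m) by rw [hy, hδ]),
      hl', ← hA, ← hB]
  -- entropies
  obtain ⟨h, hh⟩ : ∃ h, h = H m := ⟨_, rfl⟩
  obtain ⟨I, hI⟩ : ∃ I, I = ((1 + m) * psi (ρ * δ / (1 + m))
      + (1 - m) * psi (ρ * δ / (1 - m))) / 2 := ⟨_, rfl⟩
  obtain ⟨D0, hD0⟩ : ∃ D0, D0 = ((1 + m) * psi (δ / (1 + m))
      + (1 - m) * psi (δ / (1 - m))) / 2 := ⟨_, rfl⟩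
  have eM : M ρ a b = h - I := by
    have := LB.phi_eq (w := m) (d := ρ * δ) (by linarith) (by linarith)
    rw [← hI, ← hh] at this
    unfold M
    rw [← hmm, ← hδ]
    linarith
  have eH : (H a + H b) / 2 = h - D0 := by
    have := LB.phi_eq (w := m) (d := δ) (by linarith) (by linarith)
    rw [← hD0, ← hh] at this
    rw [show a = m - δ by linarith, show b = m + δ by linarith]
    linarith
  have eρx : ρ * δ / (1 + m) = ρ * x := by rw [hx]; ring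
  have eρy : ρ * δ / (1 - m) = ρ * y := by rw [hy]; ring
  rw [eρx, eρy] at hI
  rw [← hx, ← hy] at hD0
  -- translate
  have hp : (1 + m) / 2 = g / (1 + g) := by rw [hg]; field_simp; ring
  have hq : (1 - m) / 2 = 1 / (1 + g) := by rw [hg]; field_simp; ring
  have hr : 1 - m ^ 2 = 4 * g / (1 + g) ^ 2 := by
    have : 1 - m ^ 2 = 4 * ((1 + m) / 2) * ((1 - m) / 2) := by ring
    rw [this, hp, hq]; field_simp
  have hδ2 : δ ^ 2 = 4 * g ^ 2 * x ^ 2 / (1 + g) ^ 2 := by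
    have : δ = 2 * ((1 + m) / 2) * x := by rw [hx]; field_simp
    rw [this, hp]; field_simp; ring
  have ehg : h = l + g / (1 + g) * (-log g) := by
    rw [hh, LB.H_eq, ← hp]
    have e1 : l = log 2 - log (1 - m) := by
      rw [← hl', ← log_inv, ← log_div (by norm_num) hm1.ne']
      congr 1
      field_simp
    have e2 : log g = log (1 + m) - log (1 - m) := by rw [hg, log_div hm2.ne' hm1.ne']
    rw [e1, e2]; ring
  have e_bb : g ^ 2 * x ^ 2 * bb ρ x g = B - A := by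
    unfold bb be
    rw [hygx, hA, hB]
    have k1 : g ^ 2 * x ^ 2 = y ^ 2 := by rw [← hygx]; ring
    rw [k1]
    have k2 : (ρ * y) ^ 2 = ρ ^ 2 * y ^ 2 := by ring
    rw [k2]
    field_simp
  have e_La : g * La ρ x g = l + A := by
    unfold La be Lh
    rw [hygx, hA, hl]
    have k2 : (ρ * y) ^ 2 = ρ ^ 2 * y ^ 2 := by ring
    rw [k2]
    have k3 : g * (log (1 + g) / g + g * x ^ 2 * ρ ^ 2
        * (-log (1 - ρ ^ 2 * y ^ 2) / (2 * (ρ ^ 2 * y ^ 2))))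
        = log (1 + g) + (g * x) ^ 2 * (-log (1 - ρ ^ 2 * y ^ 2) / (2 * y ^ 2)) := by
      field_simp
    rw [k3, hygx]
    field_simp
  have e_Ix : x ^ 2 * Ps (ρ * x) = psi (ρ * x) / ρ ^ 2 := by
    unfold Ps; field_simp
  have e_Iy : y ^ 2 * Ps (ρ * y) = psi (ρ * y) / ρ ^ 2 := by
    unfold Ps; field_simp
  have e_Dx : x ^ 2 * Ps x = psi x := by unfold Ps; field_simp
  have e_Dy : y ^ 2 * Ps y = psi y := by unfold Ps; field_simp
  have hIs : I / ρ ^ 2 = g / (1 + g) * (x ^ 2 * Ps (ρ * x)) + 1 / (1 + g) * (y ^ 2 * Ps (ρ * y)) := by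
    rw [e_Ix, e_Iy, hI, ← hp, ← hq]; ring
  have hDs : D0 = g / (1 + g) * (x ^ 2 * Ps x) + 1 / (1 + g) * (y ^ 2 * Ps y) := by
    rw [e_Dx, e_Dy, hD0, ← hp, ← hq]; ring
  have e_uu : g * uu ρ T x g = h - T * (1 - m ^ 2) - I / ρ ^ 2 := by
    rw [hr, hIs, ehg]
    unfold uu Lh
    rw [hygx, hl]
    have k1 : y ^ 2 = g ^ 2 * x ^ 2 := by rw [← hygx]; ring
    rw [k1]
    field_simp
  have e_QQ : g ^ 2 * x ^ 2 * QQ ρ T x g = T * δ ^ 2 - D0 + I / ρ ^ 2 := by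
    rw [hδ2, hIs, hDs]
    unfold QQ
    rw [hygx]
    have k1 : y ^ 2 = g ^ 2 * x ^ 2 := by rw [← hygx]; ring
    rw [k1]
    field_simp
    ring
  -- the inequality
  have main : (l + A) * (T * δ ^ 2 - D0 + I / ρ ^ 2)
      ≤ (B - A) * (h - T * (1 - m ^ 2) - I / ρ ^ 2) := by
    rw [← e_La, ← e_QQ, ← e_bb, ← e_uu]
    have k : 0 ≤ g ^ 3 * x ^ 2 := by positivity
    have k1 := mul_le_mul_of_nonneg_left hcore k
    calc g * La ρ x g * (g ^ 2 * x ^ 2 * QQ ρ T x g)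
        = g ^ 3 * x ^ 2 * (La ρ x g * QQ ρ T x g) := by ring
      _ ≤ g ^ 3 * x ^ 2 * (bb ρ x g * uu ρ T x g) := k1
      _ = g ^ 2 * x ^ 2 * bb ρ x g * (g * uu ρ T x g) := by ring
  have hlB : 0 < l + B := by linarith
  have eG : ∀ c : ℝ, G ρ c = (1 - ρ ^ 2) * H c + ρ ^ 2 * T * (1 - c ^ 2) := by
    intro c
    unfold G
    rw [hT]
    unfold psi
    field_simp
    ring
  have eGb : (G ρ a + G ρ b) / 2 = (1 - ρ ^ 2) * (h - D0) + ρ ^ 2 * T * (1 - m ^ 2 - δ ^ 2) := by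
    rw [eG, eG, ← eH, hmm, hδ]; ring
  unfold CertA
  rw [← hmm]
  have hgt : (G ρ a + G ρ b) / 2 ≤ (Ind.gt ρ (G ρ) a + Ind.gt ρ (G ρ) b) / 2 := by
    have k1 : G ρ a ≤ Ind.gt ρ (G ρ) a := le_max_left _ _
    have k2 : G ρ b ≤ Ind.gt ρ (G ρ) b := le_max_left _ _
    linarith
  have hθ0 := theta_pos hρ0 hρ1 ha hab hb hm
  have step : G ρ m ≤ M ρ a b - theta ρ a b * ((H a + H b) / 2 - (G ρ a + G ρ b) / 2) := by
    rw [eGb, eH, eM, eG m, ← hh, hθ]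
    have k1 : (1 - ρ ^ 2) * h + ρ ^ 2 * T * (1 - m ^ 2) = h - ρ ^ 2 * (h - T * (1 - m ^ 2)) := by
      ring
    have k2 : h - D0 - ((1 - ρ ^ 2) * (h - D0) + ρ ^ 2 * T * (1 - m ^ 2 - δ ^ 2))
        = ρ ^ 2 * (h - D0 - T * (1 - m ^ 2 - δ ^ 2)) := by ring
    rw [k1, k2]
    have k3 : (l + A) / (l + B) * (ρ ^ 2 * (h - D0 - T * (1 - m ^ 2 - δ ^ 2)))
        = ρ ^ 2 * ((l + A) * (h - D0 - T * (1 - m ^ 2 - δ ^ 2)) / (l + B)) := by ring
    rw [k3]
    have k4 : (l + A) * (h - D0 - T * (1 - m ^ 2 - δ ^ 2)) / (l + B)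
        ≤ h - T * (1 - m ^ 2) - I / ρ ^ 2 := by
      rw [div_le_iff₀ hlB]
      have k7 : (l + A) * (h - D0 - T * (1 - m ^ 2 - δ ^ 2))
          = (l + A) * (T * δ ^ 2 - D0 + I / ρ ^ 2)
            + (l + A) * (h - T * (1 - m ^ 2) - I / ρ ^ 2) := by ring
      have k8 : (h - T * (1 - m ^ 2) - I / ρ ^ 2) * (l + B)
          = (B - A) * (h - T * (1 - m ^ 2) - I / ρ ^ 2)
            + (l + A) * (h - T * (1 - m ^ 2) - I / ρ ^ 2) := by ring
      rw [k7, k8]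
      linarith
    have k5 := mul_le_mul_of_nonneg_left k4 hρ2.le
    have k6 : ρ ^ 2 * (h - T * (1 - m ^ 2) - I / ρ ^ 2) = ρ ^ 2 * (h - T * (1 - m ^ 2)) - I := by
      field_simp
    rw [k6] at k5
    linarith
  have k9 := mul_le_mul_of_nonneg_left hgt hθ0.le
  rw [mul_sub] at step ⊢
  linarith

end Vale.Agent.P322
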