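import Vale.Agent.P322.BoxSound2
import Vale.Agent.P322.CertACore
import Vale.Agent.P322.BoxCorner
import Vale.Agent.P322.BoxK1
import Vale.Agent.P322.BoxK2
import Vale.Agent.P322.BoxK3
import Vale.Agent.P322.BoxK4
import Vale.Agent.P322.BoxK5
import Vale.Agent.P322.BoxK6

/-!
# The certificate `CertA` at `ρ = 91/125, 3/4, 4/5, 17/20`
-/

namespace Vale.Agent.P322

open Real Vale.Agent.P322.Num

lemma xg_facts {a b m δ x g : ℝ} (ha : -1 < a) (hab : a < b) (hb : b < 1) (hm : a + b ≤ 0)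
    (hmm : m = (a + b) / 2) (hδ : δ = (b - a) / 2) (hx : x = δ / (1 + m))
    (hg : g = (1 + m) / (1 - m)) :
    0 < x ∧ x < 1 ∧ 0 < g ∧ g ≤ 1 ∧ g * x < 1 := by
  have h1 : 0 < 1 + m := by linarith
  have h2 : 0 < 1 - m := by linarith
  have hx0 : 0 < x := by rw [hx]; exact div_pos (by linarith) h1
  have hx1 : x < 1 := by rw [hx, div_lt_one h1]; linarith
  have hg0 : 0 < g := by rw [hg]; positivity
  have hg1 : g ≤ 1 := by rw [hg, div_le_one h2]; linarith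
  exact ⟨hx0, hx1, hg0, hg1, by nlinarith⟩

theorem certA_gen {rn rd Tlo Thi g1 : ℕ} (h0 : 0 < rn) (h1 : rn < rd) (hg1N : g1 ≤ N)
    (hT1 : Tlo + pHi rn rd ≤ L2lo) (hT2 : L2hi ≤ Thi + pLo rn rd)
    (hbis : bis rn rd Tlo Thi 1048577 1048577 40 0 1048576 0 g1 = true)
    {ρ : ℝ} (hρ : ρ = (rn : ℝ) / rd)
    {a b : ℝ} (ha : -1 < a) (hab : a < b) (hb : b < 1) (hm : a + b ≤ 0)
    (hg : (1 + (a + b) / 2) * N ≤ g1 * (1 - (a + b) / 2)) :
    CertA ρ (G ρ) a b := by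
  have hrd : (0 : ℝ) < rd := by exact_mod_cast (by omega : 0 < rd)
  have hrn : (0 : ℝ) < rn := by exact_mod_cast h0
  have hρ0 : 0 < ρ := by rw [hρ]; positivity
  have hρ1 : ρ < 1 := by rw [hρ, div_lt_one hrd]; exact_mod_cast h1
  have hT1' := T_ge_of h0 h1 hT1
  have hT2' := T_le_of h0 h1 hT2
  rw [← hρ] at hT1' hT2'
  obtain ⟨m, hmm⟩ : ∃ m, m = (a + b) / 2 := ⟨_, rfl⟩
  obtain ⟨δ, hδ⟩ : ∃ δ, δ = (b - a) / 2 := ⟨_, rfl⟩
  obtain ⟨x, hx⟩ : ∃ x, x = δ / (1 + m) := ⟨_, rfl⟩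
  obtain ⟨g, hgg⟩ : ∃ g, g = (1 + m) / (1 - m) := ⟨_, rfl⟩
  obtain ⟨T, hT⟩ : ∃ T, T = log 2 - psi ρ / ρ ^ 2 := ⟨_, rfl⟩
  obtain ⟨f1, f2, f3, f4, f5⟩ := xg_facts ha hab hb hm hmm hδ hx hgg
  rw [← hT] at hT1' hT2'
  refine certA_of_core hρ0 hρ1 ha hab hb hm hmm hδ hx hgg hT ?_
  have hNr : ((N : ℕ) : ℝ) = 1048576 := by norm_num [N]
  have hN : (0 : ℝ) < N := by rw [hNr]; norm_num
  refine bis_sound h0 h1 hρ hT1' hT2' 40 0 1048576 0 g1 (by norm_num [N]) hg1N hbis x g f1 f2.le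
    f3 f4 f5 ?_ ?_ ?_ ?_ ?_
  · push_cast; rw [zero_div]; exact f1.le
  · rw [hNr]; push_cast; rw [div_self (by norm_num)]; exact f2.le
  · push_cast; rw [zero_div]; exact f3.le
  · rw [hgg, div_le_div_iff₀ (by linarith) hN, hmm]; exact hg
  · rintro ⟨h, -⟩
    rw [hNr] at h
    push_cast at h
    have : (1048577 : ℝ) / 1048576 ≤ 1 := h.trans f2.le
    norm_num at this

/-- `CertA` at `ρ = 3/4` for `(1+m)/(1-m) ≤ 3/5`. -/
theorem certA34 {a b : ℝ} (ha : -1 < a) (hab : a < b) (hb : b < 1) (hm : a + b ≤ 0)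
    (hg : 1 + (a + b) / 2 ≤ 3 / 5 * (1 - (a + b) / 2)) :
    CertA (3 / 4) (G (3 / 4)) a b := by
  refine certA_gen (rn := 3) (rd := 4) (by norm_num) (by norm_num) (by norm_num [N])
    (by decide +kernel) (by decide +kernel) box34 (by norm_num) ha hab hb hm ?_
  have hNr : ((N : ℕ) : ℝ) = 1048576 := by norm_num [N]
  rw [hNr]; push_cast
  linarith

/-- `CertA` at `ρ = 4/5` for `(1+m)/(1-m) ≤ 1/3`. -/
theorem certA45 {a b : ℝ} (ha : -1 < a) (hab : a < b) (hb : b < 1) (hm : a + b ≤ 0)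
    (hg : 1 + (a + b) / 2 ≤ 1 / 3 * (1 - (a + b) / 2)) :
    CertA (4 / 5) (G (4 / 5)) a b := by
  refine certA_gen (rn := 4) (rd := 5) (by norm_num) (by norm_num) (by norm_num [N])
    (by decide +kernel) (by decide +kernel) box45 (by norm_num) ha hab hb hm ?_
  have hNr : ((N : ℕ) : ℝ) = 1048576 := by norm_num [N]
  rw [hNr]; push_cast
  linarith

/-- `CertA` at `ρ = 17/20` for `(1+m)/(1-m) ≤ 9/50`. -/
theorem certA1720 {a b : ℝ} (ha : -1 < a) (hab : a < b) (hb : b < 1) (hm : a + b ≤ 0)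
    (hg : 1 + (a + b) / 2 ≤ 9 / 50 * (1 - (a + b) / 2)) :
    CertA (17 / 20) (G (17 / 20)) a b := by
  refine certA_gen (rn := 17) (rd := 20) (by norm_num) (by norm_num) (by norm_num [N])
    (by decide +kernel) (by decide +kernel) box1720 (by norm_num) ha hab hb hm ?_
  have hNr : ((N : ℕ) : ℝ) = 1048576 := by norm_num [N]
  rw [hNr]; push_cast
  linarith

lemma core91 {x g T : ℝ} (hT1 : ((149050717574 : ℕ) : ℝ) / S ≤ T)
    (hT2 : T ≤ ((149050725575 : ℕ) : ℝ) / S) (hx0 : 0 < x) (hx1 : x < 1) (hg0 : 0 < g)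
    (hg1 : g ≤ 1) (hgx : g * x < 1)
    (hc : ¬ (((1046528 : ℕ) : ℝ) / N ≤ x ∧ ((1046528 : ℕ) : ℝ) / N ≤ g)) :
    La (91 / 125) x g * QQ (91 / 125) T x g ≤ bb (91 / 125) x g * uu (91 / 125) T x g := by
  have hρ : (91 / 125 : ℝ) = ((91 : ℕ) : ℝ) / ((125 : ℕ) : ℝ) := by norm_num
  have hNr : ((N : ℕ) : ℝ) = 1048576 := by norm_num [N]
  have key : ∀ x0 x1 g0 g1 : ℕ, x1 ≤ N → g1 ≤ N →
      bis 91 125 149050717574 149050725575 1046528 1046528 40 x0 x1 g0 g1 = true →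
      (x0 : ℝ) / N ≤ x → x ≤ (x1 : ℝ) / N → (g0 : ℝ) / N ≤ g → g ≤ (g1 : ℝ) / N →
      La (91 / 125) x g * QQ (91 / 125) T x g ≤ bb (91 / 125) x g * uu (91 / 125) T x g := by
    intro x0 x1 g0 g1 hx1N hg1N hb a1 a2 a3 a4
    exact bis_sound (by norm_num) (by norm_num) hρ hT1 hT2 40 x0 x1 g0 g1 hx1N hg1N hb x g hx0
      hx1.le hg0 hg1 hgx a1 a2 a3 a4 hc
  have z0 : ((0 : ℕ) : ℝ) / N = 0 := by simp
  have z1 : ((1048576 : ℕ) : ℝ) / N = 1 := by rw [hNr]; norm_num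
  have G0 : ((0 : ℕ) : ℝ) / N ≤ g := by rw [z0]; exact hg0.le
  have G1 : g ≤ ((1048576 : ℕ) : ℝ) / N := by rw [z1]; exact hg1
  have X0 : ((0 : ℕ) : ℝ) / N ≤ x := by rw [z0]; exact hx0.le
  have X1 : x ≤ ((1048576 : ℕ) : ℝ) / N := by rw [z1]; exact hx1.le
  rcases le_total x (((786432 : ℕ) : ℝ) / N) with h1 | h1
  · exact key 0 786432 0 1048576 (by norm_num [N]) (by norm_num [N]) box91_a X0 h1 G0 G1
  rcases le_total x (((917504 : ℕ) : ℝ) / N) with h2 | h2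
  · exact key 786432 917504 0 1048576 (by norm_num [N]) (by norm_num [N]) box91_b h1 h2 G0 G1
  rcases le_total x (((983040 : ℕ) : ℝ) / N) with h3 | h3
  · exact key 917504 983040 0 1048576 (by norm_num [N]) (by norm_num [N]) box91_c h2 h3 G0 G1
  rcases le_total x (((1015808 : ℕ) : ℝ) / N) with h4 | h4
  · exact key 983040 1015808 0 1048576 (by norm_num [N]) (by norm_num [N]) box91_d h3 h4 G0 G1
  rcases le_total g (((983040 : ℕ) : ℝ) / N) with h5 | h5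
  · exact key 1015808 1048576 0 983040 (by norm_num [N]) (by norm_num [N]) box91_e1 h4 X1 G0 h5
  rcases le_total g (((1015808 : ℕ) : ℝ) / N) with h6 | h6
  · exact key 1015808 1048576 983040 1015808 (by norm_num [N]) (by norm_num [N]) box91_e2 h4 X1
      h5 h6
  · exact key 1015808 1048576 1015808 1048576 (by norm_num [N]) (by norm_num [N]) box91_e3 h4 X1
      h6 G1

/-- `CertA` at `ρ = 91/125`. -/
theorem certA91 {a b : ℝ} (ha : -1 < a) (hab : a < b) (hb : b < 1) (hm : a + b ≤ 0) :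
    CertA (91 / 125) (G (91 / 125)) a b := by
  obtain ⟨m, hmm⟩ : ∃ m, m = (a + b) / 2 := ⟨_, rfl⟩
  obtain ⟨δ, hδ⟩ : ∃ δ, δ = (b - a) / 2 := ⟨_, rfl⟩
  obtain ⟨x, hx⟩ : ∃ x, x = δ / (1 + m) := ⟨_, rfl⟩
  obtain ⟨g, hgg⟩ : ∃ g, g = (1 + m) / (1 - m) := ⟨_, rfl⟩
  obtain ⟨f1, f2, f3, f4, f5⟩ := xg_facts ha hab hb hm hmm hδ hx hgg
  have hNr : ((N : ℕ) : ℝ) = 1048576 := by norm_num [N]
  have h1m : 0 < 1 + m := by linarith
  have h2m : 0 < 1 - m := by linarith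
  by_cases hc : ((1046528 : ℕ) : ℝ) / N ≤ x ∧ ((1046528 : ℕ) : ℝ) / N ≤ g
  · obtain ⟨c1, c2⟩ := hc
    rw [hNr] at c1 c2
    push_cast at c1 c2
    rw [hx, div_le_div_iff₀ (by norm_num) h1m] at c1
    rw [hgg, div_le_div_iff₀ (by norm_num) h2m] at c2
    apply corner91 ha hb hm
    · linarith
    · linarith
  · refine certA_of_core (by norm_num) (by norm_num) ha hab hb hm hmm hδ hx hgg rfl ?_
    have e : (91 / 125 : ℝ) = ((91 : ℕ) : ℝ) / ((125 : ℕ) : ℝ) := by norm_num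
    refine core91 ?_ ?_ f1 f2 f3 f4 f5 hc
    · rw [e]; exact T_ge_of (by norm_num) (by norm_num) (by decide +kernel)
    · rw [e]; exact T_le_of (by norm_num) (by norm_num) (by decide +kernel)

end Vale.Agent.P322
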