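import Vale.Agent.P322.BoxDef

/-!
# Soundness of the box checker for the S3 inequality
-/

namespace Vale.Agent.P322.Num

open Real

noncomputable def Lh (g : ℝ) : ℝ := Real.log (1 + g) / g

noncomputable def bb (ρ x g : ℝ) : ℝ := be (g * x) - ρ ^ 2 * be (ρ * (g * x))

noncomputable def uu (ρ T x g : ℝ) : ℝ :=
  Lh g + (-Real.log g) / (1 + g) - 4 * T / (1 + g) ^ 2
    - x ^ 2 * (Ps (ρ * x) + g * Ps (ρ * (g * x))) / (1 + g)

noncomputable def La (ρ x g : ℝ) : ℝ := Lh g + g * x ^ 2 * ρ ^ 2 * be (ρ * (g * x))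

noncomputable def QQ (ρ T x g : ℝ) : ℝ :=
  4 * T / (1 + g) ^ 2
    - ((Ps x - Ps (ρ * x)) / g + (Ps (g * x) - Ps (ρ * (g * x)))) / (1 + g)

lemma Lh_anti {a b : ℝ} (ha : 0 < a) (hab : a ≤ b) : Lh b ≤ Lh a := by
  have hb : 0 < b := by linarith
  have hc := strictConcaveOn_log_Ioi.concaveOn
  have h := hc.2 (show (1:ℝ) ∈ Set.Ioi 0 by simp)
    (show (1 + b) ∈ Set.Ioi (0:ℝ) by simp only [Set.mem_Ioi]; linarith)
    (show (0:ℝ) ≤ 1 - a / b by rw [sub_nonneg, div_le_one hb]; exact hab)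
    (show (0:ℝ) ≤ a / b by positivity) (by ring)
  simp only [smul_eq_mul, log_one, mul_zero, zero_add, mul_one] at h
  have e : 1 - a / b + a / b * (1 + b) = 1 + a := by field_simp; ring
  rw [e] at h
  unfold Lh
  rw [div_le_div_iff₀ hb ha]
  have h2 := mul_le_mul_of_nonneg_right h hb.le
  have e2 : a / b * Real.log (1 + b) * b = Real.log (1 + b) * a := by field_simp
  linarith

lemma Lh_le_one {g : ℝ} (hg : 0 < g) : Lh g ≤ 1 := by
  unfold Lh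
  rw [div_le_one hg]
  have := Real.log_le_sub_one_of_pos (show 0 < 1 + g by linarith)
  linarith

lemma Lh_nonneg {g : ℝ} (hg : 0 < g) : 0 ≤ Lh g := by
  unfold Lh
  exact div_nonneg (Real.log_nonneg (by linarith)) hg.le

lemma cast_sub_of_pos {a b : ℕ} (h : 0 < a - b) : ((a - b : ℕ) : ℝ) = (a : ℝ) - b :=
  Nat.cast_sub (by omega)

lemma N_pos : 0 < N := by unfold N; norm_num

lemma N_posR : (0 : ℝ) < N := by exact_mod_cast N_pos

section
variable {rn rd Tlo Thi x0 x1 g0 g1 : ℕ}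

/-- bound for `bb` -/
lemma step_b {ρ x g : ℝ} {rn rd b0 bs : ℕ} (hrd : 0 < rd) (hρ : ρ = (rn : ℝ) / rd)
    (h1 : (b0 : ℝ) / S ≤ be (g * x)) (h2 : be (ρ * (g * x)) ≤ (bs : ℝ) / S)
    (hpos : 0 < b0 - (rn * rn * bs / (rd * rd) + 1)) :
    ((b0 - (rn * rn * bs / (rd * rd) + 1) : ℕ) : ℝ) / S ≤ bb ρ x g := by
  have hS := S_posR
  have hrd' : (0 : ℝ) < rd := by exact_mod_cast hrd
  rw [cast_sub_of_pos hpos]
  unfold bb
  push_cast
  have h3 := le_floor_add (rn * rn * bs) (b := rd * rd) (by positivity)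
  push_cast at h3
  have h4 : ρ ^ 2 * be (ρ * (g * x)) ≤ ρ ^ 2 * ((bs : ℝ) / S) :=
    mul_le_mul_of_nonneg_left h2 (sq_nonneg ρ)
  have h5 : ρ ^ 2 * ((bs : ℝ) / S) ≤ (((rn * rn * bs / (rd * rd) : ℕ) : ℝ) + 1) / S := by
    rw [← mul_div_assoc]
    apply div_le_div_of_nonneg_right _ hS.le
    refine le_trans (le_of_eq ?_) h3
    rw [hρ]; field_simp
  rw [sub_div]
  linarith

/-- bound for `uu` -/
lemma step_u {ρ T x g : ℝ} {lh0 ng PsX PsY : ℕ} (hx0 : 0 < x) (hx : x ≤ (x1 : ℝ) / N)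
    (hg0 : (g0 : ℝ) / N ≤ g) (hgpos : 0 < g) (hg1 : g ≤ (g1 : ℝ) / N)
    (hg1N : g1 ≤ N)
    (hT : T ≤ (Thi : ℝ) / S)
    (h1 : (lh0 : ℝ) / S ≤ Lh g) (h2 : (ng : ℝ) / S ≤ -Real.log g)
    (h3 : Ps (ρ * x) ≤ (PsX : ℝ) / S) (h4 : Ps (ρ * (g * x)) ≤ (PsY : ℝ) / S)
    (hpos : 0 < (lh0 + ng * N / (N + g1) - (4 * N * N * Thi / ((N + g0) * (N + g0)) + 1
      + (x1 * x1 * (N * PsX + g1 * PsY) / (N * N * (N + g0)) + 1)))) :
    ((lh0 + ng * N / (N + g1) - (4 * N * N * Thi / ((N + g0) * (N + g0)) + 1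
      + (x1 * x1 * (N * PsX + g1 * PsY) / (N * N * (N + g0)) + 1)) : ℕ) : ℝ) / S
      ≤ uu ρ T x g := by
  have hS := S_posR
  have hN := N_posR
  rw [cast_sub_of_pos hpos]
  unfold uu
  have e1 : ((ng * N / (N + g1) : ℕ) : ℝ) ≤ S * ((-Real.log g) / (1 + g)) := by
    refine (floor_le _ _).trans ?_
    rw [div_le_iff₀ hS] at h2
    push_cast
    have k1 : (ng : ℝ) * N / (N + g1) = ng / (1 + (g1 : ℝ) / N) := by field_simp
    rw [k1, ← mul_div_assoc, mul_comm (S : ℝ)]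
    have k2 : (0 : ℝ) ≤ -Real.log g * S := by
      have : (0 : ℝ) ≤ (ng : ℝ) := by positivity
      linarith
    exact div_le_div₀ k2 h2 (by linarith) (by linarith)
  have e2 := le_floor_add (4 * N * N * Thi) (b := (N + g0) * (N + g0))
    (by have := N_pos; positivity)
  have e2' : S * (4 * T / (1 + g) ^ 2)
      ≤ ((4 * N * N * Thi / ((N + g0) * (N + g0)) : ℕ) : ℝ) + 1 := by
    refine le_trans ?_ e2
    rw [le_div_iff₀ hS] at hT
    push_cast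
    have k1 : (4 : ℝ) * N * N * Thi / ((N + g0) * (N + g0)) = 4 * Thi / (1 + (g0 : ℝ) / N) ^ 2 := by
      field_simp
    rw [k1]
    have k2 : (S : ℝ) * (4 * T / (1 + g) ^ 2) = 4 * (T * S) / (1 + g) ^ 2 := by ring
    rw [k2]
    have k3 : (0 : ℝ) ≤ (g0 : ℝ) / N := by positivity
    apply div_le_div₀ (by positivity) (by linarith) (by positivity)
    gcongr
  have e3 := le_floor_add (x1 * x1 * (N * PsX + g1 * PsY)) (b := N * N * (N + g0))
    (by have := N_pos; positivity)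
  have e3' : S * (x ^ 2 * (Ps (ρ * x) + g * Ps (ρ * (g * x))) / (1 + g))
      ≤ ((x1 * x1 * (N * PsX + g1 * PsY) / (N * N * (N + g0)) : ℕ) : ℝ) + 1 := by
    refine le_trans ?_ e3
    push_cast
    have k1 : (x1 : ℝ) * x1 * (N * PsX + g1 * PsY) / (N * N * (N + g0))
        = ((x1 : ℝ) / N) ^ 2 * (PsX + ((g1 : ℝ) / N) * PsY) / (1 + (g0 : ℝ) / N) := by
      field_simp
    rw [k1]
    have k2 : (S : ℝ) * (x ^ 2 * (Ps (ρ * x) + g * Ps (ρ * (g * x))) / (1 + g))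
        = x ^ 2 * (Ps (ρ * x) * S + g * (Ps (ρ * (g * x)) * S)) / (1 + g) := by ring
    rw [k2]
    rw [le_div_iff₀ hS] at h3 h4
    have k3 : (0 : ℝ) ≤ (g0 : ℝ) / N := by positivity
    apply div_le_div₀ (by positivity) _ (by positivity) (by linarith)
    have k4 : g * (Ps (ρ * (g * x)) * S) ≤ ((g1 : ℝ) / N) * PsY :=
      (mul_le_mul_of_nonneg_left h4 hgpos.le).trans
        (mul_le_mul_of_nonneg_right hg1 (by positivity))
    have k5 : x ^ 2 ≤ ((x1 : ℝ) / N) ^ 2 := pow_le_pow_left₀ hx0.le hx 2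
    calc x ^ 2 * (Ps (ρ * x) * S + g * (Ps (ρ * (g * x)) * S))
        ≤ x ^ 2 * (PsX + ((g1 : ℝ) / N) * PsY) :=
          mul_le_mul_of_nonneg_left (by linarith) (by positivity)
      _ ≤ ((x1 : ℝ) / N) ^ 2 * (PsX + ((g1 : ℝ) / N) * PsY) :=
          mul_le_mul_of_nonneg_right k5 (by positivity)
  rw [div_le_iff₀ hS] at h1 ⊢
  push_cast
  have k : (Lh g + -Real.log g / (1 + g) - 4 * T / (1 + g) ^ 2
      - x ^ 2 * (Ps (ρ * x) + g * Ps (ρ * (g * x))) / (1 + g)) * S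
      = Lh g * S + S * (-Real.log g / (1 + g)) - S * (4 * T / (1 + g) ^ 2)
        - S * (x ^ 2 * (Ps (ρ * x) + g * Ps (ρ * (g * x))) / (1 + g)) := by ring
  rw [k]
  push_cast at e1 e2' e3'
  linarith

/-- bound for `La` -/
lemma step_La {ρ x g : ℝ} {bs lhH : ℕ} (hrd : 0 < rd) (hρ : ρ = (rn : ℝ) / rd)
    (hx0 : 0 < x) (hx : x ≤ (x1 : ℝ) / N) (hgpos : 0 < g) (hg1 : g ≤ (g1 : ℝ) / N)
    (hb0 : 0 ≤ be (ρ * (g * x)))
    (h1 : Lh g ≤ (lhH : ℝ) / S) (h2 : be (ρ * (g * x)) ≤ (bs : ℝ) / S) :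
    La ρ x g ≤
      ((lhH + (g1 * (x1 * x1) * (rn * rn) * bs / (N * N * N * (rd * rd)) + 1) : ℕ) : ℝ) / S := by
  have hS := S_posR
  have hN := N_posR
  have hrd' : (0 : ℝ) < rd := by exact_mod_cast hrd
  have e3 := le_floor_add (g1 * (x1 * x1) * (rn * rn) * bs) (b := N * N * N * (rd * rd))
    (by have := N_pos; positivity)
  unfold La
  rw [le_div_iff₀ hS] at h1 h2 ⊢
  have k0 : (Lh g + g * x ^ 2 * ρ ^ 2 * be (ρ * (g * x))) * S
      = Lh g * S + g * x ^ 2 * ρ ^ 2 * (be (ρ * (g * x)) * S) := by ring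
  rw [k0]
  push_cast
  push_cast at e3
  have k1 : g * x ^ 2 * ρ ^ 2 * (be (ρ * (g * x)) * S)
      ≤ (g1 : ℝ) * (x1 * x1) * (rn * rn) * bs / (N * N * N * (rd * rd)) := by
    have k2 : (g1 : ℝ) * (x1 * x1) * (rn * rn) * bs / (N * N * N * (rd * rd))
        = ((g1 : ℝ) / N) * ((x1 : ℝ) / N) ^ 2 * ρ ^ 2 * bs := by
      rw [hρ]; field_simp
    rw [k2]
    have k5 : x ^ 2 ≤ ((x1 : ℝ) / N) ^ 2 := pow_le_pow_left₀ hx0.le hx 2
    gcongr
  linarith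

/-- bound for `QQ`, first form -/
lemma step_Q2 {ρ T x g : ℝ} {dX dY : ℕ}
    (hg0 : (g0 : ℝ) / N ≤ g) (hgpos : 0 < g) (hg1 : g ≤ (g1 : ℝ) / N)
    (hT : T ≤ (Thi : ℝ) / S)
    (h1 : (dX : ℝ) / S ≤ Ps x - Ps (ρ * x))
    (h2 : (dY : ℝ) / S ≤ Ps (g * x) - Ps (ρ * (g * x))) :
    QQ ρ T x g ≤
      (((4 * N * N * Thi / ((N + g0) * (N + g0)) + 1)
      - N * (dX * N / g1 + dY) / (N + g1) : ℕ) : ℝ) / S := by
  have hS := S_posR
  have hN := N_posR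
  have hg1' : (0 : ℝ) < g1 := by
    have : (0 : ℝ) < (g1 : ℝ) / N := by linarith
    by_contra hh
    push_neg at hh
    have : (g1 : ℝ) / N ≤ 0 := div_nonpos_of_nonpos_of_nonneg hh hN.le
    linarith
  have e2 := le_floor_add (4 * N * N * Thi) (b := (N + g0) * (N + g0))
    (by have := N_pos; positivity)
  have e2' : S * (4 * T / (1 + g) ^ 2)
      ≤ ((4 * N * N * Thi / ((N + g0) * (N + g0)) : ℕ) : ℝ) + 1 := by
    refine le_trans ?_ e2
    rw [le_div_iff₀ hS] at hT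
    push_cast
    have k1 : (4 : ℝ) * N * N * Thi / ((N + g0) * (N + g0)) = 4 * Thi / (1 + (g0 : ℝ) / N) ^ 2 := by
      field_simp
    rw [k1]
    have k2 : (S : ℝ) * (4 * T / (1 + g) ^ 2) = 4 * (T * S) / (1 + g) ^ 2 := by ring
    rw [k2]
    have k3 : (0 : ℝ) ≤ (g0 : ℝ) / N := by positivity
    apply div_le_div₀ (by positivity) (by linarith) (by positivity)
    gcongr
  have e4 : ((N * (dX * N / g1 + dY) / (N + g1) : ℕ) : ℝ)
      ≤ S * (((Ps x - Ps (ρ * x)) / g + (Ps (g * x) - Ps (ρ * (g * x)))) / (1 + g)) := by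
    refine (floor_le _ _).trans ?_
    push_cast
    rw [div_le_iff₀ hS] at h1 h2
    have k1 : (N : ℝ) * (((dX * N / g1 : ℕ) : ℝ) + dY) / (N + g1)
        = (((dX * N / g1 : ℕ) : ℝ) + dY) / (1 + (g1 : ℝ) / N) := by field_simp
    rw [k1]
    have k2 : ((dX * N / g1 : ℕ) : ℝ) ≤ (Ps x - Ps (ρ * x)) / g * S := by
      refine (floor_le _ _).trans ?_
      push_cast
      have k3 : (dX : ℝ) * N / g1 = dX / ((g1 : ℝ) / N) := by field_simp
      rw [k3, div_mul_eq_mul_div]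
      exact div_le_div₀ (le_trans (by positivity) h1) h1 hgpos hg1
    have k4 : (S : ℝ) * (((Ps x - Ps (ρ * x)) / g + (Ps (g * x) - Ps (ρ * (g * x)))) / (1 + g))
        = ((Ps x - Ps (ρ * x)) / g * S + (Ps (g * x) - Ps (ρ * (g * x))) * S) / (1 + g) := by ring
    rw [k4]
    apply div_le_div₀ _ (by linarith) (by linarith) (by linarith)
    have k5 : (0 : ℝ) ≤ ((dX * N / g1 : ℕ) : ℝ) := by positivity
    have k6 : (0 : ℝ) ≤ (dY : ℝ) := by positivity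
    linarith
  rw [le_div_iff₀ hS]
  refine le_trans ?_ (le_sub_cast _ _)
  unfold QQ
  push_cast at e2' e4 ⊢
  have k : (4 * T / (1 + g) ^ 2
      - ((Ps x - Ps (ρ * x)) / g + (Ps (g * x) - Ps (ρ * (g * x)))) / (1 + g)) * S
      = S * (4 * T / (1 + g) ^ 2)
      - S * (((Ps x - Ps (ρ * x)) / g + (Ps (g * x) - Ps (ρ * (g * x)))) / (1 + g)) := by ring
  rw [k]
  linarith

lemma QQ_eq {ρ T x g : ℝ} (hg : 0 < g) :
    QQ ρ T x g = ((T - (Ps x - Ps (ρ * x))) / g + (T - (Ps (g * x) - Ps (ρ * (g * x))))) / (1 + g)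
      - T * ((1 - g) ^ 2 / ((1 + g) ^ 2 * g)) := by
  unfold QQ
  have h1 : (1 + g) ≠ 0 := by positivity
  field_simp
  ring

/-- bound for `QQ`, second form -/
lemma step_Q1 {ρ T x g : ℝ} {dX dY : ℕ} (hg0' : 0 < g0)
    (hg0 : (g0 : ℝ) / N ≤ g) (hgpos : 0 < g) (hg1 : g ≤ (g1 : ℝ) / N) (hg1N : g1 ≤ N)
    (hT : T ≤ (Thi : ℝ) / S) (hT' : (Tlo : ℝ) / S ≤ T)
    (h1 : (dX : ℝ) / S ≤ Ps x - Ps (ρ * x))
    (h2 : (dY : ℝ) / S ≤ Ps (g * x) - Ps (ρ * (g * x))) :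
    QQ ρ T x g ≤
      (((N * ((Thi - dX) * N / g0 + 1 + (Thi - dY)) / (N + g0) + 1)
      - Tlo * ((N - g1) * (N - g1)) * N / ((N + g1) * (N + g1) * g1) : ℕ) : ℝ) / S := by
  have hS := S_posR
  have hN := N_posR
  have hg1' : (0 : ℝ) < g1 := by
    have : (0 : ℝ) < (g1 : ℝ) / N := by linarith
    by_contra hh
    push_neg at hh
    have : (g1 : ℝ) / N ≤ 0 := div_nonpos_of_nonpos_of_nonneg hh hN.le
    linarith
  have hg0R : (0 : ℝ) < g0 := by exact_mod_cast hg0'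
  rw [QQ_eq hgpos, le_div_iff₀ hS]
  refine le_trans ?_ (le_sub_cast _ _)
  rw [div_le_iff₀ hS] at h1 h2 hT'
  rw [le_div_iff₀ hS] at hT
  -- the subtracted term
  have e1 : ((Tlo * ((N - g1) * (N - g1)) * N / ((N + g1) * (N + g1) * g1) : ℕ) : ℝ)
      ≤ S * (T * ((1 - g) ^ 2 / ((1 + g) ^ 2 * g))) := by
    refine (floor_le _ _).trans ?_
    push_cast [Nat.cast_sub hg1N]
    have k1 : (Tlo : ℝ) * ((N - g1) * (N - g1)) * N / ((N + g1) * (N + g1) * g1)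
        = Tlo * ((1 - (g1 : ℝ) / N) ^ 2 / ((1 + (g1 : ℝ) / N) ^ 2 * ((g1 : ℝ) / N))) := by
      field_simp
    rw [k1]
    have k2 : (S : ℝ) * (T * ((1 - g) ^ 2 / ((1 + g) ^ 2 * g)))
        = (T * S) * ((1 - g) ^ 2 / ((1 + g) ^ 2 * g)) := by ring
    rw [k2]
    have k3 : (g1 : ℝ) / N ≤ 1 := by
      rw [div_le_one hN]; exact_mod_cast hg1N
    have k4 : (1 - (g1 : ℝ) / N) ^ 2 / ((1 + (g1 : ℝ) / N) ^ 2 * ((g1 : ℝ) / N))
        ≤ (1 - g) ^ 2 / ((1 + g) ^ 2 * g) := by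
      apply div_le_div₀ (by positivity)
      · exact pow_le_pow_left₀ (by linarith) (by linarith) 2
      · positivity
      · gcongr
    calc (Tlo : ℝ) * ((1 - (g1 : ℝ) / N) ^ 2 / ((1 + (g1 : ℝ) / N) ^ 2 * ((g1 : ℝ) / N)))
        ≤ Tlo * ((1 - g) ^ 2 / ((1 + g) ^ 2 * g)) :=
          mul_le_mul_of_nonneg_left k4 (by positivity)
      _ ≤ (T * S) * ((1 - g) ^ 2 / ((1 + g) ^ 2 * g)) :=
          mul_le_mul_of_nonneg_right hT' (by positivity)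
  -- the main term
  have e2 : S * (((T - (Ps x - Ps (ρ * x))) / g + (T - (Ps (g * x) - Ps (ρ * (g * x)))))
      / (1 + g)) ≤ ((N * ((Thi - dX) * N / g0 + 1 + (Thi - dY)) / (N + g0) : ℕ) : ℝ) + 1 := by
    refine le_trans ?_ (le_floor_add _ (by have := N_pos; positivity))
    have a1 : (T - (Ps x - Ps (ρ * x))) * S ≤ ((Thi - dX : ℕ) : ℝ) :=
      le_trans (by linarith) (le_sub_cast _ _)
    have a2 : (T - (Ps (g * x) - Ps (ρ * (g * x)))) * S ≤ ((Thi - dY : ℕ) : ℝ) :=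
      le_trans (by linarith) (le_sub_cast _ _)
    have a3 : (T - (Ps x - Ps (ρ * x))) / g * S ≤ (((Thi - dX) * N / g0 : ℕ) : ℝ) + 1 := by
      refine le_trans ?_ (le_floor_add _ hg0')
      rw [div_mul_eq_mul_div, Nat.cast_mul]
      have k3 : ((Thi - dX : ℕ) : ℝ) * N / g0 = ((Thi - dX : ℕ) : ℝ) / ((g0 : ℝ) / N) := by
        field_simp
      rw [k3]
      exact div_le_div₀ (by positivity) a1 (by positivity) hg0
    have k4 : (S : ℝ) * (((T - (Ps x - Ps (ρ * x))) / g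
        + (T - (Ps (g * x) - Ps (ρ * (g * x))))) / (1 + g))
        = ((T - (Ps x - Ps (ρ * x))) / g * S + (T - (Ps (g * x) - Ps (ρ * (g * x)))) * S)
          / (1 + g) := by ring
    rw [k4]
    have k5 : ((N * ((Thi - dX) * N / g0 + 1 + (Thi - dY)) : ℕ) : ℝ) / ((N + g0 : ℕ) : ℝ)
        = ((((Thi - dX) * N / g0 : ℕ) : ℝ) + 1 + ((Thi - dY : ℕ) : ℝ)) / (1 + (g0 : ℝ) / N) := by
      rw [Nat.cast_mul, Nat.cast_add, Nat.cast_add, Nat.cast_add]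
      field_simp
      push_cast
      ring
    rw [k5]
    apply div_le_div₀ (by positivity) (by linarith) (by positivity) (by linarith)
  have k : (((T - (Ps x - Ps (ρ * x))) / g + (T - (Ps (g * x) - Ps (ρ * (g * x))))) / (1 + g)
      - T * ((1 - g) ^ 2 / ((1 + g) ^ 2 * g))) * S
      = S * (((T - (Ps x - Ps (ρ * x))) / g + (T - (Ps (g * x) - Ps (ρ * (g * x))))) / (1 + g))
        - S * (T * ((1 - g) ^ 2 / ((1 + g) ^ 2 * g))) := by ring
  rw [k, Nat.cast_add, Nat.cast_one]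
  linarith

end

end Vale.Agent.P322.Num
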