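import Vale.Agent.P322.BoxSound

/-!
# Soundness of the bisection for the S3 inequality
-/

namespace Vale.Agent.P322.Num

open Real

lemma ble_false_iff {a b : ℕ} (h : Nat.ble a b = false) : b < a := by
  by_contra hh
  have : Nat.ble a b = true := Nat.ble_eq_true_of_le (by omega)
  rw [this] at h; exact absurd h (by simp)

/-- from the integer comparison to the real inequality -/
lemma final_step {b u La' Q : ℕ} {bbr uur Lar Qr : ℝ} (h : Nat.ble (La' * Q + 1) (b * u) = true)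
    (hb : 0 < b → (b : ℝ) / S ≤ bbr) (hu : 0 < u → (u : ℝ) / S ≤ uur)
    (hLa0 : 0 ≤ Lar) (hLa : Lar ≤ (La' : ℝ) / S) (hQ : Qr ≤ (Q : ℝ) / S) :
    Lar * Qr ≤ bbr * uur := by
  have hS := S_posR
  have h1 : La' * Q + 1 ≤ b * u := Nat.le_of_ble_eq_true h
  have hb0 : 0 < b := by
    rcases Nat.eq_zero_or_pos b with h0 | h0
    · subst h0; simp at h1
    · exact h0
  have hu0 : 0 < u := by
    rcases Nat.eq_zero_or_pos u with h0 | h0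
    · subst h0; simp at h1
    · exact h0
  have k1 := hb hb0
  have k2 := hu hu0
  have k3 : (La' : ℝ) * Q ≤ (b : ℝ) * u := by
    have : La' * Q ≤ b * u := by omega
    exact_mod_cast this
  calc Lar * Qr ≤ Lar * ((Q : ℝ) / S) := mul_le_mul_of_nonneg_left hQ hLa0
    _ ≤ ((La' : ℝ) / S) * ((Q : ℝ) / S) := mul_le_mul_of_nonneg_right hLa (by positivity)
    _ = (La' : ℝ) * Q / (S * S) := by field_simp
    _ ≤ (b : ℝ) * u / (S * S) := by gcongr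
    _ = ((b : ℝ) / S) * ((u : ℝ) / S) := by field_simp
    _ ≤ bbr * uur := mul_le_mul k1 k2 (by positivity) (le_trans (by positivity) k1)

lemma chk3_cases {g0 b u La Q1 Q2 : ℕ} (h : chk3 g0 b u La Q1 Q2 = true) :
    Nat.ble (La * Q2 + 1) (b * u) = true ∨ (0 < g0 ∧ Nat.ble (La * Q1 + 1) (b * u) = true) := by
  unfold chk3 at h
  obtain ⟨X, hX⟩ : ∃ X, X = Nat.ble (La * Q2 + 1) (b * u) := ⟨_, rfl⟩
  obtain ⟨Y, hY⟩ : ∃ Y, Y = Nat.ble (La * Q1 + 1) (b * u) := ⟨_, rfl⟩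
  rw [← hX, ← hY] at h
  rw [← hX, ← hY]
  cases X
  · cases g0
    · simp at h
    · right; exact ⟨Nat.succ_pos _, h⟩
  · left; rfl

/-- soundness of the final comparison, all integer quantities abstract -/
theorem chk2_sound {rn rd Tlo Thi x1 g0 g1 b0 bs dX dY PsX PsY lh0 ng lhH : ℕ} (hrd0 : 0 < rd)
    {ρ T : ℝ} (hρ : ρ = (rn : ℝ) / rd) (hT' : (Tlo : ℝ) / S ≤ T) (hT : T ≤ (Thi : ℝ) / S)
    (hg1N : g1 ≤ N) {x g : ℝ} (hxpos : 0 < x) (hgpos : 0 < g)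
    (hxr : x ≤ (x1 : ℝ) / N) (hgl : (g0 : ℝ) / N ≤ g) (hgr : g ≤ (g1 : ℝ) / N)
    (c1 : (b0 : ℝ) / S ≤ be (g * x)) (c2 : be (ρ * (g * x)) ≤ (bs : ℝ) / S)
    (c4 : Ps (ρ * x) ≤ (PsX : ℝ) / S) (c6 : Ps (ρ * (g * x)) ≤ (PsY : ℝ) / S)
    (d1 : (dX : ℝ) / S ≤ Ps x - Ps (ρ * x))
    (d2 : (dY : ℝ) / S ≤ Ps (g * x) - Ps (ρ * (g * x)))
    (e1 : (lh0 : ℝ) / S ≤ Lh g) (e2 : Lh g ≤ (lhH : ℝ) / S) (e3 : (ng : ℝ) / S ≤ -Real.log g)
    (hbe0 : 0 ≤ be (ρ * (g * x)))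
    (hc : chk2 rn rd Tlo Thi x1 g0 g1 b0 bs dX dY PsX PsY lh0 ng lhH = true) :
    La ρ x g * QQ ρ T x g ≤ bb ρ x g * uu ρ T x g := by
  have hLa0 : 0 ≤ La ρ x g := by
    unfold La
    have h1 := Lh_nonneg hgpos
    have h2 : 0 ≤ g * x ^ 2 * ρ ^ 2 := by positivity
    exact add_nonneg h1 (mul_nonneg h2 hbe0)
  have sLa := step_La (rn := rn) (rd := rd) (bs := bs)
    (lhH := lhH) hrd0 hρ hxpos hxr hgpos hgr hbe0 e2 c2
  have sQ2 := step_Q2 (Thi := Thi) hgl hgpos hgr hT d1 d2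
  unfold chk2 at hc
  obtain ⟨B, hB⟩ : ∃ B, B = b0 - (rn * rn * bs / (rd * rd) + 1) := ⟨_, rfl⟩
  obtain ⟨U, hU⟩ : ∃ U, U = lh0 + ng * N / (N + g1) - (4 * N * N * Thi / ((N + g0) * (N + g0)) + 1
      + (x1 * x1 * (N * PsX + g1 * PsY) / (N * N * (N + g0)) + 1)) := ⟨_, rfl⟩
  obtain ⟨LA, hLA⟩ : ∃ LA, LA = lhH + (g1 * (x1 * x1) * (rn * rn) * bs
      / (N * N * N * (rd * rd)) + 1) := ⟨_, rfl⟩
  obtain ⟨Q1, hQ1⟩ : ∃ Q1, Q1 = (N * ((Thi - dX) * N / g0 + 1 + (Thi - dY)) / (N + g0) + 1)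
      - Tlo * ((N - g1) * (N - g1)) * N / ((N + g1) * (N + g1) * g1) := ⟨_, rfl⟩
  obtain ⟨Q2, hQ2⟩ : ∃ Q2, Q2 = (4 * N * N * Thi / ((N + g0) * (N + g0)) + 1)
      - N * (dX * N / g1 + dY) / (N + g1) := ⟨_, rfl⟩
  rw [← hB, ← hU, ← hLA, ← hQ1, ← hQ2] at hc
  rw [← hLA] at sLa
  rw [← hQ2] at sQ2
  have sB : 0 < B → (B : ℝ) / S ≤ bb ρ x g := by
    intro hp
    rw [hB] at hp ⊢
    exact step_b hrd0 hρ c1 c2 hp
  have sU : 0 < U → (U : ℝ) / S ≤ uu ρ T x g := by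
    intro hp
    rw [hU] at hp ⊢
    exact step_u hxpos hxr hgl hgpos hgr hg1N hT e1 e3 c4 c6 hp
  rcases chk3_cases hc with h1 | ⟨hg0, h1⟩
  · exact final_step h1 sB sU hLa0 sLa sQ2
  · have sQ1 := step_Q1 (Thi := Thi) (Tlo := Tlo) hg0 hgl hgpos hgr hg1N hT hT' d1 d2
    rw [← hQ1] at sQ1
    exact final_step h1 sB sU hLa0 sLa sQ1

lemma lh_lo {g1 : ℕ} {g : ℝ} (hgpos : 0 < g) (hgr : g ≤ (g1 : ℝ) / N) :
    ((lnLo (N + g1) N * N / g1 : ℕ) : ℝ) / S ≤ Lh g := by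
  have hS := S_posR
  have hN := N_posR
  have hNn := N_pos
  refine le_trans ?_ (Lh_anti hgpos hgr)
  have l1 := lnLo_le hNn (show N ≤ N + g1 by omega)
  obtain ⟨A, hA⟩ : ∃ A, A = lnLo (N + g1) N := ⟨_, rfl⟩
  rw [← hA] at l1 ⊢
  rw [div_le_iff₀ hS] at l1 ⊢
  refine (floor_le _ _).trans ?_
  unfold Lh
  have k1 : 1 + (g1 : ℝ) / N = ((N + g1 : ℕ) : ℝ) / N := by
    rw [Nat.cast_add, add_div, div_self hN.ne']
  rw [k1, Nat.cast_mul]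
  obtain ⟨l, hl⟩ : ∃ l, l = Real.log (((N + g1 : ℕ) : ℝ) / N) := ⟨_, rfl⟩
  rw [← hl] at l1 ⊢
  have k2 : l / ((g1 : ℝ) / N) * S = l * S * N / g1 := by
    rw [div_div_eq_mul_div]; ring
  rw [k2]
  gcongr

lemma lh_hi {g0 : ℕ} {g : ℝ} (hgpos : 0 < g) (hg1 : g ≤ 1) (hgl : (g0 : ℝ) / N ≤ g) :
    Lh g ≤ (lhHi g0 : ℝ) / S := by
  have hS := S_posR
  have hN := N_posR
  have hNn := N_pos
  rcases Nat.eq_zero_or_pos g0 with h0 | h0
  · subst h0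
    simp only [lhHi]
    rw [div_self hS.ne']
    exact Lh_le_one hgpos
  · obtain ⟨k, hk⟩ : ∃ k, g0 = k + 1 := ⟨g0 - 1, by omega⟩
    have e : lhHi g0 = lnHi (N + g0) N * N / g0 + 1 := by subst hk; rfl
    rw [e]
    have hg0R : (0 : ℝ) < (g0 : ℝ) := by exact_mod_cast h0
    have hg0N : g0 ≤ N := by
      have h1 : (g0 : ℝ) / N ≤ 1 := by linarith
      rw [div_le_one hN] at h1; exact_mod_cast h1
    refine (Lh_anti (by positivity) hgl).trans ?_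
    have l1 := lnHi_ge hNn (show N ≤ N + g0 by omega) (by omega)
    obtain ⟨A, hA⟩ : ∃ A, A = lnHi (N + g0) N := ⟨_, rfl⟩
    rw [← hA] at l1 ⊢
    rw [le_div_iff₀ hS] at l1 ⊢
    unfold Lh
    have k1 : 1 + (g0 : ℝ) / N = ((N + g0 : ℕ) : ℝ) / N := by
      rw [Nat.cast_add, add_div, div_self hN.ne']
    rw [k1, Nat.cast_add (A * N / g0) 1, Nat.cast_one]
    refine le_trans ?_ (le_floor_add _ h0)
    rw [Nat.cast_mul]
    obtain ⟨l, hl⟩ : ∃ l, l = Real.log (((N + g0 : ℕ) : ℝ) / N) := ⟨_, rfl⟩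
    rw [← hl] at l1 ⊢
    have k2 : l / ((g0 : ℝ) / N) * S = l * S * N / g0 := by
      rw [div_div_eq_mul_div]; ring
    rw [k2]
    gcongr

lemma ng_lo {g1 : ℕ} {g : ℝ} (hgpos : 0 < g) (hg1pos : 0 < g1) (hg1N : g1 ≤ N)
    (hgr : g ≤ (g1 : ℝ) / N) :
    ((lnLoR 12 N g1 : ℕ) : ℝ) / S ≤ -Real.log g := by
  have hg1R : (0 : ℝ) < (g1 : ℝ) := by exact_mod_cast hg1pos
  have hN := N_posR
  refine (lnLoR_le 12 hg1pos hg1N).trans ?_
  rw [← Real.log_inv]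
  apply Real.log_le_log (by positivity)
  have k1 : (N : ℝ) / g1 = ((g1 : ℝ) / N)⁻¹ := by rw [inv_div]
  rw [k1]
  exact inv_anti₀ hgpos hgr

lemma diff_lo {p q : ℕ} {a b : ℝ} (hp : (p : ℝ) / S ≤ a) (hq : b ≤ (q : ℝ) / S) (hab : b ≤ a) :
    ((p - q : ℕ) : ℝ) / S ≤ a - b := by
  have hS := S_posR
  rw [div_le_iff₀ hS] at hp ⊢
  rw [le_div_iff₀ hS] at hq
  apply sub_cast_le
  · exact mul_nonneg (by linarith) hS.le
  · linarith

theorem chk_sound {rn rd Tlo Thi x0 x1 g0 g1 : ℕ} (hrn : 0 < rn) (hrd : rn < rd) {ρ T : ℝ}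
    (hρ : ρ = (rn : ℝ) / rd) (hT' : (Tlo : ℝ) / S ≤ T) (hT : T ≤ (Thi : ℝ) / S)
    (hx1N : x1 ≤ N) (hg1N : g1 ≤ N)
    (hc : chk rn rd Tlo Thi x0 x1 g0 g1 = true)
    {x g : ℝ} (hxpos : 0 < x) (hx1 : x ≤ 1) (hgpos : 0 < g) (hg1 : g ≤ 1) (hy : g * x < 1)
    (hxl : (x0 : ℝ) / N ≤ x) (hxr : x ≤ (x1 : ℝ) / N)
    (hgl : (g0 : ℝ) / N ≤ g) (hgr : g ≤ (g1 : ℝ) / N) :
    La ρ x g * QQ ρ T x g ≤ bb ρ x g * uu ρ T x g := by
  have hS := S_posR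
  have hN := N_posR
  have hNn := N_pos
  have hrd0 : 0 < rd := by omega
  have hrnR : (0 : ℝ) < rn := by exact_mod_cast hrn
  have hrdR : (0 : ℝ) < rd := by exact_mod_cast hrd0
  have hρ0 : 0 < ρ := by rw [hρ]; positivity
  have hρ1 : ρ < 1 := by rw [hρ, div_lt_one hrdR]; exact_mod_cast hrd
  have hypos : 0 < g * x := by positivity
  have hx0N : x0 ≤ N := by
    have h1 : (x0 : ℝ) / N ≤ 1 := by linarith
    rw [div_le_one hN] at h1; exact_mod_cast h1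
  have hx1R : (0 : ℝ) < x1 := by
    have h1 : (0 : ℝ) < (x1 : ℝ) / N := by linarith
    by_contra hh
    have h2 : (x1 : ℝ) / N ≤ 0 := div_nonpos_of_nonpos_of_nonneg (not_lt.mp hh) hN.le
    linarith
  have hg1R : (0 : ℝ) < g1 := by
    have h1 : (0 : ℝ) < (g1 : ℝ) / N := by linarith
    by_contra hh
    have h2 : (g1 : ℝ) / N ≤ 0 := div_nonpos_of_nonpos_of_nonneg (not_lt.mp hh) hN.le
    linarith
  have hx1pos : 0 < x1 := by exact_mod_cast hx1R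
  have hg1pos : 0 < g1 := by exact_mod_cast hg1R
  have hyl : ((x0 * g0 : ℕ) : ℝ) / ((N * N : ℕ) : ℝ) ≤ g * x := by
    rw [Nat.cast_mul, Nat.cast_mul]
    have k1 : (x0 : ℝ) * g0 / (N * N) = ((g0 : ℝ) / N) * ((x0 : ℝ) / N) := by
      rw [div_mul_div_comm]; ring
    rw [k1]
    exact mul_le_mul hgl hxl (by positivity) hgpos.le
  have hylt : x0 * g0 < N * N := by
    have h1 : ((x0 * g0 : ℕ) : ℝ) / ((N * N : ℕ) : ℝ) < 1 := by linarith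
    have h2 : (0 : ℝ) < ((N * N : ℕ) : ℝ) := by rw [Nat.cast_mul]; positivity
    rw [div_lt_one h2] at h1
    exact_mod_cast h1
  have hρy : ρ * (g * x) ≤ ((rn * x1 * g1 : ℕ) : ℝ) / ((rd * N * N : ℕ) : ℝ) := by
    rw [Nat.cast_mul, Nat.cast_mul, Nat.cast_mul, Nat.cast_mul]
    have k1 : (rn : ℝ) * x1 * g1 / (rd * N * N) = ρ * (((g1 : ℝ) / N) * ((x1 : ℝ) / N)) := by
      rw [hρ, div_mul_div_comm, div_mul_div_comm]
      congr 1 <;> ring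
    rw [k1]
    apply mul_le_mul_of_nonneg_left _ hρ0.le
    exact mul_le_mul hgr hxr hxpos.le (by positivity)
  have hρx : ρ * x ≤ ((rn * x1 : ℕ) : ℝ) / ((rd * N : ℕ) : ℝ) := by
    rw [Nat.cast_mul, Nat.cast_mul]
    have k1 : (rn : ℝ) * x1 / (rd * N) = ρ * ((x1 : ℝ) / N) := by
      rw [hρ, div_mul_div_comm]
    rw [k1]
    exact mul_le_mul_of_nonneg_left hxr hρ0.le
  have hlt1 : rn * x1 < rd * N := by
    calc rn * x1 ≤ rn * N := Nat.mul_le_mul_left _ hx1N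
      _ < rd * N := Nat.mul_lt_mul_of_pos_right hrd hNn
  have hlt2 : rn * x1 * g1 < rd * N * N := by
    calc rn * x1 * g1 ≤ rn * x1 * N := Nat.mul_le_mul_left _ hg1N
      _ < rd * N * N := Nat.mul_lt_mul_of_pos_right hlt1 hNn
  have hρypos : 0 < ρ * (g * x) := by positivity
  have hρy1 : ρ * (g * x) < 1 := by nlinarith
  have hρxpos : 0 < ρ * x := by positivity
  have hρx1 : ρ * x ≤ 1 := by nlinarith
  have hp1 : 0 < rn * x1 := Nat.mul_pos hrn hx1pos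
  have hp2 : 0 < rn * x1 * g1 := Nat.mul_pos hp1 hg1pos
  -- numeric bounds
  have c1 := bLo_le hylt hypos hy hyl
  have c2 := bHi_ge hp2 hlt2 hρypos hρy
  have c3 := pLo_le hNn hx0N hxpos hx1 hxl
  have c4 := pHi_ge hp1 hlt1 hρxpos hρx
  have c5 := pLo_le (Nat.mul_pos hNn hNn) hylt.le hypos hy.le hyl
  have c6 := pHi_ge hp2 hlt2 hρypos hρy
  have d1 := diff_lo c3 c4 (Ps_mono hρxpos (show ρ * x ≤ x by nlinarith) hx1)
  have d2 := diff_lo c5 c6 (Ps_mono hρypos (show ρ * (g * x) ≤ g * x by nlinarith) hy.le)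
  have hbe0 : 0 ≤ be (ρ * (g * x)) := by
    have := half_le_be hρypos hρy1; linarith
  unfold chk at hc
  exact chk2_sound hrd0 hρ hT' hT hg1N hxpos hgpos hxr hgl hgr c1 c2 c4 c6 d1 d2
    (lh_lo hgpos hgr) (lh_hi hgpos hg1 hgl) (ng_lo hgpos hg1pos hg1N hgr) hbe0 hc

theorem bis_sound {rn rd Tlo Thi CX CG : ℕ} (hrn : 0 < rn) (hrd : rn < rd) {ρ T : ℝ}
    (hρ : ρ = (rn : ℝ) / rd) (hT' : (Tlo : ℝ) / S ≤ T) (hT : T ≤ (Thi : ℝ) / S) (n : ℕ) :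
    ∀ x0 x1 g0 g1 : ℕ, x1 ≤ N → g1 ≤ N → bis rn rd Tlo Thi CX CG n x0 x1 g0 g1 = true →
    ∀ x g : ℝ, 0 < x → x ≤ 1 → 0 < g → g ≤ 1 → g * x < 1 →
    (x0 : ℝ) / N ≤ x → x ≤ (x1 : ℝ) / N → (g0 : ℝ) / N ≤ g → g ≤ (g1 : ℝ) / N →
    ¬ ((CX : ℝ) / N ≤ x ∧ (CG : ℝ) / N ≤ g) →
    La ρ x g * QQ ρ T x g ≤ bb ρ x g * uu ρ T x g := by
  have hN := N_posR
  induction n with
  | zero =>
    intro x0 x1 g0 g1 _ _ h
    rw [bis] at h
    exact absurd h Bool.false_ne_true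
  | succ n ih =>
    intro x0 x1 g0 g1 hx1N hg1N h x g hx0 hx1 hg0 hg1 hy hxl hxr hgl hgr hcor
    rcases bis_cases h with ⟨b1, b2⟩ | h2 | ⟨h3, h4⟩ | ⟨h3, h4⟩
    · have a1 : CX ≤ x0 := Nat.le_of_ble_eq_true b1
      have a2 : CG ≤ g0 := Nat.le_of_ble_eq_true b2
      have a1' : (CX : ℝ) ≤ x0 := by exact_mod_cast a1
      have a2' : (CG : ℝ) ≤ g0 := by exact_mod_cast a2
      exfalso
      apply hcor
      constructor
      · exact le_trans (div_le_div_of_nonneg_right a1' hN.le) hxl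
      · exact le_trans (div_le_div_of_nonneg_right a2' hN.le) hgl
    · exact chk_sound hrn hrd hρ hT' hT hx1N hg1N h2 hx0 hx1 hg0 hg1 hy hxl hxr hgl hgr
    · rcases le_total x ((((x0 + x1) / 2 : ℕ) : ℝ) / N) with hh | hh
      · have hm : (x0 + x1) / 2 ≤ N := by
          have h3 : (x0 : ℝ) / N ≤ 1 := by linarith
          rw [div_le_one hN] at h3
          have h4 : x0 ≤ N := by exact_mod_cast h3
          omega
        exact ih _ _ _ _ hm hg1N h3 x g hx0 hx1 hg0 hg1 hy hxl hh hgl hgr hcor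
      · exact ih _ _ _ _ hx1N hg1N h4 x g hx0 hx1 hg0 hg1 hy hh hxr hgl hgr hcor
    · rcases le_total g ((((g0 + g1) / 2 : ℕ) : ℝ) / N) with hh | hh
      · have hm : (g0 + g1) / 2 ≤ N := by
          have h3 : (g0 : ℝ) / N ≤ 1 := by linarith
          rw [div_le_one hN] at h3
          have h4 : g0 ≤ N := by exact_mod_cast h3
          omega
        exact ih _ _ _ _ hx1N hm h3 x g hx0 hx1 hg0 hg1 hy hxl hxr hgl hh hcor
      · exact ih _ _ _ _ hx1N hg1N h4 x g hx0 hx1 hg0 hg1 hy hxl hxr hh hgr hcor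

end Vale.Agent.P322.Num
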