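import Vale.Agent.P322.Induct

/-!
# P322: noise kernel on sign vectors and the induction
-/

namespace Vale.Agent.P322.Ind

open Real Finset

/-- The one-bit channel. -/
noncomputable def ch (ε : ℝ) (a b : ℤˣ) : ℝ := if a = b then 1 - ε else ε

/-- The product channel. -/
noncomputable def ker (ε : ℝ) {n : ℕ} (x y : Fin n → ℤˣ) : ℝ := ∏ i, ch ε (x i) (y i)

/-- The noise operator. -/
noncomputable def T (ε : ℝ) {n : ℕ} (f : (Fin n → ℤˣ) → ℝ) (y : Fin n → ℤˣ) : ℝ :=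
  ∑ x, ker ε x y * f x

/-- Uniform average. -/
noncomputable def avg {n : ℕ} (f : (Fin n → ℤˣ) → ℝ) : ℝ := ∑ y, (1 / 2 : ℝ) ^ n * f y

lemma sum_units {α : Type*} [AddCommMonoid α] (f : ℤˣ → α) : ∑ a, f a = f 1 + f (-1) := by
  have : (Finset.univ : Finset ℤˣ) = {1, -1} := by decide
  rw [this, Finset.sum_pair (by decide)]

lemma sum_cons {α : Type*} [AddCommMonoid α] {n : ℕ} (f : (Fin (n + 1) → ℤˣ) → α) :
    ∑ y, f y = ∑ y : Fin n → ℤˣ, (f (Fin.cons 1 y) + f (Fin.cons (-1) y)) := by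
  rw [← (Fin.consEquiv (fun _ => ℤˣ)).sum_comp, Fintype.sum_prod_type, sum_units,
    ← Finset.sum_add_distrib]
  rfl

lemma ker_cons (ε : ℝ) {n : ℕ} (a b : ℤˣ) (x y : Fin n → ℤˣ) :
    ker ε (Fin.cons a x : Fin (n + 1) → ℤˣ) (Fin.cons b y) = ch ε a b * ker ε x y := by
  unfold ker
  rw [Fin.prod_univ_succ]
  simp

lemma ker_comm (ε : ℝ) {n : ℕ} (x y : Fin n → ℤˣ) : ker ε x y = ker ε y x := by
  unfold ker ch
  exact Finset.prod_congr rfl fun i _ => by simp only [eq_comm]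

lemma ker_sum (ε : ℝ) : ∀ {n : ℕ} (y : Fin n → ℤˣ), ∑ x, ker ε x y = 1
  | 0, y => by
    simp [ker]
  | n + 1, y => by
    rw [sum_cons]
    have hy : y = Fin.cons (y 0) (Fin.tail y) := (Fin.cons_self_tail y).symm
    rw [hy]
    simp only [ker_cons]
    rw [Finset.sum_add_distrib, ← Finset.mul_sum, ← Finset.mul_sum, ker_sum]
    unfold ch
    rcases Int.units_eq_one_or (y 0) with h | h
    · rw [h]; simp
    · rw [h]; simp

lemma ker_nonneg {ε : ℝ} (h0 : 0 ≤ ε) (h1 : ε ≤ 1) {n : ℕ} (x y : Fin n → ℤˣ) :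
    0 ≤ ker ε x y := by
  unfold ker ch
  refine Finset.prod_nonneg fun i _ => ?_
  split_ifs <;> linarith

lemma T_abs_le {ε : ℝ} (h0 : 0 ≤ ε) (h1 : ε ≤ 1) {n : ℕ} {f : (Fin n → ℤˣ) → ℝ}
    (hf : ∀ x, |f x| ≤ 1) (y : Fin n → ℤˣ) : |T ε f y| ≤ 1 := by
  unfold T
  refine (Finset.abs_sum_le_sum_abs _ _).trans ?_
  rw [← ker_sum ε y]
  refine Finset.sum_le_sum fun x _ => ?_
  rw [abs_mul, abs_of_nonneg (ker_nonneg h0 h1 x y)]
  have := hf x
  have := ker_nonneg h0 h1 x y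
  nlinarith

lemma T_cons (ε : ℝ) {n : ℕ} (f : (Fin (n + 1) → ℤˣ) → ℝ) (b : ℤˣ) (y : Fin n → ℤˣ) :
    T ε f (Fin.cons b y)
      = ch ε 1 b * T ε (fun x => f (Fin.cons 1 x)) y
        + ch ε (-1) b * T ε (fun x => f (Fin.cons (-1) x)) y := by
  unfold T
  rw [sum_cons]
  simp only [ker_cons]
  rw [Finset.mul_sum, Finset.mul_sum, ← Finset.sum_add_distrib]
  exact Finset.sum_congr rfl fun x _ => by ring

lemma pow_half_sum (n : ℕ) : ∑ _y : Fin n → ℤˣ, (1 / 2 : ℝ) ^ n = 1 := by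
  rw [Finset.sum_const, Finset.card_univ]
  simp

lemma avg_cons {n : ℕ} (f : (Fin (n + 1) → ℤˣ) → ℝ) :
    avg f = (avg (fun x => f (Fin.cons 1 x)) + avg (fun x => f (Fin.cons (-1) x))) / 2 := by
  unfold avg
  rw [sum_cons, ← Finset.sum_add_distrib, Finset.sum_div]
  refine Finset.sum_congr rfl fun y _ => ?_
  rw [pow_succ]; ring

lemma avg_T (ε : ℝ) {n : ℕ} (f : (Fin n → ℤˣ) → ℝ) : avg (T ε f) = avg f := by
  unfold avg T
  simp only [Finset.mul_sum]
  rw [Finset.sum_comm]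
  refine Finset.sum_congr rfl fun x _ => ?_
  have : ∑ y, (1 / 2 : ℝ) ^ n * (ker ε x y * f x) = (1 / 2 : ℝ) ^ n * f x * ∑ y, ker ε x y := by
    rw [Finset.mul_sum]
    exact Finset.sum_congr rfl fun y _ => by ring
  rw [this]
  have h2 : ∑ y, ker ε x y = 1 := by
    rw [← ker_sum ε x]
    exact Finset.sum_congr rfl fun y _ => ker_comm ε x y
  rw [h2, mul_one]

lemma T_cons_one (ε : ℝ) {n : ℕ} (f : (Fin (n + 1) → ℤˣ) → ℝ) (y : Fin n → ℤˣ) :
    T ε f (Fin.cons 1 y)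
      = (T ε (fun x => f (Fin.cons (-1) x)) y + T ε (fun x => f (Fin.cons 1 x)) y) / 2
        + (1 - 2 * ε) * ((T ε (fun x => f (Fin.cons 1 x)) y
          - T ε (fun x => f (Fin.cons (-1) x)) y) / 2) := by
  rw [T_cons]
  have c1 : ch ε 1 1 = 1 - ε := by simp [ch]
  have c2 : ch ε (-1) 1 = ε := by
    have : (-1 : ℤˣ) ≠ 1 := by decide
    simp [ch, this]
  rw [c1, c2]; ring

lemma T_cons_neg_one (ε : ℝ) {n : ℕ} (f : (Fin (n + 1) → ℤˣ) → ℝ) (y : Fin n → ℤˣ) :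
    T ε f (Fin.cons (-1) y)
      = (T ε (fun x => f (Fin.cons (-1) x)) y + T ε (fun x => f (Fin.cons 1 x)) y) / 2
        - (1 - 2 * ε) * ((T ε (fun x => f (Fin.cons 1 x)) y
          - T ε (fun x => f (Fin.cons (-1) x)) y) / 2) := by
  rw [T_cons]
  have c1 : ch ε 1 (-1) = ε := by
    have : (1 : ℤˣ) ≠ -1 := by decide
    simp [ch, this]
  have c2 : ch ε (-1) (-1) = 1 - ε := by simp [ch]
  rw [c1, c2]; ring

lemma avg_H_cons (ε : ℝ) {n : ℕ} (f : (Fin (n + 1) → ℤˣ) → ℝ) :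
    avg (fun y => H (T ε f y))
      = ∑ y : Fin n → ℤˣ, (1 / 2 : ℝ) ^ n * M (1 - 2 * ε)
          (T ε (fun x => f (Fin.cons (-1) x)) y) (T ε (fun x => f (Fin.cons 1 x)) y) := by
  unfold avg
  rw [sum_cons]
  refine Finset.sum_congr rfl fun y _ => ?_
  beta_reduce
  rw [T_cons_one, T_cons_neg_one]
  unfold M
  rw [pow_succ]; ring

/-- The induction. -/
theorem induct {ε : ℝ} (h0 : 0 ≤ ε) (h1 : ε ≤ 1 / 2) {g : ℝ → ℝ} (hge : ∀ x, g (-x) = g x)
    (hgc : ContinuousOn g (Set.Icc (-1) 1)) (hg1 : g 1 ≤ 0) (hT : TwoPoint (1 - 2 * ε) g) :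
    ∀ (n : ℕ) (f : (Fin n → ℤˣ) → ℝ), (∀ x, f x = 1 ∨ f x = -1) →
      gt (1 - 2 * ε) g (avg f) ≤ avg (fun y => H (T ε f y)) := by
  intro n
  induction n with
  | zero =>
    intro f hf
    have e0 : ∀ h : (Fin 0 → ℤˣ) → ℝ, avg h = h default := by
      intro h
      unfold avg
      rw [Fintype.sum_unique, pow_zero, one_mul]
      exact congrArg h (Subsingleton.elim _ _)
    have e1 : avg f = f default := e0 f
    have e2 : avg (fun y => H (T ε f y)) = H (f default) := by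
      rw [e0]
      have e3 : T ε f default = f default := by
        unfold T
        rw [Fintype.sum_unique]
        unfold ker
        rw [Finset.univ_eq_empty, Finset.prod_empty, one_mul]
        exact congrArg f (Subsingleton.elim _ _)
      rw [e3]
    rw [e1, e2]
    rcases hf default with h | h
    · rw [h, H_one]
      unfold gt
      rw [H_one, mul_zero]
      exact max_le hg1 le_rfl
    · rw [h, H_neg_one]
      unfold gt
      rw [H_neg_one, mul_zero, hge]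
      exact max_le hg1 le_rfl
  | succ n ih =>
    intro f hf
    have hfb : ∀ x, |f x| ≤ 1 := by
      intro x
      rcases hf x with h | h <;> rw [h] <;> norm_num
    have hb : ∀ b : ℤˣ, ∀ y : Fin n → ℤˣ, |T ε (fun x => f (Fin.cons b x)) y| ≤ 1 :=
      fun b y => T_abs_le h0 (by linarith) (fun x => hfb _) y
    have ih1 := ih (fun x => f (Fin.cons 1 x)) (fun x => hf _)
    have ih2 := ih (fun x => f (Fin.cons (-1) x)) (fun x => hf _)
    have key := twoPoint_closed (ι := Fin n → ℤˣ) (ρ := 1 - 2 * ε)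
      (w := fun _ => (1 / 2 : ℝ) ^ n)
      (U := T ε (fun x => f (Fin.cons (-1) x)))
      (V := T ε (fun x => f (Fin.cons 1 x)))
      (by linarith) (by linarith) hge hgc hT (fun _ => by positivity) (pow_half_sum n)
      (hb (-1)) (hb 1)
    have m1 : ∑ i : Fin n → ℤˣ, (1 / 2 : ℝ) ^ n * T ε (fun x => f (Fin.cons (-1) x)) i
        = avg (fun x => f (Fin.cons (-1) x)) := avg_T ε _
    have m2 : ∑ i : Fin n → ℤˣ, (1 / 2 : ℝ) ^ n * T ε (fun x => f (Fin.cons 1 x)) i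
        = avg (fun x => f (Fin.cons 1 x)) := avg_T ε _
    rw [m1, m2, ← avg_H_cons] at key
    have m3 : avg f = (avg (fun x => f (Fin.cons (-1) x)) + avg (fun x => f (Fin.cons 1 x))) / 2 := by
      rw [avg_cons]; ring
    rw [m3]
    apply key
    have e3 : ∑ i : Fin n → ℤˣ, (1 / 2 : ℝ) ^ n
          * ((H (T ε (fun x => f (Fin.cons (-1) x)) i) + H (T ε (fun x => f (Fin.cons 1 x)) i)) / 2)
        = (avg (fun y => H (T ε (fun x => f (Fin.cons (-1) x)) y))
          + avg (fun y => H (T ε (fun x => f (Fin.cons 1 x)) y))) / 2 := by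
      unfold avg
      rw [← Finset.sum_add_distrib, Finset.sum_div]
      exact Finset.sum_congr rfl fun y _ => by ring
    rw [e3]
    linarith

/-- The strong data processing floor. -/
theorem sdpi {ε : ℝ} (h0 : 0 ≤ ε) (h1 : ε ≤ 1 / 2) (n : ℕ) (f : (Fin n → ℤˣ) → ℝ)
    (hf : ∀ x, f x = 1 ∨ f x = -1) :
    (1 - (1 - 2 * ε) ^ 2) * H (avg f) ≤ avg (fun y => H (T ε f y)) := by
  have key := induct h0 h1 (g := fun a => (1 - (1 - 2 * ε) ^ 2) * H a) (fun x => by rw [H_neg])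
    ((continuous_const.mul H_continuous).continuousOn) (by rw [H_one, mul_zero])
    (by
      intro ι _ w U V _ _ _ _ _ _ _ _ hlt
      exact absurd hlt (lt_irrefl _)) n f hf
  exact le_trans (le_max_right _ _) key

end Vale.Agent.P322.Ind
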