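import Vale.Agent.P322.HiC

namespace Vale.Agent.P322.Hi

open Real Set

lemma Qpiece {m d m1 m2 x Q : ℝ} (hm1 : 0 ≤ m1) (h1 : m1 ≤ m) (h2 : m ≤ m2) (hm2 : m2 < 1)
    (hd : 0 < d) (hmd : m + d ≤ 1) (hx : (1 - m1) / (1 + m1) ≤ x)
    (hQ : (0.6931471808 / (1 - m2)
      + (1 / 2 + x ^ 2 / 12 + (0.6931471808 - 7 / 12) * x ^ 4) / (1 + m1)) / 2 ≤ Q) :
    Psi m d ≤ d ^ 2 * Q := by
  have hl := l_bounds
  have hm : 0 ≤ m := hm1.trans h1
  have hm' : m < 1 := h2.trans_lt hm2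
  have p1 : 0 < 1 + m1 := by linarith
  have p2 : 0 < 1 + m := by linarith
  have p3 : 0 < 1 - m2 := by linarith
  have p4 : 0 < 1 - m := by linarith
  have hx' : (1 - m) / (1 + m) ≤ x := by
    refine le_trans ?_ hx
    rw [div_le_div_iff₀ p2 p1]
    nlinarith
  refine (Psi_le_mixed hm hm' hd hmd hx').trans ?_
  refine mul_le_mul_of_nonneg_left ?_ (by positivity)
  refine le_trans ?_ hQ
  have a1 : log 2 / (1 - m) ≤ 0.6931471808 / (1 - m2) := by
    apply div_le_div₀ (by norm_num) hl.2.le p3 (by linarith)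
  have a2 : (1 / 2 + x ^ 2 / 12 + (log 2 - 7 / 12) * x ^ 4) / (1 + m)
      ≤ (1 / 2 + x ^ 2 / 12 + (0.6931471808 - 7 / 12) * x ^ 4) / (1 + m1) := by
    apply div_le_div₀ (by positivity) _ p1 (by linarith)
    have : 0 ≤ x ^ 4 := by positivity
    nlinarith [hl.2]
  linarith

lemma sq_ge {a b m : ℝ} (ha : 0 ≤ a) (h : a ≤ m) (hb : b ≤ a ^ 2) : b ≤ m ^ 2 :=
  hb.trans (by gcongr)

/-- the product bound with `H ≤ log 2 - m²/2` -/
lemma prodB {v l M M1 Hm Q S : ℝ} (hv0 : 0 < v) (hv : v ≤ 0.757) (hM1 : M1 ≤ M) (hM : M ≤ 1)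
    (hl1 : 0.6931471803 < l) (hl2 : l < 0.6931471808) (hHm : 0 ≤ Hm) (hH : Hm ≤ l - M / 2)
    (hS : 0 ≤ S) (hSQ : S ≤ Q) (hM10 : 0 ≤ M1)
    (hnum : 0.757 * (0.1931471808 * M1 - (0.6931471803 - Q) * (1 - M1) + 0.03465735904
      + 0.15 * M1 * |0.6931471803 - Q|) ≤ M1) :
    (v * Hm + (1 - v * l) * (1 - M)) * (v * S + (1 - v * l)) ≤ 1 - v * l / 20 := by
  have hc : (1 - M1 + 0.1931471808 * v * M1) * (1 - v * (0.6931471803 - Q))
      ≤ 1 - 0.03465735904 * v := by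
    set D := 0.6931471803 - Q with hD
    have hD1 : -D ≤ |D| := neg_le_abs D
    have hD0 : 0 ≤ |D| := abs_nonneg D
    set C := 0.1931471808 * M1 - D * (1 - M1) + 0.03465735904 + 0.15 * M1 * |D| with hCdef
    have h1 : v * C ≤ M1 := by
      rcases le_total 0 C with h | h
      · exact (mul_le_mul_of_nonneg_right hv h).trans hnum
      · exact (mul_nonpos_of_nonneg_of_nonpos hv0.le h).trans hM10
    have k0 : 0 ≤ M1 * |D| := mul_nonneg hM10 hD0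
    have k1 : v ^ 2 * (M1 * (-D)) ≤ v ^ 2 * (M1 * |D|) := by gcongr
    have k2 : v ^ 2 * (M1 * |D|) ≤ 0.757 * v * (M1 * |D|) := by
      apply mul_le_mul_of_nonneg_right _ k0
      nlinarith
    have k3 : 0 ≤ v * (M1 * |D|) := mul_nonneg hv0.le k0
    have e : (1 - M1 + 0.1931471808 * v * M1) * (1 - v * D)
        = 1 - 0.03465735904 * v - M1 + v * C + 0.1931471808 * (v ^ 2 * (M1 * (-D)))
          - 0.15 * (v * (M1 * |D|)) := by
      rw [hCdef]; ring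
    rw [e]
    linarith
  have hvl : v * l ≤ 0.53 := by nlinarith
  have a0 : 0 ≤ v * S + (1 - v * l) := by nlinarith [mul_nonneg hv0.le hS]
  have a1 : v * Hm + (1 - v * l) * (1 - M) ≤ 1 - M1 + 0.1931471808 * v * M1 := by
    have h1 := mul_le_mul_of_nonneg_left hH hv0.le
    have h2 : v * M * (l - 1 / 2) ≤ v * M * 0.1931471808 := by
      apply mul_le_mul_of_nonneg_left (by linarith)
      exact mul_nonneg hv0.le (by linarith)
    have h3 : 0 ≤ (M - M1) * (1 - 0.1931471808 * v) := mul_nonneg (by linarith) (by nlinarith)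
    nlinarith
  have a2 : v * S + (1 - v * l) ≤ 1 - v * (0.6931471803 - Q) := by
    have h1 := mul_le_mul_of_nonneg_left hSQ hv0.le
    have h2 := mul_le_mul_of_nonneg_left hl1.le hv0.le
    nlinarith
  have a3 : 0 ≤ 1 - M1 + 0.1931471808 * v * M1 := by
    have : 0 ≤ v * M1 := mul_nonneg hv0.le hM10
    nlinarith
  have step1 : (v * Hm + (1 - v * l) * (1 - M)) * (v * S + (1 - v * l))
      ≤ (1 - M1 + 0.1931471808 * v * M1) * (1 - v * (0.6931471803 - Q)) :=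
    mul_le_mul a1 a2 a0 a3
  have h5 : v * l ≤ v * 0.6931471808 := mul_le_mul_of_nonneg_left hl2.le hv0.le
  nlinarith

lemma Psi_nonneg {m d : ℝ} (hm : 0 ≤ m) (hd : 0 < d) (hmd : m + d ≤ 1) : 0 ≤ Psi m d := by
  have := LB.H_concave.2 (show m + d ∈ Icc (-1:ℝ) 1 from ⟨by linarith, hmd⟩)
    (show m - d ∈ Icc (-1:ℝ) 1 from ⟨by linarith, by linarith⟩)
    (by norm_num : (0:ℝ) ≤ 1 / 2) (by norm_num : (0:ℝ) ≤ 1 / 2) (by norm_num)
  simp only [smul_eq_mul] at this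
  have e : 1 / 2 * (m + d) + 1 / 2 * (m - d) = m := by ring
  rw [e] at this
  unfold Psi; linarith

lemma S_nonneg {m d : ℝ} (hm : 0 ≤ m) (hd : 0 < d) (hmd : m + d ≤ 1) :
    0 ≤ Psi m d / d ^ 2 := div_nonneg (Psi_nonneg hm hd hmd) (by positivity)

lemma S_le {m d Q : ℝ} (hd : 0 < d) (h : Psi m d ≤ d ^ 2 * Q) : Psi m d / d ^ 2 ≤ Q := by
  rw [div_le_iff₀ (by positivity)]; linarith

lemma H_le_two {m : ℝ} (hm : 0 ≤ m) (hm1 : m < 1) : H m ≤ log 2 - m ^ 2 / 2 := by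
  have := H_le_four hm hm1
  have : 0 ≤ m ^ 4 / 12 := by positivity
  linarith

lemma Q6_num {m d M0 : ℝ} (hm : 0 ≤ m) (hm1 : m < 1) (hd : 0 < d) (hmd : m + d ≤ 1)
    (hd2 : d ≤ 43 / 50) (h1 : m ^ 2 ≤ M0) (h2 : M0 ≤ 0.02) :
    Psi m d / d ^ 2 ≤ 1 / (2 * (1 - M0))
        + 0.7396 / 12 * (1 + 3 * M0) / (1 - M0) ^ 3
        + (0.6931471808 - 7 / 12) * 0.7396 ^ 2 * (1 + 10 * M0 + 5 * M0 ^ 2) / (1 - M0) ^ 5 := by
  obtain ⟨hl1, hl2⟩ := l_bounds
  have hd4 : d ^ 2 ≤ 0.7396 := by nlinarith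
  have hd44 : d ^ 4 ≤ 0.7396 ^ 2 := by
    have : d ^ 4 = (d ^ 2) ^ 2 := by ring
    rw [this]; gcongr
  refine (S_le hd (Psi_le_Q6 hm hm1 hd hmd)).trans ?_
  have hM0 : 0 ≤ M0 := (sq_nonneg m).trans h1
  have p0 : 0 < 1 - M0 := by linarith
  have p1 : 1 - M0 ≤ 1 - m ^ 2 := by linarith
  have b1 : 1 / (2 * (1 - m ^ 2)) ≤ 1 / (2 * (1 - M0)) := by gcongr
  have b2 : d ^ 2 / 12 * (1 + 3 * m ^ 2) / (1 - m ^ 2) ^ 3
      ≤ 0.7396 / 12 * (1 + 3 * M0) / (1 - M0) ^ 3 := by gcongr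
  have hm4 : m ^ 4 ≤ M0 ^ 2 := by
    have : m ^ 4 = (m ^ 2) ^ 2 := by ring
    rw [this]; gcongr
  have hl3 : 0 ≤ log 2 - 7 / 12 := by linarith
  have e1 : (0:ℝ) ≤ 0.6931471808 - 7 / 12 := by norm_num
  have b3 : (log 2 - 7 / 12) * d ^ 4 * (1 + 10 * m ^ 2 + 5 * m ^ 4) / (1 - m ^ 2) ^ 5
      ≤ (0.6931471808 - 7 / 12) * 0.7396 ^ 2 * (1 + 10 * M0 + 5 * M0 ^ 2) / (1 - M0) ^ 5 := by
    gcongr
  linarith

/-- target of the case analysis -/
def CT (v m d : ℝ) : Prop :=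
  (v * H m + (1 - v * log 2) * (1 - m ^ 2)) * (v * (Psi m d / d ^ 2) + (1 - v * log 2))
    ≤ 1 - v * log 2 / 20

lemma CT_of {v m d Q M1 : ℝ} (hv0 : 0 < v) (hv : v ≤ 0.757) (hm : 0 ≤ m) (hm1 : m < 1)
    (hd : 0 < d) (hmd : m + d ≤ 1) (hQ : Psi m d / d ^ 2 ≤ Q) (hM1 : M1 ≤ m ^ 2) (h0 : 0 ≤ M1)
    (hnum : 0.757 * (0.1931471808 * M1 - (0.6931471803 - Q) * (1 - M1) + 0.03465735904
      + 0.15 * M1 * |0.6931471803 - Q|) ≤ M1) : CT v m d :=
  prodB hv0 hv hM1 (by nlinarith) l_bounds.1 l_bounds.2 (LB.H_nonneg (by linarith) hm1.le)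
    (H_le_two hm hm1) (S_nonneg hm hd hmd) hQ h0 hnum

lemma C_m1 {v m d : ℝ} (hv0 : 0 < v) (hv : v ≤ 0.757) (hm : 0 ≤ m) (hm2 : m ≤ 7 / 50)
    (hd : 0 < d) (hmd : m + d ≤ 1) (hd2 : d ≤ 43 / 50) : CT v m d := by
  have hm1 : m < 1 := by linarith
  rcases le_total (m ^ 2) 0.01 with hc2 | hc2
  · exact CT_of (M1 := 0) (Q := 0.641) hv0 hv hm hm1 hd hmd
      ((Q6_num hm hm1 hd hmd hd2 hc2 (by norm_num)).trans (by norm_num)) (by positivity) le_rfl
      (by norm_num)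
  · have h0 : m ^ 2 ≤ 0.0196 := by nlinarith
    exact CT_of (M1 := 0.01) (Q := 0.6588) hv0 hv hm hm1 hd hmd
      ((Q6_num hm hm1 hd hmd hd2 h0 (by norm_num)).trans (by norm_num)) hc2 (by norm_num)
      (by rw [abs_of_nonneg (by norm_num)]; norm_num)

lemma C_m2 {v m d : ℝ} (hv0 : 0 < v) (hv : v ≤ 0.757) (hm0 : 7 / 50 ≤ m) (hm2 : m ≤ 0.25)
    (hd : 0 < d) (hmd : m + d ≤ 1) : CT v m d := by
  have hm : 0 ≤ m := by linarith
  have hm1 : m < 1 := by linarith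
  rcases le_total m 0.17 with hc2 | hc2
  · exact CT_of (M1 := 0.0196) hv0 hv hm hm1 hd hmd (S_le hd
      (Qpiece (m1 := 7 / 50) (m2 := 0.17) (x := 0.7544) (Q := 0.6734) (by norm_num)
      hm0 hc2 (by norm_num) hd hmd (by norm_num) (by norm_num)))
      (sq_ge (by norm_num) hm0 (by norm_num)) (by norm_num)
      (by rw [abs_of_nonneg (by norm_num)]; norm_num)
  rcases le_total m 0.2 with hc3 | hc3
  · exact CT_of (M1 := 0.0289) hv0 hv hm hm1 hd hmd (S_le hd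
      (Qpiece (m1 := 0.17) (m2 := 0.2) (x := 0.7095) (Q := 0.6769) (by norm_num)
      hc2 hc3 (by norm_num) hd hmd (by norm_num) (by norm_num)))
      (sq_ge (by norm_num) hc2 (by norm_num)) (by norm_num)
      (by rw [abs_of_nonneg (by norm_num)]; norm_num)
  exact CT_of (M1 := 0.04) hv0 hv hm hm1 hd hmd (S_le hd
      (Qpiece (m1 := 0.2) (m2 := 0.25) (x := 0.6667) (Q := 0.6951) (by norm_num)
      hc3 hm2 (by norm_num) hd hmd (by norm_num) (by norm_num)))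
      (sq_ge (by norm_num) hc3 (by norm_num)) (by norm_num)
      (by rw [abs_of_nonpos (by norm_num)]; norm_num)

lemma C_m3 {v m d : ℝ} (hv0 : 0 < v) (hv : v ≤ 0.757) (hm0 : 0.25 ≤ m) (hm2 : m ≤ 0.35)
    (hd : 0 < d) (hmd : m + d ≤ 1) : CT v m d := by
  have hm : 0 ≤ m := by linarith
  have hm1 : m < 1 := by linarith
  rcases le_total m 0.3 with hc2 | hc2
  · exact CT_of (M1 := 0.0625) hv0 hv hm hm1 hd hmd (S_le hd
      (Qpiece (m1 := 0.25) (m2 := 0.3) (x := 0.6) (Q := 0.713) (by norm_num)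
      hm0 hc2 (by norm_num) hd hmd (by norm_num) (by norm_num)))
      (sq_ge (by norm_num) hm0 (by norm_num)) (by norm_num)
      (by rw [abs_of_nonpos (by norm_num)]; norm_num)
  exact CT_of (M1 := 0.09) hv0 hv hm hm1 hd hmd (S_le hd
      (Qpiece (m1 := 0.3) (m2 := 0.35) (x := 0.5385) (Q := 0.7385) (by norm_num)
      hc2 hm2 (by norm_num) hd hmd (by norm_num) (by norm_num)))
      (sq_ge (by norm_num) hc2 (by norm_num)) (by norm_num)
      (by rw [abs_of_nonpos (by norm_num)]; norm_num)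

lemma CT_of' {v m d G : ℝ} (hv0 : 0 < v) (hv : v ≤ 0.757) (hm : 0 ≤ m) (hm1 : m < 1)
    (hd : 0 < d) (hmd : m + d ≤ 1)
    (h1 : v * H m + (1 - v * log 2) * (1 - m ^ 2) ≤ G)
    (h2 : G * (v * log 2 + (1 - v * log 2) * (1 - m ^ 2)) ≤ (1 - v * log 2 / 20) * (1 - m ^ 2)) :
    CT v m d := by
  obtain ⟨hl1, hl2⟩ := l_bounds
  have hSl := S_le hd (Psi_le_l hm hm1 hd hmd)
  have hS0 := S_nonneg hm hd hmd
  have hHm0 : 0 ≤ H m := LB.H_nonneg (by linarith) hm1.le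
  unfold CT
  set l := log 2
  set S := Psi m d / d ^ 2
  have hA0 : 0 < 1 - m ^ 2 := by nlinarith
  have hvl : v * l ≤ 0.525 := by nlinarith
  have hW0 : 0 ≤ v * S + (1 - v * l) := by nlinarith [mul_nonneg hv0.le hS0]
  have hW : v * S + (1 - v * l) ≤ (v * l + (1 - v * l) * (1 - m ^ 2)) / (1 - m ^ 2) := by
    rw [le_div_iff₀ hA0]
    have h1 : S * (1 - m ^ 2) ≤ l := by
      rw [← le_div_iff₀ hA0]; exact hSl
    nlinarith
  have hG0 : 0 ≤ v * H m + (1 - v * l) * (1 - m ^ 2) :=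
    add_nonneg (mul_nonneg hv0.le hHm0) (mul_nonneg (by linarith) hA0.le)
  calc _ ≤ G * ((v * l + (1 - v * l) * (1 - m ^ 2)) / (1 - m ^ 2)) :=
        mul_le_mul h1 hW hW0 (hG0.trans h1)
    _ = G * (v * l + (1 - v * l) * (1 - m ^ 2)) / (1 - m ^ 2) := by ring
    _ ≤ (1 - v * l / 20) * (1 - m ^ 2) / (1 - m ^ 2) := by gcongr
    _ = _ := by field_simp

/-- polynomial inequality for the middle range, `M = m²` -/
lemma poly_m4 {v l M : ℝ} (hv0 : 0 < v) (hv : v ≤ 0.757) (hM0 : 0.1225 ≤ M) (hM1 : M ≤ 0.8464)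
    (hl1 : 0.6931471803 < l) (hl2 : l < 0.6931471808) :
    (1 - M + v * M * (l - 1 / 2 - M / 12)) * (v * l + (1 - v * l) * (1 - M))
      ≤ (1 - v * l / 20) * (1 - M) := by
  -- the difference is `T v = (1-M) M - v a - v² b`, decreasing in `v`
  have hb : 0 ≤ l * M ^ 2 * (l - 1 / 2 - M / 12) := by
    have : 0 ≤ l - 1 / 2 - M / 12 := by linarith
    positivity
  have ha : 0 ≤ l / 20 * (1 - M) + (1 - M) * M * (2 * l - 1 / 2 - M / 12) := by
    have h1 : 0 ≤ 2 * l - 1 / 2 - M / 12 := by linarith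
    have h2 : 0 ≤ 1 - M := by linarith
    positivity
  have e : (1 - v * l / 20) * (1 - M)
      - (1 - M + v * M * (l - 1 / 2 - M / 12)) * (v * l + (1 - v * l) * (1 - M))
      = (1 - M) * M - v * (l / 20 * (1 - M) + (1 - M) * M * (2 * l - 1 / 2 - M / 12))
        - v ^ 2 * (l * M ^ 2 * (l - 1 / 2 - M / 12)) := by ring
  have h1 := mul_le_mul_of_nonneg_right hv ha
  have h2 : v ^ 2 * (l * M ^ 2 * (l - 1 / 2 - M / 12))
      ≤ 0.757 ^ 2 * (l * M ^ 2 * (l - 1 / 2 - M / 12)) := by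
    apply mul_le_mul_of_nonneg_right _ hb
    gcongr
  -- replace `l` by its upper bound
  have h3 : l / 20 * (1 - M) + (1 - M) * M * (2 * l - 1 / 2 - M / 12)
      ≤ 0.03466 * (1 - M) + (1 - M) * M * (0.8863 - M / 12) := by
    have h2 : 0 ≤ 1 - M := by linarith
    have h4 : 0 ≤ (1 - M) * M := mul_nonneg h2 (by linarith)
    nlinarith
  have h5 : l * M ^ 2 * (l - 1 / 2 - M / 12) ≤ 0.69315 * M ^ 2 * (0.19315 - M / 12) := by
    have h6 : 0 ≤ l - 1 / 2 - M / 12 := by linarith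
    have h7 : 0 ≤ 0.69315 * M ^ 2 := by positivity
    apply mul_le_mul _ (by linarith) h6 h7
    gcongr
    linarith
  have h8 : 0 ≤ (1 - M) * M - 0.757 * (0.03466 * (1 - M) + (1 - M) * M * (0.8863 - M / 12))
      - 0.757 ^ 2 * (0.69315 * M ^ 2 * (0.19315 - M / 12)) := by
    nlinarith [mul_nonneg (sub_nonneg.mpr hM0) (sub_nonneg.mpr hM1),
      mul_nonneg (mul_nonneg (sub_nonneg.mpr hM0) (sub_nonneg.mpr hM1)) (sub_nonneg.mpr hM0),
      mul_nonneg (mul_nonneg (sub_nonneg.mpr hM0) (sub_nonneg.mpr hM1)) (sub_nonneg.mpr hM1)]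
  linarith

lemma C_m4 {v m d : ℝ} (hv0 : 0 < v) (hv : v ≤ 0.757) (hm0 : 0.35 ≤ m) (hm2 : m ≤ 0.92)
    (hd : 0 < d) (hmd : m + d ≤ 1) : CT v m d := by
  have hm : 0 ≤ m := by linarith
  have hm1 : m < 1 := by linarith
  obtain ⟨hl1, hl2⟩ := l_bounds
  have hH := H_le_four hm hm1
  refine CT_of' (G := 1 - m ^ 2 + v * m ^ 2 * (log 2 - 1 / 2 - m ^ 2 / 12)) hv0 hv hm hm1 hd hmd
    ?_ ?_
  · have := mul_le_mul_of_nonneg_left hH hv0.le
    nlinarith
  · exact poly_m4 hv0 hv (by nlinarith) (by nlinarith) hl1 hl2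

lemma C_m5 {v m d : ℝ} (hv0 : 0 < v) (hv : v ≤ 0.757) (hm0 : 0.92 ≤ m) (hm2 : m ≤ 31 / 32)
    (hd : 0 < d) (hmd : m + d ≤ 1) : CT v m d := by
  have hm : 0 ≤ m := by linarith
  have hm1 : m < 1 := by linarith
  obtain ⟨hl1, hl2⟩ := l_bounds
  have hq : 0 < 1 - m := by linarith
  have hH := H_one_sub_le hq (by linarith)
  have e1 : 1 - (1 - m) = m := by ring
  rw [e1] at hH
  have hlog : log (2 / (1 - m)) ≤ 6 * log 2 := by
    have : log (2 / (1 - m)) ≤ log 64 := by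
      apply log_le_log (by positivity)
      rw [div_le_iff₀ hq]; linarith
    have e2 : log (64:ℝ) = 6 * log 2 := by
      rw [show (64:ℝ) = 2 ^ 6 by norm_num, log_pow]; norm_num
    linarith
  have hH2 : H m ≤ (1 - m) / 2 * 5.15889 := by
    refine hH.trans ?_
    apply mul_le_mul_of_nonneg_left _ (by linarith)
    linarith
  set l := log 2
  have hvl0 : 0 < v * l := mul_pos hv0 (by linarith)
  have hvl : v * l ≤ 0.5248 := by nlinarith
  refine CT_of' (G := (1 - m) * (2.579445 * v + (1 - v * l) * (1 + m))) hv0 hv hm hm1 hd hmd ?_ ?_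
  · have := mul_le_mul_of_nonneg_left hH2 hv0.le
    nlinarith
  · have e3 : 1 - m ^ 2 = (1 - m) * (1 + m) := by ring
    rw [e3]
    have hA1 : (1 - m) * (1 + m) ≤ 0.1536 := by nlinarith
    have hA0 : 0 < (1 - m) * (1 + m) := mul_pos hq (by linarith)
    have hvl2 : v * l ≤ 0.69315 * v := by nlinarith
    have k1 : (2.579445 * v + (1 - v * l) * (1 + m)) ≤ (1 + m) * (1 + 0.65032 * v) := by
      nlinarith [mul_nonneg hv0.le (sub_nonneg.mpr hm0)]
    have k2 : v * l + (1 - v * l) * ((1 - m) * (1 + m)) ≤ 0.1536 + 0.58669 * v := by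
      nlinarith
    have k3 : 0 ≤ v * l + (1 - v * l) * ((1 - m) * (1 + m)) :=
      add_nonneg hvl0.le (mul_nonneg (by linarith) hA0.le)
    have k4 : (2.579445 * v + (1 - v * l) * (1 + m)) * (v * l + (1 - v * l) * ((1 - m) * (1 + m)))
        ≤ (1 + m) * (1 + 0.65032 * v) * (0.1536 + 0.58669 * v) :=
      mul_le_mul k1 k2 k3 (by positivity)
    have k5 : (1 + 0.65032 * v) * (0.1536 + 0.58669 * v) ≤ 1 - v * l / 20 := by nlinarith
    have k6 := mul_le_mul_of_nonneg_left k5 (by linarith : (0:ℝ) ≤ 1 + m)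
    have k7 : (2.579445 * v + (1 - v * l) * (1 + m)) * (v * l + (1 - v * l) * ((1 - m) * (1 + m)))
        ≤ (1 + m) * (1 - v * l / 20) := by linarith
    have k8 := mul_le_mul_of_nonneg_left k7 hq.le
    linarith

lemma C_m6 {v m d : ℝ} (hv0 : 0 < v) (hv : v ≤ 0.757) (hm0 : 31 / 32 ≤ m) (hm1 : m < 1)
    (hd : 0 < d) (hmd : m + d ≤ 1)
    (hg : v / cc * H m < v * H m + (1 - v * log 2) * (1 - m ^ 2)) : CT v m d := by
  have hm : 0 ≤ m := by linarith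
  obtain ⟨hl1, hl2⟩ := l_bounds
  have hcc : v / cc = 40 / 29 * v := by unfold cc; ring
  rw [hcc] at hg
  have hvl0 : 0 < v * log 2 := mul_pos hv0 (by linarith)
  have hvl : v * log 2 ≤ 0.5248 := by nlinarith
  refine CT_of' (G := 40 / 11 * (1 - v * log 2) * (1 - m ^ 2)) hv0 hv hm hm1 hd hmd
    (by nlinarith) ?_
  set u := v * log 2
  have hA0 : 0 ≤ 1 - m ^ 2 := by nlinarith
  have hA1 : 1 - m ^ 2 ≤ 0.0616 := by nlinarith
  set A := 1 - m ^ 2
  have k1 : 40 / 11 * (1 - u) * (u + (1 - u) * A) ≤ 1 - u / 20 := by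
    have k2 : 40 / 11 * (1 - u) * (u + (1 - u) * A) ≤ 40 / 11 * (1 - u) * (u + (1 - u) * 0.0616) := by
      have : 0 ≤ 1 - u := by linarith
      gcongr
    refine k2.trans ?_
    nlinarith [sq_nonneg (u - 0.4745)]
  have k3 := mul_le_mul_of_nonneg_right k1 hA0
  linarith

/-- Core inequality for small half-differences. -/
theorem C_core {v m d : ℝ} (hv0 : 0 < v) (hv : v ≤ 0.757) (hm : 0 ≤ m) (hm1 : m < 1)
    (hd : 0 < d) (hmd : m + d ≤ 1) (hd2 : d ≤ 43 / 50)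
    (hg : v / cc * H m < v * H m + (1 - v * log 2) * (1 - m ^ 2)) :
    (v * H m + (1 - v * log 2) * (1 - m ^ 2)) * (v * Psi m d + (1 - v * log 2) * d ^ 2)
      ≤ (1 - v * log 2 / 20) * d ^ 2 := by
  have key : CT v m d := by
    rcases le_total m (7 / 50) with h1 | h1
    · exact C_m1 hv0 hv hm h1 hd hmd hd2
    rcases le_total m 0.25 with h2 | h2
    · exact C_m2 hv0 hv h1 h2 hd hmd
    rcases le_total m 0.35 with h3 | h3
    · exact C_m3 hv0 hv h2 h3 hd hmd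
    rcases le_total m 0.92 with h4 | h4
    · exact C_m4 hv0 hv h3 h4 hd hmd
    rcases le_total m (31 / 32) with h5 | h5
    · exact C_m5 hv0 hv h4 h5 hd hmd
    · exact C_m6 hv0 hv h5 hm1 hd hmd hg
  unfold CT at key
  have hd0 : 0 < d ^ 2 := by positivity
  have h := mul_le_mul_of_nonneg_right key hd0.le
  have e : (v * H m + (1 - v * log 2) * (1 - m ^ 2)) * (v * Psi m d + (1 - v * log 2) * d ^ 2)
      = (v * H m + (1 - v * log 2) * (1 - m ^ 2)) * (v * (Psi m d / d ^ 2) + (1 - v * log 2))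
        * d ^ 2 := by
    field_simp
  rw [e]; exact h

end Vale.Agent.P322.Hi
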