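import Vale.Agent.P322.HiPre

/-!
# P322, `ρ ≥ 17/20`: the scalar inequality `0 ≤ f2`
-/

namespace Vale.Agent.P322.Hi

open Real Set

/-- `-log σ ≤ λ₀ + σ₀/σ - 1`, multiplied by `σ` -/
lemma neglog_mul {σ s0 : ℝ} (h0 : 0 < σ) (hs0 : 0 < s0) :
    σ * (- log σ) ≤ σ * (- log s0 - 1) + s0 := by
  have h2 : log (s0 / σ) ≤ s0 / σ - 1 := log_le_sub_one_of_pos (by positivity)
  rw [log_div hs0.ne' h0.ne'] at h2
  have h3 := mul_le_mul_of_nonneg_left h2 h0.le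
  have h4 : σ * (s0 / σ - 1) = s0 - σ := by field_simp
  rw [h4] at h3
  linarith

/-- one-variable inequality, at `ρ = 17/20`, multiplied by `σ` -/
lemma i2_one {σ : ℝ} (h0 : 1 / 8 ≤ σ) (h1 : σ ≤ 5406 / 10000) :
    0 ≤ σ * (1334 / 1000 - 36125 / 100000 * σ) + 251 / 10000 * (1 - 2775 / 10000 * σ)
      - 1 / 2 * (σ * (3069 / 10000) + σ * (- log σ) + 7225 / 10000 * σ ^ 2)
        * (1 + 1397 / 1000 * σ) := by
  have hσ : 0 < σ := by linarith
  have hl2 := Real.log_two_lt_d9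
  have hp : 0 ≤ 1 / 2 * (1 + 1397 / 1000 * σ) := by positivity
  rcases le_total σ (18 / 100) with h | h
  · have k := neglog_mul (s0 := 1 / 8) hσ (by norm_num)
    have e : log (1 / 8 : ℝ) = - (3 * log 2) := by
      rw [one_div, log_inv, show (8:ℝ) = 2 ^ 3 by norm_num, log_pow]
      push_cast; ring
    rw [e] at k
    have k1 : σ * (- log σ) ≤ σ * (3 * (6932 / 10000) - 1) + 1 / 8 := by nlinarith
    have k2 := mul_le_mul_of_nonneg_left k1 hp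
    nlinarith [mul_nonneg (sub_nonneg.2 h0) (sub_nonneg.2 h),
      mul_nonneg (mul_nonneg (sub_nonneg.2 h0) (sub_nonneg.2 h)) hσ.le]
  rcases le_total σ (35 / 100) with h' | h'
  · have k := neglog_mul (s0 := 1 / 4) hσ (by norm_num)
    have e : log (1 / 4 : ℝ) = - (2 * log 2) := by
      rw [one_div, log_inv, show (4:ℝ) = 2 ^ 2 by norm_num, log_pow]
      push_cast; ring
    rw [e] at k
    have k1 : σ * (- log σ) ≤ σ * (2 * (6932 / 10000) - 1) + 1 / 4 := by nlinarith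
    have k2 := mul_le_mul_of_nonneg_left k1 hp
    nlinarith [mul_nonneg (sub_nonneg.2 h) (sub_nonneg.2 h'),
      mul_nonneg (mul_nonneg (sub_nonneg.2 h) (sub_nonneg.2 h')) hσ.le]
  · have k := neglog_mul (s0 := 1 / 2) hσ (by norm_num)
    have e : log (1 / 2 : ℝ) = - (log 2) := by
      rw [one_div, log_inv]
    rw [e] at k
    have k1 : σ * (- log σ) ≤ σ * ((6932 / 10000) - 1) + 1 / 2 := by nlinarith
    have k2 := mul_le_mul_of_nonneg_left k1 hp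
    nlinarith [mul_nonneg (sub_nonneg.2 h') (sub_nonneg.2 h1),
      mul_nonneg (mul_nonneg (sub_nonneg.2 h') (sub_nonneg.2 h1)) hσ.le]


lemma neglog_mul_one {σ : ℝ} (h0 : 0 < σ) : σ * (- log σ) ≤ 1 - σ := by
  have := neglog_mul (s0 := 1) h0 (by norm_num)
  rw [log_one] at this
  linarith

/-- polynomial inequality for the ratio -/
lemma i2_R {w σ : ℝ} (hw : 0 ≤ w) (hσ : 0 ≤ σ) (hσ1 : σ ≤ 5406 / 10000) :
    (37 / 20 + w) * (1334 / 1000 + w * (17 / 10 + w) / (555 / 1000)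
        - (289 / 400 + w * (17 / 10 + w)) * σ / 2)
      ≤ (1397 / 1000 + 5 / 4 * w) * (1334 / 1000 + w * (17 / 10 + w) / (555 / 1000)
          + (44093 / 100000 + 33 / 80 * w - w ^ 2 / 8))
        * (1 - (111 / 400 - w * (17 / 10 + w)) * σ) := by
  have a1 : 0 ≤ w * σ := by positivity
  have a2 : 0 ≤ w ^ 2 := by positivity
  have a3 : 0 ≤ w ^ 2 * σ := by positivity
  have a4 : 0 ≤ w ^ 3 := by positivity
  have a5 : 0 ≤ w ^ 3 * σ := by positivity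
  have a6 : 0 ≤ w ^ 4 * σ := by positivity
  have a7 : 0 ≤ w ^ 5 * σ := by positivity
  have a8 : 0 ≤ w ^ 4 := by positivity
  have a9 : 0 ≤ w ^ 5 := by positivity
  rw [← sub_nonneg]
  ring_nf
  nlinarith

/-- two-variable inequality, multiplied by `σ` -/
lemma i2_two {w σ : ℝ} (hw : 0 ≤ w) (hw1 : w ≤ 3 / 20) (h0 : 1 / 8 ≤ σ) (h1 : σ ≤ 5406 / 10000) :
    0 ≤ σ * (1334 / 1000 + w * (17 / 10 + w) / (555 / 1000)
        - (289 / 400 + w * (17 / 10 + w)) * σ / 2)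
      + 251 / 10000 * (1 - (111 / 400 - w * (17 / 10 + w)) * σ)
      - 1 / 2 * (σ * (3069 / 10000) + σ * (- log σ) + (289 / 400 + w * (17 / 10 + w)) * σ ^ 2)
        * (1 + (1397 / 1000 + 5 / 4 * w) * σ) := by
  have hσ : 0 < σ := by linarith
  have k := i2_one h0 h1
  have k2 := neglog_mul_one hσ
  set z := w * (17 / 10 + w) with hz
  have hz0 : 0 ≤ z := by positivity
  have hz1 : 17 / 10 * w ≤ z := by rw [hz]; nlinarith
  generalize σ * (- log σ) = g at *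
  -- bound of `G`
  have hG : σ * (3069 / 10000) + g + 289 / 400 * σ ^ 2 ≤ 1 := by nlinarith
  have h2 : 1 / 2 * (σ * (3069 / 10000) + g + 289 / 400 * σ ^ 2) * (5 / 4 * w * σ)
      ≤ 5 / 8 * (w * σ) := by
    have : 0 ≤ 5 / 8 * (w * σ) := by positivity
    nlinarith [mul_le_mul_of_nonneg_right hG this]
  have h3 : 1 / 2 * (z * σ ^ 2) * (1 + (1397 / 1000 + 5 / 4 * w) * σ) ≤ 55 / 100 * (z * σ) := by
    have e : 1 / 2 * (z * σ ^ 2) * (1 + (1397 / 1000 + 5 / 4 * w) * σ)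
      = (z * σ) * (1 / 2 * σ * (1 + (1397 / 1000 + 5 / 4 * w) * σ)) := by ring
    rw [e, mul_comm (55 / 100 : ℝ)]
    apply mul_le_mul_of_nonneg_left _ (by positivity)
    have h4 : (1397 / 1000 + 5 / 4 * w) * σ ≤ (1397 / 1000 + 5 / 4 * (3 / 20)) * (5406 / 10000) := by
      gcongr
    have h5 : 1 / 2 * σ * (1 + (1397 / 1000 + 5 / 4 * w) * σ) ≤ 1 / 2 * (5406 / 10000) *
      (1 + (1397 / 1000 + 5 / 4 * (3 / 20)) * (5406 / 10000)) := by
      gcongr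
    refine h5.trans ?_
    norm_num
  have h6 : z * σ ^ 2 / 2 ≤ 2703 / 10000 * (z * σ) := by
    have := mul_le_mul_of_nonneg_left h1 (show 0 ≤ z * σ / 2 by positivity)
    nlinarith
  have h7 : 17 / 10 * (w * σ) ≤ z * σ := by
    have := mul_le_mul_of_nonneg_right hz1 hσ.le
    linarith
  have h8 : 0 ≤ w * σ := by positivity
  have e : σ * (1334 / 1000 + z / (555 / 1000) - (289 / 400 + z) * σ / 2)
      + 251 / 10000 * (1 - (111 / 400 - z) * σ)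
      - 1 / 2 * (σ * (3069 / 10000) + g + (289 / 400 + z) * σ ^ 2)
        * (1 + (1397 / 1000 + 5 / 4 * w) * σ)
      = (σ * (1334 / 1000 - 36125 / 100000 * σ) + 251 / 10000 * (1 - 2775 / 10000 * σ)
      - 1 / 2 * (σ * (3069 / 10000) + g + 7225 / 10000 * σ ^ 2)
        * (1 + 1397 / 1000 * σ))
      + z * σ / (555 / 1000) - z * σ ^ 2 / 2 + 251 / 10000 * (z * σ)
      - 1 / 2 * (z * σ ^ 2) * (1 + (1397 / 1000 + 5 / 4 * w) * σ)
      - 1 / 2 * (σ * (3069 / 10000) + g + 289 / 400 * σ ^ 2) * (5 / 4 * w * σ) := by ring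
  rw [e]
  have h9 : z * σ / (555 / 1000) = 200 / 111 * (z * σ) := by ring
  rw [h9]
  linarith

/-- the increment in `L` -/
lemma i2_inc {w σ L Λ a G A p c1 : ℝ} (hσ : 0 < σ) (hw1 : w ≤ 3 / 20) (hw : 0 ≤ w)
    (hL : Λ ≤ L) (hΛ0 : 1334 / 1000 ≤ Λ) (hc1' : 44 / 100 ≤ c1) (hp0 : 17 / 20 ≤ p)
    (hG0 : 0 ≤ G) (hG1 : G ≤ 1)
    (hA : A = σ * (Λ - a) + 251 / 10000 * p - 1 / 2 * G) (hA0 : 0 ≤ A)
    (hPΛ : 1 / 2 * G * ((37 / 20 + w) * σ * (Λ - a)) ≤ A * ((Λ + c1) * p)) :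
    1 / 2 * G * ((37 / 20 + w) * σ * (L - a))
      ≤ (σ * (L - a) + 251 / 10000 * p - 1 / 2 * G) * ((L + c1) * p) := by
  have b1 : 17 / 20 * (17 / 10 * σ) ≤ σ * (L + c1) * p := by
    have b2 : 17 / 10 * σ ≤ σ * (L + c1) := by
      rw [mul_comm (17 / 10 : ℝ)]
      apply mul_le_mul_of_nonneg_left _ hσ.le
      linarith
    calc 17 / 20 * (17 / 10 * σ) = (17 / 10 * σ) * (17 / 20) := by ring
      _ ≤ σ * (L + c1) * p := mul_le_mul b2 hp0 (by norm_num) (by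
        apply mul_nonneg hσ.le; linarith)
  have b3 : 1 / 2 * G * (37 / 20 + w) * σ ≤ 1 * σ := by
    apply mul_le_mul_of_nonneg_right _ hσ.le
    have : G * (37 / 20 + w) ≤ 1 * 2 := mul_le_mul hG1 (by linarith) (by linarith) (by norm_num)
    linarith
  have b4 : 0 ≤ A * p := mul_nonneg hA0 (by linarith)
  have hbr : 0 ≤ σ * (L + c1) * p + A * p - 1 / 2 * G * (37 / 20 + w) * σ := by
    linarith
  have hinc := mul_nonneg (sub_nonneg.2 hL) hbr
  have e : (σ * (L - a) + 251 / 10000 * p - 1 / 2 * G) * ((L + c1) * p)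
      - 1 / 2 * G * ((37 / 20 + w) * σ * (L - a))
      = (A * ((Λ + c1) * p) - 1 / 2 * G * ((37 / 20 + w) * σ * (Λ - a)))
        + (L - Λ) * (σ * (L + c1) * p + A * p - 1 / 2 * G * (37 / 20 + w) * σ) := by
    rw [hA]; ring
  linarith

/-- the value at `L = Λ` -/
lemma i2_base {w σ Λ a G A p c1 : ℝ} (hσ : 0 < σ)
    (hΛ0 : 1334 / 1000 ≤ Λ) (hc1' : 44 / 100 ≤ c1) (hp0 : 17 / 20 ≤ p)
    (hG0 : 0 ≤ G) (kR : (37 / 20 + w) * (Λ - a) ≤ (1397 / 1000 + 5 / 4 * w) * (Λ + c1) * p)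
    (hk1 : 1 / 2 * G * ((1397 / 1000 + 5 / 4 * w) * σ) ≤ A) :
    1 / 2 * G * ((37 / 20 + w) * σ * (Λ - a)) ≤ A * ((Λ + c1) * p) := by
  have hCp : 0 ≤ (Λ + c1) * p := by apply mul_nonneg <;> linarith
  calc 1 / 2 * G * ((37 / 20 + w) * σ * (Λ - a))
      = (1 / 2 * G * σ) * ((37 / 20 + w) * (Λ - a)) := by ring
    _ ≤ (1 / 2 * G * σ) * ((1397 / 1000 + 5 / 4 * w) * (Λ + c1) * p) :=
        mul_le_mul_of_nonneg_left kR (by positivity)
    _ = (1 / 2 * G * ((1397 / 1000 + 5 / 4 * w) * σ)) * ((Λ + c1) * p) := by ring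
    _ ≤ A * ((Λ + c1) * p) := mul_le_mul_of_nonneg_right hk1 hCp

/-- three-variable inequality -/
lemma i2_three {w σ L : ℝ} (hw : 0 ≤ w) (hw1 : w ≤ 3 / 20) (h0 : 1 / 8 ≤ σ)
    (h1 : σ ≤ 5406 / 10000) (hq : (111 / 400 - w * (17 / 10 + w)) * σ ≤ 3 / 20)
    (hL : 1334 / 1000 + w * (17 / 10 + w) / (555 / 1000) ≤ L) :
    1 / 2 * (σ * (3069 / 10000) + σ * (- log σ) + (289 / 400 + w * (17 / 10 + w)) * σ ^ 2)
        * ((37 / 20 + w) * σ * (L - (289 / 400 + w * (17 / 10 + w)) * σ / 2))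
      ≤ (σ * (L - (289 / 400 + w * (17 / 10 + w)) * σ / 2)
      + 251 / 10000 * (1 - (111 / 400 - w * (17 / 10 + w)) * σ)
      - 1 / 2 * (σ * (3069 / 10000) + σ * (- log σ) + (289 / 400 + w * (17 / 10 + w)) * σ ^ 2))
      * ((L + (44093 / 100000 + 33 / 80 * w - w ^ 2 / 8))
        * (1 - (111 / 400 - w * (17 / 10 + w)) * σ)) := by
  have hσ : 0 < σ := by linarith
  have k := i2_two hw hw1 h0 h1
  have kR := i2_R hw hσ.le h1
  have k2 := neglog_mul_one hσ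
  have hg0 : 0 ≤ σ * (- log σ) := by
    have : log σ ≤ 0 := log_nonpos hσ.le (by linarith)
    exact mul_nonneg hσ.le (by linarith)
  have hz0 : 0 ≤ w * (17 / 10 + w) := by positivity
  have hz1 : w * (17 / 10 + w) ≤ 2775 / 10000 := by nlinarith
  have hc1' : 44 / 100 ≤ 44093 / 100000 + 33 / 80 * w - w ^ 2 / 8 := by nlinarith
  generalize w * (17 / 10 + w) = z at *
  generalize 44093 / 100000 + 33 / 80 * w - w ^ 2 / 8 = c1 at *
  generalize σ * (- log σ) = g at *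
  have hG0 : 0 ≤ σ * (3069 / 10000) + g + (289 / 400 + z) * σ ^ 2 := by positivity
  have hG1 : σ * (3069 / 10000) + g + (289 / 400 + z) * σ ^ 2 ≤ 1 := by
    have : (289 / 400 + z) * σ ^ 2 ≤ 1 * σ ^ 2 := by
      apply mul_le_mul_of_nonneg_right _ (sq_nonneg σ); linarith
    nlinarith
  have hΛ0 : 1334 / 1000 ≤ 1334 / 1000 + z / (555 / 1000) := by
    have : 0 ≤ z / (555 / 1000) := by positivity
    linarith
  generalize 1334 / 1000 + z / (555 / 1000) = Λ at *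
  generalize (289 / 400 + z) * σ / 2 = a at *
  generalize σ * (3069 / 10000) + g + (289 / 400 + z) * σ ^ 2 = G at *
  have hp0 : 17 / 20 ≤ 1 - (111 / 400 - z) * σ := by linarith
  generalize 1 - (111 / 400 - z) * σ = p at *
  have hk1 : 1 / 2 * G * ((1397 / 1000 + 5 / 4 * w) * σ)
      ≤ σ * (Λ - a) + 251 / 10000 * p - 1 / 2 * G := by
    linarith
  have hk0 : 0 ≤ 1 / 2 * G * ((1397 / 1000 + 5 / 4 * w) * σ) := by positivity
  exact i2_inc hσ hw1 hw hL hΛ0 hc1' hp0 hG0 hG1 rfl (hk0.trans hk1)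
    (i2_base hσ hΛ0 hc1' hp0 hG0 kR hk1)


lemma i2_asm {e κ L c1 ρ q σ B G lσ : ℝ} (he : 0 < e) (hκ : 0 < κ) (hLc : 0 < L + c1)
    (hρ : 0 < 1 + ρ) (hq0 : 0 < q) (hq1 : q < 1) (hB : 0 < B) (hσ : σ = q / e)
    (hk : e * (L + c1) ≤ (1 + ρ) * κ) (hG0 : 0 ≤ G)
    (hG : σ * (1 - log 2 - lσ + ρ ^ 2 * q / e) ≤ G)
    (hmain : 1 / 2 * G * ((1 + ρ) * σ * B)
      ≤ (σ * B + 251 / 10000 * (1 - q) - 1 / 2 * G) * ((L + c1) * (1 - q))) :
    0 ≤ B + log 2 * cc * (1 - q) * e / (20 * q)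
      - (1 - log 2 - lσ + ρ ^ 2 * q / e) / 2 * (1 + B * q / (κ * (1 - q))) := by
  have hσ0 : 0 < σ := by rw [hσ]; positivity
  have h1q : 0 < 1 - q := by linarith
  have hl1 := Real.log_two_gt_d9
  have hR : B * q / (κ * (1 - q)) ≤ (1 + ρ) * σ * B / ((L + c1) * (1 - q)) := by
    rw [div_le_div_iff₀ (by positivity) (by positivity)]
    have : q = σ * e := by rw [hσ]; field_simp
    calc B * q * ((L + c1) * (1 - q)) = (B * σ * (1 - q)) * (e * (L + c1)) := by rw [this]; ring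
      _ ≤ (B * σ * (1 - q)) * ((1 + ρ) * κ) := mul_le_mul_of_nonneg_left hk (by positivity)
      _ = (1 + ρ) * σ * B * (κ * (1 - q)) := by ring
  have hR' : 1 / 2 * G * ((1 + ρ) * σ * B / ((L + c1) * (1 - q)))
      ≤ σ * B + 251 / 10000 * (1 - q) - 1 / 2 * G := by
    rw [← mul_div_assoc, div_le_iff₀ (by positivity)]
    exact hmain
  have hR0 : 0 ≤ B * q / (κ * (1 - q)) := by positivity
  set R := B * q / (κ * (1 - q)) with hRdef
  have h1 : 1 / 2 * G * R ≤ σ * B + 251 / 10000 * (1 - q) - 1 / 2 * G :=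
    (mul_le_mul_of_nonneg_left hR (by positivity)).trans hR'
  have h2 : σ * (1 - log 2 - lσ + ρ ^ 2 * q / e) * (1 / 2 * (1 + R)) ≤ G * (1 / 2 * (1 + R)) :=
    mul_le_mul_of_nonneg_right hG (by positivity)
  have h3 : σ * (log 2 * cc * (1 - q) * e / (20 * q)) = log 2 * cc / 20 * (1 - q) := by
    rw [hσ]; field_simp
  have h4 : 251 / 10000 * (1 - q) ≤ log 2 * cc / 20 * (1 - q) := by
    apply mul_le_mul_of_nonneg_right _ h1q.le
    unfold cc; linarith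
  have h5 : 0 ≤ σ * (B + log 2 * cc * (1 - q) * e / (20 * q)
      - (1 - log 2 - lσ + ρ ^ 2 * q / e) / 2 * (1 + R)) := by
    have e1 : σ * (B + log 2 * cc * (1 - q) * e / (20 * q)
      - (1 - log 2 - lσ + ρ ^ 2 * q / e) / 2 * (1 + R))
      = σ * B + σ * (log 2 * cc * (1 - q) * e / (20 * q))
        - σ * (1 - log 2 - lσ + ρ ^ 2 * q / e) * (1 / 2 * (1 + R)) := by ring
    rw [e1, h3]
    linarith
  exact nonneg_of_mul_nonneg_right h5 hσ0

theorem f2_nonneg {ρ q : ℝ} (h0 : 17 / 20 ≤ ρ) (h1 : ρ < 1) (hq : (1 - ρ ^ 2) / 8 ≤ q)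
    (hq2 : q ≤ 1 - ρ) : 0 ≤ f2 ρ q := by
  have he : 0 < 1 - ρ ^ 2 := by nlinarith
  have hκ : 0 < H ρ := H_pos' (by linarith) h1
  have hL := L_ge h0 h1
  have hB : 0 < BB ρ q := by
    unfold BB
    have : ρ ^ 2 * q / (2 * (1 - ρ ^ 2)) ≤ 1 / 2 := by
      rw [div_le_iff₀ (by positivity)]
      nlinarith [mul_le_mul_of_nonneg_left hq2 (sq_nonneg ρ)]
    nlinarith
  have hq0 : 0 < q := by linarith
  obtain ⟨w, hw⟩ : ∃ w, w = ρ - 17 / 20 := ⟨_, rfl⟩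
  have hρw : ρ = 17 / 20 + w := by rw [hw]; ring
  have hw0 : 0 ≤ w := by linarith
  have hw1 : w ≤ 3 / 20 := by linarith
  have hz : w * (17 / 10 + w) = ρ ^ 2 - 289 / 400 := by rw [hρw]; ring
  have hσ0 : 1 / 8 ≤ q / (1 - ρ ^ 2) := by rw [le_div_iff₀ he]; linarith
  have hσ1 : q / (1 - ρ ^ 2) ≤ 5406 / 10000 := by
    rw [div_le_iff₀ he]
    nlinarith
  have hqσ : (1 - ρ ^ 2) * (q / (1 - ρ ^ 2)) = q := by field_simp
  have hee : 111 / 400 - w * (17 / 10 + w) = 1 - ρ ^ 2 := by rw [hz]; ring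
  have hrr : 289 / 400 + w * (17 / 10 + w) = ρ ^ 2 := by rw [hz]; ring
  have k := i2_three (L := L ρ) hw0 hw1 hσ0 hσ1 (by rw [hee, hqσ]; linarith)
    (by rw [hz]; exact hL)
  rw [hee, hrr, hqσ] at k
  have hBe : L ρ - ρ ^ 2 * (q / (1 - ρ ^ 2)) / 2 = BB ρ q := by
    unfold BB; field_simp
  have hσpos : 0 < q / (1 - ρ ^ 2) := by positivity
  rw [hBe, show (37 / 20 + w : ℝ) = 1 + ρ by rw [hρw]; ring] at k
  have hc1 : 44093 / 100000 + 33 / 80 * w - w ^ 2 / 8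
      ≤ 1 / 2 - 3 * (1 - ρ) / 8 - (1 - ρ) ^ 2 / 8 := by rw [hρw]; nlinarith
  have hc0 : 0 ≤ 44093 / 100000 + 33 / 80 * w - w ^ 2 / 8 := by nlinarith
  have hk := kap_ge' (by linarith) h1
  have hLpos : 0 < L ρ := by nlinarith
  unfold f2
  have hl1 := Real.log_two_gt_d9
  refine i2_asm (c1 := 44093 / 100000 + 33 / 80 * w - w ^ 2 / 8) (L := L ρ) he hκ (by linarith)
    (by linarith) hq0 (by linarith) hB rfl ?_ ?_ ?_ k
  · refine le_trans ?_ hk
    apply mul_le_mul_of_nonneg_left _ he.le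
    linarith
  · have : 0 ≤ q / (1 - ρ ^ 2) * (- log (q / (1 - ρ ^ 2))) := by
      apply mul_nonneg hσpos.le
      have : log (q / (1 - ρ ^ 2)) ≤ 0 := log_nonpos hσpos.le (by linarith)
      linarith
    positivity
  · have e1 : q / (1 - ρ ^ 2) * (1 - log 2 - log (q / (1 - ρ ^ 2)) + ρ ^ 2 * q / (1 - ρ ^ 2))
      = q / (1 - ρ ^ 2) * (1 - log 2) + q / (1 - ρ ^ 2) * (- log (q / (1 - ρ ^ 2)))
        + ρ ^ 2 * (q / (1 - ρ ^ 2)) ^ 2 := by ring
    rw [e1]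
    have : q / (1 - ρ ^ 2) * (1 - log 2) ≤ q / (1 - ρ ^ 2) * (3069 / 10000) :=
      mul_le_mul_of_nonneg_left (by linarith) hσpos.le
    linarith

end Vale.Agent.P322.Hi
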