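import Vale.Agent.P322.HiPre

/-!
# P322, `ρ ≥ 17/20`: the inequality at `t = ρ`
-/

namespace Vale.Agent.P322.Hi

open Real Set

/-- polynomial inequality -/
lemma i3_poly {z s : ℝ} (hz : 0 ≤ z) (hs : 0 ≤ s) :
    (1445 / 1000 + 2 * z) * ((17778 / 10000 + 2023 / 1000 * z + s) ^ 2
        - 464 / 10000 * (17778 / 10000 + 2023 / 1000 * z + s))
      ≤ (34225 / 10000 + 208 / 100 * z) * (9125 / 10000 + 2071 / 1000 * z + s)
        * (1447 / 1000 + 1945 / 1000 * z + s) := by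
  rw [← sub_nonneg]
  ring_nf
  positivity

lemma b_le {e : ℝ} (h0 : 0 < e) (h1 : e ≤ 111 / 400) :
    log (2 / (2 - e)) ≤ 5395 / 10000 * e := by
  have h := Real.abs_log_sub_add_sum_range_le (x := e / 2)
    (by rw [abs_of_pos (by positivity)]; linarith) 3
  rw [abs_of_pos (show (0:ℝ) < e / 2 by positivity), abs_le] at h
  have h1' := h.1
  simp only [Finset.sum_range_succ, Finset.sum_range_zero] at h1'
  norm_num at h1'
  have e1 : log (2 / (2 - e)) = - log (1 - e / 2) := by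
    rw [← log_inv]
    congr 1
    have : 1 - e / 2 = (2 - e) / 2 := by ring
    rw [this, inv_div]
  rw [e1]
  have h2 : (e / 2) ^ 4 / (1 - e / 2) ≤ 117 / 100 * (e / 2) ^ 4 := by
    rw [div_le_iff₀ (by linarith)]
    have : 0 ≤ (e / 2) ^ 4 := by positivity
    nlinarith
  have h3 : e ^ 2 ≤ 111 / 400 * e := by nlinarith
  have h4 : e ^ 3 ≤ (111 / 400) ^ 2 * e := by
    calc e ^ 3 = e ^ 2 * e := by ring
      _ ≤ (111 / 400) ^ 2 * e := by gcongr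
  have h5 : e ^ 4 ≤ (111 / 400) ^ 3 * e := by
    calc e ^ 4 = e ^ 3 * e := by ring
      _ ≤ (111 / 400) ^ 3 * e := by gcongr
  nlinarith

lemma i3_main {ρ L A e : ℝ} (h0 : 17 / 20 ≤ ρ) (h1 : ρ < 1)
    (hL : 1334 / 1000 + (ρ ^ 2 - 289 / 400) / (555 / 1000) ≤ L) (he : e = 1 - ρ ^ 2)
    (hA : L - 3465736 / 10000000 - 26975 / 100000 * e ≤ A) :
    2 * ρ ^ 2 * ((L + 1 / 2 - 3 * (1 - ρ) / 8) ^ 2
        - log 2 * cc / 20 * (1 + ρ) * (L + 1 / 2 - 3 * (1 - ρ) / 8))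
      ≤ (1 + ρ) ^ 2 * (A + 1 / 2 + e / 8) * A := by
  have hl1 := Real.log_two_gt_d9
  obtain ⟨w, hw⟩ : ∃ w, w = ρ - 17 / 20 := ⟨_, rfl⟩
  have hρw : ρ = 17 / 20 + w := by rw [hw]; ring
  have hw0 : 0 ≤ w := by linarith
  have hw1 : w ≤ 3 / 20 := by linarith
  obtain ⟨z, hz⟩ : ∃ z, z = ρ ^ 2 - 289 / 400 := ⟨_, rfl⟩
  have hzw : z = w * (17 / 10 + w) := by rw [hz, hρw]; ring
  have hz0 : 0 ≤ z := by rw [hzw]; positivity
  have hz1 : 17 / 10 * w ≤ z := by rw [hzw]; nlinarith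
  have hz2 : z ≤ 37 / 20 * w := by rw [hzw]; nlinarith
  rw [← hz] at hL
  obtain ⟨s, hs⟩ : ∃ s, s = L - (1334 / 1000 + z / (555 / 1000)) := ⟨_, rfl⟩
  have hs0 : 0 ≤ s := by linarith
  have hLs : L = 1334 / 1000 + z / (555 / 1000) + s := by rw [hs]; ring
  have k := i3_poly hz0 hs0
  have hez : e = 111 / 400 - z := by rw [he, hz]; ring
  -- M
  have hM : L + 1 / 2 - 3 * (1 - ρ) / 8 ≤ 17778 / 10000 + 2023 / 1000 * z + s := by
    rw [hLs, hρw]; linarith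
  have hM0 : 17 / 10 ≤ L + 1 / 2 - 3 * (1 - ρ) / 8 := by
    rw [hLs, hρw]; linarith
  have hA1 : 9125 / 10000 + 2071 / 1000 * z + s ≤ A := by
    rw [hLs, hez] at hA; linarith
  have hA2 : 1447 / 1000 + 1945 / 1000 * z + s ≤ A + 1 / 2 + e / 8 := by
    rw [hLs, hez] at hA; rw [hez]; linarith
  have hρ2 : 34225 / 10000 + 208 / 100 * z ≤ (1 + ρ) ^ 2 := by
    have : (1 + ρ) ^ 2 = 34225 / 10000 + z + 2 * w := by rw [hzw, hρw]; ring
    rw [this]; linarith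
  have h2r : 2 * ρ ^ 2 = 1445 / 1000 + 2 * z := by rw [hz]; ring
  rw [h2r]
  generalize L + 1 / 2 - 3 * (1 - ρ) / 8 = M at *
  set M2 := 17778 / 10000 + 2023 / 1000 * z + s with hM2
  have hcc : cc = 29 / 40 := rfl
  have m1 : 464 / 10000 ≤ log 2 * cc / 20 * (1 + ρ) := by
    rw [hcc]; nlinarith
  have m2 : M ^ 2 - log 2 * cc / 20 * (1 + ρ) * M ≤ M2 ^ 2 - 464 / 10000 * M2 := by
    have m3 : 464 / 10000 * M ≤ log 2 * cc / 20 * (1 + ρ) * M :=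
      mul_le_mul_of_nonneg_right m1 (by linarith)
    have m4 : M ^ 2 - 464 / 10000 * M ≤ M2 ^ 2 - 464 / 10000 * M2 := by
      nlinarith [mul_nonneg (sub_nonneg.2 hM) (show 0 ≤ M + M2 - 464 / 10000 by linarith)]
    linarith
  calc (1445 / 1000 + 2 * z) * (M ^ 2 - log 2 * cc / 20 * (1 + ρ) * M)
      ≤ (1445 / 1000 + 2 * z) * (M2 ^ 2 - 464 / 10000 * M2) :=
        mul_le_mul_of_nonneg_left m2 (by positivity)
    _ ≤ (34225 / 10000 + 208 / 100 * z) * (9125 / 10000 + 2071 / 1000 * z + s)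
        * (1447 / 1000 + 1945 / 1000 * z + s) := k
    _ = (34225 / 10000 + 208 / 100 * z) * (1447 / 1000 + 1945 / 1000 * z + s)
        * (9125 / 10000 + 2071 / 1000 * z + s) := by ring
    _ ≤ (1 + ρ) ^ 2 * (A + 1 / 2 + e / 8) * A := by
        have a0 : (0:ℝ) ≤ 9125 / 10000 + 2071 / 1000 * z + s := by positivity
        have a1 : (0:ℝ) ≤ 1447 / 1000 + 1945 / 1000 * z + s := by positivity
        have a2 : (0:ℝ) ≤ 34225 / 10000 + 208 / 100 * z := by positivity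
        apply mul_le_mul _ hA1 a0
        · apply mul_nonneg (by positivity); linarith
        · exact mul_le_mul hρ2 hA2 a1 (by positivity)

lemma i3_asm {ρ L A e b κ v : ℝ} (hρ0 : 0 < ρ) (he : 0 < e) (hκ : 0 < κ)
    (hvk : v * κ = cc * e)
    (hkl : (1 + ρ) * κ ≤ e * (L + 1 / 2 - 3 * (1 - ρ) / 8))
    (hb2 : e / 2 + e ^ 2 / 8 ≤ b) (hA : 0 ≤ A)
    (hpoly : 2 * ρ ^ 2 * ((L + 1 / 2 - 3 * (1 - ρ) / 8) ^ 2
        - log 2 * cc / 20 * (1 + ρ) * (L + 1 / 2 - 3 * (1 - ρ) / 8))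
      ≤ (1 + ρ) ^ 2 * (A + 1 / 2 + e / 8) * A)
    (hM : log 2 * cc / 20 * (1 + ρ) ≤ L + 1 / 2 - 3 * (1 - ρ) / 8) :
    (1 - v * log 2 / 20) * κ ^ 2 ≤ e * ((e * A + b) * A / ρ ^ 2) / 2 := by
  generalize L + 1 / 2 - 3 * (1 - ρ) / 8 = M at *
  have hr0 : 0 < ρ ^ 2 := by positivity
  have e1 : (1 - v * log 2 / 20) * κ ^ 2 = κ ^ 2 - log 2 * cc / 20 * e * κ := by
    have : (1 - v * log 2 / 20) * κ ^ 2 = κ ^ 2 - (v * κ) * log 2 / 20 * κ := by ring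
    rw [this, hvk]; ring
  rw [e1]
  set c' := log 2 * cc / 20 with hc'
  have e2 : (1 + ρ) ^ 2 * (κ ^ 2 - c' * e * κ)
      ≤ (e * M) ^ 2 - c' * (1 + ρ) * e * (e * M) := by
    have e3 : (1 + ρ) ^ 2 * (κ ^ 2 - c' * e * κ) = ((1 + ρ) * κ) ^ 2
        - c' * (1 + ρ) * e * ((1 + ρ) * κ) := by ring
    rw [e3]
    have e4 : c' * (1 + ρ) * e ≤ e * M := by
      have := mul_le_mul_of_nonneg_left hM he.le
      linarith
    have e5 : 0 ≤ (1 + ρ) * κ := by positivity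
    nlinarith [mul_nonneg (sub_nonneg.2 hkl)
      (show 0 ≤ e * M + (1 + ρ) * κ - c' * (1 + ρ) * e by linarith)]
  have e6 : e ^ 2 * ((A + 1 / 2 + e / 8) * A) ≤ e * ((e * A + b) * A) := by
    have : e * (A + 1 / 2 + e / 8) ≤ e * A + b := by linarith
    have := mul_le_mul_of_nonneg_right (mul_le_mul_of_nonneg_left this he.le) hA
    linarith
  have e7 : e * ((e * A + b) * A / ρ ^ 2) / 2 = e * ((e * A + b) * A) / (2 * ρ ^ 2) := by
    field_simp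
  rw [e7, le_div_iff₀ (by positivity)]
  have h1ρ : 0 < (1 + ρ) ^ 2 := by positivity
  have e8 : (1 + ρ) ^ 2 * ((κ ^ 2 - c' * e * κ) * (2 * ρ ^ 2))
      ≤ (1 + ρ) ^ 2 * (e * ((e * A + b) * A)) := by
    calc (1 + ρ) ^ 2 * ((κ ^ 2 - c' * e * κ) * (2 * ρ ^ 2))
        = ((1 + ρ) ^ 2 * (κ ^ 2 - c' * e * κ)) * (2 * ρ ^ 2) := by ring
      _ ≤ ((e * M) ^ 2 - c' * (1 + ρ) * e * (e * M)) * (2 * ρ ^ 2) :=
          mul_le_mul_of_nonneg_right e2 (by positivity)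
      _ = e ^ 2 * (2 * ρ ^ 2 * (M ^ 2 - c' * (1 + ρ) * M)) := by ring
      _ ≤ e ^ 2 * ((1 + ρ) ^ 2 * (A + 1 / 2 + e / 8) * A) :=
          mul_le_mul_of_nonneg_left hpoly (by positivity)
      _ = (1 + ρ) ^ 2 * (e ^ 2 * ((A + 1 / 2 + e / 8) * A)) := by ring
      _ ≤ (1 + ρ) ^ 2 * (e * ((e * A + b) * A)) :=
          mul_le_mul_of_nonneg_left e6 (by positivity)
  exact le_of_mul_le_mul_left e8 h1ρ

theorem I3 {ρ : ℝ} (h0 : 17 / 20 ≤ ρ) (h1 : ρ < 1) :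
    (1 - vv ρ * log 2 / 20) * H ρ ^ 2
      ≤ (1 - ρ ^ 2) * (H (ρ ^ 2) * Ind.ath (ρ ^ 2) / ρ ^ 2) / 2 := by
  have he : 0 < 1 - ρ ^ 2 := by nlinarith
  have he1 : 1 - ρ ^ 2 ≤ 111 / 400 := by nlinarith
  have hρ0 : 0 < ρ := by linarith
  have hκ : 0 < H ρ := H_pos' hρ0 h1
  have hL := L_ge h0 h1
  have hl1 := Real.log_two_gt_d9
  have hl2 := Real.log_two_lt_d9
  have hr1 : ρ ^ 2 < 1 := by linarith
  have hr0 : 0 < ρ ^ 2 := by positivity
  set e := 1 - ρ ^ 2 with hedef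
  set A := Ind.ath (ρ ^ 2) with hA
  set b := log (2 / (2 - e)) with hb
  have h2e : 2 - e = 1 + ρ ^ 2 := by rw [hedef]; ring
  have hH : H (ρ ^ 2) = e * A + b := by
    rw [LB.H_eq, hb, h2e, log_div (by norm_num) (by linarith), hA, hedef]
    unfold Ind.ath; ring
  have hAe : A = L ρ - log 2 / 2 - b / 2 := by
    rw [hb, h2e, log_div (by norm_num) (by linarith), hA]
    unfold Ind.ath L; ring
  have hb1 : b ≤ 5395 / 10000 * e := b_le he he1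
  have hb2 : e / 2 + e ^ 2 / 8 ≤ b := by
    have k := neg_log_one_sub_ge (x := e / 2) (by linarith) (by linarith)
    have e1 : b = - log (1 - e / 2) := by
      rw [hb, ← log_inv]
      congr 1
      have : 1 - e / 2 = (2 - e) / 2 := by ring
      rw [this, inv_div]
    rw [e1]; nlinarith
  have hvk : vv ρ * H ρ = cc * e := by rw [hedef]; unfold vv; field_simp
  have hkl := kap_le' hρ0 h1
  rw [← hedef] at hkl
  rw [hH]
  have hpoly := i3_main (L := L ρ) (A := A) (e := e) h0 h1 hL hedef (by linarith)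
  refine i3_asm hρ0 he hκ hvk hkl hb2 ?_ hpoly ?_
  · have : 0 ≤ (ρ ^ 2 - 289 / 400) := by nlinarith
    have : 0 ≤ (ρ ^ 2 - 289 / 400) / (555 / 1000) := by positivity
    linarith
  · have : 0 ≤ (ρ ^ 2 - 289 / 400) := by nlinarith
    have : 0 ≤ (ρ ^ 2 - 289 / 400) / (555 / 1000) := by positivity
    have hcc : cc = 29 / 40 := rfl
    have h5 : log 2 * cc / 20 * (1 + ρ) ≤ 1 * 2 := by
      apply mul_le_mul _ (by linarith) (by linarith) (by norm_num)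
      rw [hcc]; linarith
    have h6 : log 2 * cc / 20 * (1 + ρ) ≤ 1 := by
      rw [hcc]; nlinarith
    linarith

end Vale.Agent.P322.Hi
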