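import Vale.Agent.P322.HiI1
import Vale.Agent.P322.HiI2
import Vale.Agent.P322.HiI3
import Vale.Agent.P322.HiC2

/-!
# P322: the two-point statement for `ρ ≥ 17/20`
-/

namespace Vale.Agent.P322.Hi

open Real Set

section
variable {ρ : ℝ} (h0 : 17 / 20 ≤ ρ) (h1 : ρ < 1)
include h0 h1

lemma e_pos : 0 < 1 - ρ ^ 2 := by nlinarith

lemma kap_pos : 0 < H ρ := H_pos' (by linarith) h1

lemma vk_eq : vv ρ * H ρ = cc * (1 - ρ ^ 2) := by
  have := kap_pos h0 h1
  unfold vv; field_simp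

lemma gH_eq (m : ℝ) :
    gH ρ m = H ρ * (vv ρ * H m + (1 - vv ρ * log 2) * (1 - m ^ 2)) := by
  have k := vk_eq h0 h1
  have : H ρ * (vv ρ * H m + (1 - vv ρ * log 2) * (1 - m ^ 2))
    = (vv ρ * H ρ) * H m + (H ρ - (vv ρ * H ρ) * log 2) * (1 - m ^ 2) := by ring
  rw [this, k]; rfl

lemma u_lt : 0 < 1 - vv ρ * log 2 := by
  have hv := vv_pos h0 h1
  have hv1 := vv_le h0 h1
  have hl2 := Real.log_two_lt_d9
  have hl1 := Real.log_two_gt_d9
  nlinarith

lemma gH_le_kap {m : ℝ} (hm : |m| ≤ 1) : gH ρ m ≤ H ρ := by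
  rw [gH_eq h0 h1]
  have hv := vv_pos h0 h1
  have hv1 := vv_le h0 h1
  have hκ := kap_pos h0 h1
  have hl2 := Real.log_two_lt_d9
  have hl1 := Real.log_two_gt_d9
  have h2 := Ind.sq_div_two_le_psi hm
  unfold psi at h2
  have h3 : vv ρ * H m ≤ vv ρ * (log 2 - m ^ 2 / 2) := mul_le_mul_of_nonneg_left (by linarith) hv.le
  have h4 : vv ρ * H m + (1 - vv ρ * log 2) * (1 - m ^ 2) ≤ 1 := by
    have h5 : 0 ≤ (1 - vv ρ * (log 2 - 1 / 2)) * m ^ 2 := by
      apply mul_nonneg _ (sq_nonneg m)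
      have : vv ρ * (log 2 - 1 / 2) ≤ 1 * 1 := mul_le_mul (by linarith) (by linarith)
        (by linarith) (by norm_num)
      linarith
    linarith
  calc H ρ * (vv ρ * H m + (1 - vv ρ * log 2) * (1 - m ^ 2)) ≤ H ρ * 1 :=
        mul_le_mul_of_nonneg_left h4 hκ.le
    _ = H ρ := mul_one _

lemma gH_ge {a : ℝ} (ha : |a| ≤ 1) : H a + H ρ - log 2 ≤ gH ρ a := by
  have he := e_pos h0 h1
  have he1 : 1 - ρ ^ 2 ≤ 111 / 400 := by nlinarith
  have hl2 := Real.log_two_lt_d9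
  have hl1 := Real.log_two_gt_d9
  have h2 := Ind.sq_div_two_le_psi ha
  have h3 := Ind.sq_div_two_le_psi (x := ρ) (by rw [abs_of_pos (by linarith)]; exact h1.le)
  unfold psi at h2 h3
  have hcc : cc = 29 / 40 := rfl
  unfold gH
  rw [hcc]
  generalize 1 - ρ ^ 2 = e at *
  have h4 : 0 ≤ (1 - 29 / 40 * e) * ((log 2 - H a) - a ^ 2 / 2) := by
    apply mul_nonneg <;> linarith
  have h5 : H ρ - 29 / 40 * e * log 2 ≤ (1 - 29 / 40 * e) / 2 := by nlinarith
  have h6 := mul_le_mul_of_nonneg_right h5 (sq_nonneg a)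
  linarith

/-- lower bound used in the middle range -/
lemma SS_ge_mid {q : ℝ} (hq : (1 - ρ ^ 2) / 8 ≤ q) (hq2 : q ≤ 1 - ρ) :
    q / 2 * (1 + log (2 / q)) ≤ SS ρ q := by
  have he := e_pos h0 h1
  have hκ := kap_pos h0 h1
  have hq0 : 0 < q := by linarith
  have hl2 := Real.log_two_lt_d9
  have hl1 := Real.log_two_gt_d9
  have hke := kap_ge_e h0 h1
  set σ := q / (1 - ρ ^ 2) with hσ
  have hσ0 : 0 < σ := by positivity
  have hσ1 : σ ≤ 5406 / 10000 := by
    rw [hσ, div_le_iff₀ he]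
    nlinarith
  have hqσ : q = (1 - ρ ^ 2) * σ := by rw [hσ]; field_simp
  have hlog : log (2 / q) = 2 * L ρ - log 2 - log σ := by
    rw [hσ, log_div (by norm_num) hq0.ne', log_div hq0.ne' he.ne']
    unfold L; ring
  have hSS : SS ρ q = H ρ * (1 - q) + (L ρ - ρ ^ 2 * σ / 2) * q := by
    unfold SS NN
    rw [hσ]; field_simp
  rw [hlog, hSS]
  have hn := neglog_mul_one hσ0
  have hr : ρ ^ 2 * σ ^ 2 ≤ 1 * σ ^ 2 := by
    apply mul_le_mul_of_nonneg_right _ (sq_nonneg σ); linarith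
  have hG : σ * (1 - log 2 - log σ + ρ ^ 2 * σ) ≤ 1 := by
    nlinarith
  have h4 := mul_le_mul_of_nonneg_left hG he.le
  have h5 : 725 / 757 * (1 - ρ ^ 2) * (17 / 20) ≤ H ρ * (1 - q) :=
    mul_le_mul hke (by linarith) (by norm_num) hκ.le
  have e1 : q / 2 * (1 + (2 * L ρ - log 2 - log σ))
    = (L ρ - ρ ^ 2 * σ / 2) * q
      + (1 - ρ ^ 2) * (σ * (1 - log 2 - log σ + ρ ^ 2 * σ)) / 2 := by
    rw [hqσ]; ring
  rw [e1]
  linarith

/-- the lower bound `Ω ≥ (1 - v log 2/20) κ²` on the whole range of `t` -/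
lemma omega_ge {t : ℝ} (ht0 : 0 < t) (ht : t ≤ 1 - (1 - ρ ^ 2) / 8) :
    (1 - vv ρ * log 2 / 20) * H ρ ^ 2 ≤ H (ρ * t) * (H (ρ * t) - H t) / t ^ 2 := by
  have he := e_pos h0 h1
  rcases le_total t ρ with h | h
  · exact Om_of_I3 (by linarith) h1 ht0 h (I3 h0 h1)
  · have e : t = 1 - (1 - t) := by ring
    have hq : (1 - ρ ^ 2) / 8 ≤ 1 - t := by linarith
    have hq2 : 1 - t ≤ 1 - ρ := by linarith
    have hB : 0 < BB ρ (1 - t) := BB_pos h0 h1 hq2
    have := Om_of_f2 (ρ := ρ) (q := 1 - t) (by linarith) h1 (by linarith) (by linarith) hB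
      (f2_nonneg h0 h1 hq hq2) (SS_ge_mid h0 h1 hq hq2)
    rw [← e] at this
    exact this

lemma dd_T_le : dd ρ ((1 - ρ ^ 2) / 8) ≤ 43 / 50 := by
  have he := e_pos h0 h1
  have he1 : 1 - ρ ^ 2 ≤ 111 / 400 := by nlinarith
  have hκ := kap_pos h0 h1
  have hL := L_ge h0 h1
  have hk := kap_le' (by linarith) h1
  have hB : BB ρ ((1 - ρ ^ 2) / 8) = L ρ - ρ ^ 2 / 16 := by
    unfold BB; field_simp; ring
  have hL0 : 1334 / 1000 ≤ L ρ := by
    have : 0 ≤ (ρ ^ 2 - 289 / 400) / (555 / 1000) := by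
      apply div_nonneg _ (by norm_num); nlinarith
    linarith
  unfold dd SS
  rw [NN_eq_BB, hB]
  have hρ2 : ρ ^ 2 ≤ 1 := by nlinarith
  have h1q : 0 < 1 - (1 - ρ ^ 2) / 8 := by linarith
  have hBB : 0 < (L ρ - ρ ^ 2 / 16) * ((1 - ρ ^ 2) / 8) := by
    apply mul_pos <;> linarith
  rw [div_le_iff₀ (by positivity)]
  -- `7 κ (1-q) ≤ 43 B q`
  have key : 7 * (H ρ) ≤ 43 * ((L ρ - ρ ^ 2 / 16) * ((1 - ρ ^ 2) / 8)) := by
    have k1 : 7 * (L ρ + 1 / 2 - 3 * (1 - ρ) / 8) ≤ 43 / 8 * ((1 + ρ) * (L ρ - ρ ^ 2 / 16)) := by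
      have k5 : ρ ^ 2 ≤ 289 / 400 + 37 / 20 * (ρ - 17 / 20) := by nlinarith
      have k2 : (1 + ρ) * (L ρ - (289 / 400 + 37 / 20 * (ρ - 17 / 20)) / 16)
          ≤ (1 + ρ) * (L ρ - ρ ^ 2 / 16) :=
        mul_le_mul_of_nonneg_left (by linarith) (by linarith)
      nlinarith [mul_nonneg (sub_nonneg.2 h0) (sub_nonneg.2 hL0),
        mul_nonneg (sub_nonneg.2 h0) (sub_nonneg.2 h1.le)]
    have k3 := mul_le_mul_of_nonneg_left k1 he.le
    have k4 : (1 + ρ) * (7 * H ρ) ≤ (1 + ρ) * (43 * ((L ρ - ρ ^ 2 / 16) * ((1 - ρ ^ 2) / 8))) := by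
      linarith
    exact le_of_mul_le_mul_left k4 (by linarith)
  have key2 : 7 * (H ρ * (1 - (1 - ρ ^ 2) / 8)) ≤ 7 * H ρ := by
    have : H ρ * (1 - (1 - ρ ^ 2) / 8) ≤ H ρ * 1 := mul_le_mul_of_nonneg_left (by linarith) hκ.le
    linarith
  linarith


/-- monotonicity in the half-difference -/
lemma E_mono {δ δ' : ℝ} (h : 0 < δ) (h' : δ ≤ δ') (h'' : δ' ≤ 1) :
    cc * (1 - ρ ^ 2) * (Psi (1 - δ) δ / δ) + (H ρ - cc * (1 - ρ ^ 2) * log 2) * δ
      ≤ cc * (1 - ρ ^ 2) * (Psi (1 - δ') δ' / δ') + (H ρ - cc * (1 - ρ ^ 2) * log 2) * δ' := by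
  have he := e_pos h0 h1
  have hcc : 0 < cc := by unfold cc; norm_num
  have hu : 0 ≤ H ρ - cc * (1 - ρ ^ 2) * log 2 := by
    rw [← vk_eq h0 h1]
    have : H ρ - vv ρ * H ρ * log 2 = H ρ * (1 - vv ρ * log 2) := by ring
    rw [this]
    exact (mul_pos (kap_pos h0 h1) (u_lt h0 h1)).le
  exact add_le_add (mul_le_mul_of_nonneg_left (Psi_ratio_mono h h' h'') (by positivity))
    (mul_le_mul_of_nonneg_left h' hu)

/-- the Jensen gap divided by the half-difference -/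
lemma gap_le {m δ : ℝ} (hm : 0 ≤ m) (hδ : 0 < δ) (hmd : m + δ ≤ 1) :
    cc * (1 - ρ ^ 2) * Psi m δ + (H ρ - cc * (1 - ρ ^ 2) * log 2) * δ ^ 2
      ≤ δ * (cc * (1 - ρ ^ 2) * (Psi (1 - δ) δ / δ)
        + (H ρ - cc * (1 - ρ ^ 2) * log 2) * δ) := by
  have he := e_pos h0 h1
  have hcc : 0 < cc := by unfold cc; norm_num
  have k := mul_le_mul_of_nonneg_left (Psi_le_boundary hm hδ hmd)
    (show 0 ≤ cc * (1 - ρ ^ 2) by positivity)
  have e1 : δ * (cc * (1 - ρ ^ 2) * (Psi (1 - δ) δ / δ)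
        + (H ρ - cc * (1 - ρ ^ 2) * log 2) * δ)
      = cc * (1 - ρ ^ 2) * Psi (1 - δ) δ + (H ρ - cc * (1 - ρ ^ 2) * log 2) * δ ^ 2 := by
    field_simp
  rw [e1]; linarith

/-- consequences of `f1 ≥ 0` at a value `q` -/
lemma E_at {q : ℝ} (hq0 : 0 < q) (hq : q ≤ (1 - ρ ^ 2) / 8) :
    cc * (1 - ρ ^ 2) * (Psi (1 - dd ρ q) (dd ρ q) / dd ρ q)
      + (H ρ - cc * (1 - ρ ^ 2) * log 2) * dd ρ q
      ≤ (H (ρ * (1 - q)) - H (1 - q)) / (1 - q) := by
  have he1 : 1 - ρ ^ 2 ≤ 111 / 400 := by nlinarith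
  have hqd : q ≤ 1 - ρ := by nlinarith
  refine (E_of_f1 (by linarith) h1 hq0 (by linarith) (BB_pos h0 h1 hqd)
    (f1_nonneg h0 h1 hq0 hq)).trans ?_
  have := SS_le (ρ := ρ) (q := q) (by linarith) h1 hq0.le (by linarith)
  apply div_le_div_of_nonneg_right _ (by linarith)
  linarith

lemma SS_pos {q : ℝ} (hq0 : 0 ≤ q) (hq : q ≤ (1 - ρ ^ 2) / 8) : 0 < SS ρ q := by
  have he1 : 1 - ρ ^ 2 ≤ 111 / 400 := by nlinarith
  have he := e_pos h0 h1
  have hqd : q ≤ 1 - ρ := by nlinarith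
  have hκ := kap_pos h0 h1
  have hB := BB_pos h0 h1 hqd
  unfold SS
  rw [NN_eq_BB]
  have h1q : 0 < 1 - q := by linarith
  have a : 0 < H ρ * (1 - q) := by positivity
  have b : 0 ≤ BB ρ q * q := by positivity
  linarith

lemma dd_zero : dd ρ 0 = 1 := by
  have hκ := kap_pos h0 h1
  unfold dd SS NN
  simp [hκ.ne']

/-- existence of a good parameter -/
theorem exists_t {m δ : ℝ} (hm : 0 ≤ m) (hδ : 0 < δ) (hmd : m + δ < 1)
    (hg : (1 - ρ ^ 2) * H m < gH ρ m) :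
    ∃ t, 0 < t ∧ t < 1 ∧ gH ρ m ≤ δ * (H (ρ * t) / t) ∧
      cc * (1 - ρ ^ 2) * Psi m δ + (H ρ - cc * (1 - ρ ^ 2) * log 2) * δ ^ 2
        ≤ δ * ((H (ρ * t) - H t) / t) := by
  have hρ0 : 0 < ρ := by linarith
  have he := e_pos h0 h1
  have he1 : 1 - ρ ^ 2 ≤ 111 / 400 := by nlinarith
  have hκ := kap_pos h0 h1
  have hm1 : m < 1 := by linarith
  have hδ1 : δ < 1 := by linarith
  have hgap := gap_le h0 h1 hm hδ hmd.le
  have hgk := gH_le_kap h0 h1 (m := m) (by rw [abs_of_nonneg hm]; exact hm1.le)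
  have hHm : 0 < H m := LB.H_pos (by linarith) hm1
  have hg0 : 0 < gH ρ m := lt_trans (by positivity) hg
  set qT := (1 - ρ ^ 2) / 8 with hqT
  have hqT0 : 0 < qT := by positivity
  have hqT1 : qT < 1 := by linarith
  rcases le_total (dd ρ qT) δ with hc | hc
  · -- large half-difference
    have hcont : ContinuousOn (dd ρ) (Icc 0 qT) := by
      unfold dd
      apply ContinuousOn.div
      · fun_prop
      · unfold SS NN; fun_prop
      · intro q hq
        exact (SS_pos h0 h1 hq.1 hq.2).ne'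
    have hIVT := intermediate_value_Icc' hqT0.le hcont
    obtain ⟨q, hq, hqd⟩ := hIVT (⟨hc, by rw [dd_zero h0 h1]; exact hδ1.le⟩ :
      δ ∈ Icc (dd ρ qT) (dd ρ 0))
    have hq0 : 0 < q := by
      rcases hq.1.eq_or_lt with h | h
      · rw [← h, dd_zero h0 h1] at hqd; linarith
      · exact h
    have hE := E_at h0 h1 hq0 hq.2
    rw [hqd] at hE
    have h1q : 0 < 1 - q := by linarith [hq.2]
    refine ⟨1 - q, h1q, by linarith, ?_, ?_⟩
    · refine hgk.trans ?_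
      have hS := SS_pos h0 h1 hq.1 hq.2
      have hSl := SS_le (ρ := ρ) (q := q) hρ0 h1 hq.1 (by linarith)
      have e1 : δ * (SS ρ q / (1 - q)) = H ρ := by
        rw [← hqd]; unfold dd; field_simp
      rw [← e1]
      apply mul_le_mul_of_nonneg_left _ hδ.le
      exact div_le_div_of_nonneg_right hSl h1q.le
    · exact hgap.trans (mul_le_mul_of_nonneg_left hE hδ.le)
  · -- small half-difference
    have hddT := dd_T_le h0 h1
    have h1q : 0 < 1 - qT := by linarith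
    rcases le_or_gt (gH ρ m) (δ * (H (ρ * (1 - qT)) / (1 - qT))) with hc2 | hc2
    · refine ⟨1 - qT, h1q, by linarith, hc2, ?_⟩
      refine hgap.trans (mul_le_mul_of_nonneg_left ?_ hδ.le)
      exact (E_mono h0 h1 hδ hc (hddT.trans (by norm_num))).trans (E_at h0 h1 hqT0 le_rfl)
    · -- intermediate value theorem for `H (ρ t)/t`
      have hHa : ∀ t, 0 < t → t < 1 → H ρ ≤ H (ρ * t) := by
        intro t ht0 ht1
        exact LB.H_anti (by positivity) (by nlinarith) h1.le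
      set t0 := H ρ * δ / gH ρ m with ht0def
      have ht0 : 0 < t0 := by positivity
      have ht0T : t0 ≤ 1 - qT := by
        by_contra hcon
        push Not at hcon
        have h3 : gH ρ m ≤ δ * (H (ρ * (1 - qT)) / (1 - qT)) := by
          have h4 : (1 - qT) * gH ρ m ≤ H ρ * δ := by
            rw [ht0def, lt_div_iff₀ hg0] at hcon; exact hcon.le
          have h5 := hHa (1 - qT) h1q (by linarith)
          rw [← mul_div_assoc, le_div_iff₀ h1q]
          nlinarith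
        linarith
      have hcont : ContinuousOn (fun t => δ * (H (ρ * t) / t)) (Icc t0 (1 - qT)) := by
        apply ContinuousOn.mul continuousOn_const
        apply ContinuousOn.div
        · exact (LB.H_continuous.comp (by fun_prop)).continuousOn
        · fun_prop
        · intro t ht; exact (ht0.trans_le ht.1).ne'
      have hIVT := intermediate_value_Icc' ht0T hcont
      have hval : gH ρ m ≤ δ * (H (ρ * t0) / t0) := by
        have h5 := hHa t0 ht0 (by linarith)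
        have h6 : δ * (H ρ / t0) = gH ρ m := by rw [ht0def]; field_simp
        rw [← h6]
        apply mul_le_mul_of_nonneg_left _ hδ.le
        exact div_le_div_of_nonneg_right h5 ht0.le
      obtain ⟨t, ht, hte⟩ := hIVT (⟨hc2.le, hval⟩ :
        gH ρ m ∈ Icc (δ * (H (ρ * (1 - qT)) / (1 - qT))) (δ * (H (ρ * t0) / t0)))
      simp only at hte
      have htpos : 0 < t := ht0.trans_le ht.1
      have ht1 : t < 1 := by linarith [ht.2]
      refine ⟨t, htpos, ht1, hte.symm.le, ?_⟩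
      have hΩ := omega_ge h0 h1 htpos ht.2
      -- the core inequality
      have hvk := vk_eq h0 h1
      have hgeq := gH_eq h0 h1 m
      have hv := vv_pos h0 h1
      have hC := C_core (v := vv ρ) (m := m) (d := δ) hv
        (by have := vv_le h0 h1; norm_num at this ⊢; linarith) hm hm1 hδ hmd.le
        (hc.trans hddT) (by
          have h7 : H ρ * (vv ρ / cc * H m) < H ρ * (vv ρ * H m
              + (1 - vv ρ * log 2) * (1 - m ^ 2)) := by
            rw [← hgeq]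
            have : H ρ * (vv ρ / cc * H m) = (1 - ρ ^ 2) * H m := by
              have hcc : cc ≠ 0 := by unfold cc; norm_num
              have : H ρ * (vv ρ / cc * H m) = (vv ρ * H ρ) / cc * H m := by ring
              rw [this, hvk]; field_simp
            rw [this]; exact hg
          exact lt_of_mul_lt_mul_left h7 hκ.le)
      have e2 : cc * (1 - ρ ^ 2) * Psi m δ + (H ρ - cc * (1 - ρ ^ 2) * log 2) * δ ^ 2
          = H ρ * (vv ρ * Psi m δ + (1 - vv ρ * log 2) * δ ^ 2) := by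
        rw [← hvk]; ring
      rw [e2]
      have h8 : gH ρ m * (H ρ * (vv ρ * Psi m δ + (1 - vv ρ * log 2) * δ ^ 2))
          ≤ gH ρ m * (δ * ((H (ρ * t) - H t) / t)) := by
        have h9 : gH ρ m * (δ * ((H (ρ * t) - H t) / t))
            = δ ^ 2 * (H (ρ * t) * (H (ρ * t) - H t) / t ^ 2) := by
          rw [← hte]; field_simp
        rw [h9]
        calc gH ρ m * (H ρ * (vv ρ * Psi m δ + (1 - vv ρ * log 2) * δ ^ 2))
            = H ρ ^ 2 * ((vv ρ * H m + (1 - vv ρ * log 2) * (1 - m ^ 2))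
              * (vv ρ * Psi m δ + (1 - vv ρ * log 2) * δ ^ 2)) := by rw [hgeq]; ring
          _ ≤ H ρ ^ 2 * ((1 - vv ρ * log 2 / 20) * δ ^ 2) :=
              mul_le_mul_of_nonneg_left hC (by positivity)
          _ = δ ^ 2 * ((1 - vv ρ * log 2 / 20) * H ρ ^ 2) := by ring
          _ ≤ δ ^ 2 * (H (ρ * t) * (H (ρ * t) - H t) / t ^ 2) :=
              mul_le_mul_of_nonneg_left hΩ (by positivity)
      exact le_of_mul_le_mul_left h8 hg0

theorem certB_hi {a b : ℝ} (ha : -1 < a) (hab : a < b) (hb : b < 1) (hs : a + b ≤ 0)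
    (hg : (1 - ρ ^ 2) * H ((a + b) / 2) < gH ρ ((a + b) / 2)) : CertB ρ (gH ρ) a b := by
  have e0 : (a + b) / 2 = - (-(a + b) / 2) := by ring
  have hg' : (1 - ρ ^ 2) * H (-(a + b) / 2) < gH ρ (-(a + b) / 2) := by
    rw [e0, LB.H_neg, gH_neg] at hg; exact hg
  obtain ⟨t, ht0, ht1, h3, h4⟩ := exists_t h0 h1 (m := -(a + b) / 2) (δ := (b - a) / 2)
    (by linarith) (by linarith) (by linarith) hg'
  refine certB_of (by linarith) h1 hab ht0 ht1 ?_ ?_
  · rw [e0, gH_neg]; exact h3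
  · have h5 := gH_gap ρ (-(a + b) / 2) ((b - a) / 2)
    have e1 : -(a + b) / 2 + (b - a) / 2 = -a := by ring
    have e2 : -(a + b) / 2 - (b - a) / 2 = -b := by ring
    rw [e1, e2, gH_neg, gH_neg] at h5
    rw [← h5] at h4
    rw [e0, gH_neg]
    exact h4

/-- the two-point statement for `ρ ≥ 17/20` -/
theorem twoPoint_hi : Ind.TwoPoint ρ (gH ρ) :=
  twoPoint_of_cert (by linarith) h1 fun _ _ ha hab hb hs hg =>
    Or.inr (certB_hi h0 h1 ha hab hb hs hg)

/-- everything `Ind.main_of_all` needs, for `ρ ≥ 17/20` -/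
theorem exists_g_hi : ∃ g : ℝ → ℝ, (∀ x, g (-x) = g x) ∧
      ContinuousOn g (Set.Icc (-1) 1) ∧ g 1 ≤ 0 ∧
      (∀ a, |a| ≤ 1 → H a + H ρ - Real.log 2 ≤ g a) ∧ Ind.TwoPoint ρ g :=
  ⟨gH ρ, gH_neg ρ, (gH_continuous ρ).continuousOn, (gH_one ρ).le,
    fun _ ha => gH_ge h0 h1 ha, twoPoint_hi h0 h1⟩

end

end Vale.Agent.P322.Hi
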