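import Vale.Agent.P322.MonoCore

/-!
# P322: monotonicity in `ρ` of the Lemma A certificate (piece (M))

If the certificate `CertA` holds at `ρ0`, it holds at every `0 < ρ ≤ ρ0`, in the ranges of
`ρ0` and `g = (1+m)/(1-m)`, `m = (a+b)/2 ≤ 0`, listed in `certA_mono`.
-/

namespace Vale.Agent.P322.Mono

open Real

/-- `kk g x ρ = -(1/2) log` of the product of the two arguments of `ell`. -/
noncomputable def kk (g x ρ : ℝ) : ℝ :=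
  Real.log (1 + g) - Real.log (1 - ρ ^ 2 * (g * x) ^ 2) / 2

noncomputable def TT (ρ : ℝ) : ℝ := Real.log 2 - psi ρ / ρ ^ 2

/-- `V = (M - G)/ρ^2`. -/
noncomputable def VV (g x ρ : ℝ) : ℝ :=
  H ((g - 1) / (g + 1)) - 4 * g / (1 + g) ^ 2 * TT ρ
    - (g / (1 + g) * (psi (ρ * x) / ρ ^ 2) + 1 / (1 + g) * (psi (ρ * (g * x)) / ρ ^ 2))

lemma kk_ge {g x ρ : ℝ} (hY : ρ ^ 2 * (g * x) ^ 2 < 1) : Real.log (1 + g) ≤ kk g x ρ := by
  unfold kk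
  have h : 0 ≤ ρ ^ 2 * (g * x) ^ 2 := by positivity
  have : Real.log (1 - ρ ^ 2 * (g * x) ^ 2) ≤ 0 := Real.log_nonpos (by linarith) (by linarith)
  linarith

/-- Step (A). -/
lemma stepA {s l Y kp K : ℝ} (hs1 : s < 1) (hl : 0 < l) (hY0 : 0 ≤ Y)
    (hY1 : Y < 1) (hkp : kp = l - Real.log (1 - s * Y) / 2) (hK : K = l - Real.log (1 - Y) / 2)
    (hlk : l ≤ kp) (hsY : s * Y < 1) :
    1 - kp / K ≤ (1 - s) * Y / (2 * l * (1 - Y) + (1 - s) * Y) := by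
  have h1 : 0 < 1 - Y := by linarith
  have h2 : 0 < 1 - s * Y := by linarith
  have hb0 : 0 ≤ K - kp := by
    rw [hK, hkp]
    have : Real.log (1 - Y) ≤ Real.log (1 - s * Y) := Real.log_le_log h1 (by nlinarith)
    linarith
  have hb1 : 2 * (K - kp) * (1 - Y) ≤ (1 - s) * Y := by
    have h3 := Real.log_le_sub_one_of_pos (div_pos h2 h1)
    rw [Real.log_div h2.ne' h1.ne'] at h3
    have h4 : (1 - s * Y) / (1 - Y) - 1 = (1 - s) * Y / (1 - Y) := by field_simp; ring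
    rw [h4, le_div_iff₀ h1] at h3
    have h5 : 2 * (K - kp) = Real.log (1 - s * Y) - Real.log (1 - Y) := by rw [hK, hkp]; ring
    rw [h5]; exact h3
  have hK0 : 0 < K := by linarith
  have hd : 0 < 2 * l * (1 - Y) + (1 - s) * Y := by
    have : 0 ≤ (1 - s) * Y := mul_nonneg (by linarith) hY0
    positivity
  have e : 1 - kp / K = (K - kp) / K := by field_simp
  rw [e, div_le_div_iff₀ hK0 hd]
  have h6 : l + (K - kp) ≤ K := by linarith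
  have h7 : 0 ≤ (1 - s) * Y := mul_nonneg (by linarith) hY0
  have h8 := mul_le_mul_of_nonneg_left h6 h7
  have h9 := mul_le_mul_of_nonneg_left hb1 hl.le
  nlinarith

/-- Step (D). -/
lemma stepD {s Y l kp : ℝ} (hsY : s * Y < 1) (hkp : kp = l - Real.log (1 - s * Y) / 2) :
    (1 - s * Y) * kp ≤ (1 - s * Y) * l + s * Y / 2 := by
  have h2 : 0 < 1 - s * Y := by linarith
  have h3 := Real.one_sub_inv_le_log_of_pos h2
  have h4 := mul_le_mul_of_nonneg_left h3 h2.le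
  have h5 : (1 - s * Y) * (1 - (1 - s * Y)⁻¹) = -(s * Y) := by field_simp; ring
  rw [h5] at h4
  rw [hkp]
  nlinarith

/-- Step (C): lower bound of `V`. -/
lemma VV_ge {g x ρ : ℝ} (hg0 : 0 < g) (hg1 : g ≤ 1) (hx0 : 0 ≤ x) (hx1 : x ≤ 1) (hρ0 : 0 < ρ)
    (hρ1 : ρ < 1) :
    4 * g / (1 + g) ^ 2 * (193 / 1000 * ((1 - g) / (1 + g)) ^ 2
      + (1 - x ^ 2 * (1 + g) ^ 2 / 4) * (psi ρ / ρ ^ 2)) ≤ VV g x ρ := by
  have hm : |(g - 1) / (g + 1)| ≤ 1 := by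
    rw [abs_le]
    constructor
    · rw [le_div_iff₀ (by linarith)]; linarith
    · rw [div_le_iff₀ (by linarith)]; linarith
  have hH := H_lower hm
  have hr : 1 - ((g - 1) / (g + 1)) ^ 2 = 4 * g / (1 + g) ^ 2 := by
    field_simp; ring
  have hmu : ((g - 1) / (g + 1)) ^ 2 = ((1 - g) / (1 + g)) ^ 2 := by
    rw [div_pow, div_pow]
    congr 1 <;> ring
  rw [hr, hmu] at hH
  have hx : |x| ≤ 1 := by rw [abs_of_nonneg hx0]; exact hx1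
  have hρ : |ρ| ≤ 1 := by rw [abs_of_pos hρ0]; exact hρ1.le
  have hy0 : 0 ≤ g * x := by positivity
  have hy1 : g * x ≤ 1 := by nlinarith
  have p1 : psi (ρ * x) ≤ x ^ 2 * psi ρ := by
    have := Ind.psi_mul_le hx0 hx1 hρ
    rwa [mul_comm x ρ] at this
  have p2 : psi (ρ * (g * x)) ≤ (g * x) ^ 2 * psi ρ := by
    have := Ind.psi_mul_le hy0 hy1 hρ
    rwa [mul_comm (g * x) ρ] at this
  have hρ2 : 0 < ρ ^ 2 := by positivity
  have p1' : psi (ρ * x) / ρ ^ 2 ≤ x ^ 2 * (psi ρ / ρ ^ 2) := by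
    rw [← mul_div_assoc]; exact div_le_div_of_nonneg_right p1 hρ2.le
  have p2' : psi (ρ * (g * x)) / ρ ^ 2 ≤ (g * x) ^ 2 * (psi ρ / ρ ^ 2) := by
    rw [← mul_div_assoc]; exact div_le_div_of_nonneg_right p2 hρ2.le
  have q1 := mul_le_mul_of_nonneg_left p1' (show 0 ≤ g / (1 + g) by positivity)
  have q2 := mul_le_mul_of_nonneg_left p2' (show 0 ≤ 1 / (1 + g) by positivity)
  have hl2 : 193 / 1000 ≤ Real.log 2 - 1 / 2 := by
    have := Real.log_two_gt_d9; norm_num at this ⊢; linarith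
  have hl3 : 4 * g / (1 + g) ^ 2 * (Real.log 2 + 193 / 1000 * ((1 - g) / (1 + g)) ^ 2)
      ≤ 4 * g / (1 + g) ^ 2 * (Real.log 2 + (Real.log 2 - 1 / 2) * ((1 - g) / (1 + g)) ^ 2) := by
    have : 193 / 1000 * ((1 - g) / (1 + g)) ^ 2 ≤ (Real.log 2 - 1 / 2) * ((1 - g) / (1 + g)) ^ 2 :=
      mul_le_mul_of_nonneg_right hl2 (by positivity)
    exact mul_le_mul_of_nonneg_left (by linarith) (by positivity)
  unfold VV TT
  have e : g / (1 + g) * (x ^ 2 * (psi ρ / ρ ^ 2)) + 1 / (1 + g) * ((g * x) ^ 2 * (psi ρ / ρ ^ 2))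
      = 4 * g / (1 + g) ^ 2 * (x ^ 2 * (1 + g) ^ 2 / 4 * (psi ρ / ρ ^ 2)) := by
    generalize psi ρ / ρ ^ 2 = P
    field_simp
  nlinarith

/-- Abstract assembly of (M2). -/
lemma key_alg {g x R r μ z θ κ n1 nw W V PN lam Rc : ℝ} (hR : 0 ≤ R) (hg0 : 0 ≤ g)
    (hz0 : 0 ≤ z) (hz1 : z ≤ 1) (hr0 : 0 ≤ r) (hrμ : r = 1 - μ)
    (hW0 : 0 ≤ W) (hrw : r * W = z) (hzx : z = g * x ^ 2) (hn0 : 0 ≤ n1) (hnw0 : 0 ≤ nw)
    (hlam0 : 0 ≤ lam) (hA : 1 - θ ≤ κ * z) (hmean : r * (R * W * nw) ≤ PN)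
    (hcore : lam * (n1 * (1 + κ * (1 - z)) - nw * (1 + μ)) ≤ Rc) (hV : r * Rc ≤ V) :
    (r * (R * n1) - PN - θ * (r * (1 - z)) * (R * n1)) * (lam * g) ≤ R * (g * x) ^ 2 * V := by
  have hwz : z * (1 + μ) ≤ W := by
    rw [← hrw, hrμ]
    nlinarith [mul_nonneg hW0 (sq_nonneg μ)]
  obtain ⟨Br, hBr⟩ : ∃ Br, Br = n1 * (1 + κ * (1 - z)) - nw * (1 + μ) := ⟨_, rfl⟩
  rw [← hBr] at hcore
  have s1 : r * (R * n1) - PN - θ * (r * (1 - z)) * (R * n1) ≤ r * R * z * Br := by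
    have t1 : (1 - κ * z) * (1 - z) ≤ θ * (1 - z) :=
      mul_le_mul_of_nonneg_right (by linarith) (by linarith)
    have t3 := mul_le_mul_of_nonneg_left t1 (show 0 ≤ r * (R * n1) by positivity)
    have t4 := mul_le_mul_of_nonneg_left hwz (show 0 ≤ r * R * nw by positivity)
    have e : r * R * z * Br = r * (R * n1) - r * (R * n1) * ((1 - κ * z) * (1 - z))
        - r * R * nw * (z * (1 + μ)) := by rw [hBr]; ring
    rw [e]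
    have e2 : θ * (r * (1 - z)) * (R * n1) = r * (R * n1) * (θ * (1 - z)) := by ring
    have e3 : r * (R * W * nw) = r * R * nw * W := by ring
    linarith
  have s2 := mul_le_mul_of_nonneg_right s1 (show 0 ≤ lam * g by positivity)
  have s4 : r * (lam * Br) ≤ V := (mul_le_mul_of_nonneg_left hcore hr0).trans hV
  have s5 := mul_le_mul_of_nonneg_left s4 (show 0 ≤ R * z * g by positivity)
  have s3 : r * R * z * Br * (lam * g) = R * z * g * (r * (lam * Br)) := by ring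
  have s6 : R * z * g * V = R * (g * x) ^ 2 * V := by rw [hzx]; ring
  linarith

/-- Facts on the normalised values of `N`. -/
lemma key_N {g x ρ w : ℝ} (hg0 : 0 < g) (hg1 : g ≤ 1) (hx0 : 0 < x) (hx1 : x < 1)
    (hρ0 : 0 < ρ) (hρ1 : ρ < 1) (hw : w = x * (1 + g) / 2) :
    ∃ n1 nw : ℝ, N ρ = ρ ^ 4 * n1 ∧ N (ρ * w) = ρ ^ 4 * w ^ 2 * nw ∧ 0 ≤ n1 ∧
      n1 ≤ nb1 (ρ ^ 2) ∧ x ^ 2 * (1 + g) ^ 2 / 4 / 6 ≤ nw ∧
      n1 - nw ≤ (1 - x ^ 2 * (1 + g) ^ 2 / 4) * nb2 (ρ ^ 2) ∧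
      pb (ρ ^ 2) ≤ psi ρ / ρ ^ 2 := by
  have hρa : |ρ| < 1 := by rwa [abs_of_pos hρ0]
  have hw0 : 0 < w := by rw [hw]; positivity
  have hw1 : w ≤ 1 := by rw [hw]; nlinarith
  have hωe : w ^ 2 = x ^ 2 * (1 + g) ^ 2 / 4 := by rw [hw]; ring
  have hρ4 : 0 < ρ ^ 4 := by positivity
  have hρw : |ρ * w| < 1 := by
    rw [abs_of_pos (by positivity)]; nlinarith
  refine ⟨N ρ / ρ ^ 4, N (ρ * w) / (ρ ^ 4 * w ^ 2), by field_simp, by field_simp,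
    div_nonneg (N_nonneg hρa) hρ4.le, ?_, ?_, ?_, ?_⟩
  · rw [div_le_iff₀ hρ4]
    refine (N_le hρ0.le hρ1).trans (le_of_eq ?_)
    unfold nb1; ring
  · rw [← hωe, le_div_iff₀ (by positivity)]
    refine le_trans (le_of_eq ?_) (N_ge hρw)
    ring
  · have h := N_diff hρ0.le hρ1 hw0.le hw1
    rw [← hωe]
    have h5 : ρ ^ 4 * w ^ 2 * (N ρ / ρ ^ 4 - N (ρ * w) / (ρ ^ 4 * w ^ 2))
        ≤ ρ ^ 4 * w ^ 2 * ((1 - w ^ 2) * nb2 (ρ ^ 2)) := by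
      have e : ρ ^ 4 * w ^ 2 * (N ρ / ρ ^ 4 - N (ρ * w) / (ρ ^ 4 * w ^ 2))
          = N ρ * w ^ 2 - N (ρ * w) := by field_simp
      rw [e]
      refine h.trans (le_of_eq ?_)
      unfold nb2; ring
    exact le_of_mul_le_mul_left h5 (by positivity)
  · rw [le_div_iff₀ (by positivity)]
    refine le_trans (le_of_eq ?_) (psi_ge hρa)
    unfold pb; ring

/-- Facts on `κ` and the comparison of `kk` with its value at `1`. -/
lemma key_kappa {g x ρ l : ℝ} (hg0 : 0 < g) (hg1 : g ≤ 1) (hx0 : 0 < x) (hx1 : x < 1)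
    (hρs : ρ ^ 2 < 1) (hl : l = Real.log (1 + g)) (hl0 : 0 < l) :
    0 < kk g x ρ ∧ 0 < kk g x 1 ∧ 0 < 1 - ρ ^ 2 * (g * x) ^ 2 ∧
    (1 - ρ ^ 2 * (g * x) ^ 2) * kk g x ρ ≤
      (1 - ρ ^ 2 * (g ^ 2 * x ^ 2)) * l + ρ ^ 2 * (g ^ 2 * x ^ 2) / 2 ∧
    ∃ κ : ℝ, 0 ≤ κ ∧ κ * (2 * l * (1 - g ^ 2 * x ^ 2) + (1 - ρ ^ 2) * (g ^ 2 * x ^ 2))
      ≤ (1 - ρ ^ 2) * g ∧ 1 - kk g x ρ / kk g x 1 ≤ κ * (g * x ^ 2) := by
  have hX1 : x ^ 2 ≤ 1 := by nlinarith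
  have hy0 : 0 < g * x := by positivity
  have hy1 : g * x < 1 := by nlinarith
  have hYe : (g * x) ^ 2 = g ^ 2 * x ^ 2 := by ring
  have hY0 : 0 ≤ (g * x) ^ 2 := by positivity
  have hY1 : (g * x) ^ 2 < 1 := by nlinarith
  have hsY : ρ ^ 2 * (g * x) ^ 2 < 1 := by nlinarith [sq_nonneg ρ]
  have hkl : l ≤ kk g x ρ := by rw [hl]; exact kk_ge hsY
  have hk1l : l ≤ kk g x 1 := by rw [hl]; exact kk_ge (by linarith)
  have hden : 0 < 2 * l * (1 - g ^ 2 * x ^ 2) + (1 - ρ ^ 2) * (g ^ 2 * x ^ 2) := by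
    rw [← hYe]
    have : 0 < 1 - (g * x) ^ 2 := by linarith
    have : 0 ≤ 1 - ρ ^ 2 := by linarith
    positivity
  refine ⟨by linarith, by linarith, by linarith, ?_, (1 - ρ ^ 2) * g /
    (2 * l * (1 - g ^ 2 * x ^ 2) + (1 - ρ ^ 2) * (g ^ 2 * x ^ 2)), ?_, ?_, ?_⟩
  · rw [← hYe]
    exact stepD hsY (by unfold kk; rw [hl])
  · have : 0 ≤ 1 - ρ ^ 2 := by linarith
    positivity
  · rw [div_mul_cancel₀ _ hden.ne']
  · have := stepA (s := ρ ^ 2) (l := l) (Y := (g * x) ^ 2) (kp := kk g x ρ) (K := kk g x 1) hρs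
      hl0 hY0 hY1 (by unfold kk; rw [hl]) (by unfold kk; rw [hl, one_pow, one_mul]) hkl hsY
    refine this.trans (le_of_eq ?_)
    rw [hYe]
    ring

/-- The key inequality (M2). -/
lemma key {g x ρ : ℝ} (hg0 : 0 < g) (hg1 : g ≤ 1) (hx0 : 0 < x) (hx1 : x < 1) (hρ0 : 0 < ρ)
    (hr : ρ ^ 2 ≤ 53 / 100 ∨ (ρ ^ 2 ≤ 9 / 16 ∧ g ≤ 3 / 5) ∨ (ρ ^ 2 ≤ 16 / 25 ∧ g ≤ 1 / 3) ∨
      (ρ ^ 2 ≤ 289 / 400 ∧ g ≤ 9 / 50)) :
    (4 * g / (1 + g) ^ 2 * N ρ - (g / (1 + g) * N (ρ * x) + 1 / (1 + g) * N (ρ * (g * x)))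
      - kk g x ρ / kk g x 1 * (4 * g / (1 + g) ^ 2 * (1 - g * x ^ 2)) * N ρ)
        * ((1 - ρ ^ 2 * (g * x) ^ 2) * kk g x ρ) ≤ ρ ^ 4 * (g * x) ^ 2 * VV g x ρ := by
  have hρs : ρ ^ 2 < 1 := by
    rcases hr with h | ⟨h, -⟩ | ⟨h, -⟩ | ⟨h, -⟩ <;> linarith
  have hρ1 : ρ < 1 := by nlinarith
  obtain ⟨l, hl⟩ : ∃ l, l = Real.log (1 + g) := ⟨_, rfl⟩
  have hl1 : 2 * g / (2 + g) ≤ l := by rw [hl]; exact log_low hg0.le
  have hl2 : l ≤ g * (6 + g) / (6 + 4 * g) := by rw [hl]; exact log_up hg0.le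
  have hl0 : 0 < l := lt_of_lt_of_le (by positivity) hl1
  have hX0 : 0 ≤ x ^ 2 := by positivity
  have hX1 : x ^ 2 ≤ 1 := by nlinarith
  obtain ⟨hkk0, hK0, hsY', hDD, κ, hκ0, hκe, hA⟩ := key_kappa hg0 hg1 hx0 hx1 hρs hl hl0
  obtain ⟨w, hw⟩ : ∃ w, w = x * (1 + g) / 2 := ⟨_, rfl⟩
  obtain ⟨n1, nw, hn1, hnw, h10, h1, h2, h3, h4⟩ := key_N hg0 hg1 hx0 hx1 hρ0 hρ1 hw
  obtain ⟨lam, hlam⟩ : ∃ lam, lam = (1 - ρ ^ 2 * (g * x) ^ 2) * kk g x ρ / g := ⟨_, rfl⟩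
  have hlam0 : 0 ≤ lam := by rw [hlam]; positivity
  have hlamg : lam * g = (1 - ρ ^ 2 * (g * x) ^ 2) * kk g x ρ := by
    rw [hlam, div_mul_cancel₀ _ hg0.ne']
  rw [← hlamg] at hDD
  have hcore := core (pow_pos hρ0 2) hg0 hg1 hX0 hX1 hr h10 h1 h2 h3 h4 hl1 hl2 hlam0 hDD hκ0
    hκe
  have hV := VV_ge hg0 hg1 hx0.le hx1.le hρ0 hρ1
  have hmean := N_mean hρ0.le hρ1 hg0 hg1 hx0.le hx1.le
  rw [← hw, hnw] at hmean
  rw [hn1, ← hlamg]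
  have hr0 : 0 ≤ 4 * g / (1 + g) ^ 2 := by positivity
  refine key_alg (W := w ^ 2) (by positivity) hg0.le (by positivity) (by nlinarith) hr0 ?_
    (by positivity) ?_ rfl h10 (le_trans (by positivity) h2) hlam0 hA hmean hcore hV
  · field_simp; ring
  · rw [hw]; field_simp; norm_num

/-! ### The derivative in `ρ` -/

lemma hasDerivAt_psidiv {c ρ : ℝ} (hc0 : 0 ≤ c) (hc1 : c ≤ 1) (hρ0 : 0 < ρ) (hρ1 : ρ < 1) :
    HasDerivAt (fun ρ : ℝ => psi (ρ * c) / ρ ^ 2) (N (ρ * c) / ρ ^ 3) ρ := by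
  have hρc : ρ * c < 1 := by nlinarith
  have hρc0 : 0 ≤ ρ * c := by positivity
  have h1 := Ind.psi_hasDerivAt' (x := ρ * c) (by linarith) hρc
  have h2 : HasDerivAt (fun ρ : ℝ => ρ * c) c ρ := by
    simpa using (hasDerivAt_id ρ).mul_const c
  have h3 := h1.comp ρ h2
  have h4 : HasDerivAt (fun ρ : ℝ => ρ ^ 2) (2 * ρ) ρ := by
    simpa using hasDerivAt_pow 2 ρ
  refine (h3.div h4 (by positivity)).congr_deriv ?_
  simp only [Function.comp_apply]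
  unfold N
  field_simp

lemma hasDerivAt_TT {ρ : ℝ} (hρ0 : 0 < ρ) (hρ1 : ρ < 1) :
    HasDerivAt TT (-(N ρ / ρ ^ 3)) ρ := by
  have h := hasDerivAt_psidiv (c := 1) zero_le_one le_rfl hρ0 hρ1
  simp only [mul_one] at h
  exact h.const_sub (Real.log 2)

lemma hasDerivAt_VV {g x ρ : ℝ} (hg0 : 0 < g) (hg1 : g ≤ 1) (hx0 : 0 < x) (hx1 : x < 1)
    (hρ0 : 0 < ρ) (hρ1 : ρ < 1) :
    HasDerivAt (VV g x) ((4 * g / (1 + g) ^ 2 * N ρ
      - (g / (1 + g) * N (ρ * x) + 1 / (1 + g) * N (ρ * (g * x)))) / ρ ^ 3) ρ := by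
  have hy1 : g * x ≤ 1 := by nlinarith
  have h1 := (hasDerivAt_TT hρ0 hρ1).const_mul (4 * g / (1 + g) ^ 2)
  have h2 := (hasDerivAt_psidiv hx0.le hx1.le hρ0 hρ1).const_mul (g / (1 + g))
  have h3 := (hasDerivAt_psidiv (c := g * x) (by positivity) hy1 hρ0 hρ1).const_mul (1 / (1 + g))
  refine ((h1.const_sub (H ((g - 1) / (g + 1)))).sub (h2.add h3)).congr_deriv ?_
  ring

lemma hasDerivAt_kk {g x ρ : ℝ} (hsY : ρ ^ 2 * (g * x) ^ 2 < 1) :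
    HasDerivAt (kk g x) (ρ * (g * x) ^ 2 / (1 - ρ ^ 2 * (g * x) ^ 2)) ρ := by
  have h4 : HasDerivAt (fun ρ : ℝ => ρ ^ 2) (2 * ρ) ρ := by
    simpa using hasDerivAt_pow 2 ρ
  have h1 := (h4.mul_const ((g * x) ^ 2)).const_sub 1
  have hne : 1 - ρ ^ 2 * (g * x) ^ 2 ≠ 0 := by linarith
  refine (((h1.log hne).div_const 2).const_sub (Real.log (1 + g))).congr_deriv ?_
  field_simp

/-- The function whose monotonicity is proved. -/
noncomputable def FF (g x ρ : ℝ) : ℝ :=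
  VV g x ρ / kk g x ρ + 4 * g / (1 + g) ^ 2 * (1 - g * x ^ 2) * TT ρ / kk g x 1

lemma deriv_alg {ρ Y V k K NN PN r e : ℝ} (hρ0 : 0 < ρ) (hk0 : 0 < k) (hK0 : 0 < K)
    (hq : 0 < 1 - ρ ^ 2 * Y)
    (h : (r * NN - PN - k / K * e * NN) * ((1 - ρ ^ 2 * Y) * k) ≤ ρ ^ 4 * Y * V) :
    ((r * NN - PN) / ρ ^ 3 * k - V * (ρ * Y / (1 - ρ ^ 2 * Y))) / k ^ 2
      + e * -(NN / ρ ^ 3) / K ≤ 0 := by
  have e1 : ((r * NN - PN) / ρ ^ 3 * k - V * (ρ * Y / (1 - ρ ^ 2 * Y))) / k ^ 2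
      + e * -(NN / ρ ^ 3) / K
      = ((r * NN - PN - k / K * e * NN) * ((1 - ρ ^ 2 * Y) * k) - ρ ^ 4 * Y * V)
        / (ρ ^ 3 * k ^ 2 * (1 - ρ ^ 2 * Y)) := by
    field_simp
    ring
  rw [e1]
  exact div_nonpos_of_nonpos_of_nonneg (by linarith) (by positivity)

lemma FF_anti {g x ρ ρ0 : ℝ} (hg0 : 0 < g) (hg1 : g ≤ 1) (hx0 : 0 < x) (hx1 : x < 1)
    (hρ0 : 0 < ρ) (hle : ρ ≤ ρ0)
    (hr : ρ0 ^ 2 ≤ 53 / 100 ∨ (ρ0 ^ 2 ≤ 9 / 16 ∧ g ≤ 3 / 5) ∨ (ρ0 ^ 2 ≤ 16 / 25 ∧ g ≤ 1 / 3) ∨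
      (ρ0 ^ 2 ≤ 289 / 400 ∧ g ≤ 9 / 50)) :
    FF g x ρ0 ≤ FF g x ρ := by
  have hρs : ρ0 ^ 2 < 1 := by
    rcases hr with h | ⟨h, -⟩ | ⟨h, -⟩ | ⟨h, -⟩ <;> linarith
  have hρ01 : ρ0 < 1 := by nlinarith
  have hy1 : g * x < 1 := by nlinarith
  have hy0 : 0 < g * x := by positivity
  have hY1 : (g * x) ^ 2 < 1 := by nlinarith
  have hl0 : 0 < Real.log (1 + g) := Real.log_pos (by linarith)
  have main : ∀ t : ℝ, 0 < t → t ≤ ρ0 → ∃ F' : ℝ, F' ≤ 0 ∧ HasDerivAt (FF g x) F' t := by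
    intro t ht0 ht
    have ht1 : t < 1 := by linarith
    have ht2 : t ^ 2 ≤ ρ0 ^ 2 := by gcongr
    have hts : t ^ 2 < 1 := by linarith
    obtain ⟨hk0, hK0, hq, -⟩ := key_kappa hg0 hg1 hx0 hx1 hts rfl hl0
    have hr' : t ^ 2 ≤ 53 / 100 ∨ (t ^ 2 ≤ 9 / 16 ∧ g ≤ 3 / 5) ∨ (t ^ 2 ≤ 16 / 25 ∧ g ≤ 1 / 3) ∨
        (t ^ 2 ≤ 289 / 400 ∧ g ≤ 9 / 50) := by
      rcases hr with h | ⟨h, h'⟩ | ⟨h, h'⟩ | ⟨h, h'⟩
      · left; linarith
      · right; left; exact ⟨by linarith, h'⟩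
      · right; right; left; exact ⟨by linarith, h'⟩
      · right; right; right; exact ⟨by linarith, h'⟩
    have hkey := key hg0 hg1 hx0 hx1 ht0 hr'
    refine ⟨_, deriv_alg ht0 hk0 hK0 hq hkey, ?_⟩
    have d1 := (hasDerivAt_VV hg0 hg1 hx0 hx1 ht0 ht1).div
      (hasDerivAt_kk (g := g) (x := x) (ρ := t) (by linarith)) hk0.ne'
    have d2 := ((hasDerivAt_TT ht0 ht1).const_mul
      (4 * g / (1 + g) ^ 2 * (1 - g * x ^ 2))).div_const (kk g x 1)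
    exact d1.add d2
  have hanti : AntitoneOn (FF g x) (Set.Icc ρ ρ0) := by
    apply antitoneOn_of_deriv_nonpos (convex_Icc _ _)
    · intro y hy
      obtain ⟨F', -, h⟩ := main y (lt_of_lt_of_le hρ0 hy.1) hy.2
      exact h.continuousAt.continuousWithinAt
    · intro y hy
      rw [interior_Icc] at hy
      obtain ⟨F', -, h⟩ := main y (hρ0.trans hy.1) hy.2.le
      exact h.differentiableAt.differentiableWithinAt
    · intro y hy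
      rw [interior_Icc] at hy
      obtain ⟨F', hF, h⟩ := main y (hρ0.trans hy.1) hy.2.le
      rw [h.deriv]; exact hF
  exact hanti ⟨le_refl _, hle⟩ ⟨hle, le_refl _⟩ hle

/-! ### The certificate in the variables `g`, `x` -/

lemma gt_eq {ρ a : ℝ} (h0 : 0 < ρ) (h1 : ρ < 1) (ha : |a| ≤ 1) : Ind.gt ρ (G ρ) a = G ρ a := by
  unfold Ind.gt
  apply max_eq_left
  unfold G
  have h2 := Ind.psi_mul_le h0.le h1.le (x := 1) (by simp)
  rw [mul_one, Ind.psi_one] at h2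
  unfold psi at h2
  have h3 : 0 ≤ H ρ - (1 - ρ ^ 2) * Real.log 2 := by linarith
  have h4 : 0 ≤ 1 - a ^ 2 := by
    have := abs_le.mp ha
    nlinarith
  have := mul_nonneg h3 h4
  linarith

lemma theta_kk {ρ g x : ℝ} (hg0 : 0 < g) (hg1 : g ≤ 1) (hx0 : 0 < x) (hx1 : x < 1)
    (hρ0 : 0 < ρ) (hρ1 : ρ < 1) :
    theta ρ ((g - 1) / (g + 1) - 2 * g * x / (1 + g)) ((g - 1) / (g + 1) + 2 * g * x / (1 + g))
      = kk g x ρ / kk g x 1 := by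
  have hρs : ρ ^ 2 < 1 := by nlinarith
  have hy1 : g * x < 1 := by nlinarith
  have hy0 : 0 < g * x := by positivity
  have hry : ρ * (g * x) < 1 := by nlinarith
  have hry0 : 0 < ρ * (g * x) := by positivity
  have hgen : ∀ t : ℝ, 0 ≤ t → t * (g * x) < 1 →
      ell ((g - 1) / (g + 1) - t * (2 * g * x / (1 + g)))
        + ell ((g - 1) / (g + 1) + t * (2 * g * x / (1 + g))) = 2 * kk g x t := by
    intro t ht0 ht
    have ht0' : 0 ≤ t * (g * x) := by positivity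
    unfold ell kk
    have e1 : (1 - ((g - 1) / (g + 1) - t * (2 * g * x / (1 + g)))) / 2
        = (1 + t * (g * x)) / (1 + g) := by field_simp; ring
    have e2 : (1 - ((g - 1) / (g + 1) + t * (2 * g * x / (1 + g)))) / 2
        = (1 - t * (g * x)) / (1 + g) := by field_simp; ring
    have e3 : 1 - t ^ 2 * (g * x) ^ 2 = (1 + t * (g * x)) * (1 - t * (g * x)) := by ring
    rw [e1, e2, e3, Real.log_div (by linarith) (by linarith),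
      Real.log_div (by linarith) (by linarith), Real.log_mul (by linarith) (by linarith)]
    ring
  unfold theta
  have m1 : ((g - 1) / (g + 1) - 2 * g * x / (1 + g) + ((g - 1) / (g + 1) + 2 * g * x / (1 + g)))
      / 2 = (g - 1) / (g + 1) := by ring
  have m2 : ((g - 1) / (g + 1) + 2 * g * x / (1 + g) - ((g - 1) / (g + 1) - 2 * g * x / (1 + g)))
      / 2 = 2 * g * x / (1 + g) := by ring
  rw [m1, m2, hgen ρ hρ0.le hry]
  have := hgen 1 zero_le_one (by linarith)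
  simp only [one_mul] at this
  rw [this]
  rw [mul_div_mul_left _ _ (two_ne_zero)]

/-- Mean entropy of the pair. -/
noncomputable def HH (g x : ℝ) : ℝ :=
  (H ((g - 1) / (g + 1) - 2 * g * x / (1 + g)) + H ((g - 1) / (g + 1) + 2 * g * x / (1 + g))) / 2

lemma pair_bounds {g x : ℝ} (hg0 : 0 < g) (hg1 : g ≤ 1) (hx0 : 0 < x) (hx1 : x < 1) :
    |(g - 1) / (g + 1) - 2 * g * x / (1 + g)| ≤ 1 ∧
      |(g - 1) / (g + 1) + 2 * g * x / (1 + g)| ≤ 1 := by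
  have e1 : (g - 1) / (g + 1) - 2 * g * x / (1 + g) = (g - 1 - 2 * g * x) / (1 + g) := by
    field_simp; ring
  have e2 : (g - 1) / (g + 1) + 2 * g * x / (1 + g) = (g - 1 + 2 * g * x) / (1 + g) := by
    field_simp; ring
  have hgx : g * x < g := by nlinarith
  have hgx0 : 0 < g * x := by positivity
  rw [e1, e2, abs_le, abs_le]
  refine ⟨⟨?_, ?_⟩, ⟨?_, ?_⟩⟩
  · rw [le_div_iff₀ (by linarith)]; linarith
  · rw [div_le_iff₀ (by linarith)]; linarith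
  · rw [le_div_iff₀ (by linarith)]; linarith
  · rw [div_le_iff₀ (by linarith)]; linarith

/-- `M - G = ρ^2 V`. -/
lemma M_sub_G {ρ g x : ℝ} (hg0 : 0 < g) (hg1 : g ≤ 1) (hx0 : 0 < x) (hx1 : x < 1)
    (hρ0 : 0 < ρ) (hρ1 : ρ < 1) :
    M ρ ((g - 1) / (g + 1) - 2 * g * x / (1 + g)) ((g - 1) / (g + 1) + 2 * g * x / (1 + g))
      - G ρ ((g - 1) / (g + 1)) = ρ ^ 2 * VV g x ρ := by
  obtain ⟨b1, b2⟩ := pair_bounds hg0 hg1 hx0 hx1
  rw [Ind.M_eq hρ0.le hρ1.le b1 b2]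
  have m1 : ((g - 1) / (g + 1) - 2 * g * x / (1 + g) + ((g - 1) / (g + 1) + 2 * g * x / (1 + g)))
      / 2 = (g - 1) / (g + 1) := by ring
  have m2 : ((g - 1) / (g + 1) + 2 * g * x / (1 + g) - ((g - 1) / (g + 1) - 2 * g * x / (1 + g)))
      / 2 = 2 * g * x / (1 + g) := by ring
  rw [m1, m2]
  have e1 : 1 + (g - 1) / (g + 1) = 2 * g / (1 + g) := by field_simp; ring
  have e2 : 1 - (g - 1) / (g + 1) = 2 / (1 + g) := by field_simp; ring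
  have e3 : 2 * g * x / (1 + g) / (2 * g / (1 + g)) = x := by field_simp
  have e4 : 2 * g * x / (1 + g) / (2 / (1 + g)) = g * x := by field_simp
  have e5 : 1 - ((g - 1) / (g + 1)) ^ 2 = 4 * g / (1 + g) ^ 2 := by field_simp; ring
  rw [e1, e2, e3, e4]
  unfold G VV TT
  rw [e5]
  have hH : H ρ = Real.log 2 - psi ρ := by unfold psi; ring
  rw [hH]
  generalize psi (ρ * (g * x)) = P1
  generalize psi (ρ * x) = P2
  generalize psi ρ = P3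
  generalize H ((g - 1) / (g + 1)) = h0
  generalize Real.log 2 = L2
  field_simp
  ring

/-- Average of `gt` over the pair. -/
lemma gt_avg {ρ g x : ℝ} (hg0 : 0 < g) (hg1 : g ≤ 1) (hx0 : 0 < x) (hx1 : x < 1)
    (hρ0 : 0 < ρ) (hρ1 : ρ < 1) :
    (H ((g - 1) / (g + 1) - 2 * g * x / (1 + g)) + H ((g - 1) / (g + 1) + 2 * g * x / (1 + g))) / 2
      - (Ind.gt ρ (G ρ) ((g - 1) / (g + 1) - 2 * g * x / (1 + g))
        + Ind.gt ρ (G ρ) ((g - 1) / (g + 1) + 2 * g * x / (1 + g))) / 2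
      = ρ ^ 2 * (HH g x - 4 * g / (1 + g) ^ 2 * (1 - g * x ^ 2) * TT ρ) := by
  obtain ⟨b1, b2⟩ := pair_bounds hg0 hg1 hx0 hx1
  rw [gt_eq hρ0 hρ1 b1, gt_eq hρ0 hρ1 b2]
  unfold G HH TT
  have hH : H ρ = Real.log 2 - psi ρ := by unfold psi; ring
  rw [hH]
  generalize H ((g - 1) / (g + 1) - 2 * g * x / (1 + g)) = P1
  generalize H ((g - 1) / (g + 1) + 2 * g * x / (1 + g)) = P2
  generalize psi ρ = P3
  generalize Real.log 2 = L2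
  field_simp
  ring

/-- `CertA` in terms of `FF`. -/
theorem certA_iff_FF {ρ g x : ℝ} (hg0 : 0 < g) (hg1 : g ≤ 1) (hx0 : 0 < x) (hx1 : x < 1)
    (hρ0 : 0 < ρ) (hρ1 : ρ < 1) :
    CertA ρ (G ρ) ((g - 1) / (g + 1) - 2 * g * x / (1 + g))
      ((g - 1) / (g + 1) + 2 * g * x / (1 + g)) ↔ HH g x / kk g x 1 ≤ FF g x ρ := by
  have hρs : ρ ^ 2 < 1 := by nlinarith
  obtain ⟨hk0, hK0, -⟩ := key_kappa hg0 hg1 hx0 hx1 hρs rfl (Real.log_pos (by linarith))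
  unfold CertA
  rw [theta_kk hg0 hg1 hx0 hx1 hρ0 hρ1, gt_avg hg0 hg1 hx0 hx1 hρ0 hρ1]
  have m1 : ((g - 1) / (g + 1) - 2 * g * x / (1 + g) + ((g - 1) / (g + 1) + 2 * g * x / (1 + g)))
      / 2 = (g - 1) / (g + 1) := by ring
  rw [m1]
  have hMG := M_sub_G hg0 hg1 hx0 hx1 hρ0 hρ1
  have hρ2 : 0 < ρ ^ 2 := by positivity
  obtain ⟨E, hE⟩ : ∃ E, E = 4 * g / (1 + g) ^ 2 * (1 - g * x ^ 2) * TT ρ := ⟨_, rfl⟩
  unfold FF
  rw [← hE]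
  have key1 : HH g x / kk g x 1 ≤ VV g x ρ / kk g x ρ + E / kk g x 1 ↔
      kk g x ρ / kk g x 1 * (HH g x - E) ≤ VV g x ρ := by
    rw [← sub_le_iff_le_add, ← sub_div, le_div_iff₀ hk0]
    have : (HH g x - E) / kk g x 1 * kk g x ρ = kk g x ρ / kk g x 1 * (HH g x - E) := by ring
    rw [this]
  rw [key1]
  constructor
  · intro h
    have h2 : ρ ^ 2 * (kk g x ρ / kk g x 1 * (HH g x - E)) ≤ ρ ^ 2 * VV g x ρ := by
      rw [← hMG]; linarith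
    exact le_of_mul_le_mul_left h2 hρ2
  · intro h
    have h2 := mul_le_mul_of_nonneg_left h hρ2.le
    rw [← hMG] at h2
    linarith

/-- Change of variables. -/
lemma change_var {a b : ℝ} (ha : -1 < a) (hab : a < b) (hb : b < 1) (hm : a + b ≤ 0) :
    ∃ g x : ℝ, 0 < g ∧ g ≤ 1 ∧ 0 < x ∧ x < 1 ∧ g = (1 + (a + b) / 2) / (1 - (a + b) / 2) ∧
      a = (g - 1) / (g + 1) - 2 * g * x / (1 + g) ∧
      b = (g - 1) / (g + 1) + 2 * g * x / (1 + g) := by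
  obtain ⟨m, hmm⟩ : ∃ m, m = (a + b) / 2 := ⟨_, rfl⟩
  obtain ⟨δ, hδ⟩ : ∃ δ, δ = (b - a) / 2 := ⟨_, rfl⟩
  have ea : a = m - δ := by linarith
  have eb : b = m + δ := by linarith
  have hδ0 : 0 < δ := by linarith
  have hm0 : m ≤ 0 := by linarith
  have hm1 : 0 < 1 + m := by linarith
  have hm2 : 0 < 1 - m := by linarith
  have hδm : δ < 1 + m := by linarith
  refine ⟨(1 + m) / (1 - m), δ / (1 + m), by positivity, ?_, by positivity, ?_, by rw [hmm],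
    ?_, ?_⟩
  · rw [div_le_one hm2]; linarith
  · rw [div_lt_one hm1]; exact hδm
  · rw [ea]; field_simp; ring
  · rw [eb]; field_simp; ring

/-- **Monotonicity in `ρ` of the Lemma A certificate.** -/
theorem certA_mono {ρ ρ0 a b : ℝ} (h0 : 0 < ρ) (hle : ρ ≤ ρ0) (ha : -1 < a) (hab : a < b)
    (hb : b < 1) (hm : a + b ≤ 0)
    (hr : ρ0 ^ 2 ≤ 53 / 100 ∨
      (ρ0 ^ 2 ≤ 9 / 16 ∧ 1 + (a + b) / 2 ≤ 3 / 5 * (1 - (a + b) / 2)) ∨
      (ρ0 ^ 2 ≤ 16 / 25 ∧ 1 + (a + b) / 2 ≤ 1 / 3 * (1 - (a + b) / 2)) ∨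
      (ρ0 ^ 2 ≤ 289 / 400 ∧ 1 + (a + b) / 2 ≤ 9 / 50 * (1 - (a + b) / 2)))
    (hc : CertA ρ0 (G ρ0) a b) : CertA ρ (G ρ) a b := by
  obtain ⟨g, x, hg0, hg1, hx0, hx1, hg, e1, e2⟩ := change_var ha hab hb hm
  have hm2 : 0 < 1 - (a + b) / 2 := by linarith
  have hρs : ρ0 ^ 2 < 1 := by
    rcases hr with h | ⟨h, -⟩ | ⟨h, -⟩ | ⟨h, -⟩ <;> linarith
  have hρ00 : 0 < ρ0 := by linarith
  have hρ01 : ρ0 < 1 := by nlinarith
  have hρ1 : ρ < 1 := by linarith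
  have hr' : ρ0 ^ 2 ≤ 53 / 100 ∨ (ρ0 ^ 2 ≤ 9 / 16 ∧ g ≤ 3 / 5) ∨
      (ρ0 ^ 2 ≤ 16 / 25 ∧ g ≤ 1 / 3) ∨ (ρ0 ^ 2 ≤ 289 / 400 ∧ g ≤ 9 / 50) := by
    rcases hr with h | ⟨h, h'⟩ | ⟨h, h'⟩ | ⟨h, h'⟩
    · left; exact h
    · right; left; exact ⟨h, by rw [hg, div_le_iff₀ hm2]; exact h'⟩
    · right; right; left; exact ⟨h, by rw [hg, div_le_iff₀ hm2]; exact h'⟩
    · right; right; right; exact ⟨h, by rw [hg, div_le_iff₀ hm2]; exact h'⟩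
  rw [e1, e2] at hc ⊢
  rw [certA_iff_FF hg0 hg1 hx0 hx1 hρ00 hρ01] at hc
  rw [certA_iff_FF hg0 hg1 hx0 hx1 h0 hρ1]
  exact hc.trans (FF_anti hg0 hg1 hx0 hx1 h0 hle hr')

end Vale.Agent.P322.Mono
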