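import Vale.Agent.P322.BoxFinal
import Vale.Agent.P322.Mono
import Vale.Agent.P322.BFin
import Vale.Agent.P322.HiFinal
import Vale.Agent.P322.Info

/-!
# P322: the Courtade-Kumar conjecture, assembly

For `0 < ρ ≤ 17/20` the induction potential is `G ρ`, and at every pair `(a,b)` one of the two
certificates (`CertA` from Lemma A, `CertB` from Lemma B) holds; for `17/20 ≤ ρ < 1` see `HiFinal`.
-/

namespace Vale.Agent.P322

theorem cert_low {ρ : ℝ} (h0 : 0 < ρ) (h1 : ρ ≤ 17 / 20) {a b : ℝ} (ha : -1 < a) (hab : a < b)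
    (hb : b < 1) (hm : a + b ≤ 0) : CertA ρ (G ρ) a b ∨ CertB ρ (G ρ) a b := by
  rcases le_total ρ (91 / 125) with h | h
  · left
    exact Mono.certA_mono h0 h ha hab hb hm (Or.inl (by norm_num)) (certA91 ha hab hb hm)
  rcases le_total ρ (3 / 4) with k | k
  · by_cases hc : |(a + b) / 2| ≤ 1 / 4
    · right; exact BM.certB_mid h ha hab hb (Or.inl ⟨k, hc⟩)
    · left
      have hc' : (a + b) / 2 < -(1 / 4) := by
        rw [not_le, lt_abs] at hc
        rcases hc with hc | hc <;> linarith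
      have e : 1 + (a + b) / 2 ≤ 3 / 5 * (1 - (a + b) / 2) := by linarith
      exact Mono.certA_mono h0 k ha hab hb hm (Or.inr (Or.inl ⟨by norm_num, e⟩))
        (certA34 ha hab hb hm e)
  rcases le_total ρ (4 / 5) with l | l
  · by_cases hc : |(a + b) / 2| ≤ 1 / 2
    · right; exact BM.certB_mid h ha hab hb (Or.inr (Or.inl ⟨k, l, hc⟩))
    · left
      have hc' : (a + b) / 2 < -(1 / 2) := by
        rw [not_le, lt_abs] at hc
        rcases hc with hc | hc <;> linarith
      have e : 1 + (a + b) / 2 ≤ 1 / 3 * (1 - (a + b) / 2) := by linarith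
      exact Mono.certA_mono h0 l ha hab hb hm (Or.inr (Or.inr (Or.inl ⟨by norm_num, e⟩)))
        (certA45 ha hab hb hm e)
  · by_cases hc : |(a + b) / 2| ≤ 7 / 10
    · right; exact BM.certB_mid h ha hab hb (Or.inr (Or.inr ⟨l, h1, hc⟩))
    · left
      have hc' : (a + b) / 2 < -(7 / 10) := by
        rw [not_le, lt_abs] at hc
        rcases hc with hc | hc <;> linarith
      have e : 1 + (a + b) / 2 ≤ 9 / 50 * (1 - (a + b) / 2) := by linarith
      exact Mono.certA_mono h0 h1 ha hab hb hm (Or.inr (Or.inr (Or.inr ⟨by norm_num, e⟩)))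
        (certA1720 ha hab hb hm e)

theorem twoPoint_low {ρ : ℝ} (h0 : 0 < ρ) (h1 : ρ ≤ 17 / 20) : Ind.TwoPoint ρ (G ρ) :=
  twoPoint_of_cert h0 (by linarith) fun _ _ ha hab hb hm _ => cert_low h0 h1 ha hab hb hm

/-- **The Courtade-Kumar conjecture.** -/
theorem courtade_kumar {ε : ℝ} (h0 : 0 ≤ ε) (h1 : ε ≤ 1 / 2) (n : ℕ)
    (f : (Fin n → ℤˣ) → ℤˣ) : mutualInfo (joint ε f) ≤ 1 - h2 ε := by
  refine Ind.main_of_all ?_ h0 h1 n f
  intro ρ hρ0 hρ1
  rcases le_total ρ (17 / 20) with h | h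
  · exact ⟨G ρ, Ind.G_neg ρ, (Ind.G_continuous ρ).continuousOn, (Ind.G_one ρ).le,
      fun _ ha => Ind.G_ge (by rw [abs_le]; constructor <;> linarith) ha, twoPoint_low hρ0 h⟩
  · exact Hi.exists_g_hi h hρ1

end Vale.Agent.P322
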