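import Vale.Agent.P322.HiPsi

/-!
# P322, `ρ ≥ 17/20`: the inequality for small half-differences
-/

namespace Vale.Agent.P322.Hi

open Real Set

lemma l_bounds : 0.6931471803 < log 2 ∧ log 2 < 0.6931471808 :=
  ⟨Real.log_two_gt_d9, Real.log_two_lt_d9⟩

/-- `H x ≤ log 2 - x²/2 - x⁴/12`. -/
lemma H_le_four {x : ℝ} (h0 : 0 ≤ x) (h1 : x < 1) :
    H x ≤ log 2 - x ^ 2 / 2 - x ^ 4 / 12 := by
  have hA : ∀ y : ℝ, 0 ≤ y → y < 1 → 0 ≤ Ind.ath y - y - y ^ 3 / 3 := by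
    intro y hy0 hy1
    refine Ind.nonneg_of_deriv (F := fun y => Ind.ath y - y - y ^ 3 / 3)
      (F' := fun y => 1 / (1 - y ^ 2) - 1 - y ^ 2) (by simp [Ind.ath_zero]) ?_ ?_ hy0 hy1
    · intro z hz0 hz1
      have b4 : HasDerivAt (fun y : ℝ => y ^ 3 / 3) (z ^ 2) z := by
        have := (hasDerivAt_pow 3 z).div_const 3
        refine this.congr_deriv ?_
        simp
      exact ((Ind.ath_hasDerivAt (x := z) (by linarith) hz1).sub (hasDerivAt_id z)).sub b4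
    · intro z hz0 hz1
      have h3 : 0 < 1 - z ^ 2 := by nlinarith
      have : 1 + z ^ 2 ≤ 1 / (1 - z ^ 2) := by
        rw [le_div_iff₀ h3]; nlinarith [sq_nonneg (z ^ 2)]
      linarith
  have := Ind.nonneg_of_deriv (F := fun y => psi y - y ^ 2 / 2 - y ^ 4 / 12)
    (F' := fun y => Ind.ath y - y - y ^ 3 / 3) (by simp [Ind.psi_zero])
    (by
      intro z hz0 hz1
      have b2 : HasDerivAt (fun y : ℝ => y ^ 2 / 2) z z := by
        have := (hasDerivAt_pow 2 z).div_const 2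
        refine this.congr_deriv ?_
        simp
      have b3 : HasDerivAt (fun y : ℝ => y ^ 4 / 12) (z ^ 3 / 3) z := by
        have := (hasDerivAt_pow 4 z).div_const 12
        refine this.congr_deriv ?_
        ring
      exact ((Ind.psi_hasDerivAt' (x := z) (by linarith) hz1).sub b2).sub b3) hA h0 h1
  have e : H x = log 2 - psi x := by unfold psi; ring
  rw [e]; linarith

lemma Psi_le_Q6 {m d : ℝ} (hm : 0 ≤ m) (hm1 : m < 1) (hd : 0 < d) (hmd : m + d ≤ 1) :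
    Psi m d ≤ d ^ 2 * (1 / (2 * (1 - m ^ 2)) + d ^ 2 / 12 * (1 + 3 * m ^ 2) / (1 - m ^ 2) ^ 3
      + (log 2 - 7 / 12) * d ^ 4 * (1 + 10 * m ^ 2 + 5 * m ^ 4) / (1 - m ^ 2) ^ 5) := by
  rw [Psi_eq (by linarith) hm1]
  have p1 : 0 < 1 + m := by linarith
  have p2 : 0 < 1 - m := by linarith
  have a1 := psi_le_six (x := d / (1 + m)) (by positivity) (by rw [div_le_one p1]; linarith)
  have a2 := psi_le_six (x := d / (1 - m)) (by positivity) (by rw [div_le_one p2]; linarith)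
  have b1 := mul_le_mul_of_nonneg_left a1 p1.le
  have b2 := mul_le_mul_of_nonneg_left a2 p2.le
  have e : 1 - m ^ 2 = (1 - m) * (1 + m) := by ring
  rw [e]
  have key : d ^ 2 * (1 / (2 * ((1 - m) * (1 + m))) + d ^ 2 / 12 * (1 + 3 * m ^ 2)
        / ((1 - m) * (1 + m)) ^ 3
      + (log 2 - 7 / 12) * d ^ 4 * (1 + 10 * m ^ 2 + 5 * m ^ 4) / ((1 - m) * (1 + m)) ^ 5)
      = ((1 + m) * ((d / (1 + m)) ^ 2 / 2 + (d / (1 + m)) ^ 4 / 12
          + (log 2 - 7 / 12) * (d / (1 + m)) ^ 6)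
        + (1 - m) * ((d / (1 - m)) ^ 2 / 2 + (d / (1 - m)) ^ 4 / 12
          + (log 2 - 7 / 12) * (d / (1 - m)) ^ 6)) / 2 := by
    field_simp
    ring
  rw [key]; linarith

lemma Psi_le_mixed {m d x : ℝ} (hm : 0 ≤ m) (hm1 : m < 1) (hd : 0 < d) (hmd : m + d ≤ 1)
    (hx : (1 - m) / (1 + m) ≤ x) :
    Psi m d ≤ d ^ 2 * ((log 2 / (1 - m)
      + (1 / 2 + x ^ 2 / 12 + (log 2 - 7 / 12) * x ^ 4) / (1 + m)) / 2) := by
  rw [Psi_eq (by linarith) hm1]
  have hl := l_bounds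
  have p1 : 0 < 1 + m := by linarith
  have p2 : 0 < 1 - m := by linarith
  have hz0 : 0 < d / (1 + m) := by positivity
  have hzx : d / (1 + m) ≤ x := le_trans (by gcongr; linarith) hx
  have a1 := psi_le_six (x := d / (1 + m)) hz0.le (by rw [div_le_one p1]; linarith)
  have a2 := psi_le_sq (x := d / (1 - m)) (by positivity) (by rw [div_le_one p2]; linarith)
  have a3 : (d / (1 + m)) ^ 2 ≤ x ^ 2 := by gcongr
  have a4 : (d / (1 + m)) ^ 4 ≤ x ^ 4 := by gcongr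
  have b1 : psi (d / (1 + m))
      ≤ (d / (1 + m)) ^ 2 * (1 / 2 + x ^ 2 / 12 + (log 2 - 7 / 12) * x ^ 4) := by
    refine a1.trans ?_
    have h2 : 0 ≤ (d / (1 + m)) ^ 2 := by positivity
    have h3 : 1 / 2 + (d / (1 + m)) ^ 2 / 12 + (log 2 - 7 / 12) * (d / (1 + m)) ^ 4
        ≤ 1 / 2 + x ^ 2 / 12 + (log 2 - 7 / 12) * x ^ 4 := by
      have : 0 ≤ log 2 - 7 / 12 := by linarith [hl.1]
      have := mul_le_mul_of_nonneg_left a4 this
      linarith
    have := mul_le_mul_of_nonneg_left h3 h2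
    nlinarith
  have b1' := mul_le_mul_of_nonneg_left b1 p1.le
  have b2' := mul_le_mul_of_nonneg_left a2 p2.le
  have key : d ^ 2 * ((log 2 / (1 - m)
      + (1 / 2 + x ^ 2 / 12 + (log 2 - 7 / 12) * x ^ 4) / (1 + m)) / 2)
      = ((1 + m) * ((d / (1 + m)) ^ 2 * (1 / 2 + x ^ 2 / 12 + (log 2 - 7 / 12) * x ^ 4))
        + (1 - m) * (log 2 * (d / (1 - m)) ^ 2)) / 2 := by
    field_simp
    ring
  rw [key]; linarith

lemma Psi_le_l {m d : ℝ} (hm : 0 ≤ m) (hm1 : m < 1) (hd : 0 < d) (hmd : m + d ≤ 1) :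
    Psi m d ≤ d ^ 2 * (log 2 / (1 - m ^ 2)) := by
  rw [Psi_eq (by linarith) hm1]
  have p1 : 0 < 1 + m := by linarith
  have p2 : 0 < 1 - m := by linarith
  have a1 := psi_le_sq (x := d / (1 + m)) (by positivity) (by rw [div_le_one p1]; linarith)
  have a2 := psi_le_sq (x := d / (1 - m)) (by positivity) (by rw [div_le_one p2]; linarith)
  have b1 := mul_le_mul_of_nonneg_left a1 p1.le
  have b2 := mul_le_mul_of_nonneg_left a2 p2.le
  have e : 1 - m ^ 2 = (1 - m) * (1 + m) := by ring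
  have key : d ^ 2 * (log 2 / (1 - m ^ 2))
      = ((1 + m) * (log 2 * (d / (1 + m)) ^ 2) + (1 - m) * (log 2 * (d / (1 - m)) ^ 2)) / 2 := by
    rw [e]; field_simp; ring
  rw [key]; linarith

end Vale.Agent.P322.Hi
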