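import Vale.Agent.P322.Glue

/-!
# P322: the two-point statement for `ρ ≥ 17/20`

Potential `gH ρ x = c (1-ρ²) H x + (H ρ - c (1-ρ²) log 2) (1-x²)`, `c = 29/40`.
-/

namespace Vale.Agent.P322.Hi

open Real

/-- the constant `c` -/
noncomputable def cc : ℝ := 29 / 40

/-- potential for `ρ ≥ 17/20` -/
noncomputable def gH (ρ x : ℝ) : ℝ :=
  cc * (1 - ρ ^ 2) * H x + (H ρ - cc * (1 - ρ ^ 2) * log 2) * (1 - x ^ 2)

/-- Jensen gap of the entropy -/
noncomputable def Psi (m d : ℝ) : ℝ := H m - (H (m + d) + H (m - d)) / 2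

/-- `v = c e / κ` -/
noncomputable def vv (ρ : ℝ) : ℝ := cc * (1 - ρ ^ 2) / H ρ

/-- lower bound of `H (ρ (1-q)) - (1-q) H ρ` -/
noncomputable def NN (ρ q : ℝ) : ℝ := L ρ * q - ρ ^ 2 * q ^ 2 / (2 * (1 - ρ ^ 2))

/-- lower bound of `H (ρ (1-q))` -/
noncomputable def SS (ρ q : ℝ) : ℝ := H ρ * (1 - q) + NN ρ q

/-- the half-difference treated with the parameter `t = 1 - q` -/
noncomputable def dd (ρ q : ℝ) : ℝ := H ρ * (1 - q) / SS ρ q

end Vale.Agent.P322.Hi
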