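import Vale.Agent.P322.HiPsi

/-!
# P322, `ρ ≥ 17/20`: reduction of the inequality for large half-differences
-/

namespace Vale.Agent.P322.Hi

open Real Set

/-- `B = NN / q` -/
noncomputable def BB (ρ q : ℝ) : ℝ := L ρ - ρ ^ 2 * q / (2 * (1 - ρ ^ 2))

lemma NN_eq_BB (ρ q : ℝ) : NN ρ q = BB ρ q * q := by
  unfold NN BB; ring

/-- `y = v B` -/
noncomputable def yy (ρ q : ℝ) : ℝ := vv ρ * BB ρ q

/-- `η = NN / SS` -/
noncomputable def et (ρ q : ℝ) : ℝ := NN ρ q / SS ρ q

/-- The final scalar expression. -/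
noncomputable def f1 (ρ q : ℝ) : ℝ :=
  (yy ρ q - 1) * (1 - log (q / (1 - ρ ^ 2))) + 4 * BB ρ q - 2 * L ρ + log 2 - 4 * log 2 * yy ρ q
    - yy ρ q * log (yy ρ q / cc) + yy ρ q * log (1 - q)
    + et ρ q * ((3 / 2 + 2 * log 2) * yy ρ q - 2 * BB ρ q)

lemma H_pos' {ρ : ℝ} (h0 : 0 < ρ) (h1 : ρ < 1) : 0 < H ρ := LB.H_pos (by linarith) h1

theorem E_of_f1 {ρ q : ℝ} (h0 : 0 < ρ) (h1 : ρ < 1) (hq0 : 0 < q) (hq1 : q < 1)
    (hB : 0 < BB ρ q) (hf : 0 ≤ f1 ρ q) :
    cc * (1 - ρ ^ 2) * (Psi (1 - dd ρ q) (dd ρ q) / dd ρ q)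
      + (H ρ - cc * (1 - ρ ^ 2) * log 2) * dd ρ q ≤ (SS ρ q - H (1 - q)) / (1 - q) := by
  have he : 0 < 1 - ρ ^ 2 := by nlinarith
  have hk : 0 < H ρ := H_pos' h0 h1
  have hcc : 0 < cc := by unfold cc; norm_num
  set B := BB ρ q with hBdef
  set κ := H ρ with hκ
  set e := 1 - ρ ^ 2 with hedef
  set l := log 2 with hl
  have hl0 : 0 < l := log_pos (by norm_num)
  set v := vv ρ with hv
  have hvdef : v = cc * e / κ := rfl
  have hv0 : 0 < v := by rw [hvdef]; positivity
  have hvk : v * κ = cc * e := by rw [hvdef]; field_simp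
  set y := yy ρ q with hy
  have hydef : y = v * B := rfl
  have hy0 : 0 < y := by rw [hydef]; positivity
  have ht : 0 < 1 - q := by linarith
  have hN : NN ρ q = B * q := NN_eq_BB ρ q
  have hN0 : 0 < B * q := by positivity
  have hS : SS ρ q = κ * (1 - q) + B * q := by unfold SS; rw [hN]
  set S := SS ρ q with hSdef
  have hS0 : 0 < S := by rw [hS]; positivity
  set η := et ρ q with hη
  have hηdef : η = B * q / S := by rw [hη]; unfold et; rw [hN]
  have hη0 : 0 < η := by rw [hηdef]; positivity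
  have hSη : S * η = B * q := by rw [hηdef]; field_simp
  have hη1 : η < 1 := by
    rw [hηdef, div_lt_one hS0, hS]
    have : 0 < κ * (1 - q) := by positivity
    linarith
  have hδ : dd ρ q = 1 - η := by
    unfold dd
    rw [hηdef, ← hκ, ← hSdef]
    have : κ * (1 - q) = S - B * q := by rw [hS]; ring
    rw [this]; field_simp
  rw [hδ]
  set δ := 1 - η with hδdef
  have hδ0 : 0 < δ := by linarith
  have hSδ : S * δ = κ * (1 - q) := by rw [hδdef, mul_sub, hSη, hS]; ring
  -- bound of the gap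
  have hPsi : Psi (1 - δ) δ ≤ l - η * (1 - log η) / 2 - η ^ 2 / 4 + η ^ 3 / 4 := by
    unfold Psi
    have e1 : 1 - δ + δ = 1 := by ring
    have e2 : 1 - δ - δ = -(1 - 2 * η) := by rw [hδdef]; ring
    have e3 : 1 - δ = η := by rw [hδdef]; ring
    rw [e1, e2, LB.H_neg, LB.H_one, e3]
    have a1 := H_one_sub_two_ge hη0 hη1
    have a2 : η ^ 2 / 2 ≤ psi η := Ind.sq_div_two_le_psi (by rw [abs_of_pos hη0]; exact hη1.le)
    have a3 : H η = l - psi η := by unfold psi; ring
    rw [a3]
    linarith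
  have hHt := H_one_sub_le hq0 hq1.le
  have elq : log (2 / q) = l - log q := log_div (by norm_num) hq0.ne'
  rw [elq] at hHt
  -- logarithm of η
  have hlogη : -log η = log κ + log (1 - q) - log δ - log B - log q := by
    have : η = κ⁻¹ * (1 - q)⁻¹ * δ * B * q := by
      have h3 : S = κ * (1 - q) / δ := by rw [← hSδ]; field_simp
      rw [hηdef, h3]
      field_simp
    rw [this, log_mul (by positivity) (by positivity), log_mul (by positivity) (by positivity),
      log_mul (by positivity) (by positivity), log_mul (by positivity) (by positivity),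
      log_inv, log_inv]
    ring
  have hlogδ := neg_log_one_sub_ge hη0.le hη1
  rw [← hδdef] at hlogδ
  -- logs of κ and e
  have hlogy : log y = log v + log B := by rw [hydef, log_mul hv0.ne' hB.ne']
  have hlogv : log v + log κ = log cc + log e := by
    rw [← log_mul hv0.ne' hk.ne', hvk, log_mul hcc.ne' he.ne']
  have hloge : log e = 2 * l - 2 * L ρ := by
    unfold L; rw [← hl, ← hedef]; ring
  have hσ : log (q / e) = log q - log e := log_div hq0.ne' he.ne'
  have hyc : log (y / cc) = log y - log cc := log_div hy0.ne' hcc.ne'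
  unfold f1 at hf
  rw [← hy, ← hBdef, ← hη, ← hl, ← hedef, hσ, hyc] at hf
  -- the core inequality
  have hcore : 1 + l - log q ≤
      B * (2 * (1 - v * l) * (2 - η) + v * (1 - log η + η / 2 - η ^ 2 / 2)) := by
    have h1' : v * B * (-log η) = y * (-log η) := by rw [hydef]
    have h2 : y * (-log η) ≥ y * (log κ + log (1 - q) + (η + η ^ 2 / 2) - log B - log q) := by
      apply mul_le_mul_of_nonneg_left _ hy0.le
      rw [hlogη]; linarith
    have h3 : B * (2 * (1 - v * l) * (2 - η) + v * (1 - log η + η / 2 - η ^ 2 / 2))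
        = 4 * B - 4 * l * y - 2 * B * η + 2 * l * y * η + y * (1 + η / 2 - η ^ 2 / 2)
          + y * (-log η) := by
      rw [hydef]; ring
    rw [h3]
    have h4 : log κ - log B = log cc + log e - log y := by rw [hlogy]; linarith
    have h5 : y * (log κ + log (1 - q) + (η + η ^ 2 / 2) - log B - log q)
        = y * (log cc + log e - log y + log (1 - q) + (η + η ^ 2 / 2) - log q) := by
      rw [← h4]; ring
    rw [h5] at h2
    have h6 : (y - 1) * (1 - (log q - log e)) + 4 * B - 2 * L ρ + l - 4 * l * y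
        - y * (log y - log cc) + y * log (1 - q) + η * ((3 / 2 + 2 * l) * y - 2 * B)
        = (4 * B - 4 * l * y - 2 * B * η + 2 * l * y * η + y * (1 + η / 2 - η ^ 2 / 2)
          + y * (log cc + log e - log y + log (1 - q) + (η + η ^ 2 / 2) - log q))
          + (log q - 1 - log e + l - 2 * L ρ) := by ring
    rw [h6] at hf
    linarith
  -- assemble
  have hfin : v * S * (l - η * (1 - log η) / 2 - η ^ 2 / 4 + η ^ 3 / 4)
      + (1 - v * l) * (S * δ ^ 2) + q / 2 * (1 + (l - log q)) ≤ S := by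
    have h6 : S - v * S * (l - η * (1 - log η) / 2 - η ^ 2 / 4 + η ^ 3 / 4)
        - (1 - v * l) * (S * δ ^ 2)
        = S * η * ((1 - v * l) * (2 - η) + v * ((1 - log η) / 2 + η / 4 - η ^ 2 / 4)) := by
      rw [hδdef]; ring
    rw [hSη] at h6
    have h7 : q / 2 * (1 + l - log q) ≤ q / 2 *
      (B * (2 * (1 - v * l) * (2 - η) + v * (1 - log η + η / 2 - η ^ 2 / 2))) :=
      mul_le_mul_of_nonneg_left hcore (by positivity)
    have h8 : q / 2 * (B * (2 * (1 - v * l) * (2 - η) + v * (1 - log η + η / 2 - η ^ 2 / 2)))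
        = B * q * ((1 - v * l) * (2 - η) + v * ((1 - log η) / 2 + η / 4 - η ^ 2 / 4)) := by ring
    rw [h8, ← h6] at h7
    have h9 : q / 2 * (1 + l - log q) = q / 2 * (1 + (l - log q)) := by ring
    rw [h9] at h7
    linarith
  rw [le_div_iff₀ ht]
  have h8 : (cc * e * (Psi (1 - δ) δ / δ) + (κ - cc * e * l) * δ) * (1 - q)
      = v * S * Psi (1 - δ) δ + (1 - v * l) * (S * δ ^ 2) := by
    have h9 : κ * (1 - q) = S * δ := hSδ.symm
    have h10 : (1 - q) = S * δ / κ := by field_simp; linarith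
    rw [h10, ← hvk]
    field_simp
  rw [h8]
  have h11 : v * S * Psi (1 - δ) δ
      ≤ v * S * (l - η * (1 - log η) / 2 - η ^ 2 / 4 + η ^ 3 / 4) :=
    mul_le_mul_of_nonneg_left hPsi (by positivity)
  linarith

end Vale.Agent.P322.Hi
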