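import Vale.Agent.P322.HiPre

/-!
# P322, `ρ ≥ 17/20`: the scalar inequality `0 ≤ f1`
-/

namespace Vale.Agent.P322.Hi

open Real Set

lemma log_three_half : log (3 / 2 : ℝ) ≤ 4055 / 10000 := by
  have h := Real.abs_log_sub_add_sum_range_le (x := (1:ℝ) / 3) (by rw [abs_of_pos] <;> norm_num) 10
  have e : (1 : ℝ) - 1 / 3 = (3 / 2)⁻¹ := by norm_num
  rw [e, abs_of_pos (show (0:ℝ) < 1 / 3 by norm_num), abs_le, log_inv] at h
  have h1 := h.1
  norm_num [Finset.sum_range_succ] at h1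
  linarith

/-- final polynomial inequality, first case -/
lemma i1_poly_a {L Y r : ℝ} (hL : 1334 / 1000 + (r - 289 / 400) / (555 / 1000) ≤ L)
    (hr : r ≤ 1) (hr0 : 289 / 400 ≤ r) (hY1 : 1 ≤ Y)
    (hY2 : Y ≤ 2017 / 2000 + 366 / 1000 * (L - 1334 / 1000)) (hY3 : Y ≤ 29 / 20) :
    0 ≤ 2 * L - 2386296 / 1000000 - r / 4 + 8653 / 10000 * Y - 9196 / 10000 * Y ^ 2
      - 1453 / 100000 := by
  rcases le_total L (2334 / 1000) with h | h
  · have hs0 : 0 ≤ L - 1334 / 1000 := by linarith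
    set s := L - 1334 / 1000 with hs
    have hLs : L = s + 1334 / 1000 := by rw [hs]; ring
    set Y2 := 2017 / 2000 + 366 / 1000 * s with hY2'
    have k : 9196 / 10000 * Y ^ 2 - 8653 / 10000 * Y ≤ 9196 / 10000 * Y2 ^ 2 - 8653 / 10000 * Y2 := by
      nlinarith [mul_nonneg (sub_nonneg.2 hY2) (show 0 ≤ 9196 / 10000 * (Y2 + Y) - 8653 / 10000 by linarith)]
    have hr' : r ≤ 289 / 400 + 555 / 1000 * s := by linarith
    have hs1 : s ≤ 1 := by linarith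
    have : 9196 / 10000 * Y2 ^ 2 - 8653 / 10000 * Y2 ≤ 2 * L - 2386296 / 1000000 - r / 4
      - 1453 / 100000 := by
      rw [hY2', hLs]
      nlinarith
    linarith
  · have k : 9196 / 10000 * Y ^ 2 - 8653 / 10000 * Y
        ≤ 9196 / 10000 * (29 / 20) ^ 2 - 8653 / 10000 * (29 / 20) := by
      nlinarith [mul_nonneg (sub_nonneg.2 hY3) (show 0 ≤ 9196 / 10000 * (29 / 20 + Y) - 8653 / 10000 by linarith)]
    norm_num at k
    linarith

/-- final polynomial inequality, second case -/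
lemma i1_poly_b {L Y r : ℝ} (hL : 1334 / 1000 + (r - 289 / 400) / (555 / 1000) ≤ L)
    (hr : r ≤ 1) (hr0 : 289 / 400 ≤ r) (hY1 : 1 ≤ Y)
    (hY2 : Y ≤ 2017 / 2000 + 366 / 1000 * (L - 1334 / 1000)) (hY3 : Y ≤ 29 / 20) :
    0 ≤ 2 * L - 2386296 / 1000000 - r / 4 + 8653 / 10000 * Y - 4039 / 10000 * Y ^ 2
      - 3574 / 10000 * L * Y - 1453 / 100000 := by
  have hs0 : 0 ≤ L - 1334 / 1000 := by linarith
  rcases le_total L (2334 / 1000) with h | h
  · set s := L - 1334 / 1000 with hs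
    have hLs : L = s + 1334 / 1000 := by rw [hs]; ring
    set Y2 := 2017 / 2000 + 366 / 1000 * s with hY2'
    have k : 4039 / 10000 * Y ^ 2 + 3574 / 10000 * L * Y - 8653 / 10000 * Y
        ≤ 4039 / 10000 * Y2 ^ 2 + 3574 / 10000 * L * Y2 - 8653 / 10000 * Y2 := by
      nlinarith [mul_nonneg (sub_nonneg.2 hY2)
        (show 0 ≤ 4039 / 10000 * (Y2 + Y) + 3574 / 10000 * L - 8653 / 10000 by linarith)]
    have hr' : r ≤ 289 / 400 + 555 / 1000 * s := by linarith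
    have hs1 : s ≤ 1 := by linarith
    have : 4039 / 10000 * Y2 ^ 2 + 3574 / 10000 * L * Y2 - 8653 / 10000 * Y2
      ≤ 2 * L - 2386296 / 1000000 - r / 4 - 1453 / 100000 := by
      rw [hY2', hLs]
      nlinarith
    linarith
  · have k : 4039 / 10000 * Y ^ 2 + 3574 / 10000 * L * Y - 8653 / 10000 * Y
        ≤ 4039 / 10000 * (29 / 20) ^ 2 + 3574 / 10000 * L * (29 / 20) - 8653 / 10000 * (29 / 20) := by
      nlinarith [mul_nonneg (sub_nonneg.2 hY3)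
        (show 0 ≤ 4039 / 10000 * (29 / 20 + Y) + 3574 / 10000 * L - 8653 / 10000 by linarith)]
    norm_num at k
    linarith

theorem BB_ge {ρ q : ℝ} (h0 : 17 / 20 ≤ ρ) (h1 : ρ < 1) (hq : q ≤ 1 - ρ) :
    L ρ - 1 / 2 ≤ BB ρ q := by
  have he : 0 < 1 - ρ ^ 2 := by nlinarith
  unfold BB
  have : ρ ^ 2 * q / (2 * (1 - ρ ^ 2)) ≤ 1 / 2 := by
    rw [div_le_iff₀ (by positivity)]
    nlinarith [mul_le_mul_of_nonneg_left hq (sq_nonneg ρ)]
  linarith

theorem BB_pos {ρ q : ℝ} (h0 : 17 / 20 ≤ ρ) (h1 : ρ < 1) (hq : q ≤ 1 - ρ) :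
    0 < BB ρ q := by
  have := BB_ge h0 h1 hq
  have := L_ge h0 h1
  nlinarith


/-- `σ (1 - log σ) ≤ (1 + 3 log 2)/8` on `(0,1/8]` -/
lemma sig_bound {σ : ℝ} (h0 : 0 < σ) (h1 : σ ≤ 1 / 8) :
    σ * (1 - log σ) ≤ (1 + 3 * log 2) / 8 := by
  have hl : 0 < log 2 := log_pos (by norm_num)
  have h2 : log (σ⁻¹ / 8) ≤ σ⁻¹ / 8 - 1 := log_le_sub_one_of_pos (by positivity)
  have e : log (σ⁻¹ / 8) = - log σ - 3 * log 2 := by
    rw [log_div (by positivity) (by norm_num), log_inv, show (8:ℝ) = 2 ^ 3 by norm_num, log_pow]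
    push_cast; ring
  rw [e] at h2
  have h3 := mul_le_mul_of_nonneg_left h2 h0.le
  have h4 : σ * (σ⁻¹ / 8 - 1) = 1 / 8 - σ := by field_simp
  rw [h4] at h3
  have h5 := mul_le_mul_of_nonneg_right h1 hl.le
  nlinarith

lemma log_sig {σ : ℝ} (h0 : 0 < σ) (h1 : σ ≤ 1 / 8) : 3 * log 2 ≤ - log σ := by
  have h2 : log σ ≤ log (1 / 8) := log_le_log h0 h1
  have e : log (1 / 8 : ℝ) = - (3 * log 2) := by
    rw [one_div, log_inv, show (8:ℝ) = 2 ^ 3 by norm_num, log_pow]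
    push_cast; ring
  linarith

/-- step 1 -/
lemma i1_step1 {v L r σ : ℝ} (hv : 0 < v) (hr : 0 ≤ r) (hY : 1 ≤ v * L) (h0 : 0 < σ)
    (h1 : σ ≤ 1 / 8) :
    (v * L - 1) * (1 + 3 * log 2) - v * r / 16 * (1 + 3 * log 2)
      ≤ (v * (L - r * σ / 2) - 1) * (1 - log σ) := by
  have a := sig_bound h0 h1
  have b := log_sig h0 h1
  have c := mul_le_mul_of_nonneg_left a (show 0 ≤ v * r / 2 by positivity)
  have d := mul_le_mul_of_nonneg_left (show 1 + 3 * log 2 ≤ 1 - log σ by linarith)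
    (show 0 ≤ v * L - 1 by linarith)
  have e : (v * (L - r * σ / 2) - 1) * (1 - log σ)
    = (v * L - 1) * (1 - log σ) - v * r / 2 * (σ * (1 - log σ)) := by ring
  rw [e]
  linarith

/-- step 3 -/
lemma i1_step3 {y Y : ℝ} (hy : 9 / 10 ≤ y) (hY : y ≤ Y) :
    5945 / 10000 * Y - Y ^ 2 * (9196 / 10000) ≤ - (y * log (y / cc)) := by
  have hy0 : 0 < y := by linarith
  have hcc : cc = 29 / 40 := rfl
  have k : log (y / cc / (3 / 2)) ≤ y / cc / (3 / 2) - 1 :=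
    log_le_sub_one_of_pos (by rw [hcc]; positivity)
  rw [log_div (by rw [hcc]; positivity) (by norm_num)] at k
  have k2 := log_three_half
  have e : y / cc / (3 / 2) = y * (80 / 87) := by rw [hcc]; ring
  rw [e] at k
  have k3 := mul_le_mul_of_nonneg_left
    (show log (y / cc) ≤ y * (80 / 87) - 5945 / 10000 by linarith) hy0.le
  nlinarith

/-- step 4 -/
lemma i1_step4 {y Y q : ℝ} (hy : 0 ≤ y) (hY : y ≤ Y) (hq0 : 0 < q) (hq : q ≤ 111 / 3200) :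
    - (36 / 1000 * Y) ≤ y * log (1 - q) := by
  have k : log ((1 - q)⁻¹) ≤ (1 - q)⁻¹ - 1 := log_le_sub_one_of_pos (by
    have : 0 < 1 - q := by linarith
    positivity)
  rw [log_inv] at k
  have h1 : 0 < 1 - q := by linarith
  have k2 : (1 - q)⁻¹ - 1 ≤ 36 / 1000 := by
    have : (1 - q)⁻¹ ≤ 1036 / 1000 := by
      rw [inv_le_comm₀ h1 (by norm_num)]
      norm_num; linarith
    linarith
  nlinarith

/-- step 5 -/
lemma i1_step5 {v L B y et σ q : ℝ} (hv : 0 < v) (hB : 0 < B)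
    (hBL : B ≤ L) (hy : y = v * B) (het0 : 0 ≤ et) (hσ : σ ≤ 1 / 8)
    (het : et ≤ y * σ / (cc * (1 - q))) (hq : q ≤ 111 / 3200) :
    min 0 (5157 / 10000 * (v * L) ^ 2 - 3574 / 10000 * L * (v * L))
      ≤ et * ((3 / 2 + 2 * log 2) * y - 2 * B) := by
  have hl1 := Real.log_two_gt_d9
  have hl2 := Real.log_two_lt_d9
  have hy0 : 0 < y := by rw [hy]; positivity
  rcases le_total 0 ((3 / 2 + 2 * log 2) * y - 2 * B) with h | h
  · exact (min_le_left _ _).trans (mul_nonneg het0 h)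
  · refine (min_le_right _ _).trans ?_
    have hcc : cc = 29 / 40 := rfl
    have e1 : et ≤ 1787 / 10000 * y := by
      refine het.trans ?_
      rw [hcc, div_le_iff₀ (by nlinarith)]
      nlinarith [mul_le_mul_of_nonneg_left hσ hy0.le, mul_le_mul_of_nonneg_left hq hy0.le]
    have e2 : 1787 / 10000 * y * ((3 / 2 + 2 * log 2) * y - 2 * B)
        ≤ et * ((3 / 2 + 2 * log 2) * y - 2 * B) := mul_le_mul_of_nonpos_right e1 h
    refine le_trans ?_ e2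
    have hv2 : (3 / 2 + 2 * log 2) * v - 2 ≤ 0 := by
      rw [hy] at h
      by_contra hc
      push Not at hc
      nlinarith
    have e3 : 1787 / 10000 * y * ((3 / 2 + 2 * log 2) * y - 2 * B)
        = B ^ 2 * (1787 / 10000 * v * ((3 / 2 + 2 * log 2) * v - 2)) := by rw [hy]; ring
    have e4 : L ^ 2 * (1787 / 10000 * v * ((3 / 2 + 2 * log 2) * v - 2))
        ≤ B ^ 2 * (1787 / 10000 * v * ((3 / 2 + 2 * log 2) * v - 2)) := by
      apply mul_le_mul_of_nonpos_right (by nlinarith)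
      have : 0 ≤ 1787 / 10000 * v := by positivity
      exact mul_nonpos_of_nonneg_of_nonpos this hv2
    rw [e3]
    refine le_trans ?_ e4
    have e5 : 0 ≤ (v * L) ^ 2 := by positivity
    have e6 : L ^ 2 * (1787 / 10000 * v * ((3 / 2 + 2 * log 2) * v - 2))
      = 1787 / 10000 * (3 / 2 + 2 * log 2) * (v * L) ^ 2 - 3574 / 10000 * L * (v * L) := by ring
    rw [e6]
    nlinarith

lemma i1_main {L v r : ℝ} (hY1 : 1 ≤ v * L) (hvr : v * r ≤ 757 / 1000) :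
    2 * L - 2386296 / 1000000 - r / 4 + 8653 / 10000 * (v * L) - 9196 / 10000 * (v * L) ^ 2
      - 1453 / 100000
      ≤ ((v * L - 1) * (1 + 3 * log 2) - v * r / 16 * (1 + 3 * log 2))
        + 4 * (L - r / 16) * (1 - log 2 * v) - 2 * L + log 2
        + (5945 / 10000 * (v * L) - (v * L) ^ 2 * (9196 / 10000)) + (- (36 / 1000 * (v * L))) := by
  have hl1 := Real.log_two_gt_d9
  have hl2 := Real.log_two_lt_d9
  have e : ((v * L - 1) * (1 + 3 * log 2) - v * r / 16 * (1 + 3 * log 2))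
        + 4 * (L - r / 16) * (1 - log 2 * v) - 2 * L + log 2
        + (5945 / 10000 * (v * L) - (v * L) ^ 2 * (9196 / 10000)) + (- (36 / 1000 * (v * L)))
        = 2 * L - 1 - 2 * log 2 - r / 4 + (v * L) * (15585 / 10000 - log 2)
          - (v * L) ^ 2 * (9196 / 10000) - v * r / 16 * (1 - log 2) := by ring
  rw [e]
  have m1 : v * r / 16 * (1 - log 2) ≤ 1453 / 100000 := by
    have m3 := mul_le_mul_of_nonneg_right hvr (show 0 ≤ 1 - log 2 by linarith)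
    linarith
  have m2 : 0 ≤ (v * L) * (15585 / 10000 - log 2 - 8653 / 10000) := by
    apply mul_nonneg (by linarith); linarith
  linarith


/-- everything about `η` -/
lemma et_bounds {ρ q : ℝ} (h0 : 17 / 20 ≤ ρ) (h1 : ρ < 1) (hq0 : 0 < q) (hq1 : q < 1)
    (hB : 0 < BB ρ q) :
    0 ≤ et ρ q ∧ et ρ q ≤ yy ρ q * (q / (1 - ρ ^ 2)) / (cc * (1 - q)) := by
  have he : 0 < 1 - ρ ^ 2 := by nlinarith
  have hκ : 0 < H ρ := H_pos' (by linarith) h1
  have hS : SS ρ q = H ρ * (1 - q) + BB ρ q * q := by unfold SS; rw [NN_eq_BB]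
  have h1q : 0 < 1 - q := by linarith
  have hSpos : 0 < SS ρ q := by rw [hS]; positivity
  refine ⟨by unfold et; rw [NN_eq_BB]; positivity, ?_⟩
  have hvk : vv ρ * H ρ = cc * (1 - ρ ^ 2) := by unfold vv; field_simp
  have hcc : 0 < cc := by unfold cc; norm_num
  have hye : yy ρ q = vv ρ * BB ρ q := rfl
  unfold et
  rw [NN_eq_BB, hye]
  have e1 : vv ρ * BB ρ q * (q / (1 - ρ ^ 2)) / (cc * (1 - q)) = BB ρ q * q / (H ρ * (1 - q)) := by
    have hcce : cc = vv ρ * H ρ / (1 - ρ ^ 2) := by rw [hvk]; field_simp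
    have hv := vv_pos h0 h1
    rw [hcce]
    field_simp
  rw [e1]
  apply div_le_div_of_nonneg_left (by positivity) (by positivity)
  rw [hS]
  have : 0 < BB ρ q * q := by positivity
  linarith

lemma yy_ge {ρ q : ℝ} (h0 : 17 / 20 ≤ ρ) (h1 : ρ < 1) (hBT : L ρ - ρ ^ 2 / 16 ≤ BB ρ q) :
    9 / 10 ≤ yy ρ q := by
  have hv := vv_pos h0 h1
  have hv1 := vv_le h0 h1
  have hY1 := vL_ge h0 h1
  have hr1 : ρ ^ 2 ≤ 1 := by nlinarith
  unfold yy
  have h := mul_le_mul_of_nonneg_left hBT hv.le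
  have h2 : vv ρ * ρ ^ 2 ≤ 757 / 1000 * 1 := mul_le_mul hv1 hr1 (by positivity) (by norm_num)
  have e : vv ρ * (L ρ - ρ ^ 2 / 16) = vv ρ * L ρ - vv ρ * ρ ^ 2 / 16 := by ring
  rw [e] at h
  linarith

lemma i1_step2 {ρ q : ℝ} (h0 : 17 / 20 ≤ ρ) (h1 : ρ < 1) (hBT : L ρ - ρ ^ 2 / 16 ≤ BB ρ q) :
    4 * (L ρ - ρ ^ 2 / 16) * (1 - log 2 * vv ρ) ≤ 4 * BB ρ q - 4 * log 2 * yy ρ q := by
  have hv := vv_pos h0 h1
  have hv1 := vv_le h0 h1
  have hl2 := Real.log_two_lt_d9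
  have hl1 := Real.log_two_gt_d9
  have e : 4 * BB ρ q - 4 * log 2 * yy ρ q = 4 * BB ρ q * (1 - log 2 * vv ρ) := by
    unfold yy; ring
  rw [e]
  apply mul_le_mul_of_nonneg_right (by linarith)
  have : log 2 * vv ρ ≤ 1 * 1 := mul_le_mul (by linarith) (by linarith) hv.le (by norm_num)
  linarith

lemma BB_bounds {ρ q : ℝ} (h0 : 17 / 20 ≤ ρ) (h1 : ρ < 1) (hq0 : 0 < q)
    (hq : q ≤ (1 - ρ ^ 2) / 8) :
    BB ρ q = L ρ - ρ ^ 2 * (q / (1 - ρ ^ 2)) / 2 ∧ BB ρ q ≤ L ρ ∧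
      L ρ - ρ ^ 2 / 16 ≤ BB ρ q ∧ 0 < q / (1 - ρ ^ 2) ∧ q / (1 - ρ ^ 2) ≤ 1 / 8 := by
  have he : 0 < 1 - ρ ^ 2 := by nlinarith
  set σ := q / (1 - ρ ^ 2) with hσ
  have hσ0 : 0 < σ := by positivity
  have hσ1 : σ ≤ 1 / 8 := by
    rw [hσ, div_le_iff₀ he]; linarith
  have hBe : BB ρ q = L ρ - ρ ^ 2 * σ / 2 := by
    unfold BB; rw [hσ]; field_simp
  refine ⟨hBe, ?_, ?_, hσ0, hσ1⟩
  · rw [hBe]
    have : 0 ≤ ρ ^ 2 * σ / 2 := by positivity
    linarith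
  · rw [hBe]
    have := mul_le_mul_of_nonneg_left hσ1 (sq_nonneg ρ)
    linarith

theorem f1_nonneg {ρ q : ℝ} (h0 : 17 / 20 ≤ ρ) (h1 : ρ < 1) (hq0 : 0 < q)
    (hq : q ≤ (1 - ρ ^ 2) / 8) : 0 ≤ f1 ρ q := by
  have hq2 : q ≤ 111 / 3200 := by nlinarith
  have hqd : q ≤ 1 - ρ := by nlinarith
  have hB := BB_pos h0 h1 hqd
  obtain ⟨hBe, hBL, hBT, hσ0, hσ1⟩ := BB_bounds h0 h1 hq0 hq
  obtain ⟨het0, het⟩ := et_bounds h0 h1 hq0 (by linarith) hB
  have hv := vv_pos h0 h1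
  have hv1 := vv_le h0 h1
  have hY1 := vL_ge h0 h1
  have hy9 := yy_ge h0 h1 hBT
  have s2 := i1_step2 h0 h1 hBT
  have hr1 : ρ ^ 2 ≤ 1 := by nlinarith
  have hr0 : 289 / 400 ≤ ρ ^ 2 := by nlinarith
  have hvr : vv ρ * ρ ^ 2 ≤ 757 / 1000 := by
    calc vv ρ * ρ ^ 2 ≤ 757 / 1000 * 1 := by
          apply mul_le_mul hv1 hr1 (by positivity) (by norm_num)
      _ = 757 / 1000 := by norm_num
  have hye : yy ρ q = vv ρ * BB ρ q := rfl
  have hyY : yy ρ q ≤ vv ρ * L ρ := by rw [hye]; gcongr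
  have s1 := i1_step1 (v := vv ρ) (L := L ρ) (r := ρ ^ 2) (σ := q / (1 - ρ ^ 2)) hv
    (by positivity) hY1 hσ0 hσ1
  rw [← hBe, ← hye] at s1
  have s3 := i1_step3 hy9 hyY
  have s4 := i1_step4 (by linarith) hyY hq0 hq2
  have s5 := i1_step5 hv hB hBL hye het0 hσ1 het hq2
  have pa := i1_poly_a (L_ge h0 h1) hr1 hr0 hY1 (vL_le h0 h1) (vL_le2 h0 h1)
  have pb := i1_poly_b (L_ge h0 h1) hr1 hr0 hY1 (vL_le h0 h1) (vL_le2 h0 h1)
  have hmain := i1_main hY1 hvr (L := L ρ) (v := vv ρ) (r := ρ ^ 2)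
  clear hBe hBL hBT het0 het hv hv1 hY1 hy9 hr1 hr0 hvr hye hyY hB hqd hq2 hσ0 hσ1
  unfold f1
  generalize vv ρ * L ρ = Y at *
  generalize yy ρ q = y at *
  generalize BB ρ q = B at *
  generalize et ρ q = η at *
  generalize log (q / (1 - ρ ^ 2)) = lσ at *
  generalize y * log (y / cc) = ly at *
  generalize y * log (1 - q) = lq at *
  have hmin : 0 ≤ (2 * L ρ - 2386296 / 1000000 - ρ ^ 2 / 4 + 8653 / 10000 * Y
      - 9196 / 10000 * Y ^ 2 - 1453 / 100000)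
      + min 0 (5157 / 10000 * Y ^ 2 - 3574 / 10000 * L ρ * Y) := by
    rcases min_choice (0:ℝ) (5157 / 10000 * Y ^ 2 - 3574 / 10000 * L ρ * Y) with h | h
    · rw [h]; linarith
    · rw [h]; linarith
  linarith

end Vale.Agent.P322.Hi
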