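import Vale.Agent.P322.HiT

/-!
# P322, `ρ ≥ 17/20`: elementary facts on `H`, `L`, `NN`, `SS`, `dd`
-/

namespace Vale.Agent.P322.Hi

open Real

lemma hasDerivAt_H' {x : ℝ} (h1 : -1 < x) (h2 : x < 1) : HasDerivAt H (-Ind.ath x) x := by
  refine (LB.hasDerivAt_H h1 h2).congr_deriv ?_
  unfold Ind.ath; ring

lemma L_eq' {x : ℝ} (h1 : -1 < x) (h2 : x < 1) : L x = H x + x * Ind.ath x := by
  rw [LB.L_eq h1 h2]; unfold Ind.ath; ring

/-- `H x = (1-x) L x + x log (2/(1+x))`. -/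
lemma H_eq_L {x : ℝ} (h1 : -1 < x) (h2 : x < 1) :
    H x = (1 - x) * L x + x * log (2 / (1 + x)) := by
  rw [LB.H_eq]
  unfold L
  have e : 1 - x ^ 2 = (1 - x) * (1 + x) := by ring
  rw [e, log_mul (by linarith) (by linarith), log_div (by norm_num) (by linarith)]
  ring

lemma ath_mono {x y : ℝ} (h1 : -1 < x) (hxy : x ≤ y) (h2 : y < 1) : Ind.ath x ≤ Ind.ath y := by
  unfold Ind.ath
  have a1 : log (1 + x) ≤ log (1 + y) := log_le_log (by linarith) (by linarith)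
  have a2 : log (1 - y) ≤ log (1 - x) := log_le_log (by linarith) (by linarith)
  linarith

/-- second-order lower bound -/
theorem SS_le {ρ q : ℝ} (h0 : 0 < ρ) (h1 : ρ < 1) (hq0 : 0 ≤ q) (hq1 : q ≤ 1) :
    SS ρ q ≤ H (ρ * (1 - q)) := by
  have he : 0 < 1 - ρ ^ 2 := by nlinarith
  -- first derivative is nonnegative
  have hd1 : ∀ y : ℝ, 0 ≤ y → y < 1 →
      0 ≤ ρ * Ind.ath (ρ * (1 - y)) - ρ * Ind.ath ρ + ρ ^ 2 * y / (1 - ρ ^ 2) := by
    intro y hy0 hy1
    refine Ind.nonneg_of_deriv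
      (F := fun y => ρ * Ind.ath (ρ * (1 - y)) - ρ * Ind.ath ρ + ρ ^ 2 * y / (1 - ρ ^ 2))
      (F' := fun y => ρ * (1 / (1 - (ρ * (1 - y)) ^ 2) * (-ρ)) + ρ ^ 2 / (1 - ρ ^ 2))
      (by simp) ?_ ?_ hy0 hy1
    · intro z hz0 hz1
      have b1 : ρ * (1 - z) < 1 := by nlinarith
      have b2 : -1 < ρ * (1 - z) := by nlinarith
      have h3 : HasDerivAt (fun y : ℝ => ρ * (1 - y)) (-ρ) z := by
        simpa using ((hasDerivAt_id z).const_sub 1).const_mul ρ
      have h4 := ((Ind.ath_hasDerivAt b2 b1).comp z h3).const_mul ρ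
      have h5 : HasDerivAt (fun y : ℝ => ρ ^ 2 * y / (1 - ρ ^ 2)) (ρ ^ 2 / (1 - ρ ^ 2)) z := by
        simpa using ((hasDerivAt_id z).const_mul (ρ ^ 2)).div_const (1 - ρ ^ 2)
      exact (h4.sub_const (ρ * Ind.ath ρ)).add h5
    · intro z hz0 hz1
      have b1 : ρ * (1 - z) ≤ ρ := by nlinarith
      have b2 : 0 ≤ ρ * (1 - z) := mul_nonneg h0.le (by linarith)
      have b3 : (ρ * (1 - z)) ^ 2 ≤ ρ ^ 2 := by gcongr
      have b4 : 1 / (1 - (ρ * (1 - z)) ^ 2) ≤ 1 / (1 - ρ ^ 2) :=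
        one_div_le_one_div_of_le he (by linarith)
      have b5 : ρ ^ 2 / (1 - ρ ^ 2) = ρ ^ 2 * (1 / (1 - ρ ^ 2)) := by ring
      rw [b5]
      have b6 : 0 ≤ ρ ^ 2 := by positivity
      nlinarith
  have main : ∀ y : ℝ, 0 ≤ y → y < 1 → 0 ≤ H (ρ * (1 - y)) - SS ρ y := by
    intro y hy0 hy1
    refine Ind.nonneg_of_deriv
      (F := fun y => H (ρ * (1 - y)) - SS ρ y)
      (F' := fun y => ρ * Ind.ath (ρ * (1 - y)) - ρ * Ind.ath ρ + ρ ^ 2 * y / (1 - ρ ^ 2))
      (by unfold SS NN; simp) ?_ hd1 hy0 hy1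
    intro z hz0 hz1
    have b1 : ρ * (1 - z) < 1 := by nlinarith
    have b2 : -1 < ρ * (1 - z) := by nlinarith
    have h3 : HasDerivAt (fun y : ℝ => ρ * (1 - y)) (-ρ) z := by
      simpa using ((hasDerivAt_id z).const_sub 1).const_mul ρ
    have h4 := (hasDerivAt_H' b2 b1).comp z h3
    have h5 : HasDerivAt (fun y : ℝ => SS ρ y)
        (-(H ρ) + (L ρ - ρ ^ 2 * (2 * z) / (2 * (1 - ρ ^ 2)))) z := by
      unfold SS NN
      have k1 : HasDerivAt (fun y : ℝ => H ρ * (1 - y)) (-(H ρ)) z := by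
        simpa using ((hasDerivAt_id z).const_sub 1).const_mul (H ρ)
      have k2 : HasDerivAt (fun y : ℝ => L ρ * y) (L ρ) z := by
        simpa using (hasDerivAt_id z).const_mul (L ρ)
      have k3 : HasDerivAt (fun y : ℝ => ρ ^ 2 * y ^ 2 / (2 * (1 - ρ ^ 2)))
          (ρ ^ 2 * (2 * z) / (2 * (1 - ρ ^ 2))) z := by
        have := ((hasDerivAt_pow 2 z).const_mul (ρ ^ 2)).div_const (2 * (1 - ρ ^ 2))
        simpa using this
      exact k1.add (k2.sub k3)
    refine (h4.sub h5).congr_deriv ?_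
    rw [L_eq' (by linarith) h1]
    field_simp
    ring
  rcases hq1.eq_or_lt with h | h
  · -- `q = 1` by continuity
    subst h
    have hc : Continuous (fun y : ℝ => H (ρ * (1 - y)) - SS ρ y) := by
      unfold SS NN
      refine Continuous.sub ?_ (by fun_prop)
      exact LB.H_continuous.comp (by fun_prop)
    have hcl : IsClosed {y : ℝ | 0 ≤ H (ρ * (1 - y)) - SS ρ y} :=
      isClosed_le continuous_const hc
    have hsub : Set.Ico (0:ℝ) 1 ⊆ {y : ℝ | 0 ≤ H (ρ * (1 - y)) - SS ρ y} :=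
      fun y hy => main y hy.1 hy.2
    have h2 := closure_minimal hsub hcl
    rw [closure_Ico (by norm_num)] at h2
    have := h2 (⟨zero_le_one, le_rfl⟩ : (1:ℝ) ∈ Set.Icc (0:ℝ) 1)
    simp only [Set.mem_setOf_eq] at this
    linarith
  · have := main q hq0 h
    linarith

/-- `H (1-q) ≤ (q/2)(1 + log (2/q))`. -/
lemma H_one_sub_le {q : ℝ} (h0 : 0 < q) (h1 : q ≤ 1) :
    H (1 - q) ≤ q / 2 * (1 + log (2 / q)) := by
  rw [LB.H_eq]
  have e1 : 1 + (1 - q) = 2 - q := by ring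
  have e2 : 1 - (1 - q) = q := by ring
  rw [e1, e2, log_div (by norm_num) h0.ne']
  have k : log (2 / (2 - q)) ≤ 2 / (2 - q) - 1 := log_le_sub_one_of_pos (by
    apply div_pos <;> linarith)
  rw [log_div (by norm_num) (by linarith)] at k
  have h2 : 0 < 2 - q := by linarith
  have k2 : (2 - q) * (log 2 - log (2 - q)) ≤ q := by
    calc (2 - q) * (log 2 - log (2 - q)) ≤ (2 - q) * (2 / (2 - q) - 1) :=
          mul_le_mul_of_nonneg_left k h2.le
      _ = q := by field_simp; ring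
  nlinarith

/-- `η + η²/2 ≤ -log (1-η)`. -/
lemma neg_log_one_sub_ge {x : ℝ} (h0 : 0 ≤ x) (h1 : x < 1) :
    x + x ^ 2 / 2 ≤ -log (1 - x) := by
  have := Ind.nonneg_of_deriv (F := fun x => -log (1 - x) - (x + x ^ 2 / 2))
    (F' := fun x => 1 / (1 - x) - (1 + x)) (by simp)
    (by
      intro y hy0 hy1
      have a1 : HasDerivAt (fun y : ℝ => 1 - y) (-1) y := by
        simpa using (hasDerivAt_id y).const_sub 1
      have a2 := (a1.log (by linarith)).neg
      have a3 : HasDerivAt (fun y : ℝ => y + y ^ 2 / 2) (1 + y) y := by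
        have := (hasDerivAt_id y).add ((hasDerivAt_pow 2 y).div_const 2)
        refine this.congr_deriv ?_
        simp
      refine (a2.sub a3).congr_deriv ?_
      ring)
    (by
      intro y hy0 hy1
      have h3 : 0 < 1 - y := by linarith
      rw [sub_nonneg, le_div_iff₀ h3]
      nlinarith)
    h0 h1
  linarith

/-- `H (1-2η) ≥ η (1 - log η) - η²/2 - η³/2`. -/
lemma H_one_sub_two_ge {x : ℝ} (h0 : 0 < x) (h1 : x < 1) :
    x * (1 - log x) - x ^ 2 / 2 - x ^ 3 / 2 ≤ H (1 - 2 * x) := by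
  rw [LB.H_eq]
  have e1 : 1 + (1 - 2 * x) = 2 * (1 - x) := by ring
  have e2 : 1 - (1 - 2 * x) = 2 * x := by ring
  rw [e1, e2, log_mul (by norm_num) (by linarith), log_mul (by norm_num) h0.ne']
  have k := neg_log_one_sub_ge h0.le h1
  have k2 : (1 - x) * (x + x ^ 2 / 2) ≤ (1 - x) * (-log (1 - x)) :=
    mul_le_mul_of_nonneg_left k (by linarith)
  nlinarith

end Vale.Agent.P322.Hi
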