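import Vale.Agent.P322.HiE

/-!
# P322, `ρ ≥ 17/20`: reductions of the lower bound of `H(ρt)(H(ρt)-H t)/t²`
-/

namespace Vale.Agent.P322.Hi

open Real Set

lemma ath_pos {x : ℝ} (h0 : 0 < x) (h1 : x < 1) : 0 < Ind.ath x :=
  h0.trans_le (Ind.le_ath h0.le h1)

/-- `H(ρt) - H t ≥ (1-ρ²) t² ath(ρt)/(2ρt)`. -/
lemma D_ge {ρ t : ℝ} (h0 : 0 < ρ) (h1 : ρ < 1) (ht0 : 0 < t) (ht1 : t < 1) :
    (1 - ρ ^ 2) * t ^ 2 * (Ind.ath (ρ * t) / (2 * (ρ * t))) ≤ H (ρ * t) - H t := by
  set w := ρ * t with hw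
  have hw0 : 0 < w := by positivity
  have hwt : w < t := by rw [hw]; nlinarith
  set K := Ind.ath w / w with hK
  have hanti : AntitoneOn (fun s => H s + K * s ^ 2 / 2) (Icc w t) := by
    have hder : ∀ s ∈ Icc w t, HasDerivAt (fun s => H s + K * s ^ 2 / 2)
        (-Ind.ath s + K * s) s := by
      intro s hs
      have a1 := hasDerivAt_H' (x := s) (by linarith [hs.1]) (by linarith [hs.2])
      have a2 : HasDerivAt (fun s : ℝ => K * s ^ 2 / 2) (K * s) s := by
        have := ((hasDerivAt_pow 2 s).const_mul K).div_const 2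
        refine this.congr_deriv ?_
        simp; ring
      exact a1.add a2
    refine antitoneOn_of_deriv_nonpos (convex_Icc _ _) ?_ ?_ ?_
    · intro s hs; exact (hder s hs).continuousAt.continuousWithinAt
    · intro s hs
      rw [interior_Icc] at hs
      exact (hder s ⟨hs.1.le, hs.2.le⟩).differentiableAt.differentiableWithinAt
    · intro s hs
      rw [interior_Icc] at hs
      rw [(hder s ⟨hs.1.le, hs.2.le⟩).deriv]
      have hs0 : 0 < s := hw0.trans hs.1
      have k := Ind.ath_mul_le (r := w / s) (x := s) (by positivity)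
        (by rw [div_le_one hs0]; exact hs.1.le) hs0.le (by linarith [hs.2])
      have e1 : w / s * s = w := by field_simp
      rw [e1] at k
      have k2 : K * s ≤ Ind.ath s := by
        rw [hK]
        calc Ind.ath w / w * s ≤ (w / s * Ind.ath s) / w * s := by
              gcongr
          _ = Ind.ath s := by field_simp
      linarith
  have h := hanti (⟨le_rfl, hwt.le⟩ : w ∈ Icc w t) ⟨hwt.le, le_rfl⟩ hwt.le
  simp only at h
  have e2 : (1 - ρ ^ 2) * t ^ 2 * (Ind.ath w / (2 * w)) = K * t ^ 2 / 2 - K * w ^ 2 / 2 := by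
    rw [hK, hw]; ring
  rw [e2]; linarith

lemma H_le_ath {w : ℝ} (h0 : 0 < w) (h1 : w < 1) :
    H w ≤ (1 - w) * (Ind.ath w + 1 / (1 + w)) := by
  have e : H w = (1 - w) * Ind.ath w + log (2 / (1 + w)) := by
    rw [LB.H_eq, log_div (by norm_num) (by linarith)]
    unfold Ind.ath; ring
  have k : log (2 / (1 + w)) ≤ 2 / (1 + w) - 1 := log_le_sub_one_of_pos (by positivity)
  have e2 : 2 / (1 + w) - 1 = (1 - w) * (1 / (1 + w)) := by field_simp; ring
  rw [e]; rw [e2] at k; linarith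

/-- `H w * ath w / w` is antitone. -/
lemma Gam_anti {x y : ℝ} (h0 : 0 < x) (hxy : x ≤ y) (h1 : y < 1) :
    H y * Ind.ath y / y ≤ H x * Ind.ath x / x := by
  have hanti : AntitoneOn (fun w => H w * Ind.ath w / w) (Icc x y) := by
    have hder : ∀ s ∈ Icc x y, HasDerivAt (fun w => H w * Ind.ath w / w)
        (((-Ind.ath s * Ind.ath s + H s * (1 / (1 - s ^ 2))) * s - H s * Ind.ath s * 1) / s ^ 2)
        s := by
      intro s hs
      have hs0 : 0 < s := h0.trans_le hs.1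
      have hs1 : s < 1 := hs.2.trans_lt h1
      have a1 := hasDerivAt_H' (x := s) (by linarith) hs1
      have a2 := Ind.ath_hasDerivAt (x := s) (by linarith) hs1
      exact (a1.mul a2).div (hasDerivAt_id s) (by simpa using hs0.ne')
    refine antitoneOn_of_deriv_nonpos (convex_Icc _ _) ?_ ?_ ?_
    · intro s hs; exact (hder s hs).continuousAt.continuousWithinAt
    · intro s hs
      rw [interior_Icc] at hs
      exact (hder s ⟨hs.1.le, hs.2.le⟩).differentiableAt.differentiableWithinAt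
    · intro s hs
      rw [interior_Icc] at hs
      rw [(hder s ⟨hs.1.le, hs.2.le⟩).deriv]
      have hs0 : 0 < s := h0.trans hs.1
      have hs1 : s < 1 := hs.2.trans h1
      apply div_nonpos_of_nonpos_of_nonneg _ (by positivity)
      have hA := Ind.le_ath hs0.le hs1
      have hA0 : 0 < Ind.ath s := ath_pos hs0 hs1
      have hH := H_le_ath hs0 hs1
      have hH0 : 0 ≤ H s := LB.H_nonneg (by linarith) hs1.le
      set A := Ind.ath s
      have q1 : 0 < 1 - s := by linarith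
      have q2 : 0 < 1 + s := by linarith
      have e1 : (1 - s ^ 2) = (1 - s) * (1 + s) := by ring
      rw [e1]
      -- `H * (s/((1-s)(1+s)) - A) ≤ s * A^2`
      have m1 : s / ((1 - s) * (1 + s)) - A ≤ s ^ 3 / ((1 - s) * (1 + s)) := by
        have : s / ((1 - s) * (1 + s)) - s = s ^ 3 / ((1 - s) * (1 + s)) := by
          field_simp; ring
        linarith
      have m2 : H s * (s / ((1 - s) * (1 + s)) - A) ≤ H s * (s ^ 3 / ((1 - s) * (1 + s))) :=
        mul_le_mul_of_nonneg_left m1 hH0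
      have m3 : H s * (s ^ 3 / ((1 - s) * (1 + s)))
          ≤ ((1 - s) * (A + 1 / (1 + s))) * (s ^ 3 / ((1 - s) * (1 + s))) :=
        mul_le_mul_of_nonneg_right hH (by positivity)
      have m4 : ((1 - s) * (A + 1 / (1 + s))) * (s ^ 3 / ((1 - s) * (1 + s)))
          = (A + 1 / (1 + s)) * s ^ 3 / (1 + s) := by field_simp
      have m5 : (A + 1 / (1 + s)) * s ^ 3 / (1 + s) ≤ s * A ^ 2 := by
        rw [div_le_iff₀ q2]
        have m6 : s ^ 2 * (A + 1 / (1 + s)) ≤ (1 + s) * A ^ 2 := by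
          have m7 : s ^ 2 * (1 / (1 + s)) ≤ s * A := by
            have : 1 / (1 + s) ≤ 1 := by rw [div_le_one q2]; linarith
            nlinarith [mul_pos hs0 hs0, mul_pos hs0 hA0]
          have m8 : s * s ≤ s * A := by gcongr
          nlinarith [mul_pos hs0 hA0, mul_self_nonneg (A - s)]
        nlinarith
      have e3 : (-A * A + H s * (1 / ((1 - s) * (1 + s)))) * s - H s * A * 1
          = H s * (s / ((1 - s) * (1 + s)) - A) - s * A ^ 2 := by
        field_simp; ring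
      rw [e3]
      linarith
  exact hanti ⟨le_rfl, hxy⟩ ⟨hxy, le_rfl⟩ hxy

/-- the range `t ≤ ρ` from the value at `t = ρ` -/
theorem Om_of_I3 {ρ t : ℝ} (h0 : 0 < ρ) (h1 : ρ < 1) (ht0 : 0 < t) (ht1 : t ≤ ρ) {c : ℝ}
    (hI3 : c ≤ (1 - ρ ^ 2) * (H (ρ ^ 2) * Ind.ath (ρ ^ 2) / ρ ^ 2) / 2) :
    c ≤ H (ρ * t) * (H (ρ * t) - H t) / t ^ 2 := by
  have hw0 : 0 < ρ * t := by positivity
  have hw1 : ρ * t ≤ ρ ^ 2 := by nlinarith
  have hr1 : ρ ^ 2 < 1 := by nlinarith
  have he : 0 < 1 - ρ ^ 2 := by linarith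
  have hD := D_ge h0 h1 ht0 (ht1.trans_lt h1)
  have hG := Gam_anti hw0 hw1 hr1
  have hH : 0 < H (ρ * t) := LB.H_pos (by linarith) (by linarith)
  refine hI3.trans ?_
  have k1 : (1 - ρ ^ 2) * (H (ρ ^ 2) * Ind.ath (ρ ^ 2) / ρ ^ 2) / 2
      ≤ (1 - ρ ^ 2) * (H (ρ * t) * Ind.ath (ρ * t) / (ρ * t)) / 2 := by
    have := mul_le_mul_of_nonneg_left hG he.le
    linarith
  refine k1.trans ?_
  have ht2 : 0 < t ^ 2 := by positivity
  rw [le_div_iff₀ ht2]
  have k2 := mul_le_mul_of_nonneg_left hD hH.le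
  have e : H (ρ * t) * ((1 - ρ ^ 2) * t ^ 2 * (Ind.ath (ρ * t) / (2 * (ρ * t))))
      = (1 - ρ ^ 2) * (H (ρ * t) * Ind.ath (ρ * t) / (ρ * t)) / 2 * t ^ 2 := by
    field_simp
  rw [e] at k2
  exact k2

/-- the inequality in the range `(1-ρ²)/8 ≤ q ≤ 1-ρ` -/
noncomputable def f2 (ρ q : ℝ) : ℝ :=
  BB ρ q + log 2 * cc * (1 - q) * (1 - ρ ^ 2) / (20 * q)
    - (1 - log 2 - log (q / (1 - ρ ^ 2)) + ρ ^ 2 * q / (1 - ρ ^ 2)) / 2
      * (1 + BB ρ q * q / (H ρ * (1 - q)))

theorem Om_of_f2 {ρ q : ℝ} (h0 : 0 < ρ) (h1 : ρ < 1) (hq0 : 0 < q) (hq1 : q < 1)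
    (hB : 0 < BB ρ q) (hf : 0 ≤ f2 ρ q)
    (hpos : q / 2 * (1 + log (2 / q)) ≤ SS ρ q) :
    (1 - vv ρ * log 2 / 20) * H ρ ^ 2
      ≤ H (ρ * (1 - q)) * (H (ρ * (1 - q)) - H (1 - q)) / (1 - q) ^ 2 := by
  have he : 0 < 1 - ρ ^ 2 := by nlinarith
  have hk : 0 < H ρ := H_pos' h0 h1
  have hcc : 0 < cc := by unfold cc; norm_num
  have hS := SS_le h0 h1 hq0.le hq1.le
  have hh := H_one_sub_le hq0 hq1.le
  have ht : 0 < 1 - q := by linarith
  rw [le_div_iff₀ (by positivity)]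
  set hb := q / 2 * (1 + log (2 / q)) with hhb
  have hhb0 : 0 ≤ hb := (LB.H_nonneg (by linarith) (by linarith)).trans hh
  have hS0 : 0 ≤ SS ρ q := hhb0.trans hpos
  have k1 : SS ρ q * (SS ρ q - hb) ≤ H (ρ * (1 - q)) * (H (ρ * (1 - q)) - H (1 - q)) := by
    apply mul_le_mul hS (by linarith) (by linarith) (hS0.trans hS)
  refine le_trans ?_ k1
  have hN : NN ρ q = BB ρ q * q := NN_eq_BB ρ q
  set B := BB ρ q with hBdef
  set κ := H ρ with hκ
  set e := 1 - ρ ^ 2 with hedef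
  set l := log 2 with hl
  set v := vv ρ with hv
  have hvdef : v = cc * e / κ := rfl
  have hv0 : 0 < v := by rw [hvdef]; positivity
  have hvk : v * κ = cc * e := by rw [hvdef]; field_simp
  have elq : log (2 / q) = l - log q := log_div (by norm_num) hq0.ne'
  have hσ : log (q / e) = log q - log e := log_div hq0.ne' he.ne'
  have hloge : log e = 2 * l - 2 * L ρ := by
    unfold L; rw [← hl, ← hedef]; ring
  have hSe : SS ρ q = κ * (1 - q) + B * q := by unfold SS; rw [hN]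
  unfold f2 at hf
  rw [← hBdef, ← hl, ← hedef, hσ, ← hκ] at hf
  rw [hSe, hhb, elq]
  -- express through `G = 1 - l - log σ + ρ² σ`
  set Gs := 1 - l - (log q - log e) + ρ ^ 2 * q / e with hGs
  have hBL : B = L ρ - ρ ^ 2 * q / (2 * e) := rfl
  have e1 : 1 + (l - log q) = 2 * B + Gs := by
    have : ρ ^ 2 * q / (2 * e) = ρ ^ 2 * q / e / 2 := by ring
    rw [hBL, hGs, hloge, this]; ring_nf
  rw [e1]
  have e2 : (κ * (1 - q) + B * q) * (κ * (1 - q) + B * q - q / 2 * (2 * B + Gs))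
      = κ ^ 2 * (1 - q) ^ 2 + κ * (1 - q) * q * (B - Gs / 2 * (1 + B * q / (κ * (1 - q)))) := by
    field_simp
    ring
  rw [e2]
  have e3 : (1 - v * l / 20) * κ ^ 2 * (1 - q) ^ 2
      = κ ^ 2 * (1 - q) ^ 2 - κ * (1 - q) * q * (l * cc * (1 - q) * e / (20 * q)) := by
    have : (1 - v * l / 20) * κ ^ 2 * (1 - q) ^ 2
        = κ ^ 2 * (1 - q) ^ 2 - (v * κ) * l / 20 * κ * (1 - q) ^ 2 := by ring
    rw [this, hvk]
    field_simp
  rw [e3]
  have k2 : 0 ≤ κ * (1 - q) * q * (B + l * cc * (1 - q) * e / (20 * q)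
      - Gs / 2 * (1 + B * q / (κ * (1 - q)))) := mul_nonneg (by positivity) hf
  nlinarith

end Vale.Agent.P322.Hi
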