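import Vale.Agent.P322.HiOm

/-!
# P322, `ρ ≥ 17/20`: numerical facts on the parameters
-/

namespace Vale.Agent.P322.Hi

open Real Set

lemma log_num : log (111 / 400 : ℝ) ≤ -12819 / 10000 := by
  have h := Real.abs_log_sub_add_sum_range_le (x := (11:ℝ) / 111) (by rw [abs_of_pos] <;> norm_num) 4
  have e : (1 : ℝ) - 11 / 111 = 100 / 111 := by norm_num
  rw [e, abs_of_pos (show (0:ℝ) < 11 / 111 by norm_num), abs_le] at h
  have h1 := h.1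
  norm_num [Finset.sum_range_succ] at h1
  have e2 : log (111 / 400 : ℝ) = -(2 * log 2) - log (100 / 111) := by
    rw [show (111 / 400 : ℝ) = (100 / 111)⁻¹ * (2 ^ 2)⁻¹ by norm_num,
      log_mul (by norm_num) (by norm_num), log_inv, log_inv, log_pow]
    push_cast; ring
  rw [e2]
  have := Real.log_two_gt_d9
  linarith

lemma L_ge {ρ : ℝ} (h0 : 17 / 20 ≤ ρ) (h1 : ρ < 1) :
    1334 / 1000 + (ρ ^ 2 - 289 / 400) / (555 / 1000) ≤ L ρ := by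
  have he : 0 < 1 - ρ ^ 2 := by nlinarith
  unfold L
  have k : log ((1 - ρ ^ 2) / (111 / 400)) ≤ (1 - ρ ^ 2) / (111 / 400) - 1 :=
    log_le_sub_one_of_pos (by positivity)
  rw [log_div he.ne' (by norm_num)] at k
  have := log_num
  have := Real.log_two_gt_d9
  linarith

lemma kap_ge {ρ : ℝ} (h0 : 0 < ρ) (h1 : ρ < 1) :
    (1 - ρ) * (L ρ + ρ * (1 / 2 + (1 - ρ) / 8)) ≤ H ρ := by
  rw [H_eq_L (by linarith) h1]
  have k := neg_log_one_sub_ge (x := (1 - ρ) / 2) (by linarith) (by linarith)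
  have e : 1 - (1 - ρ) / 2 = (1 + ρ) / 2 := by ring
  rw [e, log_div (by linarith) (by norm_num)] at k
  rw [log_div (by norm_num) (by linarith)]
  have k2 := mul_le_mul_of_nonneg_left k h0.le
  nlinarith

lemma kap_le {ρ : ℝ} (h0 : 0 < ρ) (h1 : ρ < 1) :
    H ρ ≤ (1 - ρ) * (L ρ + 1 / 2 - 3 * (1 - ρ) / 8) := by
  rw [H_eq_L (by linarith) h1]
  have hy0 : 0 < (1 - ρ) / 2 := by linarith
  have hy1 : (1 - ρ) / 2 < 1 := by linarith
  have h := Real.abs_log_sub_add_sum_range_le (x := (1 - ρ) / 2)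
    (by rw [abs_of_pos hy0]; exact hy1) 2
  have e : 1 - (1 - ρ) / 2 = (1 + ρ) / 2 := by ring
  rw [e, abs_of_pos hy0, abs_le, e, log_div (by linarith) (by norm_num)] at h
  have h1' := h.1
  simp only [Finset.sum_range_succ, Finset.sum_range_zero] at h1'
  norm_num at h1'
  rw [log_div (by norm_num) (by linarith)]
  have e3 : ((1 - ρ) / 2) ^ 3 / ((1 + ρ) / 2) = (1 - ρ) ^ 3 / (4 * (1 + ρ)) := by
    field_simp; ring
  rw [e3] at h1'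
  have h4 : (1 - ρ) ^ 3 / (4 * (1 + ρ)) * ρ ≤ (1 - ρ) ^ 3 / 8 := by
    have h5 : ρ / (1 + ρ) ≤ 1 / 2 := by rw [div_le_iff₀ (by linarith)]; linarith
    have h6 : (1 - ρ) ^ 3 / (4 * (1 + ρ)) * ρ = (1 - ρ) ^ 3 / 4 * (ρ / (1 + ρ)) := by
      field_simp
    rw [h6]
    have h7 : 0 ≤ (1 - ρ) ^ 3 / 4 := by
      have : 0 < 1 - ρ := by linarith
      positivity
    nlinarith
  nlinarith [mul_le_mul_of_nonneg_left h1' h0.le]


/-- `κ ≥ e (L + 1/2 - 3d/8 - d²/8)/(2-d)`, written without division -/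
lemma kap_ge' {ρ : ℝ} (h0 : 0 < ρ) (h1 : ρ < 1) :
    (1 - ρ ^ 2) * (L ρ + 1 / 2 - 3 * (1 - ρ) / 8 - (1 - ρ) ^ 2 / 8) ≤ (1 + ρ) * H ρ := by
  have := mul_le_mul_of_nonneg_left (kap_ge h0 h1) (show 0 ≤ 1 + ρ by linarith)
  nlinarith

lemma kap_le' {ρ : ℝ} (h0 : 0 < ρ) (h1 : ρ < 1) :
    (1 + ρ) * H ρ ≤ (1 - ρ ^ 2) * (L ρ + 1 / 2 - 3 * (1 - ρ) / 8) := by
  have := mul_le_mul_of_nonneg_left (kap_le h0 h1) (show 0 ≤ 1 + ρ by linarith)
  nlinarith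

/-- `κ ≥ .9577 e` -/
lemma kap_ge_e {ρ : ℝ} (h0 : 17 / 20 ≤ ρ) (h1 : ρ < 1) :
    725 / 757 * (1 - ρ ^ 2) ≤ H ρ := by
  have hL := L_ge h0 h1
  have hk := kap_ge' (by linarith) h1
  have he : 0 < 1 - ρ ^ 2 := by nlinarith
  have k : 725 / 757 * (1 + ρ) ≤ L ρ + 1 / 2 - 3 * (1 - ρ) / 8 - (1 - ρ) ^ 2 / 8 := by
    nlinarith [mul_nonneg (sub_nonneg.2 h0) (sub_nonneg.2 h1.le)]
  have k2 := mul_le_mul_of_nonneg_left k he.le
  have hp : 0 < 1 + ρ := by linarith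
  nlinarith

lemma vv_pos {ρ : ℝ} (h0 : 17 / 20 ≤ ρ) (h1 : ρ < 1) : 0 < vv ρ := by
  have he : 0 < 1 - ρ ^ 2 := by nlinarith
  have := H_pos' (by linarith) h1
  unfold vv cc; positivity

lemma vv_le {ρ : ℝ} (h0 : 17 / 20 ≤ ρ) (h1 : ρ < 1) : vv ρ ≤ 757 / 1000 := by
  have := H_pos' (by linarith) h1
  have := kap_ge_e h0 h1
  unfold vv cc
  rw [div_le_iff₀ (by assumption)]
  linarith

/-- `v L ≥ 1` -/
lemma vL_ge {ρ : ℝ} (h0 : 17 / 20 ≤ ρ) (h1 : ρ < 1) : 1 ≤ vv ρ * L ρ := by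
  have hL := L_ge h0 h1
  have hk := kap_le' (by linarith) h1
  have he : 0 < 1 - ρ ^ 2 := by nlinarith
  have hH := H_pos' (by linarith) h1
  unfold vv cc
  rw [div_mul_eq_mul_div, le_div_iff₀ hH, one_mul]
  have hp : 0 < 1 + ρ := by linarith
  have k : L ρ + 1 / 2 - 3 * (1 - ρ) / 8 ≤ 29 / 40 * (1 + ρ) * L ρ := by
    nlinarith [mul_nonneg (sub_nonneg.2 h0) (sub_nonneg.2 h1.le), mul_nonneg (sub_nonneg.2 h0) (sub_nonneg.2 h0)]
  have k2 := mul_le_mul_of_nonneg_left k he.le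
  have k3 : (1 + ρ) * H ρ ≤ (1 + ρ) * (29 / 40 * (1 - ρ ^ 2) * L ρ) := by nlinarith
  exact le_of_mul_le_mul_left k3 hp

/-- upper bound of `v L` -/
lemma vL_le {ρ : ℝ} (h0 : 17 / 20 ≤ ρ) (h1 : ρ < 1) :
    vv ρ * L ρ ≤ 2017 / 2000 + 366 / 1000 * (L ρ - 1334 / 1000) := by
  have hL := L_ge h0 h1
  have hk := kap_ge' (by linarith) h1
  have he : 0 < 1 - ρ ^ 2 := by nlinarith
  have hH := H_pos' (by linarith) h1
  unfold vv cc
  rw [div_mul_eq_mul_div, div_le_iff₀ hH]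
  have hp : 0 < 1 + ρ := by linarith
  set s := L ρ - 1334 / 1000 with hs
  have hLs : L ρ = s + 1334 / 1000 := by rw [hs]; ring
  rw [hLs] at hL hk ⊢
  have hw0 : 0 ≤ ρ - 17 / 20 := by linarith
  have hz : (17 / 10) * (ρ - 17 / 20) ≤ ρ ^ 2 - 289 / 400 := by nlinarith
  have hs1 : 306 / 100 * (ρ - 17 / 20) ≤ s := by
    nlinarith
  have hs0 : 0 ≤ s := by nlinarith
  have k : 29 / 40 * (1 + ρ) * (s + 1334 / 1000) ≤ (2017 / 2000 + 366 / 1000 * s) *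
      (s + 1334 / 1000 + 1 / 2 - 3 * (1 - ρ) / 8 - (1 - ρ) ^ 2 / 8) := by
    have k1 : (17749 / 10000 : ℝ) ≤ 1334 / 1000 + 1 / 2 - 3 * (1 - ρ) / 8 - (1 - ρ) ^ 2 / 8 := by
      nlinarith
    have k2 : (2017 / 2000 + 366 / 1000 * s) * (17749 / 10000 + s) ≤
      (2017 / 2000 + 366 / 1000 * s) *
      (s + 1334 / 1000 + 1 / 2 - 3 * (1 - ρ) / 8 - (1 - ρ) ^ 2 / 8) := by
      apply mul_le_mul_of_nonneg_left _ (by positivity)
      linarith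
    refine le_trans ?_ k2
    nlinarith [mul_le_mul_of_nonneg_right hs1 hs0]
  have k2 := mul_le_mul_of_nonneg_left k he.le
  have hY : 0 ≤ 2017 / 2000 + 366 / 1000 * s := by positivity
  have k4 := mul_le_mul_of_nonneg_left hk hY
  have k3 : (1 + ρ) * (29 / 40 * (1 - ρ ^ 2) * (s + 1334 / 1000))
      ≤ (1 + ρ) * ((2017 / 2000 + 366 / 1000 * s) * H ρ) := by
    linarith
  exact le_of_mul_le_mul_left k3 hp

/-- `v L ≤ 1.45` -/
lemma vL_le2 {ρ : ℝ} (h0 : 17 / 20 ≤ ρ) (h1 : ρ < 1) : vv ρ * L ρ ≤ 29 / 20 := by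
  have hL := L_ge h0 h1
  have hk := kap_ge' (by linarith) h1
  have he : 0 < 1 - ρ ^ 2 := by nlinarith
  have hH := H_pos' (by linarith) h1
  unfold vv cc
  rw [div_mul_eq_mul_div, div_le_iff₀ hH]
  have hp : 0 < 1 + ρ := by linarith
  have hL0 : 0 < L ρ := by nlinarith
  have k : L ρ ≤ L ρ + 1 / 2 - 3 * (1 - ρ) / 8 - (1 - ρ) ^ 2 / 8 := by nlinarith
  have k2 := mul_le_mul_of_nonneg_left k he.le
  have k3 : (1 - ρ ^ 2) * L ρ ≤ 2 * H ρ := by nlinarith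
  linarith

end Vale.Agent.P322.Hi
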