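import Vale.Agent.P322.HiN

/-!
# P322, `ρ ≥ 17/20`: the Jensen gap `Psi`
-/

namespace Vale.Agent.P322.Hi

open Real Set

lemma Psi_eq {m d : ℝ} (h1 : -1 < m) (h2 : m < 1) :
    Psi m d = ((1 + m) * psi (d / (1 + m)) + (1 - m) * psi (d / (1 - m))) / 2 :=
  LB.phi_eq h1 h2

lemma psi_one : psi 1 = log 2 := by unfold psi; rw [LB.H_one]; ring

/-- At fixed `d`, the gap is largest at the boundary `m = 1 - d`. -/
lemma Psi_le_boundary {m d : ℝ} (hm : 0 ≤ m) (hd : 0 < d) (hmd : m + d ≤ 1) :
    Psi m d ≤ Psi (1 - d) d := by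
  have hmono : MonotoneOn (fun m => Psi m d) (Icc 0 (1 - d)) := by
    refine monotoneOn_of_deriv_nonneg (convex_Icc _ _) ?_ ?_ ?_
    · unfold Psi
      refine Continuous.continuousOn ?_
      exact LB.H_continuous.sub (((LB.H_continuous.comp (by fun_prop)).add
        (LB.H_continuous.comp (by fun_prop))).div_const 2)
    · intro x hx
      rw [interior_Icc] at hx
      have e : HasDerivAt (fun m => Psi m d)
          (-Ind.ath x - (-Ind.ath (x + d) + -Ind.ath (x - d)) / 2) x := by
        have a1 := hasDerivAt_H' (x := x) (by linarith [hx.1]) (by linarith [hx.2])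
        have a2 := (hasDerivAt_H' (x := x + d) (by linarith [hx.1]) (by linarith [hx.2])).comp_add_const x d
        have a3 := (hasDerivAt_H' (x := x - d) (by linarith [hx.1]) (by linarith [hx.2])).comp_sub_const x d
        exact a1.sub ((a2.add a3).div_const 2)
      exact e.differentiableAt.differentiableWithinAt
    · intro x hx
      rw [interior_Icc] at hx
      have e : HasDerivAt (fun m => Psi m d)
          (-Ind.ath x - (-Ind.ath (x + d) + -Ind.ath (x - d)) / 2) x := by
        have a1 := hasDerivAt_H' (x := x) (by linarith [hx.1]) (by linarith [hx.2])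
        have a2 := (hasDerivAt_H' (x := x + d) (by linarith [hx.1]) (by linarith [hx.2])).comp_add_const x d
        have a3 := (hasDerivAt_H' (x := x - d) (by linarith [hx.1]) (by linarith [hx.2])).comp_sub_const x d
        exact a1.sub ((a2.add a3).div_const 2)
      rw [e.deriv]
      unfold Ind.ath
      have hx0 := hx.1
      have hx1 := hx.2
      have p1 : 0 < 1 + x := by linarith
      have p2 : 0 < 1 - x := by linarith
      have p3 : 0 < 1 + (x + d) := by linarith
      have p4 : 0 < 1 - (x + d) := by linarith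
      have p5 : 0 < 1 + (x - d) := by linarith
      have p6 : 0 < 1 - (x - d) := by linarith
      have key : log ((1 - (x + d)) * (1 - (x - d)) * ((1 + x) * (1 + x)))
          ≤ log ((1 + (x + d)) * (1 + (x - d)) * ((1 - x) * (1 - x))) := by
        apply log_le_log (by positivity)
        nlinarith [mul_pos hd hd]
      rw [log_mul (by positivity) (by positivity), log_mul p4.ne' p6.ne', log_mul p1.ne' p1.ne',
        log_mul (by positivity) (by positivity), log_mul p3.ne' p5.ne', log_mul p2.ne' p2.ne'] at key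
      linarith
  exact hmono ⟨hm, by linarith⟩ ⟨by linarith, le_rfl⟩ (by linarith)

lemma Psi_boundary_div {d : ℝ} (h0 : 0 < d) (h1 : d ≤ 1) :
    Psi (1 - d) d / d = (psi (d / (2 - d)) / (d / (2 - d)) + log 2) / 2 := by
  rw [Psi_eq (by linarith) (by linarith)]
  have e1 : 1 + (1 - d) = 2 - d := by ring
  have e2 : 1 - (1 - d) = d := by ring
  rw [e1, e2, div_self h0.ne', psi_one]
  have h2 : 2 - d ≠ 0 := by linarith
  field_simp

/-- The normalised boundary gap increases with `d`. -/
lemma Psi_ratio_mono {d d' : ℝ} (h0 : 0 < d) (h : d ≤ d') (h1 : d' ≤ 1) :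
    Psi (1 - d) d / d ≤ Psi (1 - d') d' / d' := by
  rw [Psi_boundary_div h0 (h.trans h1), Psi_boundary_div (h0.trans_le h) h1]
  have k : d / (2 - d) ≤ d' / (2 - d') := by
    rw [div_le_div_iff₀ (by linarith) (by linarith)]; nlinarith
  have k0 : 0 < d / (2 - d) := div_pos h0 (by linarith)
  have k1 : d' / (2 - d') ≤ 1 := by rw [div_le_one (by linarith)]; linarith
  have := LB.Q_mono (⟨k0, k.trans k1⟩ : d / (2 - d) ∈ Ioc (0:ℝ) 1) ⟨k0.trans_le k, k1⟩ k
  simp only at this
  linarith

/-- Sixth-order upper bound for `psi`. -/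
lemma psi_le_six {x : ℝ} (h0 : 0 ≤ x) (h1 : x ≤ 1) :
    psi x ≤ x ^ 2 / 2 + x ^ 4 / 12 + (log 2 - 7 / 12) * x ^ 6 := by
  rcases h0.eq_or_lt with rfl | h0
  · rw [LB.psi_eq]; simp
  -- second auxiliary function
  have hM1 : ∀ y : ℝ, 0 ≤ y → y < 1 →
      0 ≤ y * (1 / (1 - y ^ 2) - 1 - y ^ 2) - 5 * (Ind.ath y - y - y ^ 3 / 3) := by
    intro y hy0 hy1
    refine Ind.nonneg_of_deriv
      (F := fun y => y * (1 / (1 - y ^ 2) - 1 - y ^ 2) - 5 * (Ind.ath y - y - y ^ 3 / 3))
      (F' := fun y => 2 * y ^ 6 / (1 - y ^ 2) ^ 2) (by simp [Ind.ath_zero]) ?_ ?_ hy0 hy1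
    · intro z hz0 hz1
      have hz2 : 1 - z ^ 2 ≠ 0 := by
        have : 0 < (1 - z) * (1 + z) := by apply mul_pos <;> linarith
        nlinarith
      have b1 : HasDerivAt (fun y : ℝ => 1 - y ^ 2) (-(2 * z)) z := by
        simpa using (hasDerivAt_pow 2 z).const_sub 1
      have b2 : HasDerivAt (fun y : ℝ => 1 / (1 - y ^ 2)) (2 * z / (1 - z ^ 2) ^ 2) z := by
        have := (hasDerivAt_const z (1:ℝ)).div b1 hz2
        refine this.congr_deriv ?_
        ring
      have b3 : HasDerivAt (fun y : ℝ => y ^ 2) (2 * z) z := by simpa using hasDerivAt_pow 2 z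
      have b4 : HasDerivAt (fun y : ℝ => y ^ 3 / 3) (z ^ 2) z := by
        have := (hasDerivAt_pow 3 z).div_const 3
        refine this.congr_deriv ?_
        simp
      have b5 := (Ind.ath_hasDerivAt (x := z) (by linarith) hz1)
      have c1 := (hasDerivAt_id z).mul ((b2.sub_const 1).sub b3)
      have c2 := ((b5.sub (hasDerivAt_id z)).sub b4).const_mul 5
      refine (c1.sub c2).congr_deriv ?_
      simp only [id, Pi.sub_apply]
      field_simp
      ring
    · intro z hz0 hz1
      positivity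
  have hM : ∀ y : ℝ, 0 ≤ y → y < 1 →
      0 ≤ y * (Ind.ath y - y - y ^ 3 / 3) - 6 * (psi y - y ^ 2 / 2 - y ^ 4 / 12) := by
    intro y hy0 hy1
    refine Ind.nonneg_of_deriv
      (F := fun y => y * (Ind.ath y - y - y ^ 3 / 3) - 6 * (psi y - y ^ 2 / 2 - y ^ 4 / 12))
      (F' := fun y => y * (1 / (1 - y ^ 2) - 1 - y ^ 2) - 5 * (Ind.ath y - y - y ^ 3 / 3))
      (by simp [Ind.ath_zero, Ind.psi_zero]) ?_ hM1 hy0 hy1
    intro z hz0 hz1
    have b2 : HasDerivAt (fun y : ℝ => y ^ 2 / 2) z z := by
      have := (hasDerivAt_pow 2 z).div_const 2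
      refine this.congr_deriv ?_
      simp
    have b3 : HasDerivAt (fun y : ℝ => y ^ 4 / 12) (z ^ 3 / 3) z := by
      have := (hasDerivAt_pow 4 z).div_const 12
      refine this.congr_deriv ?_
      ring
    have b4 : HasDerivAt (fun y : ℝ => y ^ 3 / 3) (z ^ 2) z := by
      have := (hasDerivAt_pow 3 z).div_const 3
      refine this.congr_deriv ?_
      simp
    have b5 := (Ind.ath_hasDerivAt (x := z) (by linarith) hz1)
    have b6 := (Ind.psi_hasDerivAt' (x := z) (by linarith) hz1)
    have c1 := (hasDerivAt_id z).mul ((b5.sub (hasDerivAt_id z)).sub b4)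
    have c2 := ((b6.sub b2).sub b3).const_mul 6
    refine (c1.sub c2).congr_deriv ?_
    simp only [id, Pi.sub_apply]
    ring
  have hmono : MonotoneOn (fun y => (psi y - y ^ 2 / 2 - y ^ 4 / 12) / y ^ 6) (Ioc (0:ℝ) 1) := by
    have hder : ∀ z ∈ Ioo (0:ℝ) 1, HasDerivAt (fun y => (psi y - y ^ 2 / 2 - y ^ 4 / 12) / y ^ 6)
        ((z * (Ind.ath z - z - z ^ 3 / 3) - 6 * (psi z - z ^ 2 / 2 - z ^ 4 / 12)) / z ^ 7) z := by
      intro z hz
      have hz0 : z ≠ 0 := hz.1.ne'
      have b2 : HasDerivAt (fun y : ℝ => y ^ 2 / 2) z z := by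
        have := (hasDerivAt_pow 2 z).div_const 2
        refine this.congr_deriv ?_
        simp
      have b3 : HasDerivAt (fun y : ℝ => y ^ 4 / 12) (z ^ 3 / 3) z := by
        have := (hasDerivAt_pow 4 z).div_const 12
        refine this.congr_deriv ?_
        ring
      have b6 := (Ind.psi_hasDerivAt' (x := z) (by linarith [hz.1]) hz.2)
      have b7 : HasDerivAt (fun y : ℝ => y ^ 6) (6 * z ^ 5) z := by
        simpa using hasDerivAt_pow 6 z
      have c := ((b6.sub b2).sub b3).div b7 (by positivity)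
      refine c.congr_deriv ?_
      simp only [Pi.sub_apply]
      field_simp
    refine monotoneOn_of_deriv_nonneg (convex_Ioc _ _) ?_ ?_ ?_
    · intro y hy
      have : y ^ 6 ≠ 0 := by have := hy.1; positivity
      refine ContinuousAt.continuousWithinAt ?_
      refine ContinuousAt.div ?_ (by fun_prop) this
      exact ((LB.psi_continuous.continuousAt).sub (by fun_prop)).sub (by fun_prop)
    · intro y hy
      rw [interior_Ioc] at hy
      exact (hder y hy).differentiableAt.differentiableWithinAt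
    · intro y hy
      rw [interior_Ioc] at hy
      rw [(hder y hy).deriv]
      have := hM y hy.1.le hy.2
      have h7 : 0 < y ^ 7 := by have := hy.1; positivity
      exact div_nonneg this h7.le
  have h := hmono ⟨h0, h1⟩ (⟨one_pos, le_rfl⟩ : (1:ℝ) ∈ Ioc (0:ℝ) 1) h1
  simp only [psi_one] at h
  have h6 : 0 < x ^ 6 := by positivity
  rw [div_le_iff₀ h6] at h
  nlinarith

lemma psi_le_sq {x : ℝ} (h0 : 0 ≤ x) (h1 : x ≤ 1) : psi x ≤ log 2 * x ^ 2 := by
  have := LB.H_ge h0 h1
  unfold psi
  linarith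

end Vale.Agent.P322.Hi
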