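import Vale.Agent.P322.HiDefs

namespace Vale.Agent.P322.Hi

open Real

lemma gH_neg (ρ x : ℝ) : gH ρ (-x) = gH ρ x := by
  unfold gH; rw [LB.H_neg]; ring

lemma gH_continuous (ρ : ℝ) : Continuous (gH ρ) := by
  unfold gH
  exact (continuous_const.mul LB.H_continuous).add (by fun_prop)

lemma gH_one (ρ : ℝ) : gH ρ 1 = 0 := by
  unfold gH; rw [LB.H_one]; ring

/-- Jensen gap of the potential. -/
lemma gH_gap (ρ m d : ℝ) : gH ρ m - (gH ρ (m + d) + gH ρ (m - d)) / 2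
    = cc * (1 - ρ ^ 2) * Psi m d + (H ρ - cc * (1 - ρ ^ 2) * log 2) * d ^ 2 := by
  unfold gH Psi; ring

/-- The certificate from one value of `t`. -/
theorem certB_of {ρ a b t : ℝ} (h0 : 0 < ρ) (h1 : ρ < 1) (hab : a < b) (ht0 : 0 < t)
    (ht1 : t < 1) (hφ : gH ρ ((a + b) / 2) ≤ (b - a) / 2 * (H (ρ * t) / t))
    (hD : gH ρ ((a + b) / 2) - (gH ρ a + gH ρ b) / 2 ≤ (b - a) / 2 * ((H (ρ * t) - H t) / t)) :
    CertB ρ (gH ρ) a b := by
  refine ⟨t, ht0, ht1, ?_⟩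
  have l0 := lamB_nonneg h0.le h1.le ht0 ht1
  have l1 := lamB_le_one h0.le h1.le ht0 ht1
  have e1 : gH ρ a ≤ Ind.gt ρ (gH ρ) a := le_max_left _ _
  have e2 : gH ρ b ≤ Ind.gt ρ (gH ρ) b := le_max_left _ _
  set s := (Ind.gt ρ (gH ρ) a + Ind.gt ρ (gH ρ) b) / 2 with hs
  set lam := lamB ρ t
  have e3 : (H (ρ * t) - lam * H t) / t * ((b - a) / 2)
      = (b - a) / 2 * (H (ρ * t) / t) - lam * ((b - a) / 2 * (H t / t)) := by
    field_simp
  have e4 : (b - a) / 2 * ((H (ρ * t) - H t) / t)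
      = (b - a) / 2 * (H (ρ * t) / t) - (b - a) / 2 * (H t / t) := by
    field_simp
  rw [e3]
  rw [e4] at hD
  rcases le_total ((b - a) / 2 * (H t / t)) s with h | h
  · nlinarith
  · nlinarith

end Vale.Agent.P322.Hi
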