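import Vale.Agent.P322.Ind1

/-!
# P322: the induction on the number of bits

The scalar hypothesis is `TwoPoint ρ g`; the conclusion is `induct`:
`E H (T f) ≥ max (g (E f)) ((1-ρ²) H (E f))` for every sign-valued `f` on `Fin n → ℤˣ`.
-/

namespace Vale.Agent.P322.Ind

open Real Finset Filter Topology

/-- The potential with the strong data processing floor. -/
noncomputable def gt (ρ : ℝ) (g : ℝ → ℝ) (a : ℝ) : ℝ := max (g a) ((1 - ρ ^ 2) * H a)

/-- The scalar two-point statement for finite laws. -/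
def TwoPoint (ρ : ℝ) (g : ℝ → ℝ) : Prop :=
  ∀ (ι : Type) (_ : Fintype ι) (w U V : ι → ℝ), (∀ i, 0 ≤ w i) → ∑ i, w i = 1 →
    (∀ i, |U i| ≤ 1) → (∀ i, |V i| ≤ 1) →
    -1 < ∑ i, w i * U i → ∑ i, w i * U i < ∑ i, w i * V i → ∑ i, w i * V i < 1 →
    ∑ i, w i * U i + ∑ i, w i * V i ≤ 0 →
    (1 - ρ ^ 2) * H ((∑ i, w i * U i + ∑ i, w i * V i) / 2)
      < g ((∑ i, w i * U i + ∑ i, w i * V i) / 2) →
    g ((∑ i, w i * U i + ∑ i, w i * V i) / 2)
      - max 0 ((gt ρ g (∑ i, w i * U i) + gt ρ g (∑ i, w i * V i)) / 2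
        - ∑ i, w i * ((H (U i) + H (V i)) / 2))
      ≤ ∑ i, w i * M ρ (U i) (V i)

lemma M_comm (ρ u v : ℝ) : M ρ u v = M ρ v u := by
  unfold M
  rw [add_comm (H _)]
  congr 3 <;> ring

lemma M_neg (ρ u v : ℝ) : M ρ (-u) (-v) = M ρ u v := by
  unfold M
  have e1 : (-u + -v) / 2 + ρ * ((-v - -u) / 2) = -((u + v) / 2 + ρ * ((v - u) / 2)) := by ring
  have e2 : (-u + -v) / 2 - ρ * ((-v - -u) / 2) = -((u + v) / 2 - ρ * ((v - u) / 2)) := by ring
  rw [e1, e2, H_neg, H_neg]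

lemma H_conc {u v : ℝ} (hu : |u| ≤ 1) (hv : |v| ≤ 1) {a b : ℝ} (ha : 0 ≤ a) (hb : 0 ≤ b)
    (hab : a + b = 1) : a * H u + b * H v ≤ H (a * u + b * v) := by
  have h := H_concaveOn.2
  have h2 := h (abs_le.mp hu) (abs_le.mp hv) ha hb hab
  simpa only [smul_eq_mul] using h2

lemma H_scale {x e : ℝ} (hx : |x| ≤ 1) (h0 : 0 ≤ e) (h1 : e ≤ 1) : H x ≤ H ((1 - e) * x) := by
  have h3 := H_conc (v := 0) hx (by norm_num) (sub_nonneg.mpr h1) h0 (by ring)
  rw [H_zero, mul_zero, add_zero] at h3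
  have h4 := H_le_log_two x
  nlinarith

lemma scale_abs {x e : ℝ} (hx : |x| ≤ 1) (h0 : 0 ≤ e) (h1 : e ≤ 1) : |(1 - e) * x| ≤ 1 := by
  rw [abs_mul, abs_of_nonneg (sub_nonneg.mpr h1)]
  have := abs_nonneg x
  nlinarith

lemma M_continuous (ρ : ℝ) : Continuous fun p : ℝ × ℝ => M ρ p.1 p.2 := by
  unfold M
  exact ((H_continuous.comp (by fun_prop)).add (H_continuous.comp (by fun_prop))).div_const 2

section law

variable {ι : Type} [Fintype ι] {w U V : ι → ℝ}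

lemma abs_mean_le (hw : ∀ i, 0 ≤ w i) (hw1 : ∑ i, w i = 1) (hU : ∀ i, |U i| ≤ 1) :
    |∑ i, w i * U i| ≤ 1 := by
  refine (Finset.abs_sum_le_sum_abs _ _).trans ?_
  rw [← hw1]
  refine Finset.sum_le_sum fun i _ => ?_
  rw [abs_mul, abs_of_nonneg (hw i)]
  have := hU i
  have := hw i
  nlinarith

lemma M_ge_avg {r u v : ℝ} (hr0 : 0 ≤ r) (hr1 : r ≤ 1) (hu : |u| ≤ 1) (hv : |v| ≤ 1) :
    (H u + H v) / 2 ≤ M r u v := by
  have h1 := sdpi_two hr0 hr1 hu hv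
  have h2 : (H u + H v) / 2 ≤ H ((u + v) / 2) := by
    have := H_conc hu hv (a := 1 / 2) (b := 1 / 2) (by norm_num) (by norm_num) (by norm_num)
    have e : 1 / 2 * u + 1 / 2 * v = (u + v) / 2 := by ring
    rw [e] at this
    linarith
  have h3 : 0 ≤ 1 - r ^ 2 := by nlinarith
  nlinarith

/-- The strong data processing floor, one step. -/
lemma floor_step {ρ : ℝ} (h0 : 0 ≤ ρ) (h1 : ρ ≤ 1)
    (hw : ∀ i, 0 ≤ w i) (hw1 : ∑ i, w i = 1) (hU : ∀ i, |U i| ≤ 1) (hV : ∀ i, |V i| ≤ 1)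
    (hs : ((1 - ρ ^ 2) * H (∑ i, w i * U i) + (1 - ρ ^ 2) * H (∑ i, w i * V i)) / 2
      ≤ ∑ i, w i * ((H (U i) + H (V i)) / 2)) :
    (1 - ρ ^ 2) * H ((∑ i, w i * U i + ∑ i, w i * V i) / 2) ≤ ∑ i, w i * M ρ (U i) (V i) := by
  have hJ := J_jensen Finset.univ w U V (fun i _ => hw i) hw1 (fun i _ => hU i) (fun i _ => hV i)
  have h2 : ∑ i, w i * ((1 - ρ ^ 2) * H ((U i + V i) / 2) + ρ ^ 2 * ((H (U i) + H (V i)) / 2))
      ≤ ∑ i, w i * M ρ (U i) (V i) :=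
    Finset.sum_le_sum fun i _ => mul_le_mul_of_nonneg_left (sdpi_two h0 h1 (hU i) (hV i)) (hw i)
  have e : ∑ i, w i * ((1 - ρ ^ 2) * H ((U i + V i) / 2) + ρ ^ 2 * ((H (U i) + H (V i)) / 2))
      = (1 - ρ ^ 2) * ∑ i, w i * (H ((U i + V i) / 2) - (H (U i) + H (V i)) / 2)
        + ∑ i, w i * ((H (U i) + H (V i)) / 2) := by
    rw [Finset.mul_sum, ← Finset.sum_add_distrib]
    refine Finset.sum_congr rfl fun i _ => ?_
    ring
  rw [e] at h2
  have h3 : 0 ≤ 1 - ρ ^ 2 := by nlinarith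
  have h4 := mul_le_mul_of_nonneg_left hJ h3
  linarith

lemma M_tendsto (ρ : ℝ) {α : Type*} {l : Filter α} {f g : α → ℝ} {u v : ℝ}
    (hf : Tendsto f l (𝓝 u)) (hg : Tendsto g l (𝓝 v)) :
    Tendsto (fun e => M ρ (f e) (g e)) l (𝓝 (M ρ u v)) := by
  have h := (M_continuous ρ).tendsto (u, v)
  simp only at h
  have h3 := h.comp (hf.prodMk_nhds hg)
  simp only [Function.comp_def] at h3
  exact h3

lemma scale_tendsto (c : ℝ) : Tendsto (fun e : ℝ => (1 - e) * c) (𝓝[>] 0) (𝓝 c) := by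
  have : Tendsto (fun e : ℝ => (1 - e) * c) (𝓝 0) (𝓝 ((1 - 0) * c)) :=
    (by fun_prop : Continuous fun e : ℝ => (1 - e) * c).tendsto 0
  rw [sub_zero, one_mul] at this
  exact this.mono_left nhdsWithin_le_nhds

lemma H_scale_tendsto (c : ℝ) : Tendsto (fun e : ℝ => H ((1 - e) * c)) (𝓝[>] 0) (𝓝 (H c)) :=
  (H_continuous.tendsto c).comp (scale_tendsto c)

lemma g_scale_tendsto {g : ℝ → ℝ} (hgc : ContinuousOn g (Set.Icc (-1) 1)) {c : ℝ}
    (hc : |c| ≤ 1) : Tendsto (fun e : ℝ => g ((1 - e) * c)) (𝓝[>] 0) (𝓝 (g c)) := by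
  have hcm : c ∈ Set.Icc (-1:ℝ) 1 := abs_le.mp hc
  refine (hgc c hcm).tendsto.comp ?_
  refine tendsto_nhdsWithin_of_tendsto_nhds_of_eventually_within _ (scale_tendsto c) ?_
  have hIoo : ∀ᶠ e in 𝓝[>] (0:ℝ), e ∈ Set.Ioo (0:ℝ) 1 := Ioo_mem_nhdsGT one_pos
  filter_upwards [hIoo] with e he
  exact abs_le.mp (scale_abs hc he.1.le he.2.le)

lemma gt_scale_tendsto (ρ : ℝ) {g : ℝ → ℝ} (hgc : ContinuousOn g (Set.Icc (-1) 1)) {c : ℝ}
    (hc : |c| ≤ 1) : Tendsto (fun e : ℝ => gt ρ g ((1 - e) * c)) (𝓝[>] 0) (𝓝 (gt ρ g c)) := by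
  unfold gt
  exact (g_scale_tendsto hgc hc).max ((H_scale_tendsto c).const_mul _)

/-- The two-point statement for the scaled law. -/
lemma twoPoint_scaled {ρ : ℝ} {g : ℝ → ℝ} (hT : TwoPoint ρ g)
    (hw : ∀ i, 0 ≤ w i) (hw1 : ∑ i, w i = 1) (hU : ∀ i, |U i| ≤ 1) (hV : ∀ i, |V i| ≤ 1)
    {a b s : ℝ} (ha : ∑ i, w i * U i = a) (hb : ∑ i, w i * V i = b)
    (hs : ∑ i, w i * ((H (U i) + H (V i)) / 2) = s)
    (hab : a < b) (hsum : a + b ≤ 0) {e : ℝ} (he0 : 0 < e) (he1 : e < 1)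
    (hlt : (1 - ρ ^ 2) * H ((1 - e) * ((a + b) / 2)) < g ((1 - e) * ((a + b) / 2))) :
    g ((1 - e) * ((a + b) / 2))
      - max 0 ((gt ρ g ((1 - e) * a) + gt ρ g ((1 - e) * b)) / 2 - s)
      ≤ ∑ i, w i * M ρ ((1 - e) * U i) ((1 - e) * V i) := by
  have ha1 : |a| ≤ 1 := by rw [← ha]; exact abs_mean_le hw hw1 hU
  have hb1 : |b| ≤ 1 := by rw [← hb]; exact abs_mean_le hw hw1 hV
  have ea : ∑ i, w i * ((1 - e) * U i) = (1 - e) * a := by
    rw [← ha, Finset.mul_sum]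
    exact Finset.sum_congr rfl fun i _ => by ring
  have eb : ∑ i, w i * ((1 - e) * V i) = (1 - e) * b := by
    rw [← hb, Finset.mul_sum]
    exact Finset.sum_congr rfl fun i _ => by ring
  have em : ((1 - e) * a + (1 - e) * b) / 2 = (1 - e) * ((a + b) / 2) := by ring
  have := hT ι inferInstance w (fun i => (1 - e) * U i) (fun i => (1 - e) * V i) hw hw1
    (fun i => scale_abs (hU i) he0.le he1.le) (fun i => scale_abs (hV i) he0.le he1.le)
  simp only [ea, eb, em] at this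
  have ha' := abs_le.mp ha1
  have hb' := abs_le.mp hb1
  have key := this (by nlinarith) (by nlinarith) (by nlinarith) (by nlinarith) hlt
  refine le_trans ?_ key
  have hss : s ≤ ∑ i, w i * ((H ((1 - e) * U i) + H ((1 - e) * V i)) / 2) := by
    rw [← hs]
    refine Finset.sum_le_sum fun i _ => mul_le_mul_of_nonneg_left ?_ (hw i)
    linarith [H_scale (hU i) he0.le he1.le, H_scale (hV i) he0.le he1.le]
  have hmx : max 0 ((gt ρ g ((1 - e) * a) + gt ρ g ((1 - e) * b)) / 2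
        - ∑ i, w i * ((H ((1 - e) * U i) + H ((1 - e) * V i)) / 2))
      ≤ max 0 ((gt ρ g ((1 - e) * a) + gt ρ g ((1 - e) * b)) / 2 - s) :=
    max_le_max le_rfl (by linarith)
  linarith

/-- The two-point statement on the closed range, for ordered means with nonpositive sum. -/
lemma twoPoint_closed_aux {ρ : ℝ} {g : ℝ → ℝ}
    (hgc : ContinuousOn g (Set.Icc (-1) 1)) (hT : TwoPoint ρ g)
    (hw : ∀ i, 0 ≤ w i) (hw1 : ∑ i, w i = 1) (hU : ∀ i, |U i| ≤ 1) (hV : ∀ i, |V i| ≤ 1)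
    {a b s : ℝ} (ha : ∑ i, w i * U i = a) (hb : ∑ i, w i * V i = b)
    (hs : ∑ i, w i * ((H (U i) + H (V i)) / 2) = s)
    (hab : a < b) (hsum : a + b ≤ 0)
    (hsg : (gt ρ g a + gt ρ g b) / 2 ≤ s)
    (hg : (1 - ρ ^ 2) * H ((a + b) / 2) < g ((a + b) / 2)) :
    g ((a + b) / 2) ≤ ∑ i, w i * M ρ (U i) (V i) := by
  have ha1 : |a| ≤ 1 := by rw [← ha]; exact abs_mean_le hw hw1 hU
  have hb1 : |b| ≤ 1 := by rw [← hb]; exact abs_mean_le hw hw1 hV
  have hm : |(a + b) / 2| ≤ 1 := by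
    rw [abs_le] at ha1 hb1 ⊢
    constructor <;> linarith
  have hL : Tendsto (fun e : ℝ => g ((1 - e) * ((a + b) / 2))
      - max 0 ((gt ρ g ((1 - e) * a) + gt ρ g ((1 - e) * b)) / 2 - s)) (𝓝[>] 0)
      (𝓝 (g ((a + b) / 2) - max 0 ((gt ρ g a + gt ρ g b) / 2 - s))) := by
    have h1 := ((gt_scale_tendsto ρ hgc ha1).add (gt_scale_tendsto ρ hgc hb1)).div_const 2
    have h2 := h1.sub_const s
    exact (g_scale_tendsto hgc hm).sub (tendsto_const_nhds.max h2)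
  have hR : Tendsto (fun e : ℝ => ∑ i, w i * M ρ ((1 - e) * U i) ((1 - e) * V i)) (𝓝[>] 0)
      (𝓝 (∑ i, w i * M ρ (U i) (V i))) := by
    refine tendsto_finsetSum _ fun i _ => ?_
    exact (M_tendsto ρ (scale_tendsto (U i)) (scale_tendsto (V i))).const_mul (w i)
  have hIoo : ∀ᶠ e in 𝓝[>] (0:ℝ), e ∈ Set.Ioo (0:ℝ) 1 := Ioo_mem_nhdsGT one_pos
  have hlt : ∀ᶠ e in 𝓝[>] (0:ℝ),
      (1 - ρ ^ 2) * H ((1 - e) * ((a + b) / 2)) < g ((1 - e) * ((a + b) / 2)) :=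
    ((H_scale_tendsto ((a + b) / 2)).const_mul (1 - ρ ^ 2)).eventually_lt
      (g_scale_tendsto hgc hm) hg
  have hev : ∀ᶠ e in 𝓝[>] (0:ℝ), g ((1 - e) * ((a + b) / 2))
      - max 0 ((gt ρ g ((1 - e) * a) + gt ρ g ((1 - e) * b)) / 2 - s)
      ≤ ∑ i, w i * M ρ ((1 - e) * U i) ((1 - e) * V i) := by
    filter_upwards [hIoo, hlt] with e he hlte
    exact twoPoint_scaled hT hw hw1 hU hV ha hb hs hab hsum he.1 he.2 hlte
  have hfin := le_of_tendsto_of_tendsto hL hR hev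
  have hz : max 0 ((gt ρ g a + gt ρ g b) / 2 - s) = 0 := max_eq_left (by linarith)
  rw [hz, sub_zero] at hfin
  exact hfin

/-- The two-point statement on the closed range. -/
lemma twoPoint_closed {ρ : ℝ} (h0 : 0 ≤ ρ) (h1 : ρ ≤ 1) {g : ℝ → ℝ} (hge : ∀ x, g (-x) = g x)
    (hgc : ContinuousOn g (Set.Icc (-1) 1)) (hT : TwoPoint ρ g)
    (hw : ∀ i, 0 ≤ w i) (hw1 : ∑ i, w i = 1) (hU : ∀ i, |U i| ≤ 1) (hV : ∀ i, |V i| ≤ 1)
    (hs : (gt ρ g (∑ i, w i * U i) + gt ρ g (∑ i, w i * V i)) / 2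
      ≤ ∑ i, w i * ((H (U i) + H (V i)) / 2)) :
    gt ρ g ((∑ i, w i * U i + ∑ i, w i * V i) / 2) ≤ ∑ i, w i * M ρ (U i) (V i) := by
  have hgte : ∀ x, gt ρ g (-x) = gt ρ g x := by
    intro x; unfold gt; rw [hge, H_neg]
  -- reduce to the case of ordered means
  have order : ∀ (U V : ι → ℝ), (∀ i, |U i| ≤ 1) → (∀ i, |V i| ≤ 1) →
      ∑ i, w i * U i < ∑ i, w i * V i →
      (gt ρ g (∑ i, w i * U i) + gt ρ g (∑ i, w i * V i)) / 2
        ≤ ∑ i, w i * ((H (U i) + H (V i)) / 2) →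
      (1 - ρ ^ 2) * H ((∑ i, w i * U i + ∑ i, w i * V i) / 2)
        < g ((∑ i, w i * U i + ∑ i, w i * V i) / 2) →
      g ((∑ i, w i * U i + ∑ i, w i * V i) / 2) ≤ ∑ i, w i * M ρ (U i) (V i) := by
    intro U V hU hV hab hs hg
    rcases le_total (∑ i, w i * U i + ∑ i, w i * V i) 0 with hsum | hsum
    · exact twoPoint_closed_aux hgc hT hw hw1 hU hV rfl rfl rfl hab hsum hs hg
    · have eU : ∑ i, w i * (-U i) = -∑ i, w i * U i := by
        rw [← Finset.sum_neg_distrib]; exact Finset.sum_congr rfl fun i _ => by ring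
      have eV : ∑ i, w i * (-V i) = -∑ i, w i * V i := by
        rw [← Finset.sum_neg_distrib]; exact Finset.sum_congr rfl fun i _ => by ring
      have es : ∑ i, w i * ((H (-V i) + H (-U i)) / 2)
          = ∑ i, w i * ((H (U i) + H (V i)) / 2) := by
        refine Finset.sum_congr rfl fun i _ => ?_
        rw [H_neg, H_neg]; ring
      have em : (-∑ i, w i * V i + -∑ i, w i * U i) / 2
          = -((∑ i, w i * U i + ∑ i, w i * V i) / 2) := by ring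
      have key := twoPoint_closed_aux (U := fun i => -V i) (V := fun i => -U i) hgc hT hw hw1
        (fun i => by rw [abs_neg]; exact hV i) (fun i => by rw [abs_neg]; exact hU i)
        eV eU es (by linarith) (by linarith)
        (by rw [hgte, hgte]; linarith) (by rw [em, hge, H_neg]; exact hg)
      rw [em, hge] at key
      refine key.trans (le_of_eq ?_)
      refine Finset.sum_congr rfl fun i _ => ?_
      rw [M_neg, M_comm]
  have hfl : (1 - ρ ^ 2) * H ((∑ i, w i * U i + ∑ i, w i * V i) / 2)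
      ≤ ∑ i, w i * M ρ (U i) (V i) := by
    refine floor_step h0 h1 hw hw1 hU hV (le_trans ?_ hs)
    have g1 : (1 - ρ ^ 2) * H (∑ i, w i * U i) ≤ gt ρ g (∑ i, w i * U i) := le_max_right _ _
    have g2 : (1 - ρ ^ 2) * H (∑ i, w i * V i) ≤ gt ρ g (∑ i, w i * V i) := le_max_right _ _
    linarith
  refine max_le ?_ hfl
  rcases le_or_gt (g ((∑ i, w i * U i + ∑ i, w i * V i) / 2))
    ((1 - ρ ^ 2) * H ((∑ i, w i * U i + ∑ i, w i * V i) / 2)) with hg | hg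
  · exact hg.trans hfl
  rcases lt_trichotomy (∑ i, w i * U i) (∑ i, w i * V i) with hab | hab | hab
  · exact order U V hU hV hab hs hg
  · -- equal means
    have e1 : (∑ i, w i * U i + ∑ i, w i * V i) / 2 = ∑ i, w i * U i := by rw [← hab]; ring
    have h3 : ∑ i, w i * ((H (U i) + H (V i)) / 2) ≤ ∑ i, w i * M ρ (U i) (V i) :=
      Finset.sum_le_sum fun i _ => mul_le_mul_of_nonneg_left (M_ge_avg h0 h1 (hU i) (hV i)) (hw i)
    have h4 : g (∑ i, w i * U i) ≤ gt ρ g (∑ i, w i * U i) := le_max_left _ _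
    rw [e1]
    rw [← hab] at hs
    linarith
  · have key := order V U hV hU hab
      (by
        refine le_trans (by linarith) (hs.trans (le_of_eq ?_))
        exact Finset.sum_congr rfl fun i _ => by ring)
      (by rw [add_comm]; exact hg)
    rw [add_comm] at key
    refine key.trans (le_of_eq ?_)
    refine Finset.sum_congr rfl fun i _ => ?_
    rw [M_comm]

end law

end Vale.Agent.P322.Ind
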