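import Vale.Agent.P322.Basic

/-!
# P322: the relative entropy inequality (A1) of Lemma A
-/

namespace Vale.Agent.P322

open Real Set

theorem binEntropy_eq' (p : ℝ) : binEntropy p = -(p * log p) - (1 - p) * log (1 - p) := by
  simp only [binEntropy, log_inv]; ring

/-- Binary relative entropy, `p ∈ [0,1]`, `P ∈ (0,1)`. -/
noncomputable def kl (p P : ℝ) : ℝ := -binEntropy p - p * log P - (1 - p) * log (1 - P)

theorem kl_nonneg {p P : ℝ} (hp0 : 0 ≤ p) (hp1 : p ≤ 1) (hP0 : 0 < P) (hP1 : P < 1) :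
    0 ≤ kl p P := by
  have key : ∀ r R : ℝ, 0 ≤ r → 0 < R → r - R ≤ r * log r - r * log R := by
    intro r R hr hR
    rcases hr.eq_or_lt with h | h
    · rw [← h]; simp; exact hR.le
    · have h1 : log (R / r) ≤ R / r - 1 := log_le_sub_one_of_pos (by positivity)
      rw [log_div hR.ne' h.ne'] at h1
      have h2 : r * (log R - log r) ≤ r * (R / r - 1) := mul_le_mul_of_nonneg_left h1 h.le
      have h3 : r * (R / r - 1) = R - r := by field_simp
      rw [h3] at h2
      linarith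
  have h1 := key p P hp0 hP0
  have h2 := key (1 - p) (1 - P) (by linarith) (by linarith)
  unfold kl
  rw [binEntropy_eq']
  linarith

theorem kl_three {p P R : ℝ} :
    kl p P = kl p R + kl R P + (p - R) * ((log R - log (1 - R)) - (log P - log (1 - P))) := by
  unfold kl
  rw [binEntropy_eq' R]
  ring

theorem kl_self (P : ℝ) : kl P P = 0 := by
  unfold kl; rw [binEntropy_eq']; ring

/-! ### the curve -/

/-- Half of the average of the two tilted probabilities, divided by `z`. -/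
noncomputable def gg (P Q z : ℝ) : ℝ := (P / (z * P + 1 - P) + Q / (z * Q + 1 - Q)) / 2

/-- The deficit along the curve. -/
noncomputable def FF (P Q lam z : ℝ) : ℝ :=
  lam * ((z * log z) * gg P Q z - (log (z * P + 1 - P) + log (z * Q + 1 - Q)) / 2) -
    kl (z * gg P Q z) ((P + Q) / 2)

/-- Minus the derivative of `FF` divided by the speed of the curve. -/
noncomputable def NN (P Q lam z : ℝ) : ℝ :=
  (1 - lam) * log z + log (2 * P * Q * z + (P * (1 - Q) + Q * (1 - P))) -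
    log ((P * (1 - Q) + Q * (1 - P)) * z + 2 * (1 - P) * (1 - Q)) - log (P + Q) + log (2 - P - Q)

/-- The quadratic that governs the sign of the derivative of `NN`. -/
noncomputable def SS (P Q lam z : ℝ) : ℝ :=
  (1 - lam) * (2 * P * Q * z + (P * (1 - Q) + Q * (1 - P))) *
    ((P * (1 - Q) + Q * (1 - P)) * z + 2 * (1 - P) * (1 - Q)) - (P - Q) ^ 2 * z

section

variable {P Q lam : ℝ}

theorem D_pos (hP0 : 0 < P) (hP1 : P < 1) {z : ℝ} (hz : 0 ≤ z) : 0 < z * P + 1 - P := by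
  have := mul_nonneg hz hP0.le
  linarith

theorem c_pos (hP0 : 0 < P) (hP1 : P < 1) (hQ0 : 0 < Q) (hQ1 : Q < 1) :
    0 < P * (1 - Q) + Q * (1 - P) := by
  have := mul_pos hP0 (sub_pos.2 hQ1)
  have := mul_pos hQ0 (sub_pos.2 hP1)
  linarith

theorem zgg_eq (hP0 : 0 < P) (hP1 : P < 1) (hQ0 : 0 < Q) (hQ1 : Q < 1) {z : ℝ} (hz : 0 ≤ z) :
    z * gg P Q z = z * (2 * P * Q * z + (P * (1 - Q) + Q * (1 - P))) /
      (2 * (z * P + 1 - P) * (z * Q + 1 - Q)) := by
  have h1 := (D_pos hP0 hP1 hz).ne'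
  have h2 := (D_pos hQ0 hQ1 hz).ne'
  unfold gg
  field_simp
  ring

theorem one_sub_zgg_eq (hP0 : 0 < P) (hP1 : P < 1) (hQ0 : 0 < Q) (hQ1 : Q < 1) {z : ℝ}
    (hz : 0 ≤ z) :
    1 - z * gg P Q z = ((P * (1 - Q) + Q * (1 - P)) * z + 2 * (1 - P) * (1 - Q)) /
      (2 * (z * P + 1 - P) * (z * Q + 1 - Q)) := by
  have h1 := (D_pos hP0 hP1 hz).ne'
  have h2 := (D_pos hQ0 hQ1 hz).ne'
  unfold gg
  field_simp
  ring

theorem zgg_pos (hP0 : 0 < P) (hP1 : P < 1) (hQ0 : 0 < Q) (hQ1 : Q < 1) {z : ℝ} (hz : 0 < z) :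
    0 < z * gg P Q z := by
  rw [zgg_eq hP0 hP1 hQ0 hQ1 hz.le]
  have h1 := D_pos hP0 hP1 hz.le
  have h2 := D_pos hQ0 hQ1 hz.le
  have h3 := c_pos hP0 hP1 hQ0 hQ1
  positivity

theorem zgg_lt (hP0 : 0 < P) (hP1 : P < 1) (hQ0 : 0 < Q) (hQ1 : Q < 1) {z : ℝ} (hz : 0 ≤ z) :
    z * gg P Q z < 1 := by
  have h := one_sub_zgg_eq hP0 hP1 hQ0 hQ1 hz
  have h1 := D_pos hP0 hP1 hz
  have h2 := D_pos hQ0 hQ1 hz
  have h3 := c_pos hP0 hP1 hQ0 hQ1
  have h4 : 0 < 1 - P := by linarith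
  have h5 : 0 < 1 - Q := by linarith
  have h6 : 0 < 1 - z * gg P Q z := by
    rw [h]; positivity
  linarith

theorem NN_eq (hP0 : 0 < P) (hP1 : P < 1) (hQ0 : 0 < Q) (hQ1 : Q < 1) {z : ℝ} (hz : 0 < z) :
    NN P Q lam z = log (z * gg P Q z) - log (1 - z * gg P Q z) - log ((P + Q) / 2) +
      log (1 - (P + Q) / 2) - lam * log z := by
  have h1 := D_pos hP0 hP1 hz.le
  have h2 := D_pos hQ0 hQ1 hz.le
  have h3 := c_pos hP0 hP1 hQ0 hQ1
  have h4 : 0 < 1 - P := by linarith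
  have h5 : 0 < 1 - Q := by linarith
  have h6 : 0 < 2 * P * Q * z + (P * (1 - Q) + Q * (1 - P)) := by positivity
  have h7 : 0 < (P * (1 - Q) + Q * (1 - P)) * z + 2 * (1 - P) * (1 - Q) := by positivity
  have h8 : 0 < 2 * (z * P + 1 - P) * (z * Q + 1 - Q) := by positivity
  have h9 : 0 < 2 - P - Q := by linarith
  rw [one_sub_zgg_eq hP0 hP1 hQ0 hQ1 hz.le, zgg_eq hP0 hP1 hQ0 hQ1 hz.le,
    log_div (by positivity) h8.ne', log_div h7.ne' h8.ne', log_mul hz.ne' h6.ne',
    log_div (by positivity) two_ne_zero,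
    show 1 - (P + Q) / 2 = (2 - P - Q) / 2 by ring, log_div h9.ne' two_ne_zero]
  unfold NN
  ring

theorem NN_one : NN P Q lam 1 = 0 := by
  unfold NN
  rw [show 2 * P * Q * 1 + (P * (1 - Q) + Q * (1 - P)) = P + Q by ring,
    show (P * (1 - Q) + Q * (1 - P)) * 1 + 2 * (1 - P) * (1 - Q) = 2 - P - Q by ring, log_one]
  ring

theorem hasDerivAt_NN (hP0 : 0 < P) (hP1 : P < 1) (hQ0 : 0 < Q) (hQ1 : Q < 1) {z : ℝ}
    (hz : 0 < z) :
    HasDerivAt (NN P Q lam) (SS P Q lam z / (z * (2 * P * Q * z + (P * (1 - Q) + Q * (1 - P))) *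
      ((P * (1 - Q) + Q * (1 - P)) * z + 2 * (1 - P) * (1 - Q)))) z := by
  have h3 := c_pos hP0 hP1 hQ0 hQ1
  have h4 : 0 < 1 - P := by linarith
  have h5 : 0 < 1 - Q := by linarith
  have h6 : 0 < 2 * P * Q * z + (P * (1 - Q) + Q * (1 - P)) := by positivity
  have h7 : 0 < (P * (1 - Q) + Q * (1 - P)) * z + 2 * (1 - P) * (1 - Q) := by positivity
  have d1 : HasDerivAt (fun z : ℝ => (1 - lam) * log z) ((1 - lam) * z⁻¹) z :=
    (hasDerivAt_log hz.ne').const_mul _
  have d2 : HasDerivAt (fun z : ℝ => 2 * P * Q * z + (P * (1 - Q) + Q * (1 - P)))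
      (2 * P * Q * 1) z := ((hasDerivAt_id z).const_mul _).add_const _
  have d3 : HasDerivAt (fun z : ℝ => (P * (1 - Q) + Q * (1 - P)) * z + 2 * (1 - P) * (1 - Q))
      ((P * (1 - Q) + Q * (1 - P)) * 1) z := ((hasDerivAt_id z).const_mul _).add_const _
  have d4 := d2.log h6.ne'
  have d5 := d3.log h7.ne'
  have d6 := (((d1.add d4).sub d5).sub_const (log (P + Q))).add_const (log (2 - P - Q))
  have : (1 - lam) * z⁻¹ + 2 * P * Q * 1 / (2 * P * Q * z + (P * (1 - Q) + Q * (1 - P))) -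
      (P * (1 - Q) + Q * (1 - P)) * 1 /
        ((P * (1 - Q) + Q * (1 - P)) * z + 2 * (1 - P) * (1 - Q)) =
      SS P Q lam z / (z * (2 * P * Q * z + (P * (1 - Q) + Q * (1 - P))) *
      ((P * (1 - Q) + Q * (1 - P)) * z + 2 * (1 - P) * (1 - Q))) := by
    unfold SS
    field_simp
    ring
  rw [← this]
  exact d6

theorem hasDerivAt_gg (hP0 : 0 < P) (hP1 : P < 1) (hQ0 : 0 < Q) (hQ1 : Q < 1) {z : ℝ}
    (hz : 0 ≤ z) :
    HasDerivAt (gg P Q) (-(P ^ 2 / (z * P + 1 - P) ^ 2 + Q ^ 2 / (z * Q + 1 - Q) ^ 2) / 2) z := by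
  have key : ∀ R : ℝ, 0 < R → R < 1 →
      HasDerivAt (fun z : ℝ => R / (z * R + 1 - R)) (-(R ^ 2 / (z * R + 1 - R) ^ 2)) z := by
    intro R hR0 hR1
    have h1 := D_pos hR0 hR1 hz
    have d1 : HasDerivAt (fun z : ℝ => z * R + 1 - R) (1 * R) z :=
      (((hasDerivAt_id z).mul_const R).add_const 1).sub_const R
    have d2 : HasDerivAt (fun z : ℝ => R / (z * R + 1 - R))
        ((0 * (z * R + 1 - R) - R * (1 * R)) / (z * R + 1 - R) ^ 2) z :=
      (hasDerivAt_const z R).div d1 h1.ne'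
    have e : (0 * (z * R + 1 - R) - R * (1 * R)) / (z * R + 1 - R) ^ 2 =
        -(R ^ 2 / (z * R + 1 - R) ^ 2) := by
      have := h1.ne'
      field_simp
      ring
    rw [← e]
    exact d2
  have := ((key P hP0 hP1).add (key Q hQ0 hQ1)).div_const 2
  have e : -(P ^ 2 / (z * P + 1 - P) ^ 2 + Q ^ 2 / (z * Q + 1 - Q) ^ 2) / 2 =
      (-(P ^ 2 / (z * P + 1 - P) ^ 2) + -(Q ^ 2 / (z * Q + 1 - Q) ^ 2)) / 2 := by ring
  rw [e]
  exact this

/-- The speed of the curve. -/
noncomputable def spd (P Q z : ℝ) : ℝ :=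
  (P * (1 - P) / (z * P + 1 - P) ^ 2 + Q * (1 - Q) / (z * Q + 1 - Q) ^ 2) / 2

theorem spd_pos (hP0 : 0 < P) (hP1 : P < 1) (hQ0 : 0 < Q) (hQ1 : Q < 1) {z : ℝ} (hz : 0 ≤ z) :
    0 < spd P Q z := by
  have h1 := D_pos hP0 hP1 hz
  have h2 := D_pos hQ0 hQ1 hz
  have h4 : 0 < 1 - P := by linarith
  have h5 : 0 < 1 - Q := by linarith
  unfold spd
  positivity

theorem spd_aux {R z : ℝ} (h : z * R + 1 - R ≠ 0) :
    R / (z * R + 1 - R) - z * (R ^ 2 / (z * R + 1 - R) ^ 2) =
      R * (1 - R) / (z * R + 1 - R) ^ 2 := by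
  generalize hD : z * R + 1 - R = D at h
  have h2 : 1 - R = D - z * R := by linarith
  rw [h2]
  field_simp

theorem spd_eq {z : ℝ} (h1 : z * P + 1 - P ≠ 0) (h2 : z * Q + 1 - Q ≠ 0) :
    spd P Q z = gg P Q z +
      z * (-(P ^ 2 / (z * P + 1 - P) ^ 2 + Q ^ 2 / (z * Q + 1 - Q) ^ 2) / 2) := by
  unfold spd gg
  rw [← spd_aux h1, ← spd_aux h2]
  ring

theorem hasDerivAt_zgg (hP0 : 0 < P) (hP1 : P < 1) (hQ0 : 0 < Q) (hQ1 : Q < 1) {z : ℝ}
    (hz : 0 ≤ z) : HasDerivAt (fun z => z * gg P Q z) (spd P Q z) z := by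
  have h1 := (D_pos hP0 hP1 hz).ne'
  have h2 := (D_pos hQ0 hQ1 hz).ne'
  have d : HasDerivAt (fun z => z * gg P Q z) (1 * gg P Q z +
      z * (-(P ^ 2 / (z * P + 1 - P) ^ 2 + Q ^ 2 / (z * Q + 1 - Q) ^ 2) / 2)) z :=
    (hasDerivAt_id z).mul (hasDerivAt_gg hP0 hP1 hQ0 hQ1 hz)
  have e : 1 * gg P Q z +
      z * (-(P ^ 2 / (z * P + 1 - P) ^ 2 + Q ^ 2 / (z * Q + 1 - Q) ^ 2) / 2) = spd P Q z := by
    rw [spd_eq h1 h2]; ring
  rw [← e]
  exact d

theorem hasDerivAt_FF (hP0 : 0 < P) (hP1 : P < 1) (hQ0 : 0 < Q) (hQ1 : Q < 1) {z : ℝ}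
    (hz : 0 < z) : HasDerivAt (FF P Q lam) (-(NN P Q lam z) * spd P Q z) z := by
  have h1 := D_pos hP0 hP1 hz.le
  have h2 := D_pos hQ0 hQ1 hz.le
  have hw0 := zgg_pos hP0 hP1 hQ0 hQ1 hz
  have hw1 := zgg_lt hP0 hP1 hQ0 hQ1 hz.le
  have dg := hasDerivAt_gg hP0 hP1 hQ0 hQ1 hz.le
  have dw := hasDerivAt_zgg hP0 hP1 hQ0 hQ1 hz.le
  have dzl : HasDerivAt (fun z : ℝ => z * log z) (log z + 1) z := by
    have d : HasDerivAt (fun z : ℝ => z * log z) (1 * log z + z * z⁻¹) z :=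
      (hasDerivAt_id z).mul (hasDerivAt_log hz.ne')
    have e : log z + 1 = 1 * log z + z * z⁻¹ := by
      rw [mul_inv_cancel₀ hz.ne']; ring
    rw [e]
    exact d
  have dD1 : HasDerivAt (fun z : ℝ => z * P + 1 - P) (1 * P) z :=
      (((hasDerivAt_id z).mul_const P).add_const 1).sub_const P
  have dD2 : HasDerivAt (fun z : ℝ => z * Q + 1 - Q) (1 * Q) z :=
      (((hasDerivAt_id z).mul_const Q).add_const 1).sub_const Q
  have dA := ((dzl.mul dg).sub (((dD1.log h1.ne').add (dD2.log h2.ne')).div_const 2)).const_mul lam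
  have dB : HasDerivAt (fun z => binEntropy (z * gg P Q z))
      ((log (1 - z * gg P Q z) - log (z * gg P Q z)) * spd P Q z) z := by
    have := (hasDerivAt_binEntropy hw0.ne' hw1.ne).comp z dw
    exact this
  have dC := ((dB.neg.sub (dw.mul_const (log ((P + Q) / 2)))).sub
    ((dw.const_sub 1).mul_const (log (1 - (P + Q) / 2))))
  have dF := dA.sub dC
  have : (-(NN P Q lam z) * spd P Q z) =
      lam * ((log z + 1) * gg P Q z + z * log z *
        (-(P ^ 2 / (z * P + 1 - P) ^ 2 + Q ^ 2 / (z * Q + 1 - Q) ^ 2) / 2) -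
        (1 * P / (z * P + 1 - P) + 1 * Q / (z * Q + 1 - Q)) / 2) -
      (-((log (1 - z * gg P Q z) - log (z * gg P Q z)) * spd P Q z) -
        spd P Q z * log ((P + Q) / 2) - -spd P Q z * log (1 - (P + Q) / 2)) := by
    rw [NN_eq hP0 hP1 hQ0 hQ1 hz]
    have e1 : (log z + 1) * gg P Q z + z * log z *
        (-(P ^ 2 / (z * P + 1 - P) ^ 2 + Q ^ 2 / (z * Q + 1 - Q) ^ 2) / 2) -
        (1 * P / (z * P + 1 - P) + 1 * Q / (z * Q + 1 - Q)) / 2 = log z * spd P Q z := by
      rw [spd_eq h1.ne' h2.ne']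
      unfold gg
      ring
    rw [e1]
    ring
  rw [this]
  exact dF

theorem continuousOn_FF (hP0 : 0 < P) (hP1 : P < 1) (hQ0 : 0 < Q) (hQ1 : Q < 1) :
    ContinuousOn (FF P Q lam) (Ici 0) := by
  have hg : ContinuousOn (gg P Q) (Ici 0) := fun z hz =>
    (hasDerivAt_gg hP0 hP1 hQ0 hQ1 hz).continuousAt.continuousWithinAt
  have hw : ContinuousOn (fun z => z * gg P Q z) (Ici 0) := continuousOn_id.mul hg
  have hD : ∀ R : ℝ, 0 < R → R < 1 → ContinuousOn (fun z : ℝ => log (z * R + 1 - R)) (Ici 0) := by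
    intro R hR0 hR1
    refine ContinuousOn.log (by fun_prop) fun z hz => (D_pos hR0 hR1 hz).ne'
  have hb : ContinuousOn (fun z => binEntropy (z * gg P Q z)) (Ici 0) :=
    binEntropy_continuous.comp_continuousOn hw
  unfold FF kl
  refine (continuousOn_const.mul (((continuous_mul_log.continuousOn).mul hg).sub
    (((hD P hP0 hP1).add (hD Q hQ0 hQ1)).div_const 2))).sub ?_
  exact (hb.neg.sub (hw.mul continuousOn_const)).sub
    ((continuousOn_const.sub hw).mul continuousOn_const)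

theorem FF_one : FF P Q lam 1 = 0 := by
  unfold FF gg
  rw [log_one, show (1 : ℝ) * P + 1 - P = 1 by ring, show (1 : ℝ) * Q + 1 - Q = 1 by ring,
    log_one, show (1 : ℝ) * ((P / 1 + Q / 1) / 2) = (P + Q) / 2 by ring, kl_self]
  ring

theorem FF_zero : FF P Q lam 0 = lam * (-(log (1 - P) + log (1 - Q)) / 2) +
    log (1 - (P + Q) / 2) := by
  unfold FF kl
  simp
  ring

/-- The deficit along the first half of the curve. -/
theorem FF_nonneg_unit (hP0 : 0 < P) (hP1 : P < 1) (hQ0 : 0 < Q) (hQ1 : Q < 1) (hl : lam ≤ 1)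
    (hS : SS P Q lam 1 ≤ 0) (h0 : 0 ≤ FF P Q lam 0) {z : ℝ} (hz : 0 < z) (hz1 : z ≤ 1) :
    0 ≤ FF P Q lam z := by
  rcases hz1.eq_or_lt with rfl | hz1
  · rw [FF_one]
  have h3 := c_pos hP0 hP1 hQ0 hQ1
  have h4 : 0 < 1 - P := by linarith
  have h5 : 0 < 1 - Q := by linarith
  have hl' : 0 ≤ 1 - lam := by linarith
  have hA : 0 ≤ (1 - lam) * (2 * P * Q) * (P * (1 - Q) + Q * (1 - P)) := by positivity
  -- convexity of the quadratic
  have hid : ∀ s t : ℝ, (1 - s) * SS P Q lam t = (1 - t) * SS P Q lam s + (t - s) * SS P Q lam 1 -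
      (1 - lam) * (2 * P * Q) * (P * (1 - Q) + Q * (1 - P)) * ((t - s) * (1 - t) * (1 - s)) := by
    intro s t
    unfold SS
    ring
  have hdown : ∀ s t : ℝ, s < 1 → s ≤ t → t ≤ 1 → SS P Q lam s ≤ 0 → SS P Q lam t ≤ 0 := by
    intro s t hs hst ht h
    have h1 := hid s t
    have h2 : (1 - s) * SS P Q lam t ≤ 0 := by
      rw [h1]
      have e1 : (1 - t) * SS P Q lam s ≤ 0 := mul_nonpos_of_nonneg_of_nonpos (by linarith) h
      have e2 : (t - s) * SS P Q lam 1 ≤ 0 := mul_nonpos_of_nonneg_of_nonpos (by linarith) hS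
      have e3 : 0 ≤ (1 - lam) * (2 * P * Q) * (P * (1 - Q) + Q * (1 - P)) *
          ((t - s) * (1 - t) * (1 - s)) := by
        refine mul_nonneg hA (mul_nonneg (mul_nonneg ?_ ?_) ?_) <;> linarith
      linarith
    by_contra hcon
    push Not at hcon
    have := mul_pos (show 0 < 1 - s by linarith) hcon
    linarith
  have hup : ∀ s t : ℝ, s < 1 → t ≤ s → 0 ≤ SS P Q lam s → 0 ≤ SS P Q lam t := by
    intro s t hs hst h
    have h1 := hid t s
    have h2 : 0 ≤ (1 - s) * SS P Q lam t := by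
      have e1 : 0 ≤ (1 - t) * SS P Q lam s := mul_nonneg (by linarith) h
      have e2 : (s - t) * SS P Q lam 1 ≤ 0 := mul_nonpos_of_nonneg_of_nonpos (by linarith) hS
      have e3 : 0 ≤ (1 - lam) * (2 * P * Q) * (P * (1 - Q) + Q * (1 - P)) *
          ((s - t) * (1 - s) * (1 - t)) := by
        refine mul_nonneg hA (mul_nonneg (mul_nonneg ?_ ?_) ?_) <;> linarith
      linarith
    exact nonneg_of_mul_nonneg_right h2 (by linarith)
  have hden : ∀ t : ℝ, 0 < t → 0 < t * (2 * P * Q * t + (P * (1 - Q) + Q * (1 - P))) *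
      ((P * (1 - Q) + Q * (1 - P)) * t + 2 * (1 - P) * (1 - Q)) := by
    intro t ht; positivity
  -- monotonicity of `NN`
  have hcontN : ∀ s t : ℝ, 0 < s → ContinuousOn (NN P Q lam) (Icc s t) := fun s t hs x hx =>
    (hasDerivAt_NN hP0 hP1 hQ0 hQ1 (hs.trans_le hx.1)).continuousAt.continuousWithinAt
  have hNdown : ∀ t : ℝ, 0 < t → t < 1 → SS P Q lam t ≤ 0 → 0 ≤ NN P Q lam t := by
    intro t ht ht1 h
    have hanti : AntitoneOn (NN P Q lam) (Icc t 1) := by
      refine antitoneOn_of_deriv_nonpos (convex_Icc _ _) (hcontN t 1 ht) ?_ ?_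
      · intro x hx
        rw [interior_Icc] at hx
        exact (hasDerivAt_NN hP0 hP1 hQ0 hQ1 (ht.trans hx.1)).differentiableAt.differentiableWithinAt
      · intro x hx
        rw [interior_Icc] at hx
        rw [(hasDerivAt_NN hP0 hP1 hQ0 hQ1 (ht.trans hx.1)).deriv]
        exact div_nonpos_of_nonpos_of_nonneg (hdown t x ht1 hx.1.le hx.2.le h)
          (hden x (ht.trans hx.1)).le
    have := hanti (left_mem_Icc.2 ht1.le) (right_mem_Icc.2 ht1.le) ht1.le
    rwa [NN_one] at this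
  have hNup : ∀ s t : ℝ, 0 < s → s ≤ t → t < 1 → 0 ≤ SS P Q lam t →
      NN P Q lam s ≤ NN P Q lam t := by
    intro s t hs hst ht h
    have hmono : MonotoneOn (NN P Q lam) (Icc s t) := by
      refine monotoneOn_of_deriv_nonneg (convex_Icc _ _) (hcontN s t hs) ?_ ?_
      · intro x hx
        rw [interior_Icc] at hx
        exact (hasDerivAt_NN hP0 hP1 hQ0 hQ1 (hs.trans hx.1)).differentiableAt.differentiableWithinAt
      · intro x hx
        rw [interior_Icc] at hx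
        rw [(hasDerivAt_NN hP0 hP1 hQ0 hQ1 (hs.trans hx.1)).deriv]
        exact div_nonneg (hup t x ht hx.2.le h) (hden x (hs.trans hx.1)).le
    exact hmono (left_mem_Icc.2 hst) (right_mem_Icc.2 hst) hst
  by_cases hcase : 0 ≤ NN P Q lam z
  · -- `NN ≥ 0` on `[z,1]`
    have hN : ∀ t, z ≤ t → t < 1 → 0 ≤ NN P Q lam t := by
      intro t hzt ht1
      rcases le_total (SS P Q lam t) 0 with h | h
      · exact hNdown t (hz.trans_le hzt) ht1 h
      · exact hcase.trans (hNup z t hz hzt ht1 h)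
    have hanti : AntitoneOn (FF P Q lam) (Icc z 1) := by
      refine antitoneOn_of_deriv_nonpos (convex_Icc _ _)
        ((continuousOn_FF hP0 hP1 hQ0 hQ1).mono fun x hx => (hz.trans_le hx.1).le) ?_ ?_
      · intro x hx
        rw [interior_Icc] at hx
        exact (hasDerivAt_FF hP0 hP1 hQ0 hQ1 (hz.trans hx.1)).differentiableAt.differentiableWithinAt
      · intro x hx
        rw [interior_Icc] at hx
        rw [(hasDerivAt_FF hP0 hP1 hQ0 hQ1 (hz.trans hx.1)).deriv]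
        have := mul_nonneg (hN x hx.1.le hx.2) (spd_pos hP0 hP1 hQ0 hQ1 (hz.trans hx.1).le).le
        linarith
    have := hanti (left_mem_Icc.2 hz1.le) (right_mem_Icc.2 hz1.le) hz1.le
    rwa [FF_one] at this
  · -- `NN ≤ 0` on `(0,z]`
    push Not at hcase
    have hSz : 0 ≤ SS P Q lam z := by
      by_contra h
      push Not at h
      exact absurd (hNdown z hz hz1 h.le) (not_le.2 hcase)
    have hN : ∀ t, 0 < t → t ≤ z → NN P Q lam t ≤ 0 := fun t ht htz =>
      (hNup t z ht htz hz1 hSz).trans hcase.le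
    have hmono : MonotoneOn (FF P Q lam) (Icc 0 z) := by
      refine monotoneOn_of_deriv_nonneg (convex_Icc _ _)
        ((continuousOn_FF hP0 hP1 hQ0 hQ1).mono fun x hx => hx.1) ?_ ?_
      · intro x hx
        rw [interior_Icc] at hx
        exact (hasDerivAt_FF hP0 hP1 hQ0 hQ1 hx.1).differentiableAt.differentiableWithinAt
      · intro x hx
        rw [interior_Icc] at hx
        rw [(hasDerivAt_FF hP0 hP1 hQ0 hQ1 hx.1).deriv]
        have := mul_nonneg (neg_nonneg.2 (hN x hx.1 hx.2.le)) (spd_pos hP0 hP1 hQ0 hQ1 hx.1.le).le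
        linarith
    exact h0.trans (hmono (left_mem_Icc.2 hz.le) (right_mem_Icc.2 hz.le) hz.le)

/-- The deficit of the reversed parameters. -/
theorem FF_rev (hP0 : 0 < P) (hP1 : P < 1) (hQ0 : 0 < Q) (hQ1 : Q < 1) {z : ℝ} (hz : 0 < z) :
    FF P Q lam z = FF (1 - P) (1 - Q) lam z⁻¹ := by
  have h1 := D_pos hP0 hP1 hz.le
  have h2 := D_pos hQ0 hQ1 hz.le
  have e1 : z⁻¹ * (1 - P) + 1 - (1 - P) = (z * P + 1 - P) / z := by field_simp; ring
  have e2 : z⁻¹ * (1 - Q) + 1 - (1 - Q) = (z * Q + 1 - Q) / z := by field_simp; ring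
  have e3 : gg (1 - P) (1 - Q) z⁻¹ = z * (1 - z * gg P Q z) := by
    unfold gg
    rw [e1, e2]
    generalize hA : z * P + 1 - P = A at h1
    generalize hB : z * Q + 1 - Q = B at h2
    have h3 : 1 - P = A - z * P := by linarith
    have h4 : 1 - Q = B - z * Q := by linarith
    rw [h3, h4]
    field_simp
    ring
  unfold FF
  rw [e1, e2, e3, log_inv, log_div h1.ne' hz.ne', log_div h2.ne' hz.ne']
  have e4 : z⁻¹ * (z * (1 - z * gg P Q z)) = 1 - z * gg P Q z := by field_simp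
  rw [e4]
  have e5 : kl (1 - z * gg P Q z) ((1 - P + (1 - Q)) / 2) = kl (z * gg P Q z) ((P + Q) / 2) := by
    unfold kl
    rw [binEntropy_one_sub, show (1 - P + (1 - Q)) / 2 = 1 - (P + Q) / 2 by ring,
      show 1 - (1 - (P + Q) / 2) = (P + Q) / 2 by ring]
    ring
  rw [e5]
  have e6 : z⁻¹ * -log z * (z * (1 - z * gg P Q z)) = -log z * (1 - z * gg P Q z) := by
    field_simp
  rw [e6]
  ring

theorem exists_z (hP0 : 0 < P) (hP1 : P < 1) (hQ0 : 0 < Q) (hQ1 : Q < 1) {w : ℝ} (hw0 : 0 < w)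
    (hw1 : w < 1) : ∃ z : ℝ, 0 < z ∧ z * gg P Q z = w := by
  have h4 : 0 < 1 - P := by linarith
  have h5 : 0 < 1 - Q := by linarith
  have h6 : 0 < 1 - w := by linarith
  set Z : ℝ := ((1 - P) / P + (1 - Q) / Q) / (1 - w) with hZ
  have hZ0 : 0 < Z := by positivity
  have hbig : w ≤ Z * gg P Q Z := by
    have key : ∀ R : ℝ, 0 < R → R < 1 → (1 - R) / (Z * R + 1 - R) ≤ (1 - R) / R / Z := by
      intro R hR0 hR1
      rw [div_div, mul_comm R Z]
      exact div_le_div_of_nonneg_left (by linarith) (by positivity) (by linarith)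
    have k1 := key P hP0 hP1
    have k2 := key Q hQ0 hQ1
    have e : 1 - Z * gg P Q Z = ((1 - P) / (Z * P + 1 - P) + (1 - Q) / (Z * Q + 1 - Q)) / 2 := by
      have h1 := D_pos hP0 hP1 hZ0.le
      have h2 := D_pos hQ0 hQ1 hZ0.le
      unfold gg
      generalize hA : Z * P + 1 - P = A at h1
      generalize hB : Z * Q + 1 - Q = B at h2
      have h3 : 1 - P = A - Z * P := by linarith
      have h4 : 1 - Q = B - Z * Q := by linarith
      rw [h3, h4]
      field_simp
      ring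
    have e2 : (1 - P) / P / Z + (1 - Q) / Q / Z = 1 - w := by
      rw [← add_div, hZ]
      have : 0 < (1 - P) / P + (1 - Q) / Q := by positivity
      field_simp
    linarith
  have hcont : ContinuousOn (fun z => z * gg P Q z) (Icc 0 Z) :=
    continuousOn_id.mul (fun z hz =>
      (hasDerivAt_gg hP0 hP1 hQ0 hQ1 hz.1).continuousAt.continuousWithinAt)
  have himg := intermediate_value_Icc hZ0.le hcont
  have hmem : w ∈ Icc ((fun z => z * gg P Q z) 0) ((fun z => z * gg P Q z) Z) := by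
    constructor
    · simpa using hw0.le
    · exact hbig
  obtain ⟨z, hz, hzw⟩ := himg hmem
  refine ⟨z, lt_of_le_of_ne hz.1 ?_, hzw⟩
  rintro rfl
  simp at hzw
  exact hw0.ne hzw

/-- `t² log t ≥ (1-t)² log (1-t)` on `[0,1/2]`. -/
theorem sq_log_ineq {t : ℝ} (h0 : 0 < t) (h1 : t ≤ 1 / 2) :
    t ^ 2 * (-log t) ≤ (1 - t) ^ 2 * (-log (1 - t)) := by
  set g : ℝ → ℝ := fun t => t * (t * log t) - (1 - t) * ((1 - t) * log (1 - t)) with hg
  have hcont : Continuous g := by
    have c1 : Continuous fun t : ℝ => t * log t := continuous_mul_log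
    have c2 : Continuous fun t : ℝ => (1 - t) * log (1 - t) :=
      continuous_mul_log.comp (continuous_const.sub continuous_id)
    exact (continuous_id.mul c1).sub ((continuous_const.sub continuous_id).mul c2)
  have hder : ∀ x : ℝ, 0 < x → x < 1 → HasDerivAt g (1 - 2 * binEntropy x) x := by
    intro x hx0 hx1
    have h2 : 0 < 1 - x := by linarith
    have d1 : HasDerivAt (fun t : ℝ => t * log t) (1 * log x + x * x⁻¹) x :=
      (hasDerivAt_id x).mul (hasDerivAt_log hx0.ne')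
    have d2 : HasDerivAt (fun t : ℝ => t * (t * log t))
        (1 * (x * log x) + x * (1 * log x + x * x⁻¹)) x := (hasDerivAt_id x).mul d1
    have d3 : HasDerivAt (fun t : ℝ => 1 - t) (-1) x := (hasDerivAt_id x).const_sub 1
    have d4 : HasDerivAt (fun t : ℝ => (1 - t) * log (1 - t))
        (-1 * log (1 - x) + (1 - x) * (-1 / (1 - x))) x := d3.mul (d3.log h2.ne')
    have d5 : HasDerivAt (fun t : ℝ => (1 - t) * ((1 - t) * log (1 - t)))
        (-1 * ((1 - x) * log (1 - x)) + (1 - x) * (-1 * log (1 - x) + (1 - x) * (-1 / (1 - x)))) x :=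
      d3.mul d4
    have d6 := d2.sub d5
    have e : 1 - 2 * binEntropy x = 1 * (x * log x) + x * (1 * log x + x * x⁻¹) -
        (-1 * ((1 - x) * log (1 - x)) +
          (1 - x) * (-1 * log (1 - x) + (1 - x) * (-1 / (1 - x)))) := by
      rw [binEntropy_eq', mul_inv_cancel₀ hx0.ne', mul_div_cancel₀ _ h2.ne']
      ring
    rw [e]
    exact d6
  have hmono : ∀ x y : ℝ, 0 ≤ x → x ≤ y → y ≤ 1 / 2 → binEntropy x ≤ binEntropy y := by
    intro x y hx hxy hy
    exact binEntropy_strictMonoOn.monotoneOn ⟨hx, by norm_num; linarith⟩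
      ⟨hx.trans hxy, by norm_num; linarith⟩ hxy
  have hg0 : g 0 = 0 := by simp [hg]
  have hg1 : g (1 / 2) = 0 := by simp only [hg]; norm_num
  have hmain : 0 ≤ g t := by
    rcases le_total (binEntropy t) (1 / 2) with h | h
    · have hm : MonotoneOn g (Icc 0 t) := by
        refine monotoneOn_of_deriv_nonneg (convex_Icc _ _) hcont.continuousOn ?_ ?_
        · intro x hx
          rw [interior_Icc] at hx
          exact (hder x hx.1 (by linarith [hx.2])).differentiableAt.differentiableWithinAt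
        · intro x hx
          rw [interior_Icc] at hx
          rw [(hder x hx.1 (by linarith [hx.2])).deriv]
          have := hmono x t hx.1.le hx.2.le h1
          linarith
      have := hm (left_mem_Icc.2 h0.le) (right_mem_Icc.2 h0.le) h0.le
      rwa [hg0] at this
    · have hm : AntitoneOn g (Icc t (1 / 2)) := by
        refine antitoneOn_of_deriv_nonpos (convex_Icc _ _) hcont.continuousOn ?_ ?_
        · intro x hx
          rw [interior_Icc] at hx
          exact (hder x (h0.trans hx.1) (by linarith [hx.2])).differentiableAt.differentiableWithinAt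
        · intro x hx
          rw [interior_Icc] at hx
          rw [(hder x (h0.trans hx.1) (by linarith [hx.2])).deriv]
          have := hmono t x h0.le hx.1.le hx.2.le
          linarith
      have := hm (left_mem_Icc.2 h1) (right_mem_Icc.2 h1) h1
      rwa [hg1] at this
  simp only [hg] at hmain
  nlinarith [hmain]

/-- The contraction constant of (A1). -/
noncomputable def lamA (P Q : ℝ) : ℝ := log (1 - (P + Q) / 2) / ((log (1 - P) + log (1 - Q)) / 2)

theorem lamA_aux {s T l sig : ℝ} (hs0 : 0 ≤ s) (hT0 : 0 < T) (hT1 : T ≤ 1 / 2) (hlT : T ≤ l)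
    (hsig0 : 0 ≤ sig) (hsig1 : sig * (1 - s) ≤ s) :
    sig / 2 * T ≤ s * (1 - T) * (l + sig / 2) := by
  have hT2 : 0 < 1 - T := by linarith
  have k0 : s * T ≤ s * (1 - T) := mul_le_mul_of_nonneg_left (by linarith) hs0
  have k1 : sig / 2 * (T - s * (1 - T)) ≤ sig / 2 * (T * (1 - s)) :=
    mul_le_mul_of_nonneg_left (by linarith) (by linarith)
  have k2 : T / 2 * (sig * (1 - s)) ≤ T / 2 * s :=
    mul_le_mul_of_nonneg_left hsig1 (by linarith)
  have k3 : s * (1 - T) * T ≤ s * (1 - T) * l :=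
    mul_le_mul_of_nonneg_left hlT (mul_nonneg hs0 hT2.le)
  have k5 : s * T * (1 / 2) ≤ s * T * (1 - T) :=
    mul_le_mul_of_nonneg_left (by linarith) (mul_nonneg hs0 hT0.le)
  linarith

/-- All facts on `lamA` in one place. -/
theorem lamA_facts (hP0 : 0 < P) (hP1 : P < 1) (hQ0 : 0 < Q) (hQ1 : Q < 1) (hsum : P + Q ≤ 1) :
    0 < lamA P Q ∧ lamA P Q ≤ 1 ∧ SS P Q (lamA P Q) 1 ≤ 0 ∧ FF P Q (lamA P Q) 0 = 0 ∧
      0 ≤ FF (1 - P) (1 - Q) (lamA P Q) 0 := by
  have h4 : 0 < 1 - P := by linarith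
  have h5 : 0 < 1 - Q := by linarith
  obtain ⟨T, hT⟩ : ∃ T, T = (P + Q) / 2 := ⟨_, rfl⟩
  have hT0 : 0 < T := by rw [hT]; linarith
  have hT1 : T ≤ 1 / 2 := by rw [hT]; linarith
  have hT2 : 0 < 1 - T := by linarith
  obtain ⟨s, hs⟩ : ∃ s, s = ((P - Q) / (2 * (1 - T))) ^ 2 := ⟨_, rfl⟩
  have hs0 : 0 ≤ s := by rw [hs]; positivity
  have hprod : (1 - P) * (1 - Q) = (1 - T) ^ 2 * (1 - s) := by
    rw [hs, div_pow]
    field_simp
    rw [hT]
    ring
  have hs1 : 0 < 1 - s := by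
    have : 0 < (1 - T) ^ 2 * (1 - s) := hprod ▸ mul_pos h4 h5
    exact pos_of_mul_pos_right this (by positivity)
  obtain ⟨r, hr⟩ : ∃ r, r = (1 - T) / T := ⟨_, rfl⟩
  have hr1 : 1 ≤ r := by rw [hr, one_le_div hT0]; linarith
  have hprod2 : P * Q = T ^ 2 * (1 - r ^ 2 * s) := by
    rw [hs, hr, div_pow, div_pow]
    field_simp
    rw [hT]
    ring
  have hrs : 0 < 1 - r ^ 2 * s := by
    have : 0 < T ^ 2 * (1 - r ^ 2 * s) := hprod2 ▸ mul_pos hP0 hQ0
    exact pos_of_mul_pos_right this (by positivity)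
  obtain ⟨l, hl⟩ : ∃ l, l = -log (1 - T) := ⟨_, rfl⟩
  obtain ⟨sig, hsig⟩ : ∃ sig, sig = -log (1 - s) := ⟨_, rfl⟩
  obtain ⟨L1, hL1⟩ : ∃ L1, L1 = -log T := ⟨_, rfl⟩
  obtain ⟨tau, htau⟩ : ∃ tau, tau = -log (1 - r ^ 2 * s) := ⟨_, rfl⟩
  have hlog1 : log (1 - P) + log (1 - Q) = -(2 * l) - sig := by
    rw [← log_mul h4.ne' h5.ne', hprod, log_mul (by positivity) hs1.ne', log_pow, hl, hsig]
    push_cast; ring
  have hlog2 : log P + log Q = -(2 * L1) - tau := by
    rw [← log_mul hP0.ne' hQ0.ne', hprod2, log_mul (by positivity) hrs.ne', log_pow, hL1, htau]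
    push_cast; ring
  have hlT : T ≤ l := by
    have := log_le_sub_one_of_pos hT2
    rw [hl]; linarith
  have hl0 : 0 < l := hT0.trans_le hlT
  have hsig0 : 0 ≤ sig := by
    have := log_le_sub_one_of_pos hs1
    rw [hsig]; linarith
  have hsig1 : sig * (1 - s) ≤ s := by
    have h := one_sub_inv_le_log_of_pos hs1
    have h2 : sig ≤ (1 - s)⁻¹ - 1 := by rw [hsig]; linarith
    have h3 := mul_le_mul_of_nonneg_right h2 hs1.le
    have h4 : ((1 - s)⁻¹ - 1) * (1 - s) = s := by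
      rw [sub_mul, inv_mul_cancel₀ hs1.ne']; ring
    linarith
  have hlam : lamA P Q = l / (l + sig / 2) := by
    unfold lamA
    rw [hlog1, ← hT, show log (1 - T) = -l by rw [hl]; ring,
      show (-(2 * l) - sig) / 2 = -(l + sig / 2) by ring, neg_div_neg_eq]
  have hden : 0 < l + sig / 2 := by linarith
  have hlam1 : 1 - lamA P Q = (sig / 2) / (l + sig / 2) := by
    rw [hlam]; field_simp; ring
  refine ⟨?_, ?_, ?_, ?_, ?_⟩
  · rw [hlam]; positivity
  · rw [hlam, div_le_one hden]; linarith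
  · have e : SS P Q (lamA P Q) 1 = (1 - lamA P Q) * (4 * T * (1 - T)) - 4 * s * (1 - T) ^ 2 := by
      have e1 : (P - Q) ^ 2 = 4 * s * (1 - T) ^ 2 := by
        rw [hs, div_pow]; field_simp; ring
      unfold SS
      rw [e1, show 2 * P * Q * 1 + (P * (1 - Q) + Q * (1 - P)) = 2 * T by rw [hT]; ring,
        show (P * (1 - Q) + Q * (1 - P)) * 1 + 2 * (1 - P) * (1 - Q) = 2 * (1 - T) by
          rw [hT]; ring]
      ring
    rw [e, hlam1]
    have key := lamA_aux hs0 hT0 hT1 hlT hsig0 hsig1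
    have k4 : sig / 2 / (l + sig / 2) * (4 * T * (1 - T)) =
        4 * (1 - T) * (sig / 2 * T) / (l + sig / 2) := by ring
    rw [k4, sub_nonpos, div_le_iff₀ hden]
    have := mul_le_mul_of_nonneg_left key (show 0 ≤ 4 * (1 - T) by linarith)
    linarith
  · rw [FF_zero, hlog1, ← hT, show log (1 - T) = -l by rw [hl]; ring, hlam]
    field_simp
    ring
  · rw [FF_zero, show 1 - (1 - P) = P by ring, show 1 - (1 - Q) = Q by ring,
      show 1 - (1 - P + (1 - Q)) / 2 = T by rw [hT]; ring, hlog2,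
      show log T = -L1 by rw [hL1]; ring, hlam]
    have htau1 : r ^ 2 * sig ≤ tau := by
      have hr2 : 1 ≤ r ^ 2 := one_le_pow₀ hr1
      have h := one_add_mul_self_le_rpow_one_add (s := -s) (by linarith) hr2
      have h2 := log_le_log (by linarith) h
      rw [show 1 + r ^ 2 * -s = 1 - r ^ 2 * s by ring, show 1 + -s = 1 - s by ring,
        log_rpow hs1] at h2
      rw [htau, hsig]; linarith
    have hG := sq_log_ineq hT0 hT1
    have hLl : L1 ≤ r ^ 2 * l := by
      rw [hL1, hl, hr, div_pow, div_mul_eq_mul_div, le_div_iff₀ (by positivity)]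
      linarith
    have k : L1 * sig ≤ l * tau := by
      calc L1 * sig ≤ r ^ 2 * l * sig := mul_le_mul_of_nonneg_right hLl hsig0
        _ = l * (r ^ 2 * sig) := by ring
        _ ≤ l * tau := mul_le_mul_of_nonneg_left htau1 hl0.le
    have e : l / (l + sig / 2) * (-(-(2 * L1) - tau) / 2) + -L1 =
        (l * tau - L1 * sig) / 2 / (l + sig / 2) := by
      field_simp; ring
    rw [e]
    exact div_nonneg (by linarith) hden.le

/-- The inequality (A1). -/
theorem kl_contract (hP0 : 0 < P) (hP1 : P < 1) (hQ0 : 0 < Q) (hQ1 : Q < 1) (hsum : P + Q ≤ 1)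
    {p q : ℝ} (hp0 : 0 ≤ p) (hp1 : p ≤ 1) (hq0 : 0 ≤ q) (hq1 : q ≤ 1) :
    kl ((p + q) / 2) ((P + Q) / 2) ≤ lamA P Q * ((kl p P + kl q Q) / 2) := by
  obtain ⟨f1, f2, f3, f4, f5⟩ := lamA_facts hP0 hP1 hQ0 hQ1 hsum
  have hall : ∀ z : ℝ, 0 < z → 0 ≤ FF P Q (lamA P Q) z := by
    intro z hz
    rcases le_total z 1 with h | h
    · exact FF_nonneg_unit hP0 hP1 hQ0 hQ1 f2 f3 f4.ge hz h
    · rw [FF_rev hP0 hP1 hQ0 hQ1 hz]
      refine FF_nonneg_unit (by linarith) (by linarith) (by linarith) (by linarith) f2 ?_ f5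
        (by positivity) (inv_le_one_of_one_le₀ h)
      have e : SS (1 - P) (1 - Q) (lamA P Q) 1 = SS P Q (lamA P Q) 1 := by
        unfold SS; ring
      rw [e]; exact f3
  rcases (show 0 ≤ (p + q) / 2 by linarith).eq_or_lt with hw | hw
  · have hp : p = 0 := by linarith
    have hq : q = 0 := by linarith
    subst hp hq
    rw [FF_zero] at f4
    unfold kl
    simp only [binEntropy_zero, add_zero, zero_div, zero_mul, sub_zero, one_mul, neg_zero, zero_sub]
    linarith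
  rcases (show (p + q) / 2 ≤ 1 by linarith).eq_or_lt with hw' | hw'
  · have hp : p = 1 := by linarith
    have hq : q = 1 := by linarith
    subst hp hq
    rw [FF_zero, show 1 - (1 - P) = P by ring, show 1 - (1 - Q) = Q by ring,
      show 1 - (1 - P + (1 - Q)) / 2 = (P + Q) / 2 by ring] at f5
    unfold kl
    norm_num
    linarith
  obtain ⟨z, hz, hzw⟩ := exists_z hP0 hP1 hQ0 hQ1 hw hw'
  have hF := hall z hz
  have key : ∀ R r : ℝ, 0 < R → R < 1 → 0 ≤ r → r ≤ 1 →
      r * log z - log (z * R + 1 - R) ≤ kl r R := by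
    intro R r hR0 hR1 hr0 hr1
    have hD := D_pos hR0 hR1 hz.le
    have h1R : 0 < 1 - R := by linarith
    have e1 : 1 - z * R / (z * R + 1 - R) = (1 - R) / (z * R + 1 - R) := by
      rw [eq_div_iff hD.ne', sub_mul, div_mul_cancel₀ _ hD.ne']; ring
    have hx0 : 0 < z * R / (z * R + 1 - R) := by positivity
    have hx1 : z * R / (z * R + 1 - R) < 1 := by
      rw [div_lt_one hD]; linarith
    have h3 := kl_three (p := r) (P := R) (R := z * R / (z * R + 1 - R))
    have h4 := kl_nonneg hr0 hr1 hx0 hx1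
    have h5 : kl (z * R / (z * R + 1 - R)) R =
        z * R / (z * R + 1 - R) * log z - log (z * R + 1 - R) := by
      unfold kl
      rw [binEntropy_eq', e1, log_div (by positivity) hD.ne', log_div h1R.ne' hD.ne',
        log_mul hz.ne' hR0.ne', ← e1]
      ring
    have h6 : log (z * R / (z * R + 1 - R)) - log (1 - z * R / (z * R + 1 - R)) -
        (log R - log (1 - R)) = log z := by
      rw [e1, log_div (by positivity) hD.ne', log_div h1R.ne' hD.ne', log_mul hz.ne' hR0.ne']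
      ring
    rw [h3, h6, h5]
    nlinarith
  have k1 := key P p hP0 hP1 hp0 hp1
  have k2 := key Q q hQ0 hQ1 hq0 hq1
  have k3 : (p + q) / 2 * log z - (log (z * P + 1 - P) + log (z * Q + 1 - Q)) / 2 ≤
      (kl p P + kl q Q) / 2 := by linarith
  have k4 := mul_le_mul_of_nonneg_left k3 f1.le
  unfold FF at hF
  rw [show z * log z * gg P Q z = z * gg P Q z * log z by ring, hzw] at hF
  linarith

end

end Vale.Agent.P322
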