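import Vale.Agent.P322.KL

/-!
# P322: Lemma A, the supporting plane of `M ρ u v - θ (H u + H v)/2`
-/

namespace Vale.Agent.P322

open Real Set

theorem H_eq (x : ℝ) :
    H x = log 2 - ((1 + x) * log (1 + x) + (1 - x) * log (1 - x)) / 2 := by
  have key : ∀ r : ℝ, r / 2 * log (r / 2) = r / 2 * (log r - log 2) := by
    intro r
    rcases eq_or_ne r 0 with rfl | h
    · simp
    · rw [log_div h two_ne_zero]
  unfold H
  rw [binEntropy_eq', show 1 - (1 + x) / 2 = (1 - x) / 2 by ring, key, key]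
  ring

theorem psi_eq (x : ℝ) : psi x = ((1 + x) * log (1 + x) + (1 - x) * log (1 - x)) / 2 := by
  unfold psi; rw [H_eq]; ring

/-- The derivative of `psi`. -/
noncomputable def psi' (x : ℝ) : ℝ := (log (1 + x) - log (1 - x)) / 2

theorem hasDerivAt_psi {x : ℝ} (h0 : -1 < x) (h1 : x < 1) : HasDerivAt psi (psi' x) x := by
  have e : psi = fun x => ((1 + x) * log (1 + x) + (1 - x) * log (1 - x)) / 2 := funext psi_eq
  rw [e]
  have p1 : 0 < 1 + x := by linarith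
  have p2 : 0 < 1 - x := by linarith
  have d1 : HasDerivAt (fun x : ℝ => 1 + x) 1 x := (hasDerivAt_id x).const_add 1
  have d2 : HasDerivAt (fun x : ℝ => 1 - x) (-1) x := (hasDerivAt_id x).const_sub 1
  have d3 : HasDerivAt (fun x : ℝ => (1 + x) * log (1 + x))
      (1 * log (1 + x) + (1 + x) * (1 / (1 + x))) x := d1.mul (d1.log p1.ne')
  have d4 : HasDerivAt (fun x : ℝ => (1 - x) * log (1 - x))
      (-1 * log (1 - x) + (1 - x) * (-1 / (1 - x))) x := d2.mul (d2.log p2.ne')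
  have d5 := (d3.add d4).div_const 2
  have e2 : psi' x = (1 * log (1 + x) + (1 + x) * (1 / (1 + x)) +
      (-1 * log (1 - x) + (1 - x) * (-1 / (1 - x)))) / 2 := by
    unfold psi'
    field_simp
    ring
  rw [e2]
  exact d5

theorem hasDerivAt_psi' {x : ℝ} (h0 : -1 < x) (h1 : x < 1) :
    HasDerivAt psi' (1 / (1 - x ^ 2)) x := by
  have p1 : 0 < 1 + x := by linarith
  have p2 : 0 < 1 - x := by linarith
  have d1 : HasDerivAt (fun x : ℝ => 1 + x) 1 x := (hasDerivAt_id x).const_add 1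
  have d2 : HasDerivAt (fun x : ℝ => 1 - x) (-1) x := (hasDerivAt_id x).const_sub 1
  have d5 : HasDerivAt psi' ((1 / (1 + x) - -1 / (1 - x)) / 2) x :=
    ((d1.log p1.ne').sub (d2.log p2.ne')).div_const 2
  have e : 1 / (1 - x ^ 2) = (1 / (1 + x) - -1 / (1 - x)) / 2 := by
    rw [show 1 - x ^ 2 = (1 + x) * (1 - x) by ring]
    field_simp
    ring
  rw [e]
  exact d5

theorem continuous_psi : Continuous psi := by
  unfold psi H
  fun_prop

theorem psi_zero : psi 0 = 0 := by rw [psi_eq]; simp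

theorem psi_sub (x : ℝ) (h0 : -1 < x) (h1 : x < 1) :
    psi x - x * psi' x = log (1 - x ^ 2) / 2 := by
  have p1 : 0 < 1 + x := by linarith
  have p2 : 0 < 1 - x := by linarith
  rw [psi_eq, show 1 - x ^ 2 = (1 + x) * (1 - x) by ring, log_mul p1.ne' p2.ne']
  unfold psi'
  ring

/-! ### tangent lines of a function with one inflection -/

theorem tangent_aux {k k' s : ℝ → ℝ} {X0 : ℝ} (hX0 : 0 < X0) (hX1 : X0 < 1)
    (hc : ContinuousOn k (Icc 0 1)) (hd : ∀ x, 0 < x → x < 1 → HasDerivAt k (k' x) x)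
    (hneg : ∀ x y, 0 < x → x ≤ y → y < 1 → s y ≤ 0 → k' y ≤ k' x)
    (hpos : ∀ x y, 0 < x → x ≤ y → y < 1 → 0 ≤ s x → k' x ≤ k' y)
    (hk0 : 0 ≤ k 0) (hk : k X0 = 0) (hk' : k' X0 = 0) (hsX : 0 ≤ s X0) {X : ℝ} (h0 : 0 ≤ X)
    (h1 : X ≤ 1) : 0 ≤ k X := by
  have hdiff : ∀ a b, 0 ≤ a → b ≤ 1 → DifferentiableOn ℝ k (interior (Icc a b)) := by
    intro a b ha hb x hx
    rw [interior_Icc] at hx
    exact (hd x (ha.trans_lt hx.1) (hx.2.trans_le hb)).differentiableAt.differentiableWithinAt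
  rcases le_total X0 X with h | h
  · have hm : MonotoneOn k (Icc X0 X) := by
      refine monotoneOn_of_deriv_nonneg (convex_Icc _ _) (hc.mono (Icc_subset_Icc hX0.le h1))
        (hdiff _ _ hX0.le h1) ?_
      intro x hx
      rw [interior_Icc] at hx
      rw [(hd x (hX0.trans hx.1) (hx.2.trans_le h1)).deriv, ← hk']
      exact hpos X0 x hX0 hx.1.le (hx.2.trans_le h1) hsX
    have := hm (left_mem_Icc.2 h) (right_mem_Icc.2 h) h
    rwa [hk] at this
  rcases h0.eq_or_lt with rfl | h0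
  · exact hk0
  by_cases hX : k' X ≤ 0
  · have hm : AntitoneOn k (Icc X X0) := by
      refine antitoneOn_of_deriv_nonpos (convex_Icc _ _) (hc.mono (Icc_subset_Icc h0.le hX1.le))
        (hdiff _ _ h0.le hX1.le) ?_
      intro x hx
      rw [interior_Icc] at hx
      rw [(hd x (h0.trans hx.1) (hx.2.trans hX1)).deriv]
      rcases le_total 0 (s x) with hs | hs
      · rw [← hk']
        exact hpos x X0 (h0.trans hx.1) hx.2.le hX1 hs
      · exact (hneg X x h0 hx.1.le (hx.2.trans hX1) hs).trans hX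
    have := hm (left_mem_Icc.2 h) (right_mem_Icc.2 h) h
    rwa [hk] at this
  · push Not at hX
    have hsn : s X ≤ 0 := by
      by_contra hcon
      push Not at hcon
      have := hpos X X0 h0 h hX1 hcon.le
      rw [hk'] at this
      linarith
    have hm : MonotoneOn k (Icc 0 X) := by
      refine monotoneOn_of_deriv_nonneg (convex_Icc _ _) (hc.mono (Icc_subset_Icc le_rfl h1))
        (hdiff _ _ le_rfl h1) ?_
      intro x hx
      rw [interior_Icc] at hx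
      rw [(hd x hx.1 (hx.2.trans_le h1)).deriv]
      exact hX.le.trans (hneg x X hx.1 hx.2.le (h.trans_lt hX1) hsn)
    exact hk0.trans (hm (left_mem_Icc.2 h0.le) (right_mem_Icc.2 h0.le) h0.le)

/-! ### the function `phi2` -/

/-- `φ₂ = th ψ - ψ(ρ ·)`. -/
noncomputable def phi (th ρ x : ℝ) : ℝ := th * psi x - psi (ρ * x)

/-- Its derivative. -/
noncomputable def phi' (th ρ x : ℝ) : ℝ := th * psi' x - ρ * psi' (ρ * x)

/-- The sign of its second derivative. -/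
noncomputable def sg (th ρ x : ℝ) : ℝ := th * (1 - ρ ^ 2 * x ^ 2) - ρ ^ 2 * (1 - x ^ 2)

/-- Twice `φ₂ - x φ₂'`. -/
noncomputable def EE (th ρ x : ℝ) : ℝ := th * log (1 - x ^ 2) - log (1 - ρ ^ 2 * x ^ 2)

section

variable {th ρ : ℝ}

theorem rx_lt (hρ0 : 0 < ρ) (hρ1 : ρ < 1) {x : ℝ} (h0 : 0 ≤ x) (h1 : x ≤ 1) :
    0 ≤ ρ * x ∧ ρ * x < 1 := by
  refine ⟨by positivity, ?_⟩
  calc ρ * x ≤ ρ * 1 := mul_le_mul_of_nonneg_left h1 hρ0.le
    _ < 1 := by linarith

theorem hasDerivAt_phi (hρ0 : 0 < ρ) (hρ1 : ρ < 1) {x : ℝ} (h0 : 0 ≤ x) (h1 : x < 1) :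
    HasDerivAt (phi th ρ) (phi' th ρ x) x := by
  obtain ⟨r0, r1⟩ := rx_lt hρ0 hρ1 h0 h1.le
  have d1 := (hasDerivAt_psi (by linarith : -1 < x) h1).const_mul th
  have d2 : HasDerivAt (fun x : ℝ => ρ * x) (ρ * 1) x := (hasDerivAt_id x).const_mul ρ
  have d3 := (hasDerivAt_psi (by linarith : -1 < ρ * x) r1).comp x d2
  have d4 := d1.sub d3
  have e : phi' th ρ x = th * psi' x - psi' (ρ * x) * (ρ * 1) := by unfold phi'; ring
  rw [e]
  exact d4

theorem hasDerivAt_phi' (hρ0 : 0 < ρ) (hρ1 : ρ < 1) {x : ℝ} (h0 : 0 ≤ x) (h1 : x < 1) :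
    HasDerivAt (phi' th ρ) (sg th ρ x / ((1 - x ^ 2) * (1 - ρ ^ 2 * x ^ 2))) x := by
  obtain ⟨r0, r1⟩ := rx_lt hρ0 hρ1 h0 h1.le
  have d1 := (hasDerivAt_psi' (by linarith : -1 < x) h1).const_mul th
  have d2 : HasDerivAt (fun x : ℝ => ρ * x) (ρ * 1) x := (hasDerivAt_id x).const_mul ρ
  have d3 := ((hasDerivAt_psi' (by linarith : -1 < ρ * x) r1).comp x d2).const_mul ρ
  have d4 := d1.sub d3
  have p1 : 0 < 1 - x ^ 2 := by nlinarith
  have p2 : 0 < 1 - (ρ * x) ^ 2 := by nlinarith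
  have e : sg th ρ x / ((1 - x ^ 2) * (1 - ρ ^ 2 * x ^ 2)) =
      th * (1 / (1 - x ^ 2)) - ρ * (1 / (1 - (ρ * x) ^ 2) * (ρ * 1)) := by
    unfold sg
    rw [← mul_pow]
    generalize 1 - x ^ 2 = A at p1 ⊢
    generalize 1 - (ρ * x) ^ 2 = B at p2 ⊢
    field_simp
  rw [e]
  exact d4

theorem den_pos (hρ0 : 0 < ρ) (hρ1 : ρ < 1) {x : ℝ} (h0 : 0 ≤ x) (h1 : x < 1) :
    0 < 1 - x ^ 2 ∧ 0 < 1 - ρ ^ 2 * x ^ 2 := by
  obtain ⟨r0, r1⟩ := rx_lt hρ0 hρ1 h0 h1.le
  refine ⟨by nlinarith, ?_⟩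
  rw [← mul_pow]
  nlinarith

theorem sg_mono (hth : th ≤ 1) {x y : ℝ} (hx : 0 ≤ x) (hxy : x ≤ y) :
    sg th ρ x ≤ sg th ρ y := by
  have h1 : x ^ 2 ≤ y ^ 2 := pow_le_pow_left₀ hx hxy 2
  have h2 : 0 ≤ ρ ^ 2 * (1 - th) := mul_nonneg (sq_nonneg _) (by linarith)
  have := mul_le_mul_of_nonneg_left h1 h2
  unfold sg
  linarith

theorem hasDerivAt_EE (hρ0 : 0 < ρ) (hρ1 : ρ < 1) {x : ℝ} (h0 : 0 ≤ x) (h1 : x < 1) :
    HasDerivAt (EE th ρ) (-(2 * x * (sg th ρ x / ((1 - x ^ 2) * (1 - ρ ^ 2 * x ^ 2))))) x := by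
  obtain ⟨p1, p2⟩ := den_pos hρ0 hρ1 h0 h1
  have d1 : HasDerivAt (fun x : ℝ => x ^ 2) (2 * x) x := by
    have := hasDerivAt_pow 2 x
    simpa using this
  have d2 : HasDerivAt (fun x : ℝ => 1 - x ^ 2) (-(2 * x)) x := d1.const_sub 1
  have d3 : HasDerivAt (fun x : ℝ => 1 - ρ ^ 2 * x ^ 2) (-(ρ ^ 2 * (2 * x))) x :=
    (d1.const_mul _).const_sub 1
  have d4 := ((d2.log p1.ne').const_mul th).sub (d3.log p2.ne')
  have e : -(2 * x * (sg th ρ x / ((1 - x ^ 2) * (1 - ρ ^ 2 * x ^ 2)))) =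
      th * (-(2 * x) / (1 - x ^ 2)) - -(ρ ^ 2 * (2 * x)) / (1 - ρ ^ 2 * x ^ 2) := by
    unfold sg
    generalize 1 - x ^ 2 = A at p1 ⊢
    generalize 1 - ρ ^ 2 * x ^ 2 = B at p2 ⊢
    field_simp
    ring
  rw [e]
  exact d4

theorem sg_nonneg_of_EE (hρ0 : 0 < ρ) (hρ1 : ρ < 1) (hth : th ≤ 1) {y : ℝ} (h0 : 0 < y)
    (h1 : y < 1) (hE : EE th ρ y ≤ 0) : 0 ≤ sg th ρ y := by
  by_contra hcon
  push Not at hcon
  have hm : StrictMonoOn (EE th ρ) (Icc 0 y) := by
    refine strictMonoOn_of_deriv_pos (convex_Icc _ _) ?_ ?_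
    · intro x hx
      exact (hasDerivAt_EE hρ0 hρ1 hx.1 (hx.2.trans_lt h1)).continuousAt.continuousWithinAt
    · intro x hx
      rw [interior_Icc] at hx
      rw [(hasDerivAt_EE hρ0 hρ1 hx.1.le (hx.2.trans h1)).deriv]
      obtain ⟨p1, p2⟩ := den_pos hρ0 hρ1 hx.1.le (hx.2.trans h1)
      have h2 : sg th ρ x < 0 := (sg_mono hth hx.1.le hx.2.le).trans_lt hcon
      have h3 : sg th ρ x / ((1 - x ^ 2) * (1 - ρ ^ 2 * x ^ 2)) < 0 :=
        div_neg_of_neg_of_pos h2 (mul_pos p1 p2)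
      have := mul_pos_of_neg_of_neg h3 (show -(2 * x) < 0 by linarith [hx.1])
      linarith
  have := hm (left_mem_Icc.2 h0.le) (right_mem_Icc.2 h0.le) h0
  have h00 : EE th ρ 0 = 0 := by unfold EE; simp
  rw [h00] at this
  linarith

theorem EE_anti (hρ0 : 0 < ρ) (hρ1 : ρ < 1) (hth : th ≤ 1) {x y : ℝ} (h0 : 0 < y) (hyx : y ≤ x)
    (h1 : x < 1) (hs : 0 ≤ sg th ρ y) : EE th ρ x ≤ EE th ρ y := by
  have hm : AntitoneOn (EE th ρ) (Icc y x) := by
    refine antitoneOn_of_deriv_nonpos (convex_Icc _ _) ?_ ?_ ?_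
    · intro t ht
      exact (hasDerivAt_EE hρ0 hρ1 (h0.le.trans ht.1) (ht.2.trans_lt h1)).continuousAt.continuousWithinAt
    · intro t ht
      rw [interior_Icc] at ht
      exact (hasDerivAt_EE hρ0 hρ1 (h0.le.trans ht.1.le)
        (ht.2.trans h1)).differentiableAt.differentiableWithinAt
    · intro t ht
      rw [interior_Icc] at ht
      rw [(hasDerivAt_EE hρ0 hρ1 (h0.le.trans ht.1.le) (ht.2.trans h1)).deriv]
      obtain ⟨p1, p2⟩ := den_pos hρ0 hρ1 (h0.le.trans ht.1.le) (ht.2.trans h1)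
      have h2 : 0 ≤ sg th ρ t := hs.trans (sg_mono hth h0.le ht.1.le)
      have h3 : 0 ≤ sg th ρ t / ((1 - t ^ 2) * (1 - ρ ^ 2 * t ^ 2)) :=
        div_nonneg h2 (mul_pos p1 p2).le
      have := mul_nonneg (show 0 ≤ 2 * t by linarith [ht.1]) h3
      linarith
  exact hm (left_mem_Icc.2 hyx) (right_mem_Icc.2 hyx) hyx

/-- The tangent of `phi2` at `X0` lies below it on `[0,1]`. -/
theorem phi_tangent (hρ0 : 0 < ρ) (hρ1 : ρ < 1) (hth : th ≤ 1) {X0 : ℝ} (hX0 : 0 < X0)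
    (hX1 : X0 < 1) (hE : EE th ρ X0 ≤ 0) {X : ℝ} (h0 : 0 ≤ X) (h1 : X ≤ 1) :
    phi th ρ X0 + phi' th ρ X0 * (X - X0) ≤ phi th ρ X := by
  have hs := sg_nonneg_of_EE hρ0 hρ1 hth hX0 hX1 hE
  have hmonoN : ∀ x y, 0 < x → x ≤ y → y < 1 → sg th ρ y ≤ 0 → phi' th ρ y ≤ phi' th ρ x := by
    intro x y hx hxy hy hsy
    have hm : AntitoneOn (phi' th ρ) (Icc x y) := by
      refine antitoneOn_of_deriv_nonpos (convex_Icc _ _) ?_ ?_ ?_
      · intro t ht
        exact (hasDerivAt_phi' hρ0 hρ1 (hx.le.trans ht.1)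
          (ht.2.trans_lt hy)).continuousAt.continuousWithinAt
      · intro t ht
        rw [interior_Icc] at ht
        exact (hasDerivAt_phi' hρ0 hρ1 (hx.le.trans ht.1.le)
          (ht.2.trans hy)).differentiableAt.differentiableWithinAt
      · intro t ht
        rw [interior_Icc] at ht
        rw [(hasDerivAt_phi' hρ0 hρ1 (hx.le.trans ht.1.le) (ht.2.trans hy)).deriv]
        obtain ⟨p1, p2⟩ := den_pos hρ0 hρ1 (hx.le.trans ht.1.le) (ht.2.trans hy)
        exact div_nonpos_of_nonpos_of_nonneg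
          ((sg_mono hth (hx.le.trans ht.1.le) ht.2.le).trans hsy) (mul_pos p1 p2).le
    exact hm (left_mem_Icc.2 hxy) (right_mem_Icc.2 hxy) hxy
  have hmonoP : ∀ x y, 0 < x → x ≤ y → y < 1 → 0 ≤ sg th ρ x → phi' th ρ x ≤ phi' th ρ y := by
    intro x y hx hxy hy hsy
    have hm : MonotoneOn (phi' th ρ) (Icc x y) := by
      refine monotoneOn_of_deriv_nonneg (convex_Icc _ _) ?_ ?_ ?_
      · intro t ht
        exact (hasDerivAt_phi' hρ0 hρ1 (hx.le.trans ht.1)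
          (ht.2.trans_lt hy)).continuousAt.continuousWithinAt
      · intro t ht
        rw [interior_Icc] at ht
        exact (hasDerivAt_phi' hρ0 hρ1 (hx.le.trans ht.1.le)
          (ht.2.trans hy)).differentiableAt.differentiableWithinAt
      · intro t ht
        rw [interior_Icc] at ht
        rw [(hasDerivAt_phi' hρ0 hρ1 (hx.le.trans ht.1.le) (ht.2.trans hy)).deriv]
        obtain ⟨p1, p2⟩ := den_pos hρ0 hρ1 (hx.le.trans ht.1.le) (ht.2.trans hy)
        exact div_nonneg (hsy.trans (sg_mono hth hx.le ht.1.le)) (mul_pos p1 p2).le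
    exact hm (left_mem_Icc.2 hxy) (right_mem_Icc.2 hxy) hxy
  have hcphi : Continuous (phi th ρ) := by
    unfold phi
    exact (continuous_const.mul continuous_psi).sub
      (continuous_psi.comp (continuous_const.mul continuous_id))
  have hphi0 : phi th ρ 0 = 0 := by unfold phi; rw [mul_zero, psi_zero]; ring
  have hX0' := rx_lt hρ0 hρ1 hX0.le hX1.le
  have hk0 : phi th ρ X0 - X0 * phi' th ρ X0 = EE th ρ X0 / 2 := by
    have e1 := psi_sub X0 (by linarith) hX1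
    have e2 := psi_sub (ρ * X0) (by linarith [hX0'.1]) hX0'.2
    unfold phi phi' EE
    rw [mul_pow] at e2
    linear_combination th * e1 - e2
  have := tangent_aux (k := fun X => phi th ρ X - (phi th ρ X0 + phi' th ρ X0 * (X - X0)))
    (k' := fun X => phi' th ρ X - phi' th ρ X0) (s := sg th ρ) hX0 hX1
    (by
      refine ContinuousOn.sub hcphi.continuousOn ?_
      fun_prop)
    (by
      intro x hx0 hx1
      have d1 := hasDerivAt_phi (th := th) hρ0 hρ1 hx0.le hx1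
      have d2 : HasDerivAt (fun X : ℝ => phi th ρ X0 + phi' th ρ X0 * (X - X0))
          (phi' th ρ X0 * 1) x := (((hasDerivAt_id x).sub_const X0).const_mul _).const_add _
      have d3 := d1.sub d2
      rw [mul_one] at d3
      exact d3)
    (fun x y hx hxy hy h => by linarith [hmonoN x y hx hxy hy h])
    (fun x y hx hxy hy h => by linarith [hmonoP x y hx hxy hy h])
    (by
      simp only [hphi0]
      linarith)
    (by simp) (by simp) hs h0 h1
  linarith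

theorem cone_tangent (hρ0 : 0 < ρ) (hρ1 : ρ < 1) (hth : th ≤ 1) {X0 : ℝ} (hX0 : 0 < X0)
    (hX1 : X0 < 1) (hE : EE th ρ X0 ≤ 0) {c d : ℝ} (hd : 0 ≤ d) (hdc : d ≤ c) :
    c * (phi th ρ X0 - X0 * phi' th ρ X0) + phi' th ρ X0 * d ≤ c * phi th ρ (d / c) := by
  rcases (hd.trans hdc).eq_or_lt with hc | hc
  · have hd0 : d = 0 := by linarith
    rw [← hc, hd0]; simp
  · have h := phi_tangent hρ0 hρ1 hth hX0 hX1 hE (X := d / c) (by positivity)
      ((div_le_one hc).2 hdc)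
    have h2 := mul_le_mul_of_nonneg_left h hc.le
    have h3 : c * (phi th ρ X0 + phi' th ρ X0 * (d / c - X0)) =
        c * (phi th ρ X0 - X0 * phi' th ρ X0) + phi' th ρ X0 * d := by
      field_simp
      ring
    rwa [h3] at h2

end

/-! ### the identity -/

theorem mul_psi_div {c r : ℝ} (hc : 0 ≤ c) (h : c = 0 → r = 0) :
    c * psi (r / c) = ((c + r) * log (c + r) + (c - r) * log (c - r)) / 2 - c * log c := by
  rcases hc.eq_or_lt with hc0 | hc0
  · rw [h hc0.symm, ← hc0]; simp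
  · have key : ∀ t : ℝ, c * (t / c * log (t / c)) = t * (log t - log c) := by
      intro t
      rcases eq_or_ne t 0 with rfl | ht
      · simp
      · rw [log_div ht hc0.ne']; field_simp
    have e1 : 1 + r / c = (c + r) / c := by field_simp
    have e2 : 1 - r / c = (c - r) / c := by field_simp
    rw [psi_eq, e1, e2]
    have := key (c + r)
    have := key (c - r)
    linarith

theorem M_id {ρ w d th lam : ℝ} (hd : 0 ≤ d) (h1 : d ≤ 1 + w) (h2 : d ≤ 1 - w) :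
    (H (w + ρ * d) + H (w - ρ * d)) / 2 - (th + (1 - th) * lam) * ((H (w - d) + H (w + d)) / 2) =
      (1 - th) * (H w - lam * ((H (w - d) + H (w + d)) / 2)) +
        ((1 + w) * phi th ρ (d / (1 + w)) + (1 - w) * phi th ρ (d / (1 - w))) / 2 := by
  have hH1 : H (w + ρ * d) = log 2 - ((1 + w + ρ * d) * log (1 + w + ρ * d) +
      (1 - w - ρ * d) * log (1 - w - ρ * d)) / 2 := by
    rw [H_eq, show 1 + (w + ρ * d) = 1 + w + ρ * d by ring,
      show 1 - (w + ρ * d) = 1 - w - ρ * d by ring]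
  have hH2 : H (w - ρ * d) = log 2 - ((1 + w - ρ * d) * log (1 + w - ρ * d) +
      (1 - w + ρ * d) * log (1 - w + ρ * d)) / 2 := by
    rw [H_eq, show 1 + (w - ρ * d) = 1 + w - ρ * d by ring,
      show 1 - (w - ρ * d) = 1 - w + ρ * d by ring]
  have hH3 : H (w + d) = log 2 - ((1 + w + d) * log (1 + w + d) +
      (1 - w - d) * log (1 - w - d)) / 2 := by
    rw [H_eq, show 1 + (w + d) = 1 + w + d by ring,
      show 1 - (w + d) = 1 - w - d by ring]
  have hH4 : H (w - d) = log 2 - ((1 + w - d) * log (1 + w - d) +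
      (1 - w + d) * log (1 - w + d)) / 2 := by
    rw [H_eq, show 1 + (w - d) = 1 + w - d by ring,
      show 1 - (w - d) = 1 - w + d by ring]
  have hH5 := H_eq w
  have z1 : 1 + w = 0 → d = 0 := fun h => by linarith
  have z2 : 1 - w = 0 → d = 0 := fun h => by linarith
  have p1 := mul_psi_div (c := 1 + w) (r := d) (hd.trans h1) z1
  have p2 := mul_psi_div (c := 1 - w) (r := d) (hd.trans h2) z2
  have p3 := mul_psi_div (c := 1 + w) (r := ρ * d) (hd.trans h1)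
    (fun h => by rw [z1 h, mul_zero])
  have p4 := mul_psi_div (c := 1 - w) (r := ρ * d) (hd.trans h2)
    (fun h => by rw [z2 h, mul_zero])
  rw [mul_div_assoc ρ d (1 + w)] at p3
  rw [mul_div_assoc ρ d (1 - w)] at p4
  unfold phi
  linear_combination (1 / 2) * hH1 + (1 / 2) * hH2 - (th / 2) * hH3 - (th / 2) * hH4 -
    (1 - th) * hH5 - (th / 2) * p1 - (th / 2) * p2 + (1 / 2) * p3 + (1 / 2) * p4

/-- The first weight of Lemma A. -/
noncomputable def th2 (ρ y : ℝ) : ℝ := log (1 - ρ ^ 2 * y ^ 2) / log (1 - y ^ 2)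

theorem th2_facts {ρ y : ℝ} (hρ0 : 0 < ρ) (hρ1 : ρ < 1) (h0 : 0 < y) (h1 : y < 1) :
    0 < th2 ρ y ∧ th2 ρ y ≤ ρ ^ 2 ∧ EE (th2 ρ y) ρ y = 0 := by
  obtain ⟨p1, p2⟩ := den_pos hρ0 hρ1 h0.le h1
  have hB : log (1 - y ^ 2) < 0 := log_neg p1 (by nlinarith)
  have hA : log (1 - ρ ^ 2 * y ^ 2) < 0 := log_neg p2 (by
    have : 0 < ρ ^ 2 * y ^ 2 := by positivity
    linarith)
  refine ⟨div_pos_of_neg_of_neg hA hB, ?_, ?_⟩
  · unfold th2
    rw [div_le_iff_of_neg hB]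
    have h := rpow_one_add_le_one_add_mul_self (s := -y ^ 2) (by nlinarith) (sq_nonneg ρ)
      (show ρ ^ 2 ≤ 1 by nlinarith)
    have h2 := log_le_log (rpow_pos_of_pos (by linarith) _) h
    rw [log_rpow (by linarith), show 1 + -y ^ 2 = 1 - y ^ 2 by ring,
      show 1 + ρ ^ 2 * -y ^ 2 = 1 - ρ ^ 2 * y ^ 2 by ring] at h2
    exact h2
  · unfold EE th2
    rw [div_mul_cancel₀ _ hB.ne]
    ring

theorem theta_eq {ρ a b : ℝ} (hρ0 : 0 < ρ) (hρ1 : ρ < 1) (ha : -1 < a) (hab : a < b)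
    (hb : b < 1) (hm : a + b ≤ 0) :
    theta ρ a b = th2 ρ ((b - a) / 2 / (1 - (a + b) / 2)) +
      (1 - th2 ρ ((b - a) / 2 / (1 - (a + b) / 2))) * lamA ((1 + a) / 2) ((1 + b) / 2) := by
  obtain ⟨m, hmm⟩ : ∃ m, m = (a + b) / 2 := ⟨_, rfl⟩
  obtain ⟨δ, hδ⟩ : ∃ δ, δ = (b - a) / 2 := ⟨_, rfl⟩
  have hδ0 : 0 < δ := by linarith
  have hm1 : 0 < 1 - m := by linarith
  have hδm : δ < 1 - m := by linarith
  obtain ⟨y, hy⟩ : ∃ y, y = δ / (1 - m) := ⟨_, rfl⟩
  have hy0 : 0 < y := by rw [hy]; positivity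
  have hy1 : y < 1 := by rw [hy, div_lt_one hm1]; exact hδm
  rw [← hmm, ← hδ, ← hy]
  obtain ⟨p1, p2⟩ := den_pos hρ0 hρ1 hy0.le hy1
  have hB : log (1 - y ^ 2) < 0 := log_neg p1 (by nlinarith)
  have hL : log ((1 - m) / 2) < 0 := log_neg (by linarith) (by linarith)
  have hrd : ρ * δ < δ := by nlinarith
  have hrd0 : 0 < ρ * δ := by positivity
  have e1 : ell (m - ρ * δ) + ell (m + ρ * δ) =
      -(2 * log ((1 - m) / 2) + log (1 - ρ ^ 2 * y ^ 2)) := by
    have : (1 - (m - ρ * δ)) / 2 * ((1 - (m + ρ * δ)) / 2) =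
        ((1 - m) / 2) ^ 2 * (1 - ρ ^ 2 * y ^ 2) := by
      rw [hy, div_pow]; field_simp; ring
    unfold ell
    rw [← neg_add, ← log_mul (by linarith) (by linarith), this,
      log_mul (by positivity) p2.ne', log_pow]
    push_cast; ring
  have e2 : ell a + ell b = -(2 * log ((1 - m) / 2) + log (1 - y ^ 2)) := by
    have : (1 - a) / 2 * ((1 - b) / 2) = ((1 - m) / 2) ^ 2 * (1 - y ^ 2) := by
      rw [show a = m - δ by linarith, show b = m + δ by linarith, hy, div_pow]; field_simp; ring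
    unfold ell
    rw [← neg_add, ← log_mul (by linarith) (by linarith), this,
      log_mul (by positivity) p1.ne', log_pow]
    push_cast; ring
  have e3 : lamA ((1 + a) / 2) ((1 + b) / 2) =
      log ((1 - m) / 2) / ((2 * log ((1 - m) / 2) + log (1 - y ^ 2)) / 2) := by
    unfold ell at e2
    unfold lamA
    rw [show 1 - ((1 + a) / 2 + (1 + b) / 2) / 2 = (1 - m) / 2 by rw [hmm]; ring,
      show 1 - (1 + a) / 2 = (1 - a) / 2 by ring, show 1 - (1 + b) / 2 = (1 - b) / 2 by ring,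
      show log ((1 - a) / 2) + log ((1 - b) / 2) = 2 * log ((1 - m) / 2) + log (1 - y ^ 2) by
        linarith]
  have e4 : theta ρ a b = (ell (m - ρ * δ) + ell (m + ρ * δ)) / (ell a + ell b) := by
    unfold theta; rw [← hmm, ← hδ]
  rw [e4, e1, e2, e3, neg_div_neg_eq]
  unfold th2
  generalize log ((1 - m) / 2) = L0 at hL
  generalize log (1 - y ^ 2) = B1 at hB
  generalize log (1 - ρ ^ 2 * y ^ 2) = A1
  have h1 : 2 * L0 + B1 ≠ 0 := by
    have : 2 * L0 + B1 < 0 := by linarith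
    exact this.ne
  have h2 := hB.ne
  field_simp
  ring

theorem lam_facts {a b : ℝ} (ha : -1 < a) (hab : a < b) (hb : b < 1) (hm : a + b ≤ 0) :
    0 < lamA ((1 + a) / 2) ((1 + b) / 2) ∧ lamA ((1 + a) / 2) ((1 + b) / 2) ≤ 1 := by
  obtain ⟨f1, f2, -⟩ := lamA_facts (P := (1 + a) / 2) (Q := (1 + b) / 2) (by linarith)
    (by linarith) (by linarith) (by linarith) (by linarith)
  exact ⟨f1, f2⟩

theorem y_facts {a b : ℝ} (hab : a < b) (hb : b < 1) (hm : a + b ≤ 0) :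
    0 < (b - a) / 2 / (1 - (a + b) / 2) ∧ (b - a) / 2 / (1 - (a + b) / 2) < 1 := by
  have h1 : 0 < 1 - (a + b) / 2 := by linarith
  refine ⟨div_pos (by linarith) h1, ?_⟩
  rw [div_lt_one h1]; linarith

theorem theta_pos {ρ a b : ℝ} (hρ0 : 0 < ρ) (hρ1 : ρ < 1) (ha : -1 < a) (hab : a < b)
    (hb : b < 1) (hm : a + b ≤ 0) : 0 < theta ρ a b := by
  rw [theta_eq hρ0 hρ1 ha hab hb hm]
  obtain ⟨f1, f2⟩ := lam_facts ha hab hb hm
  obtain ⟨y0, y1⟩ := y_facts hab hb hm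
  obtain ⟨g1, g2, -⟩ := th2_facts hρ0 hρ1 y0 y1
  have : ρ ^ 2 < 1 := by nlinarith
  have := mul_pos (show 0 < 1 - th2 ρ ((b - a) / 2 / (1 - (a + b) / 2)) by linarith) f1
  linarith

theorem theta_le_one {ρ a b : ℝ} (hρ0 : 0 < ρ) (hρ1 : ρ < 1) (ha : -1 < a) (hab : a < b)
    (hb : b < 1) (hm : a + b ≤ 0) : theta ρ a b ≤ 1 := by
  rw [theta_eq hρ0 hρ1 ha hab hb hm]
  obtain ⟨f1, f2⟩ := lam_facts ha hab hb hm
  obtain ⟨y0, y1⟩ := y_facts hab hb hm
  obtain ⟨g1, g2, -⟩ := th2_facts hρ0 hρ1 y0 y1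
  have : ρ ^ 2 < 1 := by nlinarith
  have := mul_le_mul_of_nonneg_left f2
    (show 0 ≤ 1 - th2 ρ ((b - a) / 2 / (1 - (a + b) / 2)) by linarith)
  linarith

theorem H_nonneg {x : ℝ} (h0 : -1 ≤ x) (h1 : x ≤ 1) : 0 ≤ H x :=
  binEntropy_nonneg (by linarith) (by linarith)

theorem M_comm (ρ u v : ℝ) : M ρ u v = M ρ v u := by
  unfold M
  rw [show (u + v) / 2 + ρ * ((v - u) / 2) = (v + u) / 2 - ρ * ((u - v) / 2) by ring,
    show (u + v) / 2 - ρ * ((v - u) / 2) = (v + u) / 2 + ρ * ((u - v) / 2) by ring]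
  ring

/-- Concavity: `M ρ u v ≥ (H u + H v)/2`. -/
theorem avg_le_M {ρ u v : ℝ} (hρ0 : 0 ≤ ρ) (hρ1 : ρ ≤ 1) (hu : |u| ≤ 1) (hv : |v| ≤ 1) :
    (H u + H v) / 2 ≤ M ρ u v := by
  rw [abs_le] at hu hv
  have hc := strictConcave_binEntropy.concaveOn
  have mu : (1 + u) / 2 ∈ Icc (0 : ℝ) 1 := ⟨by linarith, by linarith⟩
  have mv : (1 + v) / 2 ∈ Icc (0 : ℝ) 1 := ⟨by linarith, by linarith⟩
  have h1 := hc.2 mu mv (show 0 ≤ (1 - ρ) / 2 by linarith) (show 0 ≤ (1 + ρ) / 2 by linarith)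
    (by ring)
  have h2 := hc.2 mu mv (show 0 ≤ (1 + ρ) / 2 by linarith) (show 0 ≤ (1 - ρ) / 2 by linarith)
    (by ring)
  simp only [smul_eq_mul] at h1 h2
  rw [show (1 - ρ) / 2 * ((1 + u) / 2) + (1 + ρ) / 2 * ((1 + v) / 2) =
    (1 + ((u + v) / 2 + ρ * ((v - u) / 2))) / 2 by ring] at h1
  rw [show (1 + ρ) / 2 * ((1 + u) / 2) + (1 - ρ) / 2 * ((1 + v) / 2) =
    (1 + ((u + v) / 2 - ρ * ((v - u) / 2))) / 2 by ring] at h2
  unfold M H
  linarith

/-- **Lemma A.** -/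
theorem lemmaA {ρ a b : ℝ} (h0 : 0 < ρ) (h1 : ρ < 1) (ha : -1 < a) (hab : a < b) (hb : b < 1)
    (hm : a + b ≤ 0) : ∃ A B : ℝ, ∀ u v, |u| ≤ 1 → |v| ≤ 1 →
      M ρ a b - theta ρ a b * ((H a + H b) / 2 - (H u + H v) / 2) + A * (u - a) + B * (v - b) ≤
        M ρ u v := by
  have hth := theta_eq h0 h1 ha hab hb hm
  have hθ0 := theta_pos h0 h1 ha hab hb hm
  have hθ1 := theta_le_one h0 h1 ha hab hb hm
  obtain ⟨y0, y1⟩ := y_facts hab hb hm
  obtain ⟨g1, g2, g3⟩ := th2_facts h0 h1 y0 y1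
  have hρ2 : ρ ^ 2 < 1 := by nlinarith
  obtain ⟨m, hmm⟩ : ∃ m, m = (a + b) / 2 := ⟨_, rfl⟩
  obtain ⟨δ, hδ⟩ : ∃ δ, δ = (b - a) / 2 := ⟨_, rfl⟩
  have ea : a = m - δ := by linarith
  have eb : b = m + δ := by linarith
  have hδ0 : 0 < δ := by linarith
  have hm1 : 0 < 1 - m := by linarith
  have hm2 : 0 < 1 + m := by linarith
  have hm0 : m ≤ 0 := by linarith
  rw [← hmm, ← hδ] at hth y0 y1 g1 g2 g3
  obtain ⟨y, hy⟩ : ∃ y, y = δ / (1 - m) := ⟨_, rfl⟩
  rw [← hy] at hth y0 y1 g1 g2 g3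
  obtain ⟨th, hthd⟩ : ∃ th, th = th2 ρ y := ⟨_, rfl⟩
  rw [← hthd] at hth g1 g2 g3
  have hth1 : th ≤ 1 := by linarith
  obtain ⟨x, hx⟩ : ∃ x, x = δ / (1 + m) := ⟨_, rfl⟩
  have hyx : y ≤ x := by
    rw [hx, hy]
    exact div_le_div_of_nonneg_left hδ0.le hm2 (by linarith)
  have hx0 : 0 < x := y0.trans_le hyx
  have hx1 : x < 1 := by rw [hx, div_lt_one hm2]; linarith
  have hsy := sg_nonneg_of_EE h0 h1 hth1 y0 y1 g3.le
  have hEx : EE th ρ x ≤ 0 := (EE_anti h0 h1 hth1 y0 hyx hx1 hsy).trans g3.le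
  obtain ⟨lam, hlam⟩ : ∃ lam, lam = lamA ((1 + a) / 2) ((1 + b) / 2) := ⟨_, rfl⟩
  rw [← hlam] at hth
  -- the first affine minorant
  obtain ⟨R1, hR1⟩ : ∃ R1 : ℝ → ℝ → ℝ, R1 = fun u v =>
      -((1 + (u + v) / 2) / 2 * log ((1 + m) / 2)) - (1 - (u + v) / 2) / 2 * log ((1 - m) / 2) +
      lam / 2 * ((1 + u) / 2 * log ((1 + a) / 2) + (1 - u) / 2 * log ((1 - a) / 2) +
        (1 + v) / 2 * log ((1 + b) / 2) + (1 - v) / 2 * log ((1 - b) / 2)) := ⟨_, rfl⟩
  have hR1le : ∀ u v, |u| ≤ 1 → |v| ≤ 1 →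
      R1 u v ≤ H ((u + v) / 2) - lam * ((H u + H v) / 2) := by
    intro u v hu hv
    rw [abs_le] at hu hv
    have h := kl_contract (P := (1 + a) / 2) (Q := (1 + b) / 2) (by linarith) (by linarith)
      (by linarith) (by linarith) (by linarith) (p := (1 + u) / 2) (q := (1 + v) / 2)
      (by linarith) (by linarith) (by linarith) (by linarith)
    rw [← hlam] at h
    unfold kl at h
    rw [show ((1 + u) / 2 + (1 + v) / 2) / 2 = (1 + (u + v) / 2) / 2 by ring,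
      show ((1 + a) / 2 + (1 + b) / 2) / 2 = (1 + m) / 2 by rw [hmm]; ring,
      show 1 - (1 + m) / 2 = (1 - m) / 2 by ring, show 1 - (1 + a) / 2 = (1 - a) / 2 by ring,
      show 1 - (1 + b) / 2 = (1 - b) / 2 by ring] at h
    simp only [hR1]
    unfold H
    linarith
  have hR1eq : R1 a b = H m - lam * ((H a + H b) / 2) := by
    have k1 := kl_self ((1 + a) / 2)
    have k2 := kl_self ((1 + b) / 2)
    have k3 := kl_self ((1 + m) / 2)
    unfold kl at k1 k2 k3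
    rw [show 1 - (1 + a) / 2 = (1 - a) / 2 by ring] at k1
    rw [show 1 - (1 + b) / 2 = (1 - b) / 2 by ring] at k2
    rw [show 1 - (1 + m) / 2 = (1 - m) / 2 by ring] at k3
    simp only [hR1]
    rw [← hmm]
    unfold H
    linear_combination k3 - lam / 2 * k1 - lam / 2 * k2
  -- the second affine minorant
  obtain ⟨R2, hR2⟩ : ∃ R2 : ℝ → ℝ → ℝ, R2 = fun u v =>
      ((1 + (u + v) / 2) * (phi th ρ x - x * phi' th ρ x) + phi' th ρ x * ((v - u) / 2) +
      ((1 - (u + v) / 2) * (phi th ρ y - y * phi' th ρ y) + phi' th ρ y * ((v - u) / 2))) / 2 :=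
    ⟨_, rfl⟩
  have hR2le : ∀ u v, -1 ≤ u → u ≤ v → v ≤ 1 → R2 u v ≤
      ((1 + (u + v) / 2) * phi th ρ ((v - u) / 2 / (1 + (u + v) / 2)) +
        (1 - (u + v) / 2) * phi th ρ ((v - u) / 2 / (1 - (u + v) / 2))) / 2 := by
    intro u v hu huv hv
    have c1 := cone_tangent h0 h1 hth1 hx0 hx1 hEx (c := 1 + (u + v) / 2) (d := (v - u) / 2)
      (by linarith) (by linarith)
    have c2 := cone_tangent h0 h1 hth1 y0 y1 g3.le (c := 1 - (u + v) / 2) (d := (v - u) / 2)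
      (by linarith) (by linarith)
    simp only [hR2]
    linarith
  have hR2eq : R2 a b = ((1 + m) * phi th ρ x + (1 - m) * phi th ρ y) / 2 := by
    simp only [hR2]
    rw [← hmm, ← hδ]
    have k1 : (1 + m) * x = δ := by rw [hx]; field_simp
    have k2 : (1 - m) * y = δ := by rw [hy]; field_simp
    linear_combination (-(phi' th ρ x) / 2) * k1 - (phi' th ρ y / 2) * k2
  -- the total minorant
  obtain ⟨R, hR⟩ : ∃ R : ℝ → ℝ → ℝ, R = fun u v => (1 - th) * R1 u v + R2 u v := ⟨_, rfl⟩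
  have hle : ∀ u v, -1 ≤ u → u ≤ v → v ≤ 1 →
      R u v ≤ M ρ u v - theta ρ a b * ((H u + H v) / 2) := by
    intro u v hu huv hv
    have k1 := hR1le u v (abs_le.2 ⟨hu, by linarith⟩) (abs_le.2 ⟨by linarith, hv⟩)
    have k2 := hR2le u v hu huv hv
    have k3 := mul_le_mul_of_nonneg_left k1 (show 0 ≤ 1 - th by linarith)
    have k4 := M_id (ρ := ρ) (w := (u + v) / 2) (d := (v - u) / 2) (th := th) (lam := lam)
      (by linarith) (by linarith) (by linarith)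
    rw [show (u + v) / 2 - (v - u) / 2 = u by ring, show (u + v) / 2 + (v - u) / 2 = v by ring] at k4
    rw [hth]
    simp only [hR]
    unfold M
    linarith only [k2, k3, k4]
  have heq : R a b = M ρ a b - theta ρ a b * ((H a + H b) / 2) := by
    have k4 := M_id (ρ := ρ) (w := m) (d := δ) (th := th) (lam := lam)
      hδ0.le (by linarith) (by linarith)
    rw [← ea, ← eb, ← hx, ← hy] at k4
    have k5 : M ρ a b = (H (m + ρ * δ) + H (m - ρ * δ)) / 2 := by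
      unfold M; rw [← hmm, ← hδ]
    simp only [hR]
    rw [hR1eq, hR2eq, k5, hth, k4]
  obtain ⟨A, hA⟩ : ∃ A, A = R 1 0 - R 0 0 := ⟨_, rfl⟩
  obtain ⟨B, hB⟩ : ∃ B, B = R 0 1 - R 0 0 := ⟨_, rfl⟩
  have haff : ∀ u v, R u v = R 0 0 + A * u + B * v := by
    intro u v
    rw [hA, hB]
    simp only [hR, hR1, hR2]
    ring
  have hH1 : H (-1) = 0 := by unfold H; norm_num
  have hH2 : H 1 = 0 := by unfold H; norm_num
  have q1 : R (-1) (-1) ≤ 0 := by
    have := hle (-1) (-1) le_rfl le_rfl (by norm_num)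
    unfold M at this
    norm_num [hH1] at this
    exact this
  have q2 : R 1 1 ≤ 0 := by
    have := hle 1 1 (by norm_num) le_rfl le_rfl
    unfold M at this
    norm_num [hH2] at this
    exact this
  have hAB : A ≤ B := by
    have q3 : R m m ≤ 0 := by
      have e : R m m = (1 - m) / 2 * R (-1) (-1) + (1 + m) / 2 * R 1 1 := by
        rw [haff m m, haff (-1) (-1), haff 1 1]; ring
      rw [e]
      have := mul_nonpos_of_nonneg_of_nonpos (show 0 ≤ (1 - m) / 2 by linarith) q1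
      have := mul_nonpos_of_nonneg_of_nonpos (show 0 ≤ (1 + m) / 2 by linarith) q2
      linarith
    have q4 : 0 ≤ R a b := by
      rw [heq]
      have r1 := avg_le_M (ρ := ρ) h0.le h1.le (u := a) (v := b)
        (abs_le.2 ⟨by linarith, by linarith⟩) (abs_le.2 ⟨by linarith, by linarith⟩)
      have r2 : 0 ≤ (H a + H b) / 2 := by
        have := H_nonneg (x := a) (by linarith) (by linarith)
        have := H_nonneg (x := b) (by linarith) (by linarith)
        linarith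
      have r3 := mul_le_mul_of_nonneg_right hθ1 r2
      linarith only [r1, r3]
    have q5 : R a b - R m m = (B - A) * δ := by
      rw [haff a b, haff m m, ea, eb]; ring
    have q6 : 0 ≤ (B - A) * δ := by linarith
    have := nonneg_of_mul_nonneg_left q6 hδ0
    linarith
  refine ⟨A, B, fun u v hu hv => ?_⟩
  have hgoal : R u v ≤ M ρ u v - theta ρ a b * ((H u + H v) / 2) := by
    have hu' := abs_le.1 hu
    have hv' := abs_le.1 hv
    rcases le_total u v with h | h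
    · exact hle u v hu'.1 h hv'.2
    · have k1 := hle v u hv'.1 h hu'.2
      rw [M_comm, haff v u] at k1
      rw [haff u v]
      have k2 := mul_nonneg (sub_nonneg.2 hAB) (sub_nonneg.2 h)
      linarith only [k1, k2]
  have e1 := haff u v
  have e2 := haff a b
  rw [e1] at hgoal
  rw [e2] at heq
  linarith only [hgoal, heq]

end Vale.Agent.P322
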