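import Mathlib

/-!
# P322: univariate polynomial certificates (Bernstein form) for the monotonicity in `ρ`
-/

namespace Vale.Agent.P322.Mono

lemma poly_a00 {g : ℝ} (h0 : 0 ≤ g) (h1 : g ≤ 3 / 5) :
    ((6 + g) / (6 + 4 * g) + (2 / 5) * g * (2 - 3 * g) / (2 * (2 + g))) * ((2467 / 10000) * (1
    + (1 * (2 + g) / 4))) ≤
      193 / 1000 * ((1 - g) / (1 + g)) ^ 2 + (1 / 2) := by
  obtain ⟨w, hw⟩ : ∃ w, w = 3 / 5 - g := ⟨_, rfl⟩
  have hw0 : 0 ≤ w := by linarith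
  rw [← sub_nonneg]
  have e :
      193 / 1000 * ((1 - g) / (1 + g)) ^ 2 + (1 / 2) - ((6 + g) / (6 + 4 * g) + (2 / 5) * g *
      (2 - 3 * g) / (2 * (2 + g))) * ((2467 / 10000) * (1 + (1 * (2 + g) / 4))) = ((53825 /
      324) * w ^ 6 + (235301 / 216) * g * w ^ 5 + (19727129 / 6480) * g ^ 2 * w ^ 4 +
      (303268021 / 64800) * g ^ 3 * w ^ 3 + (151245383 / 36000) * g ^ 4 * w ^ 2 + (211987619 /
      101250) * g ^ 5 * w + (1411632 / 3125) * g ^ 6) / ((6 + 4 * g) * (2 * (2 + g)) * (1 + g)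
      ^ 2) := by
    rw [hw]; field_simp; ring
  rw [e]; positivity

lemma poly_a01 {g : ℝ} (h0 : 0 ≤ g) (h1 : g ≤ 3 / 5) :
    ((6 + g) / (6 + 4 * g) + (2 / 5) * g * (2 - 3 * g) / (2 * (2 + g))) * ((2467 / 10000) * (1
    + (1 * (2 + g) / 4) * (1 - g)) - (1 + g ^ 2) / 12) ≤
      193 / 1000 * ((1 - g) / (1 + g)) ^ 2 + (1 - (1 + g) ^ 2 / 4) * (1 / 2) := by
  obtain ⟨w, hw⟩ : ∃ w, w = 3 / 5 - g := ⟨_, rfl⟩
  have hw0 : 0 ≤ w := by linarith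
  rw [← sub_nonneg]
  have e :
      193 / 1000 * ((1 - g) / (1 + g)) ^ 2 + (1 - (1 + g) ^ 2 / 4) * (1 / 2) - ((6 + g) / (6 +
      4 * g) + (2 / 5) * g * (2 - 3 * g) / (2 * (2 + g))) * ((2467 / 10000) * (1 + (1 * (2 + g)
      / 4) * (1 - g)) - (1 + g ^ 2) / 12) = ((2109625 / 8748) * w ^ 7 + (29682535 / 17496) * g
      * w ^ 6 + (19679693 / 3888) * g ^ 2 * w ^ 5 + (2898567509 / 349920) * g ^ 3 * w ^ 4 +
      (13976670281 / 1749600) * g ^ 4 * w ^ 3 + (726244907 / 162000) * g ^ 5 * w ^ 2 +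
      (1793970181 / 1366875) * g ^ 6 * w + (956973166 / 6834375) * g ^ 7) / ((6 + 4 * g) * (2 *
      (2 + g)) * (1 + g) ^ 2) := by
    rw [hw]; field_simp; ring
  rw [e]; positivity

lemma poly_a10 {g : ℝ} (h0 : 0 ≤ g) (h1 : g ≤ 3 / 5) :
    ((6 + g) / (6 + 4 * g) + (2 / 5) * g * (2 - 3 * g) / (2 * (2 + g))) * ((2467 / 10000) * (1
    + (1 * (2 + g) / (4 * (1 - g ^ 2) + 1 * g * (2 + g))))) ≤
      193 / 1000 * ((1 - g) / (1 + g)) ^ 2 + (1 / 2) := by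
  obtain ⟨w, hw⟩ : ∃ w, w = 3 / 5 - g := ⟨_, rfl⟩
  have hw0 : 0 ≤ w := by linarith
  obtain ⟨Q, hQ⟩ : ∃ Q, Q = 4 * (1 - g ^ 2) + 1 * g * (2 + g) := ⟨_, rfl⟩
  have hd : 0 < Q := by rw [hQ]; nlinarith
  rw [← hQ]
  rw [← sub_nonneg]
  have e :
      193 / 1000 * ((1 - g) / (1 + g)) ^ 2 + (1 / 2) - ((6 + g) / (6 + 4 * g) + (2 / 5) * g *
      (2 - 3 * g) / (2 * (2 + g))) * ((2467 / 10000) * (1 + (1 * (2 + g) / Q))) = ((269125 /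
      243) * w ^ 7 + (1430305 / 162) * g * w ^ 6 + (29491465 / 972) * g ^ 2 * w ^ 5 +
      (568548709 / 9720) * g ^ 3 * w ^ 4 + (3325010963 / 48600) * g ^ 4 * w ^ 3 + (2941528309 /
      60750) * g ^ 5 * w ^ 2 + (964103642 / 50625) * g ^ 6 * w + (2401849478 / 759375) * g ^ 7)
      / ((6 + 4 * g) * (2 * (2 + g)) * (1 + g) ^ 2 * Q) := by
    field_simp; rw [hw, hQ]; ring
  rw [e]; positivity

lemma poly_a11 {g : ℝ} (h0 : 0 ≤ g) (h1 : g ≤ 3 / 5) :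
    ((6 + g) / (6 + 4 * g) + (2 / 5) * g * (2 - 3 * g) / (2 * (2 + g))) * ((2467 / 10000) * (1
    + (1 * (2 + g) / (4 * (1 - g ^ 2) + 1 * g * (2 + g))) * (1 - g)) - (1 + g ^ 2) / 12) ≤
      193 / 1000 * ((1 - g) / (1 + g)) ^ 2 + (1 - (1 + g) ^ 2 / 4) * (1 / 2) := by
  obtain ⟨w, hw⟩ : ∃ w, w = 3 / 5 - g := ⟨_, rfl⟩
  have hw0 : 0 ≤ w := by linarith
  obtain ⟨Q, hQ⟩ : ∃ Q, Q = 4 * (1 - g ^ 2) + 1 * g * (2 + g) := ⟨_, rfl⟩
  have hd : 0 < Q := by rw [hQ]; nlinarith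
  rw [← hQ]
  rw [← sub_nonneg]
  have e :
      193 / 1000 * ((1 - g) / (1 + g)) ^ 2 + (1 - (1 + g) ^ 2 / 4) * (1 / 2) - ((6 + g) / (6 +
      4 * g) + (2 / 5) * g * (2 - 3 * g) / (2 * (2 + g))) * ((2467 / 10000) * (1 + (1 * (2 + g)
      / Q) * (1 - g)) - (1 + g ^ 2) / 12) = ((52740625 / 19683) * w ^ 9 + (998547125 / 39366) *
      g * w ^ 8 + (8295175775 / 78732) * g ^ 2 * w ^ 7 + (39618260555 / 157464) * g ^ 3 * w ^ 6
      + (14941656235 / 39366) * g ^ 4 * w ^ 5 + (146934101963 / 393660) * g ^ 5 * w ^ 4 +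
      (467118741749 / 1968300) * g ^ 6 * w ^ 3 + (1826620128403 / 19683000) * g ^ 7 * w ^ 2 +
      (48648224992 / 2460375) * g ^ 8 * w + (4109770606 / 2460375) * g ^ 9) / ((6 + 4 * g) * (2
      * (2 + g)) * (1 + g) ^ 2 * Q) := by
    field_simp; rw [hw, hQ]; ring
  rw [e]; positivity

lemma poly_b00 {g : ℝ} (h0 : 0 ≤ g) (h1 : g ≤ 3 / 5) :
    ((6 + g) / (6 + 4 * g) + (9 / 16) * g * (2 - 3 * g) / (2 * (2 + g))) * ((1559 / 5000) * (1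
    + ((3 / 5) * (2 + g) / 4))) ≤
      193 / 1000 * ((1 - g) / (1 + g)) ^ 2 + (27 / 50) := by
  obtain ⟨w, hw⟩ : ∃ w, w = 3 / 5 - g := ⟨_, rfl⟩
  have hw0 : 0 ≤ w := by linarith
  rw [← sub_nonneg]
  have e :
      193 / 1000 * ((1 - g) / (1 + g)) ^ 2 + (27 / 50) - ((6 + g) / (6 + 4 * g) + (9 / 16) * g
      * (2 - 3 * g) / (2 * (2 + g))) * ((1559 / 5000) * (1 + ((3 / 5) * (2 + g) / 4))) =
      ((27305 / 162) * w ^ 6 + (5734541 / 5184) * g * w ^ 5 + (5360465 / 1728) * g ^ 2 * w ^ 4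
      + (276912547 / 57600) * g ^ 3 * w ^ 3 + (11347766557 / 2592000) * g ^ 4 * w ^ 2 +
      (120319511 / 54000) * g ^ 5 * w + (499666357 / 1012500) * g ^ 6) / ((6 + 4 * g) * (2 * (2
      + g)) * (1 + g) ^ 2) := by
    rw [hw]; field_simp; ring
  rw [e]; positivity

lemma poly_b01 {g : ℝ} (h0 : 0 ≤ g) (h1 : g ≤ 3 / 5) :
    ((6 + g) / (6 + 4 * g) + (9 / 16) * g * (2 - 3 * g) / (2 * (2 + g))) * ((1559 / 5000) * (1
    + ((3 / 5) * (2 + g) / 4) * (1 - g)) - (1 + g ^ 2) / 12) ≤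
      193 / 1000 * ((1 - g) / (1 + g)) ^ 2 + (1 - (1 + g) ^ 2 / 4) * (27 / 50) := by
  obtain ⟨w, hw⟩ : ∃ w, w = 3 / 5 - g := ⟨_, rfl⟩
  have hw0 : 0 ≤ w := by linarith
  rw [← sub_nonneg]
  have e :
      193 / 1000 * ((1 - g) / (1 + g)) ^ 2 + (1 - (1 + g) ^ 2 / 4) * (27 / 50) - ((6 + g) / (6
      + 4 * g) + (9 / 16) * g * (2 - 3 * g) / (2 * (2 + g))) * ((1559 / 5000) * (1 + ((3 / 5) *
      (2 + g) / 4) * (1 - g)) - (1 + g ^ 2) / 12) = ((1034975 / 4374) * w ^ 7 + (228175925 /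
      139968) * g * w ^ 6 + (219997811 / 46656) * g ^ 2 * w ^ 5 + (20634625087 / 2799360) * g ^
      3 * w ^ 4 + (92843295427 / 13996800) * g ^ 4 * w ^ 3 + (38794749461 / 11664000) * g ^ 5 *
      w ^ 2 + (8524123901 / 10935000) * g ^ 6 * w + (496804763 / 13668750) * g ^ 7) / ((6 + 4 *
      g) * (2 * (2 + g)) * (1 + g) ^ 2) := by
    rw [hw]; field_simp; ring
  rw [e]; positivity

lemma poly_b10 {g : ℝ} (h0 : 0 ≤ g) (h1 : g ≤ 3 / 5) :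
    ((6 + g) / (6 + 4 * g) + (9 / 16) * g * (2 - 3 * g) / (2 * (2 + g))) * ((1559 / 5000) * (1
    + ((3 / 5) * (2 + g) / (4 * (1 - g ^ 2) + (3 / 5) * g * (2 + g))))) ≤
      193 / 1000 * ((1 - g) / (1 + g)) ^ 2 + (27 / 50) := by
  obtain ⟨w, hw⟩ : ∃ w, w = 3 / 5 - g := ⟨_, rfl⟩
  have hw0 : 0 ≤ w := by linarith
  obtain ⟨Q, hQ⟩ : ∃ Q, Q = 4 * (1 - g ^ 2) + (3 / 5) * g * (2 + g) := ⟨_, rfl⟩
  have hd : 0 < Q := by rw [hQ]; nlinarith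
  rw [← hQ]
  rw [← sub_nonneg]
  have e :
      193 / 1000 * ((1 - g) / (1 + g)) ^ 2 + (27 / 50) - ((6 + g) / (6 + 4 * g) + (9 / 16) * g
      * (2 - 3 * g) / (2 * (2 + g))) * ((1559 / 5000) * (1 + ((3 / 5) * (2 + g) / Q))) =
      ((273050 / 243) * w ^ 7 + (11350795 / 1296) * g * w ^ 6 + (114333673 / 3888) * g ^ 2 * w
      ^ 5 + (1435911101 / 25920) * g ^ 3 * w ^ 4 + (24637876081 / 388800) * g ^ 4 * w ^ 3 +
      (10659544567 / 243000) * g ^ 5 * w ^ 2 + (2553041437 / 151875) * g ^ 6 * w + (2035060466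
      / 759375) * g ^ 7) / ((6 + 4 * g) * (2 * (2 + g)) * (1 + g) ^ 2 * Q) := by
    field_simp; rw [hw, hQ]; ring
  rw [e]; positivity

lemma poly_b11 {g : ℝ} (h0 : 0 ≤ g) (h1 : g ≤ 3 / 5) :
    ((6 + g) / (6 + 4 * g) + (9 / 16) * g * (2 - 3 * g) / (2 * (2 + g))) * ((1559 / 5000) * (1
    + ((3 / 5) * (2 + g) / (4 * (1 - g ^ 2) + (3 / 5) * g * (2 + g))) * (1 - g)) - (1 + g ^ 2)
    / 12) ≤
      193 / 1000 * ((1 - g) / (1 + g)) ^ 2 + (1 - (1 + g) ^ 2 / 4) * (27 / 50) := by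
  obtain ⟨w, hw⟩ : ∃ w, w = 3 / 5 - g := ⟨_, rfl⟩
  have hw0 : 0 ≤ w := by linarith
  obtain ⟨Q, hQ⟩ : ∃ Q, Q = 4 * (1 - g ^ 2) + (3 / 5) * g * (2 + g) := ⟨_, rfl⟩
  have hd : 0 < Q := by rw [hQ]; nlinarith
  rw [← hQ]
  rw [← sub_nonneg]
  have e :
      193 / 1000 * ((1 - g) / (1 + g)) ^ 2 + (1 - (1 + g) ^ 2 / 4) * (27 / 50) - ((6 + g) / (6
      + 4 * g) + (9 / 16) * g * (2 - 3 * g) / (2 * (2 + g))) * ((1559 / 5000) * (1 + ((3 / 5) *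
      (2 + g) / Q) * (1 - g)) - (1 + g ^ 2) / 12) = ((51748750 / 19683) * w ^ 9 + (7559906125 /
      314928) * g * w ^ 8 + (15025745125 / 157464) * g ^ 2 * w ^ 7 + (271876089535 / 1259712) *
      g ^ 3 * w ^ 6 + (95720855057 / 314928) * g ^ 4 * w ^ 5 + (172006843337 / 629856) * g ^ 5
      * w ^ 4 + (2410198825381 / 15746400) * g ^ 6 * w ^ 3 + (1548744962053 / 31492800) * g ^ 7
      * w ^ 2 + (14110203041 / 1968300) * g ^ 8 * w + (13355251 / 98415) * g ^ 9) / ((6 + 4 *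
      g) * (2 * (2 + g)) * (1 + g) ^ 2 * Q) := by
    field_simp; rw [hw, hQ]; ring
  rw [e]; positivity

lemma poly_c00 {g : ℝ} (h0 : 0 ≤ g) (h1 : g ≤ 1 / 3) :
    ((6 + g) / (6 + 4 * g) + (16 / 25) * g * (2 - 3 * g) / (2 * (2 + g))) * ((3607 / 10000) *
    (1 + ((7 / 16) * (2 + g) / 4))) ≤
      193 / 1000 * ((1 - g) / (1 + g)) ^ 2 + (5617 / 10000) := by
  obtain ⟨w, hw⟩ : ∃ w, w = 1 / 3 - g := ⟨_, rfl⟩
  have hw0 : 0 ≤ w := by linarith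
  rw [← sub_nonneg]
  have e :
      193 / 1000 * ((1 - g) / (1 + g)) ^ 2 + (5617 / 10000) - ((6 + g) / (6 + 4 * g) + (16 /
      25) * g * (2 - 3 * g) / (2 * (2 + g))) * ((3607 / 10000) * (1 + ((7 / 16) * (2 + g) /
      4))) = ((220517397 / 40000) * w ^ 6 + (69251821803 / 2000000) * g * w ^ 5 + (365803101837
      / 4000000) * g ^ 2 * w ^ 4 + (208601182089 / 1600000) * g ^ 3 * w ^ 3 + (848940878079 /
      8000000) * g ^ 4 * w ^ 2 + (46871627127 / 1000000) * g ^ 5 * w + (4396129839 / 500000) *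
      g ^ 6) / ((6 + 4 * g) * (2 * (2 + g)) * (1 + g) ^ 2) := by
    rw [hw]; field_simp; ring
  rw [e]; positivity

lemma poly_c01 {g : ℝ} (h0 : 0 ≤ g) (h1 : g ≤ 1 / 3) :
    ((6 + g) / (6 + 4 * g) + (16 / 25) * g * (2 - 3 * g) / (2 * (2 + g))) * ((3607 / 10000) *
    (1 + ((7 / 16) * (2 + g) / 4) * (1 - g)) - (1 + g ^ 2) / 12) ≤
      193 / 1000 * ((1 - g) / (1 + g)) ^ 2 + (1 - (1 + g) ^ 2 / 4) * (5617 / 10000) := by
  obtain ⟨w, hw⟩ : ∃ w, w = 1 / 3 - g := ⟨_, rfl⟩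
  have hw0 : 0 ≤ w := by linarith
  rw [← sub_nonneg]
  have e :
      193 / 1000 * ((1 - g) / (1 + g)) ^ 2 + (1 - (1 + g) ^ 2 / 4) * (5617 / 10000) - ((6 + g)
      / (6 + 4 * g) + (16 / 25) * g * (2 - 3 * g) / (2 * (2 + g))) * ((3607 / 10000) * (1 + ((7
      / 16) * (2 + g) / 4) * (1 - g)) - (1 + g ^ 2) / 12) = ((108337419 / 8000) * w ^ 7 +
      (184962672909 / 2000000) * g * w ^ 6 + (1071943435251 / 4000000) * g ^ 2 * w ^ 5 +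
      (3409817748507 / 8000000) * g ^ 3 * w ^ 4 + (3204687380823 / 8000000) * g ^ 4 * w ^ 3 +
      (885473835507 / 4000000) * g ^ 5 * w ^ 2 + (8254993673 / 125000) * g ^ 6 * w +
      (2018987823 / 250000) * g ^ 7) / ((6 + 4 * g) * (2 * (2 + g)) * (1 + g) ^ 2) := by
    rw [hw]; field_simp; ring
  rw [e]; positivity

lemma poly_c10 {g : ℝ} (h0 : 0 ≤ g) (h1 : g ≤ 1 / 3) :
    ((6 + g) / (6 + 4 * g) + (16 / 25) * g * (2 - 3 * g) / (2 * (2 + g))) * ((3607 / 10000) *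
    (1 + ((7 / 16) * (2 + g) / (4 * (1 - g ^ 2) + (7 / 16) * g * (2 + g))))) ≤
      193 / 1000 * ((1 - g) / (1 + g)) ^ 2 + (5617 / 10000) := by
  obtain ⟨w, hw⟩ : ∃ w, w = 1 / 3 - g := ⟨_, rfl⟩
  have hw0 : 0 ≤ w := by linarith
  obtain ⟨Q, hQ⟩ : ∃ Q, Q = 4 * (1 - g ^ 2) + (7 / 16) * g * (2 + g) := ⟨_, rfl⟩
  have hd : 0 < Q := by rw [hQ]; nlinarith
  rw [← hQ]
  rw [← sub_nonneg]
  have e :
      193 / 1000 * ((1 - g) / (1 + g)) ^ 2 + (5617 / 10000) - ((6 + g) / (6 + 4 * g) + (16 /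
      25) * g * (2 - 3 * g) / (2 * (2 + g))) * ((3607 / 10000) * (1 + ((7 / 16) * (2 + g) /
      Q))) = ((661552191 / 10000) * w ^ 7 + (243848947959 / 500000) * g * w ^ 6 +
      (1543683415707 / 1000000) * g ^ 2 * w ^ 5 + (1089190890801 / 400000) * g ^ 3 * w ^ 4 +
      (1157500390653 / 400000) * g ^ 4 * w ^ 3 + (370696952043 / 200000) * g ^ 5 * w ^ 2 +
      (82772433513 / 125000) * g ^ 6 * w + (12699915957 / 125000) * g ^ 7) / ((6 + 4 * g) * (2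
      * (2 + g)) * (1 + g) ^ 2 * Q) := by
    field_simp; rw [hw, hQ]; ring
  rw [e]; positivity

lemma poly_c11 {g : ℝ} (h0 : 0 ≤ g) (h1 : g ≤ 1 / 3) :
    ((6 + g) / (6 + 4 * g) + (16 / 25) * g * (2 - 3 * g) / (2 * (2 + g))) * ((3607 / 10000) *
    (1 + ((7 / 16) * (2 + g) / (4 * (1 - g ^ 2) + (7 / 16) * g * (2 + g))) * (1 - g)) - (1 + g
    ^ 2) / 12) ≤
      193 / 1000 * ((1 - g) / (1 + g)) ^ 2 + (1 - (1 + g) ^ 2 / 4) * (5617 / 10000) := by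
  obtain ⟨w, hw⟩ : ∃ w, w = 1 / 3 - g := ⟨_, rfl⟩
  have hw0 : 0 ≤ w := by linarith
  obtain ⟨Q, hQ⟩ : ∃ Q, Q = 4 * (1 - g ^ 2) + (7 / 16) * g * (2 + g) := ⟨_, rfl⟩
  have hd : 0 < Q := by rw [hQ]; nlinarith
  rw [← hQ]
  rw [← sub_nonneg]
  have e :
      193 / 1000 * ((1 - g) / (1 + g)) ^ 2 + (1 - (1 + g) ^ 2 / 4) * (5617 / 10000) - ((6 + g)
      / (6 + 4 * g) + (16 / 25) * g * (2 - 3 * g) / (2 * (2 + g))) * ((3607 / 10000) * (1 + ((7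
      / 16) * (2 + g) / Q) * (1 - g)) - (1 + g ^ 2) / 12) = ((975036771 / 2000) * w ^ 9 +
      (4350784450437 / 1000000) * g * w ^ 8 + (427624030539 / 25000) * g ^ 2 * w ^ 7 +
      (155352729396501 / 4000000) * g ^ 3 * w ^ 6 + (875668734477 / 15625) * g ^ 4 * w ^ 5 +
      (212751702037053 / 4000000) * g ^ 5 * w ^ 4 + (33106391070273 / 1000000) * g ^ 6 * w ^ 3
      + (5191953898659 / 400000) * g ^ 7 * w ^ 2 + (722826722451 / 250000) * g ^ 8 * w +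
      (17262612387 / 62500) * g ^ 9) / ((6 + 4 * g) * (2 * (2 + g)) * (1 + g) ^ 2 * Q) := by
    field_simp; rw [hw, hQ]; ring
  rw [e]; positivity

lemma poly_d00 {g : ℝ} (h0 : 0 ≤ g) (h1 : g ≤ 9 / 50) :
    ((6 + g) / (6 + 4 * g) + (289 / 400) * g * (2 - 3 * g) / (2 * (2 + g))) * ((2199 / 5000) *
    (1 + ((9 / 25) * (2 + g) / 4))) ≤
      193 / 1000 * ((1 - g) / (1 + g)) ^ 2 + (1147 / 2000) := by
  obtain ⟨w, hw⟩ : ∃ w, w = 9 / 50 - g := ⟨_, rfl⟩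
  have hw0 : 0 ≤ w := by linarith
  rw [← sub_nonneg]
  have e :
      193 / 1000 * ((1 - g) / (1 + g)) ^ 2 + (1147 / 2000) - ((6 + g) / (6 + 4 * g) + (289 /
      400) * g * (2 - 3 * g) / (2 * (2 + g))) * ((2199 / 5000) * (1 + ((9 / 25) * (2 + g) /
      4))) = ((382000000 / 2187) * w ^ 6 + (41477441275 / 39366) * g * w ^ 5 + (104532594245 /
      39366) * g ^ 2 * w ^ 4 + (56409714471049 / 15746400) * g ^ 3 * w ^ 3 + (1075331174450779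
      / 393660000) * g ^ 4 * w ^ 2 + (43993726320783077 / 39366000000) * g ^ 5 * w +
      (47210972454948319 / 246037500000) * g ^ 6) / ((6 + 4 * g) * (2 * (2 + g)) * (1 + g) ^ 2)
      := by
    rw [hw]; field_simp; ring
  rw [e]; positivity

lemma poly_d01 {g : ℝ} (h0 : 0 ≤ g) (h1 : g ≤ 9 / 50) :
    ((6 + g) / (6 + 4 * g) + (289 / 400) * g * (2 - 3 * g) / (2 * (2 + g))) * ((2199 / 5000) *
    (1 + ((9 / 25) * (2 + g) / 4) * (1 - g)) - (1 + g ^ 2) / 12) ≤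
      193 / 1000 * ((1 - g) / (1 + g)) ^ 2 + (1 - (1 + g) ^ 2 / 4) * (1147 / 2000) := by
  obtain ⟨w, hw⟩ : ∃ w, w = 9 / 50 - g := ⟨_, rfl⟩
  have hw0 : 0 ≤ w := by linarith
  rw [← sub_nonneg]
  have e :
      193 / 1000 * ((1 - g) / (1 + g)) ^ 2 + (1 - (1 + g) ^ 2 / 4) * (1147 / 2000) - ((6 + g) /
      (6 + 4 * g) + (289 / 400) * g * (2 - 3 * g) / (2 * (2 + g))) * ((2199 / 5000) * (1 + ((9
      / 25) * (2 + g) / 4) * (1 - g)) - (1 + g ^ 2) / 12) = ((3515518750000 / 4782969) * w ^ 7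
      + (23376782610625 / 4782969) * g * w ^ 6 + (44022203595725 / 3188646) * g ^ 2 * w ^ 5 +
      (1640513152128743 / 76527504) * g ^ 3 * w ^ 4 + (75428985394354309 / 3826375200) * g ^ 4
      * w ^ 3 + (136460608522712939 / 12754584000) * g ^ 5 * w ^ 2 + (30200946688697568743 /
      9565938000000) * g ^ 6 * w + (23174266488692449133 / 59787112500000) * g ^ 7) / ((6 + 4 *
      g) * (2 * (2 + g)) * (1 + g) ^ 2) := by
    rw [hw]; field_simp; ring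
  rw [e]; positivity

lemma poly_d10 {g : ℝ} (h0 : 0 ≤ g) (h1 : g ≤ 9 / 50) :
    ((6 + g) / (6 + 4 * g) + (289 / 400) * g * (2 - 3 * g) / (2 * (2 + g))) * ((2199 / 5000) *
    (1 + ((9 / 25) * (2 + g) / (4 * (1 - g ^ 2) + (9 / 25) * g * (2 + g))))) ≤
      193 / 1000 * ((1 - g) / (1 + g)) ^ 2 + (1147 / 2000) := by
  obtain ⟨w, hw⟩ : ∃ w, w = 9 / 50 - g := ⟨_, rfl⟩
  have hw0 : 0 ≤ w := by linarith
  obtain ⟨Q, hQ⟩ : ∃ Q, Q = 4 * (1 - g ^ 2) + (9 / 25) * g * (2 + g) := ⟨_, rfl⟩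
  have hd : 0 < Q := by rw [hQ]; nlinarith
  rw [← hQ]
  rw [← sub_nonneg]
  have e :
      193 / 1000 * ((1 - g) / (1 + g)) ^ 2 + (1147 / 2000) - ((6 + g) / (6 + 4 * g) + (289 /
      400) * g * (2 - 3 * g) / (2 * (2 + g))) * ((2199 / 5000) * (1 + ((9 / 25) * (2 + g) /
      Q))) = ((76400000000 / 19683) * w ^ 7 + (4864747127500 / 177147) * g * w ^ 6 +
      (1639545188050 / 19683) * g ^ 2 * w ^ 5 + (33181757258263 / 236196) * g ^ 3 * w ^ 4 +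
      (5043216407113549 / 35429400) * g ^ 4 * w ^ 3 + (17063866538652011 / 196830000) * g ^ 5 *
      w ^ 2 + (173589375847726813 / 5904900000) * g ^ 6 * w + (2371008089821973921 /
      553584375000) * g ^ 7) / ((6 + 4 * g) * (2 * (2 + g)) * (1 + g) ^ 2 * Q) := by
    field_simp; rw [hw, hQ]; ring
  rw [e]; positivity

lemma poly_d11 {g : ℝ} (h0 : 0 ≤ g) (h1 : g ≤ 9 / 50) :
    ((6 + g) / (6 + 4 * g) + (289 / 400) * g * (2 - 3 * g) / (2 * (2 + g))) * ((2199 / 5000) *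
    (1 + ((9 / 25) * (2 + g) / (4 * (1 - g ^ 2) + (9 / 25) * g * (2 + g))) * (1 - g)) - (1 + g
    ^ 2) / 12) ≤
      193 / 1000 * ((1 - g) / (1 + g)) ^ 2 + (1 - (1 + g) ^ 2 / 4) * (1147 / 2000) := by
  obtain ⟨w, hw⟩ : ∃ w, w = 9 / 50 - g := ⟨_, rfl⟩
  have hw0 : 0 ≤ w := by linarith
  obtain ⟨Q, hQ⟩ : ∃ Q, Q = 4 * (1 - g ^ 2) + (9 / 25) * g * (2 + g) := ⟨_, rfl⟩
  have hd : 0 < Q := by rw [hQ]; nlinarith
  rw [← hQ]
  rw [← sub_nonneg]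
  have e :
      193 / 1000 * ((1 - g) / (1 + g)) ^ 2 + (1 - (1 + g) ^ 2 / 4) * (1147 / 2000) - ((6 + g) /
      (6 + 4 * g) + (289 / 400) * g * (2 - 3 * g) / (2 * (2 + g))) * ((2199 / 5000) * (1 + ((9
      / 25) * (2 + g) / Q) * (1 - g)) - (1 + g ^ 2) / 12) = ((35155187500000000 / 387420489) *
      w ^ 9 + (101899383493750000 / 129140163) * g * w ^ 8 + (391443015657500000 / 129140163) *
      g ^ 2 * w ^ 7 + (871192987947963125 / 129140163) * g ^ 3 * w ^ 6 + (1236727448706060275 /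
      129140163) * g ^ 4 * w ^ 5 + (4639243149501388993 / 516560652) * g ^ 5 * w ^ 4 +
      (23911438904440150753 / 4304672100) * g ^ 6 * w ^ 3 + (28152733355174704129 /
      12914016300) * g ^ 7 * w ^ 2 + (126834805486267376371 / 258280326000) * g ^ 8 * w +
      (46642035330375894319 / 968551222500) * g ^ 9) / ((6 + 4 * g) * (2 * (2 + g)) * (1 + g) ^
      2 * Q) := by
    field_simp; rw [hw, hQ]; ring
  rw [e]; positivity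
lemma poly_e0 {g : ℝ} (h0 : 3 / 5 ≤ g) (h1 : g ≤ 33 / 50) :
    ((6 + g) / (6 + 4 * g) + (53 / 100) * g * (2 - 3 * g) / (2 * (2 + g))) * ((669 / 1250) +
    ((3 / 5) * (2 + g) / 4) * (739 / 2500)) ≤
      (27 / 50) := by
  obtain ⟨w, hw⟩ : ∃ w, w = 33 / 50 - g := ⟨_, rfl⟩
  obtain ⟨u, hu⟩ : ∃ u, u = g - 3 / 5 := ⟨_, rfl⟩
  have hw0 : 0 ≤ w := by linarith
  have hu0 : 0 ≤ u := by linarith
  have hg0 : 0 < g := by linarith
  rw [← sub_nonneg]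
  have e :
      (27 / 50) - ((6 + g) / (6 + 4 * g) + (53 / 100) * g * (2 - 3 * g) / (2 * (2 + g))) *
      ((669 / 1250) + ((3 / 5) * (2 + g) / 4) * (739 / 2500)) = ((17651901 / 250) * w ^ 4 +
      (2509120547 / 7500) * u * w ^ 3 + (43779403873 / 75000) * u ^ 2 * w ^ 2 + (334734612917 /
      750000) * u ^ 3 * w + (9885118478 / 78125) * u ^ 4) / ((6 + 4 * g) * (2 * (2 + g))) := by
    rw [hw, hu]; field_simp; ring
  rw [e]; positivity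

lemma poly_e1 {g : ℝ} (h0 : 3 / 5 ≤ g) (h1 : g ≤ 33 / 50) :
    ((6 + g) / (6 + 4 * g) + (53 / 100) * g * (2 - 3 * g) / (2 * (2 + g))) * ((669 / 1250) +
    ((3 / 5) * (2 + g) / (4 * (1 - g ^ 2) + (3 / 5) * g * (2 + g))) * (739 / 2500)) ≤
      (27 / 50) := by
  obtain ⟨w, hw⟩ : ∃ w, w = 33 / 50 - g := ⟨_, rfl⟩
  obtain ⟨u, hu⟩ : ∃ u, u = g - 3 / 5 := ⟨_, rfl⟩
  have hw0 : 0 ≤ w := by linarith
  have hu0 : 0 ≤ u := by linarith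
  have hg0 : 0 < g := by linarith
  obtain ⟨Q, hQ⟩ : ∃ Q, Q = 4 * (1 - g ^ 2) + (3 / 5) * g * (2 + g) := ⟨_, rfl⟩
  have hd : 0 < Q := by rw [hQ]; nlinarith
  rw [← hQ]
  rw [← sub_nonneg]
  have e :
      (27 / 50) - ((6 + g) / (6 + 4 * g) + (53 / 100) * g * (2 - 3 * g) / (2 * (2 + g))) *
      ((669 / 1250) + ((3 / 5) * (2 + g) / Q) * (739 / 2500)) = ((113229164 / 75) * w ^ 5 +
      (2109902386 / 225) * u * w ^ 4 + (8387158817 / 375) * u ^ 2 * w ^ 3 + (97170591397 /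
      3750) * u ^ 3 * w ^ 2 + (413071116482 / 28125) * u ^ 4 * w + (767095041952 / 234375) * u
      ^ 5) / ((6 + 4 * g) * (2 * (2 + g)) * Q) := by
    field_simp; rw [hw, hu, hQ]; ring
  rw [e]; positivity

lemma poly_f0 {g : ℝ} (h0 : 33 / 50 ≤ g) (h1 : g ≤ 1) :
    (6 + g) / (6 + 4 * g) * (3 / 5 * (739 / 2500) + (669 / 1250) * (4 / (2 + g))) ≤
      (27 / 50) * (4 / (2 + g)) := by
  obtain ⟨w, hw⟩ : ∃ w, w = 1 - g := ⟨_, rfl⟩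
  obtain ⟨u, hu⟩ : ∃ u, u = g - 33 / 50 := ⟨_, rfl⟩
  have hw0 : 0 ≤ w := by linarith
  have hu0 : 0 ≤ u := by linarith
  have hg0 : 0 < g := by linarith
  rw [← sub_nonneg]
  have e :
      (27 / 50) * (4 / (2 + g)) - (6 + g) / (6 + 4 * g) * (3 / 5 * (739 / 2500) + (669 / 1250)
      * (4 / (2 + g))) = ((39457287 / 3612500) * w ^ 2 + (260811 / 7225) * u * w + (36123 /
      1445) * u ^ 2) / ((6 + 4 * g) * (2 + g)) := by
    rw [hw, hu]; field_simp; ring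
  rw [e]; positivity

lemma poly_f1 {g : ℝ} (h0 : 33 / 50 ≤ g) (h1 : g ≤ 1) :
    ((6 + g) / (6 + 4 * g) - 2 / 5 * g * (g * ((6 + g) / (6 + 4 * g)) - 1 / 2)) * (3 / 5 * (739
    / 2500) + (669 / 1250) * (4 / (2 + g) - (4 * g ^ 2 / (2 + g) - 3 / 5 * g))) ≤
      (27 / 50) * (4 / (2 + g) - (4 * g ^ 2 / (2 + g) - 3 / 5 * g)) := by
  obtain ⟨w, hw⟩ : ∃ w, w = 1 - g := ⟨_, rfl⟩
  obtain ⟨u, hu⟩ : ∃ u, u = g - 33 / 50 := ⟨_, rfl⟩
  have hw0 : 0 ≤ w := by linarith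
  have hu0 : 0 ≤ u := by linarith
  have hg0 : 0 < g := by linarith
  rw [← sub_nonneg]
  have e :
      (27 / 50) * (4 / (2 + g) - (4 * g ^ 2 / (2 + g) - 3 / 5 * g)) - ((6 + g) / (6 + 4 * g) -
      2 / 5 * g * (g * ((6 + g) / (6 + 4 * g)) - 1 / 2)) * (3 / 5 * (739 / 2500) + (669 / 1250)
      * (4 / (2 + g) - (4 * g ^ 2 / (2 + g) - 3 / 5 * g))) = ((2679038627436 / 22185265625) * w
      ^ 5 + (754527341601 / 887410625) * u * w ^ 4 + (72257597664 / 35496425) * u ^ 2 * w ^ 3 +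
      (3006649158 / 1419857) * u ^ 3 * w ^ 2 + (1293249000 / 1419857) * u ^ 4 * w + (140085000
      / 1419857) * u ^ 5) / ((6 + 4 * g) * (2 + g)) := by
    rw [hw, hu]; field_simp; ring
  rw [e]; positivity

end Vale.Agent.P322.Mono
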