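import Vale.Agent.P322.MonoSer
import Vale.Agent.P322.MonoPoly

/-!
# P322: the algebraic core of the monotonicity in `ρ`
-/

namespace Vale.Agent.P322.Mono

open Real

/-- The generic step for small `g`. -/
lemma stepI {s g X l n1 nw φ lam κ slo shi c N1 ph : ℝ}
    (hs0 : 0 < s) (hg0 : 0 < g) (hg1 : g ≤ 2 / 3)
    (hX0 : 0 ≤ X) (hX1 : X ≤ 1) (hs1 : s < 1)
    (h10 : 0 ≤ n1) (h1 : n1 ≤ nb1 s) (h2 : X * (1 + g) ^ 2 / 4 / 6 ≤ nw) (h4 : pb s ≤ φ)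
    (hl1 : 2 * g / (2 + g) ≤ l) (hl2 : l ≤ g * (6 + g) / (6 + 4 * g))
    (hlam0 : 0 ≤ lam) (hlam : lam * g ≤ (1 - s * (g ^ 2 * X)) * l + s * (g ^ 2 * X) / 2)
    (hk0 : 0 ≤ κ) (hk : κ * (2 * l * (1 - g ^ 2 * X) + (1 - s) * (g ^ 2 * X)) ≤ (1 - s) * g)
    (hc : 1 - slo = c) (hslo : slo ≤ s) (hshi : s ≤ shi) (hslo0 : 0 ≤ slo) (hslo1 : 0 < c)
    (hshi1 : shi < 1) (hN1 : nb1 shi ≤ N1) (hph0 : 0 ≤ ph) (hph : ph ≤ pb slo)
    (hcc : ∀ Kb, (Kb = c * (2 + g) / 4 ∨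
        Kb = c * (2 + g) / (4 * (1 - g ^ 2) + c * g * (2 + g))) →
      ((6 + g) / (6 + 4 * g) + shi * g * (2 - 3 * g) / (2 * (2 + g))) * (N1 * (1 + Kb)) ≤
        193 / 1000 * ((1 - g) / (1 + g)) ^ 2 + ph ∧
      ((6 + g) / (6 + 4 * g) + shi * g * (2 - 3 * g) / (2 * (2 + g))) *
          (N1 * (1 + Kb * (1 - g)) - (1 + g ^ 2) / 12) ≤
        193 / 1000 * ((1 - g) / (1 + g)) ^ 2 + (1 - (1 + g) ^ 2 / 4) * ph) :
    lam * (n1 * (1 + κ * (1 - g * X)) - nw * (1 + ((1 - g) / (1 + g)) ^ 2)) ≤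
      193 / 1000 * ((1 - g) / (1 + g)) ^ 2 + (1 - X * (1 + g) ^ 2 / 4) * φ := by
  have hg1' : g ≤ 1 := by linarith
  have hg2 : g ^ 2 ≤ 1 := by nlinarith
  have hY0 : 0 ≤ g ^ 2 * X := by positivity
  have hY : g ^ 2 * X ≤ g ^ 2 := by nlinarith [sq_nonneg g]
  have hY1 : g ^ 2 * X ≤ 1 := by linarith
  have hlamb := lam_le hs0.le hshi hg0 hg1 hY0 hY hl1 hl2 hlam
  have hkk := kappa_le (c := c) (by linarith) hs1 hg0 hY1 hl1 hk0 hk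
  have hn : n1 ≤ N1 := h1.trans ((nb1_mono hs0.le hshi hshi1).trans hN1)
  have hp : ph ≤ φ := hph.trans ((pb_mono hslo0 hslo).trans h4)
  rcases kappa_cases hslo1 hg0 hg1' hY0 hY hk0 hkk with hK | hK
  · obtain ⟨c0, c1⟩ := hcc _ (Or.inl rfl)
    exact caseI hg0 hg1' hX0 hX1 h10 hn h2 hp hlam0 hlamb hk0 hK hph0 c0 c1
  · obtain ⟨c0, c1⟩ := hcc _ (Or.inr rfl)
    exact caseI hg0 hg1' hX0 hX1 h10 hn h2 hp hlam0 hlamb hk0 hK hph0 c0 c1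

lemma coreI {s g X l n1 nw φ lam κ : ℝ} (hs0 : 0 < s) (hg0 : 0 < g)
    (hX0 : 0 ≤ X) (hX1 : X ≤ 1)
    (hr : (s ≤ 9 / 16 ∧ g ≤ 3 / 5) ∨ (9 / 16 ≤ s ∧ s ≤ 16 / 25 ∧ g ≤ 1 / 3) ∨
      (16 / 25 ≤ s ∧ s ≤ 289 / 400 ∧ g ≤ 9 / 50))
    (h10 : 0 ≤ n1) (h1 : n1 ≤ nb1 s) (h2 : X * (1 + g) ^ 2 / 4 / 6 ≤ nw) (h4 : pb s ≤ φ)
    (hl1 : 2 * g / (2 + g) ≤ l) (hl2 : l ≤ g * (6 + g) / (6 + 4 * g))
    (hlam0 : 0 ≤ lam) (hlam : lam * g ≤ (1 - s * (g ^ 2 * X)) * l + s * (g ^ 2 * X) / 2)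
    (hk0 : 0 ≤ κ) (hk : κ * (2 * l * (1 - g ^ 2 * X) + (1 - s) * (g ^ 2 * X)) ≤ (1 - s) * g) :
    lam * (n1 * (1 + κ * (1 - g * X)) - nw * (1 + ((1 - g) / (1 + g)) ^ 2)) ≤
      193 / 1000 * ((1 - g) / (1 + g)) ^ 2 + (1 - X * (1 + g) ^ 2 / 4) * φ := by
  rcases hr with ⟨hs, hg⟩ | ⟨hs9, hs, hg⟩ | ⟨hs9, hs, hg⟩
  · rcases le_total s (2 / 5) with hs4 | hs4
    · refine stepI (slo := 0) (shi := 2 / 5) (c := 1) (N1 := (2467 / 10000)) (ph := (1 / 2))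
        hs0 hg0 (by linarith) hX0 hX1 (by linarith) h10 h1 h2 h4 hl1 hl2 hlam0 hlam hk0 hk
        (by norm_num) hs0.le hs4 (by norm_num) (by norm_num) (by norm_num)
        (by unfold nb1; norm_num) (by norm_num) (by unfold pb; norm_num) ?_
      rintro Kb (rfl | rfl)
      · exact ⟨poly_a00 hg0.le hg, poly_a01 hg0.le hg⟩
      · exact ⟨poly_a10 hg0.le hg, poly_a11 hg0.le hg⟩
    · refine stepI (slo := 2 / 5) (shi := 9 / 16) (c := 3 / 5) (N1 := (1559 / 5000))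
        (ph := (27 / 50))
        hs0 hg0 (by linarith) hX0 hX1 (by linarith) h10 h1 h2 h4 hl1 hl2 hlam0 hlam hk0 hk
        (by norm_num) hs4 hs (by norm_num) (by norm_num) (by norm_num)
        (by unfold nb1; norm_num) (by norm_num) (by unfold pb; norm_num) ?_
      rintro Kb (rfl | rfl)
      · exact ⟨poly_b00 hg0.le hg, poly_b01 hg0.le hg⟩
      · exact ⟨poly_b10 hg0.le hg, poly_b11 hg0.le hg⟩
  · refine stepI (slo := 9 / 16) (shi := 16 / 25) (c := 7 / 16) (N1 := (3607 / 10000))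
      (ph := (5617 / 10000))
      hs0 hg0 (by linarith) hX0 hX1 (by linarith) h10 h1 h2 h4 hl1 hl2 hlam0 hlam hk0 hk
      (by norm_num) hs9 hs (by norm_num) (by norm_num) (by norm_num)
      (by unfold nb1; norm_num) (by norm_num) (by unfold pb; norm_num) ?_
    rintro Kb (rfl | rfl)
    · exact ⟨poly_c00 hg0.le hg, poly_c01 hg0.le hg⟩
    · exact ⟨poly_c10 hg0.le hg, poly_c11 hg0.le hg⟩
  · refine stepI (slo := 16 / 25) (shi := 289 / 400) (c := 9 / 25) (N1 := (2199 / 5000))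
      (ph := (1147 / 2000))
      hs0 hg0 (by linarith) hX0 hX1 (by linarith) h10 h1 h2 h4 hl1 hl2 hlam0 hlam hk0 hk
      (by norm_num) hs9 hs (by norm_num) (by norm_num) (by norm_num)
      (by unfold nb1; norm_num) (by norm_num) (by unfold pb; norm_num) ?_
    rintro Kb (rfl | rfl)
    · exact ⟨poly_d00 hg0.le hg, poly_d01 hg0.le hg⟩
    · exact ⟨poly_d10 hg0.le hg, poly_d11 hg0.le hg⟩

/-- `κ ≤ 1`. -/
lemma kappa_le_one {s g Y l κ : ℝ} (hs0 : 0 ≤ s) (hs1 : s < 1) (hg0 : 0 < g) (hg1 : g ≤ 1)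
    (hY0 : 0 ≤ Y) (hY : Y ≤ g ^ 2) (hl : 2 * g / (2 + g) ≤ l) (hk0 : 0 ≤ κ)
    (hk : κ * (2 * l * (1 - Y) + (1 - s) * Y) ≤ (1 - s) * g) : κ ≤ 1 := by
  have hY1 : Y ≤ 1 := by nlinarith
  have hkk := kappa_le (c := 1 - s) le_rfl hs1 hg0 hY1 hl hk0 hk
  rcases kappa_cases (by linarith) hg0 hg1 hY0 hY hk0 hkk with hK | hK
  · refine hK.trans ?_
    rw [div_le_one (by norm_num)]
    nlinarith
  · refine hK.trans ?_
    have hd : 0 < 4 * (1 - g ^ 2) + (1 - s) * g * (2 + g) := by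
      have h1 : 0 < (1 - s) * g := mul_pos (by linarith) hg0
      have h2 : 0 ≤ 1 - g ^ 2 := by nlinarith
      positivity
    rw [div_le_one hd]
    have h1 : 0 ≤ (1 - g) * (4 * (1 + g) - (1 - s) * (2 + g)) :=
      mul_nonneg (by linarith) (by nlinarith)
    nlinarith

/-- `lam ≤ 4/5` for `g ≥ 3/5`. -/
lemma lam_le' {s g Y l lam : ℝ} (hs0 : 0 ≤ s) (hs : s ≤ 53 / 100) (hg0 : 3 / 5 ≤ g)
    (hg1 : g ≤ 1) (hY0 : 0 ≤ Y) (hY : Y ≤ g ^ 2) (hl1 : 2 * g / (2 + g) ≤ l)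
    (hl2 : l ≤ g * (6 + g) / (6 + 4 * g))
    (hlam : lam * g ≤ (1 - s * Y) * l + s * Y / 2) : lam ≤ 4 / 5 := by
  have e1 : l ≤ g * (11 / 14) := by
    refine hl2.trans ?_
    rw [div_le_iff₀ (by positivity)]
    nlinarith
  have e2 : 6 / 13 ≤ l := by
    refine le_trans ?_ hl1
    rw [div_le_div_iff₀ (by norm_num) (by positivity)]
    linarith
  have e3 : s * Y * (1 / 2 - l) ≤ g * (53 / 3900) := by
    rcases le_total (1 / 2) l with h | h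
    · have h1 : s * Y * (1 / 2 - l) ≤ 0 :=
        mul_nonpos_of_nonneg_of_nonpos (by positivity) (by linarith)
      linarith
    · have hg23 : g ≤ 2 / 3 := by
        have := hl1.trans h
        rw [div_le_div_iff₀ (by positivity) (by norm_num)] at this
        linarith
      have a1 : s * Y ≤ 53 / 100 * (g * (2 / 3)) := by
        apply mul_le_mul hs (by nlinarith) hY0 (by norm_num)
      have a2 : s * Y * (1 / 2 - l) ≤ 53 / 100 * (g * (2 / 3)) * (1 / 26) :=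
        mul_le_mul a1 (by linarith) (by linarith) (by positivity)
      linarith
  have e4 : lam * g ≤ 4 / 5 * g := by nlinarith
  exact le_of_mul_le_mul_right e4 (by linarith)

lemma coreII_b {g lam κ n1 n2 φ : ℝ} (hg0 : 3 / 5 ≤ g) (hg1 : g ≤ 33 / 50)
    (hn1 : n1 ≤ 739 / 2500) (hn2 : n2 ≤ 669 / 1250) (h10 : 0 ≤ n1) (h20 : 0 ≤ n2)
    (hφ : 27 / 50 ≤ φ) (hk0 : 0 ≤ κ)
    (hlam : lam ≤ (6 + g) / (6 + 4 * g) + (53 / 100) * g * (2 - 3 * g) / (2 * (2 + g)))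
    (hk : κ ≤ (3 / 5) * (2 + g) / 4 ∨
      κ ≤ (3 / 5) * (2 + g) / (4 * (1 - g ^ 2) + (3 / 5) * g * (2 + g))) :
    lam * (n2 + κ * n1) ≤ φ := by
  have hL : 0 ≤ (6 + g) / (6 + 4 * g) + (53 / 100) * g * (2 - 3 * g) / (2 * (2 + g)) := by
    have : 0 ≤ 2 - 3 * g := by linarith
    have : 0 ≤ g := by linarith
    positivity
  have hk10 : 0 ≤ κ * n1 := mul_nonneg hk0 h10
  rcases hk with hk | hk
  · refine le_trans ?_ ((poly_e0 hg0 hg1).trans hφ)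
    refine mul_le_mul hlam ?_ (by linarith) hL
    have := mul_le_mul hk hn1 h10 (hk0.trans hk)
    linarith
  · refine le_trans ?_ ((poly_e1 hg0 hg1).trans hφ)
    refine mul_le_mul hlam ?_ (by linarith) hL
    have := mul_le_mul hk hn1 h10 (hk0.trans hk)
    linarith

/-- Abstract final step: linear interpolation in `X` with a favourable quadratic term. -/
lemma final_c {A B C E X lam κ n1 n2 φ : ℝ} (hX0 : 0 ≤ X) (hX1 : X ≤ 1)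
    (hB0 : 0 ≤ B) (hE0 : 0 ≤ E) (hCE : 0 < C - E)
    (hn1 : n1 ≤ 739 / 2500) (hn2 : n2 ≤ 669 / 1250) (h10 : 0 ≤ n1) (h20 : 0 ≤ n2)
    (hφ : 27 / 50 ≤ φ) (hlam0 : 0 ≤ lam) (hk0 : 0 ≤ κ)
    (hL : lam ≤ A - B * X) (hK : κ * (C - E * X) ≤ 3 / 5)
    (p0 : A * (3 / 5 * (739 / 2500) + 669 / 1250 * C) ≤ 27 / 50 * C)
    (p1 : (A - B) * (3 / 5 * (739 / 2500) + 669 / 1250 * (C - E)) ≤ 27 / 50 * (C - E)) :
    lam * (n2 + κ * n1) ≤ φ := by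
  have hD : 0 < C - E * X := by nlinarith
  have key : (A - B * X) * (3 / 5 * (739 / 2500) + 669 / 1250 * (C - E * X))
      ≤ 27 / 50 * (C - E * X) := by
    have k0 := mul_le_mul_of_nonneg_left p0 (show 0 ≤ 1 - X by linarith)
    have k1 := mul_le_mul_of_nonneg_left p1 hX0
    have k2 : 0 ≤ B * E * (X * (1 - X)) := by
      have : 0 ≤ 1 - X := by linarith
      positivity
    have e : (A - B * X) * (3 / 5 * (739 / 2500) + 669 / 1250 * (C - E * X))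
        = (1 - X) * (A * (3 / 5 * (739 / 2500) + 669 / 1250 * C))
          + X * ((A - B) * (3 / 5 * (739 / 2500) + 669 / 1250 * (C - E)))
          - 669 / 1250 * (B * E * (X * (1 - X))) := by ring
    rw [e]
    have e2 : (1 - X) * (27 / 50 * C) + X * (27 / 50 * (C - E)) = 27 / 50 * (C - E * X) := by
      ring
    linarith
  have g1 : n2 * (C - E * X) ≤ 669 / 1250 * (C - E * X) :=
    mul_le_mul_of_nonneg_right hn2 hD.le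
  have g2 : κ * (C - E * X) * n1 ≤ 3 / 5 * (739 / 2500) :=
    mul_le_mul hK hn1 h10 (by norm_num)
  have f1 : (n2 + κ * n1) * (C - E * X) ≤ 3 / 5 * (739 / 2500) + 669 / 1250 * (C - E * X) := by
    have e : (n2 + κ * n1) * (C - E * X) = n2 * (C - E * X) + κ * (C - E * X) * n1 := by ring
    linarith
  have f0 : 0 ≤ (n2 + κ * n1) * (C - E * X) := by positivity
  have f2 : lam * ((n2 + κ * n1) * (C - E * X))
      ≤ (A - B * X) * (3 / 5 * (739 / 2500) + 669 / 1250 * (C - E * X)) :=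
    mul_le_mul hL f1 f0 (hlam0.trans hL)
  have f3 : 27 / 50 * (C - E * X) ≤ φ * (C - E * X) := mul_le_mul_of_nonneg_right hφ hD.le
  have fin : lam * (n2 + κ * n1) * (C - E * X) ≤ φ * (C - E * X) := by
    calc lam * (n2 + κ * n1) * (C - E * X) = lam * ((n2 + κ * n1) * (C - E * X)) := by ring
      _ ≤ _ := f2.trans (key.trans f3)
  exact le_of_mul_le_mul_right fin hD

lemma lam_c {s g X l lam A : ℝ} (hg0 : 33 / 50 ≤ g) (hg1 : g ≤ 1)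
    (hX0 : 0 ≤ X) (hX1 : X ≤ 1) (hs0 : 2 / 5 ≤ s) (hs1 : s < 1)
    (hA : A = (6 + g) / (6 + 4 * g)) (hl2 : l ≤ g * (6 + g) / (6 + 4 * g))
    (hlam : lam * g ≤ (1 - s * (g ^ 2 * X)) * l + s * (g ^ 2 * X) / 2) :
    1 / 2 ≤ g * A ∧ lam ≤ A - 2 / 5 * g * (g * A - 1 / 2) * X := by
  have hgp : 0 < g := by linarith
  have hg2 : g ^ 2 ≤ 1 := by nlinarith
  have hY0 : 0 ≤ g ^ 2 * X := by positivity
  have hY1 : g ^ 2 * X ≤ 1 := by nlinarith [sq_nonneg g]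
  have hlh : 1 / 2 ≤ g * A := by
    rw [hA, ← mul_div_assoc, div_le_div_iff₀ (by norm_num) (by positivity)]
    nlinarith
  refine ⟨hlh, ?_⟩
  have hlA : l ≤ g * A := by rw [hA, ← mul_div_assoc]; exact hl2
  have hsY : s * (g ^ 2 * X) ≤ 1 := by nlinarith
  have h1 : (1 - s * (g ^ 2 * X)) * l ≤ (1 - s * (g ^ 2 * X)) * (g * A) :=
    mul_le_mul_of_nonneg_left hlA (by linarith)
  have h2 : 2 / 5 * (g ^ 2 * X) * (g * A - 1 / 2) ≤ s * (g ^ 2 * X) * (g * A - 1 / 2) := by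
    have h3 : 2 / 5 * (g ^ 2 * X) ≤ s * (g ^ 2 * X) := mul_le_mul_of_nonneg_right hs0 hY0
    exact mul_le_mul_of_nonneg_right h3 (by linarith)
  have h4 : lam * g ≤ (A - 2 / 5 * g * (g * A - 1 / 2) * X) * g := by
    have e : (A - 2 / 5 * g * (g * A - 1 / 2) * X) * g
        = g * A - 2 / 5 * (g ^ 2 * X) * (g * A - 1 / 2) := by ring
    rw [e]
    have e2 : (1 - s * (g ^ 2 * X)) * (g * A) + s * (g ^ 2 * X) / 2
        = g * A - s * (g ^ 2 * X) * (g * A - 1 / 2) := by ring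
    linarith
  exact le_of_mul_le_mul_right h4 hgp

lemma CE_facts {g : ℝ} (hg0 : 33 / 50 ≤ g) (hg1 : g ≤ 1) :
    0 ≤ 4 * g ^ 2 / (2 + g) - 3 / 5 * g ∧
      0 < 4 / (2 + g) - (4 * g ^ 2 / (2 + g) - 3 / 5 * g) := by
  have hgp : 0 < g := by linarith
  constructor
  · rw [sub_nonneg, le_div_iff₀ (by positivity)]
    nlinarith
  · have e : 4 / (2 + g) - (4 * g ^ 2 / (2 + g) - 3 / 5 * g)
        = (4 * (1 - g ^ 2) + 3 / 5 * g * (2 + g)) / (2 + g) := by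
      field_simp; ring
    rw [e]
    have : 0 ≤ 1 - g ^ 2 := by nlinarith
    positivity

lemma kap_c {s g X l κ : ℝ} (hgp : 0 < g) (hs0 : 2 / 5 ≤ s) (hs1 : s < 1)
    (hY1 : g ^ 2 * X ≤ 1) (hl1 : 2 * g / (2 + g) ≤ l) (hk0 : 0 ≤ κ)
    (hk : κ * (2 * l * (1 - g ^ 2 * X) + (1 - s) * (g ^ 2 * X)) ≤ (1 - s) * g) :
    κ * (4 / (2 + g) - (4 * g ^ 2 / (2 + g) - 3 / 5 * g) * X) ≤ 3 / 5 := by
  have hkk := kappa_le (c := 3 / 5) (by linarith) hs1 hgp hY1 hl1 hk0 hk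
  have e : 4 * g / (2 + g) * (1 - g ^ 2 * X) + 3 / 5 * (g ^ 2 * X)
      = (4 / (2 + g) - (4 * g ^ 2 / (2 + g) - 3 / 5 * g) * X) * g := by
    field_simp; ring
  rw [e] at hkk
  have : κ * (4 / (2 + g) - (4 * g ^ 2 / (2 + g) - 3 / 5 * g) * X) * g ≤ 3 / 5 * g := by
    linarith
  exact le_of_mul_le_mul_right this hgp

lemma coreII_c {s g X l lam κ n1 n2 φ : ℝ} (hg0 : 33 / 50 ≤ g) (hg1 : g ≤ 1)
    (hX0 : 0 ≤ X) (hX1 : X ≤ 1) (hs0 : 2 / 5 ≤ s) (hs1 : s < 1)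
    (hn1 : n1 ≤ 739 / 2500) (hn2 : n2 ≤ 669 / 1250) (h10 : 0 ≤ n1) (h20 : 0 ≤ n2)
    (hφ : 27 / 50 ≤ φ)
    (hl1 : 2 * g / (2 + g) ≤ l) (hl2 : l ≤ g * (6 + g) / (6 + 4 * g))
    (hlam0 : 0 ≤ lam) (hlam : lam * g ≤ (1 - s * (g ^ 2 * X)) * l + s * (g ^ 2 * X) / 2)
    (hk0 : 0 ≤ κ) (hk : κ * (2 * l * (1 - g ^ 2 * X) + (1 - s) * (g ^ 2 * X)) ≤ (1 - s) * g) :
    lam * (n2 + κ * n1) ≤ φ := by
  have hgp : 0 < g := by linarith
  have hY1 : g ^ 2 * X ≤ 1 := by nlinarith [sq_nonneg g]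
  obtain ⟨hlh, hL⟩ := lam_c hg0 hg1 hX0 hX1 hs0 hs1 rfl hl2 hlam
  have hK := kap_c hgp hs0 hs1 hY1 hl1 hk0 hk
  obtain ⟨hE0, hCE⟩ := CE_facts hg0 hg1
  refine final_c hX0 hX1 (mul_nonneg (by positivity) (by linarith)) hE0 hCE hn1 hn2 h10 h20 hφ
    hlam0 hk0 hL hK (poly_f0 hg0 hg1) (poly_f1 hg0 hg1)

lemma nb1_nonneg {s : ℝ} (h0 : 0 ≤ s) (h1 : s < 1) : 0 ≤ nb1 s := by
  unfold nb1
  have : 0 < 1 - s := by linarith
  positivity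

lemma nb2_nonneg {s : ℝ} (h0 : 0 ≤ s) (h1 : s < 1) : 0 ≤ nb2 s := by
  unfold nb2
  have : 0 < 1 - s := by linarith
  positivity

lemma coreII {s g X l n1 nw φ lam κ : ℝ} (hs0 : 0 < s) (hs : s ≤ 53 / 100) (hg0 : 3 / 5 ≤ g)
    (hg1 : g ≤ 1) (hX0 : 0 ≤ X) (hX1 : X ≤ 1)
    (h10 : 0 ≤ n1) (h1 : n1 ≤ nb1 s) (h2 : X * (1 + g) ^ 2 / 4 / 6 ≤ nw)
    (h3 : n1 - nw ≤ (1 - X * (1 + g) ^ 2 / 4) * nb2 s) (h4 : pb s ≤ φ)
    (hl1 : 2 * g / (2 + g) ≤ l) (hl2 : l ≤ g * (6 + g) / (6 + 4 * g))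
    (hlam0 : 0 ≤ lam) (hlam : lam * g ≤ (1 - s * (g ^ 2 * X)) * l + s * (g ^ 2 * X) / 2)
    (hk0 : 0 ≤ κ) (hk : κ * (2 * l * (1 - g ^ 2 * X) + (1 - s) * (g ^ 2 * X)) ≤ (1 - s) * g) :
    lam * (n1 * (1 + κ * (1 - g * X)) - nw * (1 + ((1 - g) / (1 + g)) ^ 2)) ≤
      193 / 1000 * ((1 - g) / (1 + g)) ^ 2 + (1 - X * (1 + g) ^ 2 / 4) * φ := by
  have hgp : 0 < g := by linarith
  have hg2 : g ^ 2 ≤ 1 := by nlinarith
  have hs1 : s < 1 := by linarith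
  have hY0 : 0 ≤ g ^ 2 * X := by positivity
  have hY : g ^ 2 * X ≤ g ^ 2 := by nlinarith [sq_nonneg g]
  have hY1 : g ^ 2 * X ≤ 1 := by linarith
  have hk1 := kappa_le_one hs0.le hs1 hgp hg1 hY0 hY hl1 hk0 hk
  have hl4 := lam_le' hs0.le hs hg0 hg1 hY0 hY hl1 hl2 hlam
  have hn1 : n1 ≤ 739 / 2500 :=
    h1.trans ((nb1_mono hs0.le hs (by norm_num)).trans (by unfold nb1; norm_num))
  have hkn0 : 0 ≤ κ * n1 := mul_nonneg hk0 h10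
  have hkn : κ * n1 ≤ n1 := by nlinarith
  have h20 := nb2_nonneg hs0.le hs1
  have cb : lam * (κ * n1 - 1 / 6) ≤ 193 / 1000 := by
    rcases le_total (κ * n1) (1 / 6) with h | h
    · have : lam * (κ * n1 - 1 / 6) ≤ 0 := mul_nonpos_of_nonneg_of_nonpos hlam0 (by linarith)
      linarith
    · have : lam * (κ * n1 - 1 / 6) ≤ 4 / 5 * (739 / 2500 - 1 / 6) :=
        mul_le_mul hl4 (by linarith) (by linarith) (by norm_num)
      linarith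
  refine caseII hgp hg1 hX0 hX1 h2 h3 hlam0 ?_ cb
  rcases le_total s (2 / 5) with hs4 | hs4
  · have hn1' : n1 ≤ 2467 / 10000 :=
      h1.trans ((nb1_mono hs0.le hs4 (by norm_num)).trans (by unfold nb1; norm_num))
    have hn2' : nb2 s ≤ 3689 / 10000 :=
      (nb2_mono hs0.le hs4 (by norm_num)).trans (by unfold nb2; norm_num)
    have hφ : 1 / 2 ≤ φ := by
      refine le_trans ?_ h4
      unfold pb
      have : 0 ≤ s / 12 + s ^ 2 / 30 + s ^ 3 / 56 + s ^ 4 / 90 := by positivity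
      linarith
    have : lam * (nb2 s + κ * n1) ≤ 4 / 5 * (3689 / 10000 + 2467 / 10000) :=
      mul_le_mul hl4 (by linarith) (by linarith) (by norm_num)
    linarith
  · have hn2 : nb2 s ≤ 669 / 1250 :=
      (nb2_mono hs0.le hs (by norm_num)).trans (by unfold nb2; norm_num)
    have hφ : 27 / 50 ≤ φ :=
      le_trans (by unfold pb; norm_num) ((pb_mono (by norm_num) hs4).trans h4)
    rcases le_total g (33 / 50) with hg6 | hg6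
    · have hlamb := lam_le hs0.le hs hgp (by linarith) hY0 hY hl1 hl2 hlam
      have hkk := kappa_le (c := 3 / 5) (by linarith) hs1 hgp hY1 hl1 hk0 hk
      exact coreII_b hg0 hg6 hn1 hn2 h10 h20 hφ hk0 hlamb
        (kappa_cases (by norm_num) hgp hg1 hY0 hY hk0 hkk)
    · exact coreII_c hg6 hg1 hX0 hX1 hs4 hs1 hn1 hn2 h10 h20 hφ hl1 hl2 hlam0 hlam hk0 hk

lemma core {s g X l n1 nw φ lam κ : ℝ} (hs0 : 0 < s) (hg0 : 0 < g) (hg1 : g ≤ 1)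
    (hX0 : 0 ≤ X) (hX1 : X ≤ 1)
    (hr : s ≤ 53 / 100 ∨ (s ≤ 9 / 16 ∧ g ≤ 3 / 5) ∨ (s ≤ 16 / 25 ∧ g ≤ 1 / 3) ∨
      (s ≤ 289 / 400 ∧ g ≤ 9 / 50))
    (h10 : 0 ≤ n1) (h1 : n1 ≤ nb1 s) (h2 : X * (1 + g) ^ 2 / 4 / 6 ≤ nw)
    (h3 : n1 - nw ≤ (1 - X * (1 + g) ^ 2 / 4) * nb2 s) (h4 : pb s ≤ φ)
    (hl1 : 2 * g / (2 + g) ≤ l) (hl2 : l ≤ g * (6 + g) / (6 + 4 * g))
    (hlam0 : 0 ≤ lam) (hlam : lam * g ≤ (1 - s * (g ^ 2 * X)) * l + s * (g ^ 2 * X) / 2)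
    (hk0 : 0 ≤ κ) (hk : κ * (2 * l * (1 - g ^ 2 * X) + (1 - s) * (g ^ 2 * X)) ≤ (1 - s) * g) :
    lam * (n1 * (1 + κ * (1 - g * X)) - nw * (1 + ((1 - g) / (1 + g)) ^ 2)) ≤
      193 / 1000 * ((1 - g) / (1 + g)) ^ 2 + (1 - X * (1 + g) ^ 2 / 4) * φ := by
  rcases le_total s (9 / 16) with hs9 | hs9
  · rcases le_total g (3 / 5) with hg6 | hg6
    · exact coreI hs0 hg0 hX0 hX1 (Or.inl ⟨hs9, hg6⟩) h10 h1 h2 h4 hl1 hl2 hlam0 hlam hk0 hk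
    · rcases hr with h | ⟨-, h⟩ | ⟨-, h⟩ | ⟨-, h⟩
      · exact coreII hs0 h hg6 hg1 hX0 hX1 h10 h1 h2 h3 h4 hl1 hl2 hlam0 hlam hk0 hk
      · exact coreI hs0 hg0 hX0 hX1 (Or.inl ⟨hs9, h⟩) h10 h1 h2 h4 hl1 hl2 hlam0 hlam hk0 hk
      · exact absurd h (by linarith)
      · exact absurd h (by linarith)
  · rcases le_total s (16 / 25) with hs6 | hs6
    · have hg3 : g ≤ 1 / 3 ∨ s = 9 / 16 ∧ g ≤ 3 / 5 := by
        rcases hr with h | ⟨h, h'⟩ | ⟨-, h⟩ | ⟨-, h⟩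
        · exact absurd h (by linarith)
        · right; exact ⟨le_antisymm h hs9, h'⟩
        · left; exact h
        · left; linarith
      rcases hg3 with hg3 | ⟨h, h'⟩
      · exact coreI hs0 hg0 hX0 hX1 (Or.inr (Or.inl ⟨hs9, hs6, hg3⟩)) h10 h1 h2 h4 hl1 hl2 hlam0
          hlam hk0 hk
      · exact coreI hs0 hg0 hX0 hX1 (Or.inl ⟨h.le, h'⟩) h10 h1 h2 h4 hl1 hl2 hlam0 hlam hk0 hk
    · rcases hr with h | ⟨h, -⟩ | ⟨h, h'⟩ | ⟨h, h'⟩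
      · exact absurd h (by linarith)
      · exact absurd h (by linarith)
      · exact coreI hs0 hg0 hX0 hX1 (Or.inr (Or.inl ⟨hs9, h, h'⟩)) h10 h1 h2 h4 hl1 hl2 hlam0
          hlam hk0 hk
      · exact coreI hs0 hg0 hX0 hX1 (Or.inr (Or.inr ⟨hs6, h, h'⟩)) h10 h1 h2 h4 hl1 hl2 hlam0
          hlam hk0 hk

end Vale.Agent.P322.Mono
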