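import Vale.Agent.P322.Glue

namespace Vale.Agent.P322.Mono

open Real

/-- `N u = u psi'(u) - 2 psi u`. -/
noncomputable def N (u : ℝ) : ℝ := u * Ind.ath u - 2 * psi u

/-- Taylor coefficients of `N`. -/
noncomputable def ck (k : ℕ) : ℝ := k / ((k + 1) * (2 * k + 1))

lemma hasSum_uath {u : ℝ} (h : |u| < 1) :
    HasSum (fun k : ℕ => u ^ (2 * k + 2) / (2 * k + 1)) (u * Ind.ath u) := by
  have h1 := (Real.hasSum_log_sub_log_of_abs_lt_one h).mul_left (u / 2)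
  have e : u / 2 * (Real.log (1 + u) - Real.log (1 - u)) = u * Ind.ath u := by
    unfold Ind.ath; ring
  rw [e] at h1
  refine h1.congr_fun ?_
  intro k
  have : (2 * (k:ℝ) + 1) ≠ 0 := by positivity
  field_simp
  ring

lemma hasSum_log {u : ℝ} (h : |u| < 1) :
    HasSum (fun k : ℕ => u ^ (2 * k + 2) / (k + 1)) (-Real.log (1 - u ^ 2)) := by
  have h2 : |u ^ 2| < 1 := by
    rw [abs_pow]; exact pow_lt_one₀ (abs_nonneg u) h (by norm_num)
  have h1 := Real.hasSum_pow_div_log_of_abs_lt_one h2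
  refine h1.congr_fun ?_
  intro k
  rw [← pow_mul]
  ring_nf

lemma psi_eq' {u : ℝ} (h : |u| < 1) : psi u = Real.log (1 - u ^ 2) / 2 + u * Ind.ath u := by
  obtain ⟨h1, h2⟩ := abs_lt.mp h
  rw [LB.psi_eq]
  unfold Ind.ath
  have : 1 - u ^ 2 = (1 - u) * (1 + u) := by ring
  rw [this, Real.log_mul (by linarith) (by linarith)]
  ring

lemma hasSum_psi {u : ℝ} (h : |u| < 1) :
    HasSum (fun k : ℕ => u ^ (2 * k + 2) / (2 * (k + 1) * (2 * k + 1))) (psi u) := by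
  have h1 := (hasSum_uath h).sub ((hasSum_log h).div_const 2)
  have e : u * Ind.ath u - -Real.log (1 - u ^ 2) / 2 = psi u := by
    rw [psi_eq' h]; ring
  rw [e] at h1
  refine h1.congr_fun ?_
  intro k
  have : (2 * (k:ℝ) + 1) ≠ 0 := by positivity
  have : ((k:ℝ) + 1) ≠ 0 := by positivity
  field_simp
  ring

lemma hasSum_N {u : ℝ} (h : |u| < 1) :
    HasSum (fun k : ℕ => ck k * u ^ (2 * k + 2)) (N u) := by
  have h1 := (hasSum_uath h).sub ((hasSum_psi h).mul_left 2)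
  refine h1.congr_fun ?_
  intro k
  unfold ck
  have : (2 * (k:ℝ) + 1) ≠ 0 := by positivity
  have : ((k:ℝ) + 1) ≠ 0 := by positivity
  field_simp
  ring

lemma ck_nonneg (k : ℕ) : 0 ≤ ck k := by unfold ck; positivity

lemma N_ge {u : ℝ} (h : |u| < 1) : u ^ 4 / 6 ≤ N u := by
  have h1 := sum_le_hasSum (Finset.range 2)
    (fun k _ => mul_nonneg (ck_nonneg k) (by
      rw [show 2 * k + 2 = 2 * (k + 1) by ring, pow_mul]; positivity)) (hasSum_N h)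
  refine le_trans (le_of_eq ?_) h1
  simp [Finset.sum_range_succ, ck]
  ring

lemma N_nonneg {u : ℝ} (h : |u| < 1) : 0 ≤ N u :=
  le_trans (by positivity) (N_ge h)

lemma psi_ge {u : ℝ} (h : |u| < 1) :
    u ^ 2 * (1 / 2 + u ^ 2 / 12 + u ^ 4 / 30 + u ^ 6 / 56 + u ^ 8 / 90) ≤ psi u := by
  have h1 := sum_le_hasSum (Finset.range 5)
    (fun k _ => by
      rw [show 2 * k + 2 = 2 * (k + 1) by ring, pow_mul]; positivity) (hasSum_psi h)
  refine le_trans (le_of_eq ?_) h1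
  simp [Finset.sum_range_succ]
  ring

lemma N_le {u : ℝ} (h0 : 0 ≤ u) (h : u < 1) :
    N u ≤ u ^ 4 * (1 / 6 + 2 * u ^ 2 / 15 + 3 * u ^ 4 / 28 + 4 / 45 * (u ^ 6 / (1 - u ^ 2))) := by
  have hu : |u| < 1 := by rwa [abs_of_nonneg h0]
  have h2 : u ^ 2 < 1 := by nlinarith
  have h1 := (hasSum_nat_add_iff' 4).mpr (hasSum_N hu)
  have hg : HasSum (fun k : ℕ => 4 / 45 * u ^ 10 * (u ^ 2) ^ k) (4 / 45 * u ^ 10 * (1 - u ^ 2)⁻¹) :=
    (hasSum_geometric_of_lt_one (by positivity) h2).mul_left _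
  have hle := hasSum_le (fun k => ?_) h1 hg
  · have e : ∑ i ∈ Finset.range 4, ck i * u ^ (2 * i + 2)
        = u ^ 4 * (1 / 6 + 2 * u ^ 2 / 15 + 3 * u ^ 4 / 28) := by
      simp [Finset.sum_range_succ, ck]
      ring
    rw [e] at hle
    have e2 : u ^ 4 * (1 / 6 + 2 * u ^ 2 / 15 + 3 * u ^ 4 / 28 + 4 / 45 * (u ^ 6 / (1 - u ^ 2)))
        = u ^ 4 * (1 / 6 + 2 * u ^ 2 / 15 + 3 * u ^ 4 / 28)
          + 4 / 45 * u ^ 10 * (1 - u ^ 2)⁻¹ := by
      rw [div_eq_mul_inv (u ^ 6)]; ring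
    rw [e2]; linarith
  · have e3 : u ^ (2 * (k + 4) + 2) = u ^ 10 * (u ^ 2) ^ k := by
      rw [← pow_mul, ← pow_add]; ring_nf
    rw [e3]
    have hc : ck (k + 4) ≤ 4 / 45 := by
      unfold ck
      rw [div_le_div_iff₀ (by positivity) (by norm_num)]
      push_cast
      nlinarith [(Nat.cast_nonneg k : (0:ℝ) ≤ k)]
    have : 0 ≤ u ^ 10 * (u ^ 2) ^ k := by positivity
    nlinarith

lemma ck_mul_le (k : ℕ) : ck k * k ≤ 1 / 2 := by
  unfold ck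
  rw [div_mul_eq_mul_div, div_le_div_iff₀ (by positivity) (by norm_num)]
  nlinarith [(Nat.cast_nonneg k : (0:ℝ) ≤ k)]

lemma one_sub_pow_le {w : ℝ} (h0 : 0 ≤ w) (k : ℕ) : 1 - w ^ k ≤ k * (1 - w) := by
  have h := one_add_mul_le_pow (a := w - 1) (by linarith) k
  have : (1 + (w - 1)) = w := by ring
  rw [this] at h
  nlinarith

lemma N_diff {u w : ℝ} (h0 : 0 ≤ u) (h : u < 1) (hw0 : 0 ≤ w) (hw1 : w ≤ 1) :
    N u * w ^ 2 - N (u * w) ≤ u ^ 4 * (w ^ 2 * (1 - w ^ 2)) *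
      (1 / 6 + 4 * u ^ 2 / 15 + 9 * u ^ 4 / 28 + 16 * u ^ 6 / 45
        + 1 / 2 * (u ^ 8 / (1 - u ^ 2))) := by
  have hu : |u| < 1 := by rwa [abs_of_nonneg h0]
  have huw : |u * w| < 1 := by
    rw [abs_of_nonneg (mul_nonneg h0 hw0)]; nlinarith
  have h2 : u ^ 2 < 1 := by nlinarith
  have hw2 : w ^ 2 ≤ 1 := by nlinarith
  have hsum := ((hasSum_N hu).mul_right (w ^ 2)).sub (hasSum_N huw)
  have hterm : ∀ k : ℕ, ck k * u ^ (2 * k + 2) * w ^ 2 - ck k * (u * w) ^ (2 * k + 2)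
      ≤ ck k * k * (u ^ (2 * k + 2) * (w ^ 2 * (1 - w ^ 2))) := by
    intro k
    have e : ck k * u ^ (2 * k + 2) * w ^ 2 - ck k * (u * w) ^ (2 * k + 2)
        = ck k * (u ^ (2 * k + 2) * w ^ 2) * (1 - (w ^ 2) ^ k) := by
      rw [mul_pow, ← pow_mul]; ring
    rw [e]
    have hb := one_sub_pow_le (sq_nonneg w) k
    have hu2 : 0 ≤ u ^ (2 * k + 2) := by positivity
    have hc := ck_nonneg k
    have := mul_le_mul_of_nonneg_left hb
      (show 0 ≤ ck k * (u ^ (2 * k + 2) * w ^ 2) by positivity)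
    refine this.trans (le_of_eq ?_)
    ring
  have h1 := (hasSum_nat_add_iff' 5).mpr hsum
  have hg : HasSum (fun k : ℕ => 1 / 2 * u ^ 12 * (w ^ 2 * (1 - w ^ 2)) * (u ^ 2) ^ k)
      (1 / 2 * u ^ 12 * (w ^ 2 * (1 - w ^ 2)) * (1 - u ^ 2)⁻¹) :=
    (hasSum_geometric_of_lt_one (by positivity) h2).mul_left _
  have hww : 0 ≤ w ^ 2 * (1 - w ^ 2) := mul_nonneg (sq_nonneg _) (by linarith)
  have hle := hasSum_le (fun k => ?_) h1 hg
  · have e : ∑ i ∈ Finset.range 5, (ck i * u ^ (2 * i + 2) * w ^ 2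
          - ck i * (u * w) ^ (2 * i + 2))
        ≤ u ^ 4 * (w ^ 2 * (1 - w ^ 2)) *
          (1 / 6 + 4 * u ^ 2 / 15 + 9 * u ^ 4 / 28 + 16 * u ^ 6 / 45) := by
      refine (Finset.sum_le_sum fun i _ => hterm i).trans (le_of_eq ?_)
      simp [Finset.sum_range_succ, ck]
      ring
    have e2 : u ^ 4 * (w ^ 2 * (1 - w ^ 2)) *
        (1 / 6 + 4 * u ^ 2 / 15 + 9 * u ^ 4 / 28 + 16 * u ^ 6 / 45
          + 1 / 2 * (u ^ 8 / (1 - u ^ 2)))
        = u ^ 4 * (w ^ 2 * (1 - w ^ 2)) *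
          (1 / 6 + 4 * u ^ 2 / 15 + 9 * u ^ 4 / 28 + 16 * u ^ 6 / 45)
          + 1 / 2 * u ^ 12 * (w ^ 2 * (1 - w ^ 2)) * (1 - u ^ 2)⁻¹ := by
      rw [div_eq_mul_inv (u ^ 8)]; ring
    rw [e2]; linarith
  · refine (hterm (k + 5)).trans ?_
    have e3 : u ^ (2 * (k + 5) + 2) = u ^ 12 * (u ^ 2) ^ k := by
      rw [← pow_mul, ← pow_add]; ring_nf
    rw [e3]
    have hc := ck_mul_le (k + 5)
    have : 0 ≤ u ^ 12 * (u ^ 2) ^ k * (w ^ 2 * (1 - w ^ 2)) := by positivity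
    have := mul_le_mul_of_nonneg_right hc this
    refine this.trans (le_of_eq ?_)
    ring

lemma half_pow {x y : ℝ} (hx : 0 ≤ x) (hy : 0 ≤ y) (n : ℕ) :
    2 * ((x + y) / 2) ^ (n + 1) ≤ x ^ (n + 1) + y ^ (n + 1) := by
  have h := add_pow_le hx hy (n + 1)
  rw [Nat.add_sub_cancel] at h
  rw [div_pow, pow_succ (2:ℝ) n]
  have h2 : (0:ℝ) < 2 ^ n := by positivity
  rw [← mul_div_assoc, div_le_iff₀ (by positivity)]
  nlinarith

/-- Power mean comparison (termwise convexity). -/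
lemma N_mean {u g x : ℝ} (hu0 : 0 ≤ u) (hu : u < 1) (hg0 : 0 < g) (hg1 : g ≤ 1) (hx0 : 0 ≤ x)
    (hx1 : x ≤ 1) :
    4 * g / (1 + g) ^ 2 * N (u * (x * (1 + g) / 2))
      ≤ g / (1 + g) * N (u * x) + 1 / (1 + g) * N (u * (g * x)) := by
  have a1 : |u * x| < 1 := by
    rw [abs_of_nonneg (mul_nonneg hu0 hx0)]; nlinarith
  have hgx : g * x ≤ 1 := by nlinarith
  have hgx0 : 0 ≤ g * x := by positivity
  have a2 : |u * (g * x)| < 1 := by
    rw [abs_of_nonneg (mul_nonneg hu0 hgx0)]; nlinarith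
  have a3 : |u * (x * (1 + g) / 2)| < 1 := by
    have : x * (1 + g) / 2 ≤ 1 := by nlinarith
    have : 0 ≤ x * (1 + g) / 2 := by positivity
    rw [abs_of_nonneg (mul_nonneg hu0 this)]; nlinarith
  refine hasSum_le (fun k => ?_) ((hasSum_N a3).mul_left (4 * g / (1 + g) ^ 2))
    (((hasSum_N a1).mul_left (g / (1 + g))).add ((hasSum_N a2).mul_left (1 / (1 + g))))
  have hk := half_pow (mul_nonneg hu0 hx0) (mul_nonneg hu0 hgx0) (2 * k)
  have hc := ck_nonneg k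
  have hw : (u * x + u * (g * x)) / 2 = u * (x * (1 + g) / 2) := by ring
  rw [hw] at hk
  have e1 : 4 * g / (1 + g) ^ 2 * (ck k * (u * (x * (1 + g) / 2)) ^ (2 * k + 2))
      = ck k * (u * (g * x) / (1 + g)) * (2 * (u * (x * (1 + g) / 2)) ^ (2 * k + 1)) := by
    rw [pow_succ _ (2 * k + 1)]
    field_simp
    ring
  have e2 : g / (1 + g) * (ck k * (u * x) ^ (2 * k + 2))
        + 1 / (1 + g) * (ck k * (u * (g * x)) ^ (2 * k + 2))
      = ck k * (u * (g * x) / (1 + g)) * ((u * x) ^ (2 * k + 1) + (u * (g * x)) ^ (2 * k + 1)) := by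
    rw [pow_succ _ (2 * k + 1), pow_succ _ (2 * k + 1)]
    field_simp
  rw [e1, e2]
  exact mul_le_mul_of_nonneg_left hk (by positivity)

/-- `psi (r x) - (r x)^2/2 ≤ r^4 (psi x - x^2/2)`. -/
lemma psi_four {r x : ℝ} (hr0 : 0 ≤ r) (hr1 : r ≤ 1) (hx0 : 0 ≤ x) (hx1 : x < 1) :
    psi (r * x) - (r * x) ^ 2 / 2 ≤ r ^ 4 * (psi x - x ^ 2 / 2) := by
  have a1 : |x| < 1 := by rwa [abs_of_nonneg hx0]
  have a2 : |r * x| < 1 := by
    rw [abs_of_nonneg (mul_nonneg hr0 hx0)]; nlinarith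
  have h1 := (hasSum_nat_add_iff' 1).mpr (hasSum_psi a1)
  have h2 := (hasSum_nat_add_iff' 1).mpr (hasSum_psi a2)
  simp only [Finset.range_one, Finset.sum_singleton] at h1 h2
  norm_num at h1 h2
  refine hasSum_le (fun k => ?_) h2 (h1.mul_left (r ^ 4))
  have e : (r * x) ^ (2 * (k + 1) + 2) = r ^ 4 * (r ^ (2 * k) * x ^ (2 * (k + 1) + 2)) := by
    rw [mul_pow]; ring
  rw [e]
  have h3 : r ^ (2 * k) ≤ 1 := pow_le_one₀ hr0 hr1
  have h4 : r ^ (2 * k) * x ^ (2 * (k + 1) + 2) ≤ x ^ (2 * (k + 1) + 2) := by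
    have : 0 ≤ x ^ (2 * (k + 1) + 2) := by positivity
    nlinarith
  rw [mul_div_assoc]
  refine mul_le_mul_of_nonneg_left ?_ (by positivity)
  refine div_le_div_of_nonneg_right h4 (by positivity)

lemma psi_le_four {r : ℝ} (hr : |r| ≤ 1) :
    psi r ≤ r ^ 2 / 2 + r ^ 4 * (Real.log 2 - 1 / 2) := by
  have main : ∀ r : ℝ, 0 ≤ r → r ≤ 1 → psi r ≤ r ^ 2 / 2 + r ^ 4 * (Real.log 2 - 1 / 2) := by
    intro r hr0 hr1
    have hcl : IsClosed {x : ℝ | psi (r * x) - (r * x) ^ 2 / 2 ≤ r ^ 4 * (psi x - x ^ 2 / 2)} := by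
      refine isClosed_le ?_ ?_
      · exact (Ind.psi_continuous.comp (by fun_prop)).sub (by fun_prop)
      · exact continuous_const.mul (Ind.psi_continuous.sub (by fun_prop))
    have hc : Set.Icc (0:ℝ) 1 ⊆
        {x : ℝ | psi (r * x) - (r * x) ^ 2 / 2 ≤ r ^ 4 * (psi x - x ^ 2 / 2)} := by
      rw [← closure_Ico (zero_ne_one)]
      exact closure_minimal (fun y hy => psi_four hr0 hr1 hy.1 hy.2) hcl
    have := hc (Set.right_mem_Icc.mpr zero_le_one)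
    simp only [Set.mem_ofPred_eq, mul_one, Ind.psi_one] at this
    linarith
  rcases le_total 0 r with h | h
  · exact main r h (abs_le.mp hr).2
  · have := main (-r) (by linarith) (by linarith [(abs_le.mp hr).1])
    rw [Ind.psi_neg] at this
    have e1 : (-r) ^ 2 = r ^ 2 := by ring
    have e2 : (-r) ^ 4 = r ^ 4 := by ring
    rwa [e1, e2] at this

/-- `H m ≥ (1-m^2)(log 2 + t1 m^2)`. -/
lemma H_lower {m : ℝ} (hm : |m| ≤ 1) :
    (1 - m ^ 2) * (Real.log 2 + (Real.log 2 - 1 / 2) * m ^ 2) ≤ H m := by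
  have h := psi_le_four hm
  unfold psi at h
  nlinarith

/-! ### Elementary bounds -/

noncomputable def nb1 (s : ℝ) : ℝ := 1 / 6 + 2 * s / 15 + 3 * s ^ 2 / 28 + 4 / 45 * (s ^ 3 / (1 - s))
noncomputable def nb2 (s : ℝ) : ℝ :=
  1 / 6 + 4 * s / 15 + 9 * s ^ 2 / 28 + 16 * s ^ 3 / 45 + 1 / 2 * (s ^ 4 / (1 - s))
noncomputable def pb (s : ℝ) : ℝ := 1 / 2 + s / 12 + s ^ 2 / 30 + s ^ 3 / 56 + s ^ 4 / 90

lemma nb1_mono {s t : ℝ} (h0 : 0 ≤ s) (hst : s ≤ t) (h1 : t < 1) : nb1 s ≤ nb1 t := by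
  unfold nb1
  have e1 : s ^ 2 ≤ t ^ 2 := by gcongr
  have e2 : s ^ 3 / (1 - s) ≤ t ^ 3 / (1 - t) := by
    have : 0 < 1 - t := by linarith
    have : 0 ≤ t := h0.trans hst
    gcongr
  linarith

lemma nb2_mono {s t : ℝ} (h0 : 0 ≤ s) (hst : s ≤ t) (h1 : t < 1) : nb2 s ≤ nb2 t := by
  unfold nb2
  have e1 : s ^ 2 ≤ t ^ 2 := by gcongr
  have e3 : s ^ 3 ≤ t ^ 3 := by gcongr
  have e2 : s ^ 4 / (1 - s) ≤ t ^ 4 / (1 - t) := by
    have : 0 < 1 - t := by linarith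
    have : 0 ≤ t := h0.trans hst
    gcongr
  linarith

lemma pb_mono {s t : ℝ} (h0 : 0 ≤ s) (hst : s ≤ t) : pb s ≤ pb t := by
  unfold pb
  have e1 : s ^ 2 ≤ t ^ 2 := by gcongr
  have e3 : s ^ 3 ≤ t ^ 3 := by gcongr
  have e4 : s ^ 4 ≤ t ^ 4 := by gcongr
  linarith

lemma log_low {g : ℝ} (h : 0 ≤ g) : 2 * g / (2 + g) ≤ Real.log (1 + g) := by
  have := Real.le_log_one_add_of_nonneg h
  rwa [add_comm g 2] at this

lemma log_up {g : ℝ} (h : 0 ≤ g) : Real.log (1 + g) ≤ g * (6 + g) / (6 + 4 * g) := by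
  have hd : ∀ x : ℝ, 0 ≤ x → HasDerivAt (fun x : ℝ => x * (6 + x) / (6 + 4 * x) - Real.log (1 + x))
      (((1 * (6 + x) + x * 1) * (6 + 4 * x) - x * (6 + x) * 4) / (6 + 4 * x) ^ 2
        - 1 / (1 + x)) x := by
    intro x hx
    have a1 : HasDerivAt (fun x : ℝ => x * (6 + x)) (1 * (6 + x) + x * 1) x :=
      (hasDerivAt_id x).mul ((hasDerivAt_id x).const_add 6)
    have a2 : HasDerivAt (fun x : ℝ => 6 + 4 * x) 4 x := by
      simpa using ((hasDerivAt_id x).const_mul 4).const_add 6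
    have a3 : HasDerivAt (fun x : ℝ => Real.log (1 + x)) (1 / (1 + x)) x :=
      ((hasDerivAt_id x).const_add 1).log (by simpa using (by linarith : (0:ℝ) < 1 + x).ne')
    exact (a1.div a2 (by linarith)).sub a3
  have hmono : MonotoneOn (fun x : ℝ => x * (6 + x) / (6 + 4 * x) - Real.log (1 + x))
      (Set.Icc 0 g) := by
    apply monotoneOn_of_deriv_nonneg (convex_Icc _ _)
    · intro y hy
      exact (hd y hy.1).continuousAt.continuousWithinAt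
    · intro y hy
      rw [interior_Icc] at hy
      exact (hd y hy.1.le).differentiableAt.differentiableWithinAt
    · intro y hy
      rw [interior_Icc] at hy
      rw [(hd y hy.1.le).deriv]
      have hy0 := hy.1
      have e : ((1 * (6 + y) + y * 1) * (6 + 4 * y) - y * (6 + y) * 4) / (6 + 4 * y) ^ 2
          - 1 / (1 + y) = 4 * y ^ 3 / ((6 + 4 * y) ^ 2 * (1 + y)) := by
        field_simp; ring
      rw [e]; positivity
  have := hmono ⟨le_refl _, h⟩ ⟨h, le_refl _⟩ h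
  simp at this
  linarith

/-! ### The algebraic core -/

lemma kappa_le {s c g Y l κ : ℝ} (hs : 1 - s ≤ c) (hs1 : s < 1) (hg0 : 0 < g)
    (hY1 : Y ≤ 1) (hl : 2 * g / (2 + g) ≤ l) (hκ0 : 0 ≤ κ)
    (hκ : κ * (2 * l * (1 - Y) + (1 - s) * Y) ≤ (1 - s) * g) :
    κ * (4 * g / (2 + g) * (1 - Y) + c * Y) ≤ c * g := by
  have h1 : 4 * g / (2 + g) * (1 - Y) ≤ 2 * l * (1 - Y) := by
    have : 4 * g / (2 + g) ≤ 2 * l := by
      have : 4 * g / (2 + g) = 2 * (2 * g / (2 + g)) := by ring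
      linarith
    exact mul_le_mul_of_nonneg_right this (by linarith)
  have h2 : κ * (4 * g / (2 + g) * (1 - Y)) ≤ (1 - s) * (g - κ * Y) := by
    have := mul_le_mul_of_nonneg_left h1 hκ0
    nlinarith
  have h3 : 0 ≤ κ * (4 * g / (2 + g) * (1 - Y)) := by
    have : 0 ≤ 1 - Y := by linarith
    positivity
  have h4 : 0 ≤ g - κ * Y := by
    by_contra hc
    push Not at hc
    have : (1 - s) * (g - κ * Y) < 0 := mul_neg_of_pos_of_neg (by linarith) hc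
    linarith
  nlinarith

lemma kappa_cases {c g Y κ : ℝ} (hc : 0 < c) (hg0 : 0 < g) (hg1 : g ≤ 1) (hY0 : 0 ≤ Y)
    (hY : Y ≤ g ^ 2) (hκ0 : 0 ≤ κ)
    (hκ : κ * (4 * g / (2 + g) * (1 - Y) + c * Y) ≤ c * g) :
    κ ≤ c * (2 + g) / 4 ∨ κ ≤ c * (2 + g) / (4 * (1 - g ^ 2) + c * g * (2 + g)) := by
  have hA : 0 < 4 * g / (2 + g) := by positivity
  rcases le_total (4 * g / (2 + g)) c with h | h
  · left
    have h1 : κ * (4 * g / (2 + g)) ≤ c * g := by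
      refine le_trans ?_ hκ
      apply mul_le_mul_of_nonneg_left _ hκ0
      nlinarith
    rw [← le_div_iff₀ hA] at h1
    refine h1.trans (le_of_eq ?_)
    field_simp
  · right
    have h1 : κ * (4 * g / (2 + g) * (1 - g ^ 2) + c * g ^ 2) ≤ c * g := by
      refine le_trans ?_ hκ
      apply mul_le_mul_of_nonneg_left _ hκ0
      nlinarith
    have h2 : 0 < 4 * (1 - g ^ 2) + c * g * (2 + g) := by
      have : 0 ≤ 1 - g ^ 2 := by nlinarith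
      positivity
    rw [le_div_iff₀ h2]
    have e : 4 * g / (2 + g) * (1 - g ^ 2) + c * g ^ 2
        = (4 * (1 - g ^ 2) + c * g * (2 + g)) * (g / (2 + g)) := by
      field_simp
    rw [e] at h1
    have h3 : 0 < g / (2 + g) := by positivity
    have h4 : κ * (4 * (1 - g ^ 2) + c * g * (2 + g)) * (g / (2 + g))
        ≤ (c * (2 + g)) * (g / (2 + g)) := by
      refine le_trans (le_of_eq (by ring)) (h1.trans (le_of_eq ?_))
      field_simp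
    exact le_of_mul_le_mul_right h4 h3

lemma lam_le {s shi g Y l lam : ℝ} (hs0 : 0 ≤ s) (hs : s ≤ shi) (hg0 : 0 < g)
    (hg : g ≤ 2 / 3) (hY0 : 0 ≤ Y) (hY : Y ≤ g ^ 2) (hl1 : 2 * g / (2 + g) ≤ l)
    (hl2 : l ≤ g * (6 + g) / (6 + 4 * g))
    (hlam : lam * g ≤ (1 - s * Y) * l + s * Y / 2) :
    lam ≤ (6 + g) / (6 + 4 * g) + shi * g * (2 - 3 * g) / (2 * (2 + g)) := by
  have h1 : s * Y ≤ shi * g ^ 2 := by
    have : 0 ≤ shi := hs0.trans hs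
    gcongr
  have h2 : 1 / 2 - l ≤ (2 - 3 * g) / (2 * (2 + g)) := by
    have : (2 - 3 * g) / (2 * (2 + g)) = 1 / 2 - 2 * g / (2 + g) := by field_simp; ring
    rw [this]; linarith
  have h3 : 0 ≤ (2 - 3 * g) / (2 * (2 + g)) := div_nonneg (by linarith) (by positivity)
  have h4 : s * Y * (1 / 2 - l) ≤ shi * g ^ 2 * ((2 - 3 * g) / (2 * (2 + g))) := by
    calc s * Y * (1 / 2 - l) ≤ s * Y * ((2 - 3 * g) / (2 * (2 + g))) :=
          mul_le_mul_of_nonneg_left h2 (by positivity)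
      _ ≤ _ := mul_le_mul_of_nonneg_right h1 h3
  have h5 : lam * g ≤ ((6 + g) / (6 + 4 * g) + shi * g * (2 - 3 * g) / (2 * (2 + g))) * g := by
    have e : ((6 + g) / (6 + 4 * g) + shi * g * (2 - 3 * g) / (2 * (2 + g))) * g
        = g * (6 + g) / (6 + 4 * g) + shi * g ^ 2 * ((2 - 3 * g) / (2 * (2 + g))) := by ring
    rw [e]; linarith
  exact le_of_mul_le_mul_right h5 hg0

/-- Linear interpolation step in Case I. -/
lemma caseI {g X n1 nw φ lam κ N1 ph Lb Kb : ℝ} (hg0 : 0 < g) (hg1 : g ≤ 1)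
    (hX0 : 0 ≤ X) (hX1 : X ≤ 1) (h10 : 0 ≤ n1) (h1 : n1 ≤ N1)
    (h2 : X * (1 + g) ^ 2 / 4 / 6 ≤ nw) (h4 : ph ≤ φ) (hlam0 : 0 ≤ lam) (hlam : lam ≤ Lb)
    (hk0 : 0 ≤ κ) (hk : κ ≤ Kb) (hph : 0 ≤ ph)
    (c0 : Lb * (N1 * (1 + Kb)) ≤ 193 / 1000 * ((1 - g) / (1 + g)) ^ 2 + ph)
    (c1 : Lb * (N1 * (1 + Kb * (1 - g)) - (1 + g ^ 2) / 12) ≤
      193 / 1000 * ((1 - g) / (1 + g)) ^ 2 + (1 - (1 + g) ^ 2 / 4) * ph) :
    lam * (n1 * (1 + κ * (1 - g * X)) - nw * (1 + ((1 - g) / (1 + g)) ^ 2)) ≤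
      193 / 1000 * ((1 - g) / (1 + g)) ^ 2 + (1 - X * (1 + g) ^ 2 / 4) * φ := by
  have hgX : g * X ≤ 1 := by nlinarith
  have hw : X * (1 + g) ^ 2 / 4 ≤ 1 := by nlinarith
  have b1 : n1 * (1 + κ * (1 - g * X)) ≤ N1 * (1 + Kb * (1 - g * X)) := by
    have hz : 0 ≤ 1 - g * X := by linarith
    have : κ * (1 - g * X) ≤ Kb * (1 - g * X) := mul_le_mul_of_nonneg_right hk hz
    have h5 : 0 ≤ κ * (1 - g * X) := mul_nonneg hk0 hz
    exact mul_le_mul h1 (by linarith) (by linarith) (h10.trans h1)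
  have b2 : X * (1 + g ^ 2) / 12 ≤ nw * (1 + ((1 - g) / (1 + g)) ^ 2) := by
    have h6 := mul_le_mul_of_nonneg_right h2 (show 0 ≤ 1 + ((1 - g) / (1 + g)) ^ 2 by positivity)
    refine le_trans (le_of_eq ?_) h6
    field_simp
    ring
  have b3 : (1 - X * (1 + g) ^ 2 / 4) * ph ≤ (1 - X * (1 + g) ^ 2 / 4) * φ :=
    mul_le_mul_of_nonneg_left h4 (by linarith)
  have hrhs : 0 ≤ 193 / 1000 * ((1 - g) / (1 + g)) ^ 2 + (1 - X * (1 + g) ^ 2 / 4) * ph := by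
    have : 0 ≤ (1 - X * (1 + g) ^ 2 / 4) * ph := mul_nonneg (by linarith) hph
    positivity
  rcases le_total (n1 * (1 + κ * (1 - g * X)) - nw * (1 + ((1 - g) / (1 + g)) ^ 2)) 0 with h | h
  · have := mul_nonpos_of_nonneg_of_nonpos hlam0 h
    linarith
  · have m1 : lam * (n1 * (1 + κ * (1 - g * X)) - nw * (1 + ((1 - g) / (1 + g)) ^ 2))
        ≤ Lb * (N1 * (1 + Kb * (1 - g * X)) - X * (1 + g ^ 2) / 12) := by
      apply mul_le_mul hlam (by linarith) h (hlam0.trans hlam)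
    have m2 : Lb * (N1 * (1 + Kb * (1 - g * X)) - X * (1 + g ^ 2) / 12)
        ≤ 193 / 1000 * ((1 - g) / (1 + g)) ^ 2 + (1 - X * (1 + g) ^ 2 / 4) * ph := by
      have k0 := mul_le_mul_of_nonneg_left c0 (show 0 ≤ 1 - X by linarith)
      have k1 := mul_le_mul_of_nonneg_left c1 hX0
      nlinarith
    linarith

/-- Reduction in Case II. -/
lemma caseII {g X n1 nw φ lam κ n2 : ℝ} (hg0 : 0 < g) (hg1 : g ≤ 1)
    (hX0 : 0 ≤ X) (hX1 : X ≤ 1)
    (h2 : X * (1 + g) ^ 2 / 4 / 6 ≤ nw) (h3 : n1 - nw ≤ (1 - X * (1 + g) ^ 2 / 4) * n2)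
    (hlam0 : 0 ≤ lam)
    (ca : lam * (n2 + κ * n1) ≤ φ) (cb : lam * (κ * n1 - 1 / 6) ≤ 193 / 1000) :
    lam * (n1 * (1 + κ * (1 - g * X)) - nw * (1 + ((1 - g) / (1 + g)) ^ 2)) ≤
      193 / 1000 * ((1 - g) / (1 + g)) ^ 2 + (1 - X * (1 + g) ^ 2 / 4) * φ := by
  obtain ⟨ω, hω⟩ : ∃ ω, ω = X * (1 + g) ^ 2 / 4 := ⟨_, rfl⟩
  obtain ⟨μ, hμ⟩ : ∃ μ, μ = ((1 - g) / (1 + g)) ^ 2 := ⟨_, rfl⟩
  have hω0 : 0 ≤ ω := by rw [hω]; positivity
  have hω1 : ω ≤ 1 := by rw [hω]; nlinarith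
  have hμ0 : 0 ≤ μ := by rw [hμ]; positivity
  have hz : 1 - g * X = (1 - ω) + μ * ω := by
    rw [hω, hμ]; field_simp; ring
  rw [← hω] at h2 h3
  rw [← hω, ← hμ, hz]
  have b1 : n1 * (1 + κ * ((1 - ω) + μ * ω)) - nw * (1 + μ)
      ≤ (1 - ω) * (n2 + κ * n1) + μ * ω * (κ * n1 - 1 / 6) := by
    nlinarith [mul_le_mul_of_nonneg_left h2 hμ0]
  have b2 := mul_le_mul_of_nonneg_left b1 hlam0
  have b3 := mul_le_mul_of_nonneg_left ca (show 0 ≤ 1 - ω by linarith)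
  have b4 := mul_le_mul_of_nonneg_left cb (show 0 ≤ μ * ω by positivity)
  have b5 : μ * ω * (193 / 1000) ≤ μ * (193 / 1000) := by nlinarith
  nlinarith

end Vale.Agent.P322.Mono
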