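import Mathlib

/-!
# Kernel-friendly bounds for logarithms of rationals (fixed point, scale `2^40`, `Nat` only)
-/

namespace Vale.Agent.P322.Num

open Real

/-- The scale `2^40`. -/
def S : ℕ := 1099511627776

lemma S_pos : 0 < S := by unfold S; norm_num

lemma S_posR : (0 : ℝ) < (S : ℝ) := by exact_mod_cast S_pos

/-- Horner lower bound for `∑_{i<n} t^i/(2(j+i)+1)`. -/
def hLo (w : ℕ) : ℕ → ℕ → ℕ
  | 0, _ => 0
  | n + 1, j => S / (2 * j + 1) + w * hLo w n (j + 1) / S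

/-- Horner upper bound for `∑_i t^i/(2(j+i)+1)`. -/
def hHi (w : ℕ) : ℕ → ℕ → ℕ
  | 0, j => 9 * S / (8 * (2 * j + 1)) + 1
  | n + 1, j => S / (2 * j + 1) + 1 + (w * hHi w n (j + 1) / S + 1)

/-- the series -/
noncomputable def F (j : ℕ) (t : ℝ) : ℝ := ∑' i : ℕ, t ^ i / (2 * ((j : ℝ) + i) + 1)

lemma den_pos (j i : ℕ) : (0 : ℝ) < 2 * ((j : ℝ) + i) + 1 := by positivity

lemma F_summable (j : ℕ) {t : ℝ} (h0 : 0 ≤ t) (h1 : t < 1) :
    Summable fun i : ℕ => t ^ i / (2 * ((j : ℝ) + i) + 1) := by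
  refine Summable.of_nonneg_of_le (fun i => by have := den_pos j i; positivity) (fun i => ?_)
    (summable_geometric_of_lt_one h0 h1)
  rw [div_le_iff₀ (den_pos j i)]
  have h2 : (0 : ℝ) ≤ t ^ i := pow_nonneg h0 i
  have h3 : (1 : ℝ) ≤ 2 * ((j : ℝ) + i) + 1 := by
    have : (0 : ℝ) ≤ (j : ℝ) + i := by positivity
    linarith
  nlinarith

lemma F_rec (j : ℕ) {t : ℝ} (h0 : 0 ≤ t) (h1 : t < 1) :
    F j t = 1 / (2 * (j : ℝ) + 1) + t * F (j + 1) t := by
  unfold F
  rw [(F_summable j h0 h1).tsum_eq_zero_add, ← tsum_mul_left]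
  congr 1
  · simp
  · refine tsum_congr fun i => ?_
    push_cast
    rw [pow_succ]
    ring_nf

lemma F_nonneg (j : ℕ) {t : ℝ} (h0 : 0 ≤ t) : 0 ≤ F j t := by
  unfold F
  exact tsum_nonneg fun i => by have := den_pos j i; positivity

lemma F_le (j : ℕ) {t : ℝ} (h0 : 0 ≤ t) (h1 : t < 1) :
    F j t ≤ 1 / (2 * (j : ℝ) + 1) * (1 - t)⁻¹ := by
  rw [← tsum_geometric_of_lt_one h0 h1, ← tsum_mul_left]
  unfold F
  refine (F_summable j h0 h1).tsum_le_tsum (fun i => ?_)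
    ((summable_geometric_of_lt_one h0 h1).mul_left _)
  have h2 : (0 : ℝ) ≤ t ^ i := pow_nonneg h0 i
  rw [div_mul_eq_mul_div, one_mul]
  apply div_le_div_of_nonneg_left h2 (by positivity)
  have : (0 : ℝ) ≤ (i : ℝ) := by positivity
  linarith

lemma log_eq_F {z : ℝ} (h0 : 0 ≤ z) (h1 : z < 1) :
    Real.log ((1 + z) / (1 - z)) = 2 * z * F 0 (z ^ 2) := by
  have habs : |z| < 1 := by rw [abs_of_nonneg h0]; exact h1
  have h := hasSum_log_sub_log_of_abs_lt_one habs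
  rw [Real.log_div (by linarith) (by linarith), ← h.tsum_eq]
  unfold F
  rw [← tsum_mul_left]
  refine tsum_congr fun i => ?_
  simp only [Nat.cast_zero, zero_add]
  rw [pow_succ, pow_mul]
  ring

lemma floor_le (a b : ℕ) : ((a / b : ℕ) : ℝ) ≤ (a : ℝ) / b := Nat.cast_div_le

lemma le_floor_add (a : ℕ) {b : ℕ} (hb : 0 < b) : (a : ℝ) / b ≤ ((a / b : ℕ) : ℝ) + 1 := by
  have h := Nat.lt_div_mul_add (a := a) hb
  rw [div_le_iff₀ (by exact_mod_cast hb)]
  have h2 : (a : ℝ) < ((a / b : ℕ) : ℝ) * b + b := by exact_mod_cast h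
  linarith

lemma hLo_le (w : ℕ) {t : ℝ} (hw : (w : ℝ) / S ≤ t) (h1 : t < 1) (n : ℕ) :
    ∀ j : ℕ, (hLo w n j : ℝ) / S ≤ F j t := by
  have h0 : 0 ≤ t := le_trans (by positivity) hw
  induction n with
  | zero => intro j; simp [hLo]; exact F_nonneg j h0
  | succ n ih =>
    intro j
    rw [F_rec j h0 h1]
    have e1 : ((S / (2 * j + 1) : ℕ) : ℝ) ≤ (S : ℝ) / ((2 * j + 1 : ℕ) : ℝ) := floor_le _ _
    have e2 : ((w * hLo w n (j + 1) / S : ℕ) : ℝ) ≤ ((w * hLo w n (j + 1) : ℕ) : ℝ) / S :=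
      floor_le _ _
    have e3 := ih (j + 1)
    have hS := S_posR
    have e4 : (hLo w (n + 1) j : ℝ) = ((S / (2 * j + 1) : ℕ) : ℝ)
        + ((w * hLo w n (j + 1) / S : ℕ) : ℝ) := by
      rw [hLo]; push_cast; ring
    rw [e4, add_div]
    have e5 : ((S / (2 * j + 1) : ℕ) : ℝ) / S ≤ 1 / (2 * (j : ℝ) + 1) := by
      rw [div_le_iff₀ hS]
      refine e1.trans (le_of_eq ?_)
      push_cast; ring
    have e6 : ((w * hLo w n (j + 1) / S : ℕ) : ℝ) / S ≤ t * F (j + 1) t := by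
      rw [div_le_iff₀ hS]
      refine e2.trans ?_
      push_cast
      have a1 : (w : ℝ) * (hLo w n (j + 1) : ℝ) / S
          = ((w : ℝ) / S) * ((hLo w n (j + 1) : ℝ) / S) * S := by
        field_simp
      rw [a1]
      apply mul_le_mul_of_nonneg_right _ hS.le
      exact mul_le_mul hw e3 (by positivity) h0
    linarith

lemma hHi_ge (w : ℕ) {t : ℝ} (h0 : 0 ≤ t) (hw : t ≤ (w : ℝ) / S) (h1 : t ≤ 1 / 9) (n : ℕ) :
    ∀ j : ℕ, F j t ≤ (hHi w n j : ℝ) / S := by
  have ht1 : t < 1 := by linarith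
  have hS := S_posR
  induction n with
  | zero =>
    intro j
    refine (F_le j h0 ht1).trans ?_
    rw [le_div_iff₀ hS]
    have e1 : ((9 * S : ℕ) : ℝ) / ((8 * (2 * j + 1) : ℕ) : ℝ)
        ≤ ((9 * S / (8 * (2 * j + 1)) : ℕ) : ℝ) + 1 := le_floor_add _ (by positivity)
    have e2 : (hHi w 0 j : ℝ) = ((9 * S / (8 * (2 * j + 1)) : ℕ) : ℝ) + 1 := by
      rw [hHi]; push_cast; ring
    rw [e2]
    refine le_trans ?_ e1
    have e3 : (1 - t)⁻¹ ≤ 9 / 8 := by
      rw [inv_le_comm₀ (by linarith) (by norm_num)]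
      linarith
    have e4 : (0 : ℝ) ≤ 1 / (2 * (j : ℝ) + 1) := by positivity
    calc 1 / (2 * (j : ℝ) + 1) * (1 - t)⁻¹ * S
        ≤ 1 / (2 * (j : ℝ) + 1) * (9 / 8) * S := by gcongr
      _ = ((9 * S : ℕ) : ℝ) / ((8 * (2 * j + 1) : ℕ) : ℝ) := by
        push_cast; field_simp
  | succ n ih =>
    intro j
    rw [F_rec j h0 ht1]
    have e1 : (S : ℝ) / ((2 * j + 1 : ℕ) : ℝ) ≤ ((S / (2 * j + 1) : ℕ) : ℝ) + 1 :=
      le_floor_add _ (by positivity)
    have e2 : ((w * hHi w n (j + 1) : ℕ) : ℝ) / S ≤ ((w * hHi w n (j + 1) / S : ℕ) : ℝ) + 1 :=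
      le_floor_add _ S_pos
    have e3 := ih (j + 1)
    have e4 : (hHi w (n + 1) j : ℝ) = (((S / (2 * j + 1) : ℕ) : ℝ) + 1)
        + (((w * hHi w n (j + 1) / S : ℕ) : ℝ) + 1) := by
      rw [hHi]; push_cast; ring
    rw [e4, add_div]
    have e5 : 1 / (2 * (j : ℝ) + 1) ≤ (((S / (2 * j + 1) : ℕ) : ℝ) + 1) / S := by
      rw [le_div_iff₀ hS]
      refine le_trans (le_of_eq ?_) e1
      push_cast; ring
    have e6 : t * F (j + 1) t ≤ (((w * hHi w n (j + 1) / S : ℕ) : ℝ) + 1) / S := by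
      rw [le_div_iff₀ hS]
      refine le_trans ?_ e2
      push_cast
      have a1 : (w : ℝ) * (hHi w n (j + 1) : ℝ) / S
          = ((w : ℝ) / S) * ((hHi w n (j + 1) : ℝ) / S) * S := by
        field_simp
      rw [a1]
      apply mul_le_mul_of_nonneg_right _ hS.le
      exact mul_le_mul hw e3 (F_nonneg _ h0) (by positivity)
    linarith

/-- lower bound from the argument `z = (n-d)/(n+d)` in fixed point -/
def lnLo1 (z : ℕ) : ℕ := 2 * z * hLo (z * z / S) 8 0 / S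

/-- lower bound for `log (n/d)` -/
def lnLo (n d : ℕ) : ℕ := lnLo1 ((n - d) * S / (n + d))

def lnHi1 (z : ℕ) : ℕ := 2 * z * hHi (z * z / S + 1) 8 0 / S + 1

/-- upper bound for `log (n/d)`, `d ≤ n ≤ 2d` -/
def lnHi (n d : ℕ) : ℕ := lnHi1 ((n - d) * S / (n + d) + 1)

lemma log_ratio {n d : ℕ} (hd : 0 < d) (hn : d ≤ n) :
    Real.log ((n : ℝ) / d) = 2 * (((n : ℝ) - d) / (n + d))
      * F 0 ((((n : ℝ) - d) / (n + d)) ^ 2) := by
  have hd' : (0 : ℝ) < d := by exact_mod_cast hd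
  have hn' : (d : ℝ) ≤ n := by exact_mod_cast hn
  have hs : (0 : ℝ) < (n : ℝ) + d := by linarith
  have hz0 : 0 ≤ ((n : ℝ) - d) / (n + d) := div_nonneg (by linarith) hs.le
  have hz1 : ((n : ℝ) - d) / (n + d) < 1 := by rw [div_lt_one hs]; linarith
  rw [← log_eq_F hz0 hz1]
  congr 1
  have h1 : 1 + ((n : ℝ) - d) / (n + d) = (2 * n) / (n + d) := by field_simp; ring
  have h2 : 1 - ((n : ℝ) - d) / (n + d) = (2 * d) / (n + d) := by field_simp; ring
  rw [h1, h2, div_div_div_cancel_right₀ hs.ne', mul_div_mul_left _ _ (by norm_num)]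

lemma lnLo_le {n d : ℕ} (hd : 0 < d) (hn : d ≤ n) :
    (lnLo n d : ℝ) / S ≤ Real.log ((n : ℝ) / d) := by
  have hd' : (0 : ℝ) < d := by exact_mod_cast hd
  have hn' : (d : ℝ) ≤ n := by exact_mod_cast hn
  have hs : (0 : ℝ) < (n : ℝ) + d := by linarith
  have hS := S_posR
  rw [log_ratio hd hn]
  set z : ℝ := ((n : ℝ) - d) / (n + d) with hz
  have hz0 : 0 ≤ z := div_nonneg (by linarith) hs.le
  have hz1 : z < 1 := by rw [hz, div_lt_one hs]; linarith
  set zn : ℕ := (n - d) * S / (n + d) with hzn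
  have k1 : (zn : ℝ) / S ≤ z := by
    rw [div_le_iff₀ hS, hz, hzn]
    refine (floor_le _ _).trans (le_of_eq ?_)
    push_cast [Nat.cast_sub hn]
    ring
  have k2 : ((zn * zn / S : ℕ) : ℝ) / S ≤ z ^ 2 := by
    rw [div_le_iff₀ hS]
    refine (floor_le _ _).trans ?_
    push_cast
    have a1 : (zn : ℝ) * zn / S = ((zn : ℝ) / S) * ((zn : ℝ) / S) * S := by field_simp
    rw [a1, pow_two]
    apply mul_le_mul_of_nonneg_right _ hS.le
    exact mul_le_mul k1 k1 (by positivity) hz0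
  have k3 := hLo_le (zn * zn / S) k2 (by nlinarith) 8 0
  have k4 : (lnLo n d : ℝ) = ((2 * zn * hLo (zn * zn / S) 8 0 / S : ℕ) : ℝ) := rfl
  rw [k4, div_le_iff₀ hS]
  refine (floor_le _ _).trans ?_
  push_cast
  have a1 : 2 * (zn : ℝ) * (hLo (zn * zn / S) 8 0 : ℝ) / S
      = 2 * ((zn : ℝ) / S) * ((hLo (zn * zn / S) 8 0 : ℝ) / S) * S := by field_simp
  rw [a1]
  apply mul_le_mul_of_nonneg_right _ hS.le
  apply mul_le_mul _ k3 (by positivity) (by positivity)
  linarith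

lemma lnHi_ge {n d : ℕ} (hd : 0 < d) (hn : d ≤ n) (hn2 : n ≤ 2 * d) :
    Real.log ((n : ℝ) / d) ≤ (lnHi n d : ℝ) / S := by
  have hd' : (0 : ℝ) < d := by exact_mod_cast hd
  have hn' : (d : ℝ) ≤ n := by exact_mod_cast hn
  have hn2' : (n : ℝ) ≤ 2 * d := by exact_mod_cast hn2
  have hs : (0 : ℝ) < (n : ℝ) + d := by linarith
  have hS := S_posR
  rw [log_ratio hd hn]
  set z : ℝ := ((n : ℝ) - d) / (n + d) with hz
  have hz0 : 0 ≤ z := div_nonneg (by linarith) hs.le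
  have hz1 : z ≤ 1 / 3 := by rw [hz, div_le_iff₀ hs]; linarith
  set zn : ℕ := (n - d) * S / (n + d) + 1 with hzn
  have k1 : z ≤ (zn : ℝ) / S := by
    rw [le_div_iff₀ hS, hz, hzn]
    push_cast
    refine le_trans (le_of_eq ?_) (le_floor_add ((n - d) * S) (b := n + d) (by omega))
    push_cast [Nat.cast_sub hn]
    ring
  have k2 : z ^ 2 ≤ ((zn * zn / S + 1 : ℕ) : ℝ) / S := by
    rw [le_div_iff₀ hS]
    push_cast
    refine le_trans ?_ (le_floor_add (zn * zn) S_pos)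
    push_cast
    have a1 : (zn : ℝ) * zn / S = ((zn : ℝ) / S) * ((zn : ℝ) / S) * S := by field_simp
    rw [a1, pow_two]
    apply mul_le_mul_of_nonneg_right _ hS.le
    exact mul_le_mul k1 k1 hz0 (by positivity)
  have k3 := hHi_ge (zn * zn / S + 1) (by positivity) k2 (by nlinarith) 8 0
  have k4 : (lnHi n d : ℝ) = ((2 * zn * hHi (zn * zn / S + 1) 8 0 / S + 1 : ℕ) : ℝ) := rfl
  rw [k4, le_div_iff₀ hS]
  push_cast
  refine le_trans ?_ (le_floor_add (2 * zn * hHi (zn * zn / S + 1) 8 0) S_pos)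
  push_cast
  have a1 : 2 * (zn : ℝ) * (hHi (zn * zn / S + 1) 8 0 : ℝ) / S
      = 2 * ((zn : ℝ) / S) * ((hHi (zn * zn / S + 1) 8 0 : ℝ) / S) * S := by field_simp
  rw [a1]
  apply mul_le_mul_of_nonneg_right _ hS.le
  apply mul_le_mul _ k3 (F_nonneg _ (by positivity)) (by positivity)
  linarith

/-- `2^40 log 2` rounded down -/
def L2lo : ℕ := 762123384499
/-- `2^40 log 2` rounded up -/
def L2hi : ℕ := 762123385050

lemma L2lo_le : (L2lo : ℝ) / S ≤ Real.log 2 := by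
  have h := Real.log_two_gt_d9
  rw [div_le_iff₀ S_posR]
  unfold L2lo S
  norm_num
  linarith

lemma L2hi_ge : Real.log 2 ≤ (L2hi : ℝ) / S := by
  have h := Real.log_two_lt_d9
  rw [le_div_iff₀ S_posR]
  unfold L2hi S
  norm_num
  linarith

/-- lower bound for `log (n/d)`, `d ≤ n`, with range reduction -/
def lnLoR : ℕ → ℕ → ℕ → ℕ
  | 0, n, d => lnLo n d
  | k + 1, n, d => match Nat.ble n (2 * d) with
    | true => lnLo n d
    | false => L2lo + lnLoR k n (2 * d)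

/-- upper bound for `log (n/d)`, `d ≤ n`, with range reduction -/
def lnHiR : ℕ → ℕ → ℕ → ℕ
  | 0, n, d => n * S / d + 1
  | k + 1, n, d => match Nat.ble n (2 * d) with
    | true => lnHi n d
    | false => L2hi + lnHiR k n (2 * d)

lemma log_halve {n d : ℕ} (hd : 0 < d) (hn : 0 < n) :
    Real.log ((n : ℝ) / d) = Real.log 2 + Real.log ((n : ℝ) / ((2 * d : ℕ) : ℝ)) := by
  have hd' : (0 : ℝ) < d := by exact_mod_cast hd
  have hn' : (0 : ℝ) < n := by exact_mod_cast hn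
  rw [← Real.log_mul (by norm_num) (by positivity)]
  congr 1
  push_cast
  field_simp

lemma lnLoR_le (k : ℕ) : ∀ {n d : ℕ}, 0 < d → d ≤ n →
    (lnLoR k n d : ℝ) / S ≤ Real.log ((n : ℝ) / d) := by
  induction k with
  | zero => intro n d hd hn; exact lnLo_le hd hn
  | succ k ih =>
    intro n d hd hn
    by_cases h : Nat.ble n (2 * d) = true
    · have e : lnLoR (k + 1) n d = lnLo n d := by rw [lnLoR, h]
      rw [e]; exact lnLo_le hd hn
    · have h' : Nat.ble n (2 * d) = false := Bool.eq_false_iff.mpr h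
      have e : lnLoR (k + 1) n d = L2lo + lnLoR k n (2 * d) := by rw [lnLoR, h']
      have h2 : 2 * d < n := by
        have : ¬ n ≤ 2 * d := fun hh => h (Nat.ble_eq_true_of_le hh)
        omega
      rw [e, log_halve hd (by omega)]
      push_cast
      rw [add_div]
      have i1 := ih (n := n) (d := 2 * d) (by omega) h2.le
      push_cast at i1
      have i2 := L2lo_le
      linarith

lemma lnHiR_ge (k : ℕ) : ∀ {n d : ℕ}, 0 < d → d ≤ n →
    Real.log ((n : ℝ) / d) ≤ (lnHiR k n d : ℝ) / S := by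
  induction k with
  | zero =>
    intro n d hd hn
    have hd' : (0 : ℝ) < d := by exact_mod_cast hd
    have hn' : (0 : ℝ) < n := by exact_mod_cast (lt_of_lt_of_le hd hn)
    have h1 : Real.log ((n : ℝ) / d) ≤ (n : ℝ) / d := by
      have := Real.log_le_sub_one_of_pos (div_pos hn' hd')
      linarith
    refine h1.trans ?_
    rw [le_div_iff₀ S_posR]
    have e : (lnHiR 0 n d : ℝ) = ((n * S / d : ℕ) : ℝ) + 1 := by
      rw [lnHiR]; push_cast; ring
    rw [e]
    refine le_trans (le_of_eq ?_) (le_floor_add (n * S) hd)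
    push_cast; ring
  | succ k ih =>
    intro n d hd hn
    by_cases h : Nat.ble n (2 * d) = true
    · have e : lnHiR (k + 1) n d = lnHi n d := by rw [lnHiR, h]
      rw [e]; exact lnHi_ge hd hn (Nat.le_of_ble_eq_true h)
    · have h' : Nat.ble n (2 * d) = false := Bool.eq_false_iff.mpr h
      have e : lnHiR (k + 1) n d = L2hi + lnHiR k n (2 * d) := by rw [lnHiR, h']
      have h2 : 2 * d < n := by
        have : ¬ n ≤ 2 * d := fun hh => h (Nat.ble_eq_true_of_le hh)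
        omega
      rw [e, log_halve hd (by omega)]
      push_cast
      rw [add_div]
      have i1 := ih (n := n) (d := 2 * d) (by omega) h2.le
      push_cast at i1
      have i2 := L2hi_ge
      linarith

end Vale.Agent.P322.Num
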