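import Vale.Agent.P322.NumLog
import Vale.Agent.P322.LemmaB
import Vale.Agent.P322.Ind1

/-!
# Kernel-friendly bounds for `ψ(x)/x^2` and `-log(1-y^2)/(2y^2)`
-/

namespace Vale.Agent.P322.Num

open Real

/-- `ψ(x)/x²` -/
noncomputable def Ps (x : ℝ) : ℝ := psi x / x ^ 2

/-- `-log(1-y²)/(2y²)` -/
noncomputable def be (y : ℝ) : ℝ := -Real.log (1 - y ^ 2) / (2 * y ^ 2)

lemma Ps_mono {x y : ℝ} (hx : 0 < x) (hxy : x ≤ y) (hy : y ≤ 1) : Ps x ≤ Ps y := by
  have hy0 : 0 < y := by linarith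
  have h := Ind.psi_mul_le (r := x / y) (x := y) (by positivity)
    ((div_le_one hy0).mpr hxy) (by rw [abs_of_pos hy0]; exact hy)
  rw [div_mul_cancel₀ x hy0.ne'] at h
  unfold Ps
  rw [div_le_div_iff₀ (by positivity) (by positivity)]
  have h2 : (x / y) ^ 2 * psi y * y ^ 2 = psi y * x ^ 2 := by field_simp
  nlinarith [mul_le_mul_of_nonneg_right h (sq_nonneg y)]

lemma half_le_Ps {x : ℝ} (hx : 0 < x) (hx1 : x ≤ 1) : 1 / 2 ≤ Ps x := by
  have h := Ind.sq_div_two_le_psi (x := x) (by rw [abs_of_pos hx]; exact hx1)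
  unfold Ps
  rw [le_div_iff₀ (by positivity)]
  linarith

lemma be_mono {x y : ℝ} (hx : 0 < x) (hxy : x ≤ y) (hy : y < 1) : be x ≤ be y := by
  have hy0 : 0 < y := by linarith
  have h := LB.neg_log_div_mono (x := x ^ 2) (y := y ^ 2) (by positivity)
    (pow_le_pow_left₀ hx.le hxy 2) (by nlinarith)
  unfold be
  rw [mul_comm 2 (x ^ 2), mul_comm 2 (y ^ 2), ← div_div, ← div_div]
  linarith

lemma half_le_be {y : ℝ} (hy : 0 < y) (hy1 : y < 1) : 1 / 2 ≤ be y := by
  unfold be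
  rw [le_div_iff₀ (by positivity)]
  have h := Real.log_le_sub_one_of_pos (show 0 < 1 - y ^ 2 by nlinarith)
  linarith

/-- maximum, kernel friendly -/
def nmax (a b : ℕ) : ℕ := match Nat.ble a b with
  | true => b
  | false => a

lemma nmax_cases (a b : ℕ) (P : ℕ → Prop) (ha : P a) (hb : P b) : P (nmax a b) := by
  unfold nmax
  cases Nat.ble a b <;> assumption

/-- lower bound for `ψ(x)/x²` at `x ≥ n/d` -/
def pLo (n d : ℕ) : ℕ :=
  nmax (S / 2)
    (((d + n) * lnLoR 12 (d + n) d - (d - n) * lnHiR 12 d (d - n)) * d / (2 * n * n))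

/-- upper bound for `ψ(x)/x²` at `x ≤ n/d` -/
def pHi (n d : ℕ) : ℕ :=
  ((d + n) * lnHiR 12 (d + n) d - (d - n) * lnLoR 12 d (d - n)) * d / (2 * n * n) + 1

/-- lower bound for `-log(1-y²)/(2y²)` at `y ≥ n/d` -/
def bLo (n d : ℕ) : ℕ :=
  nmax (S / 2) (lnLoR 12 (d * d) (d * d - n * n) * (d * d) / (2 * (n * n)))

/-- upper bound for `-log(1-y²)/(2y²)` at `y ≤ n/d` -/
def bHi (n d : ℕ) : ℕ :=
  lnHiR 12 (d * d) (d * d - n * n) * (d * d) / (2 * (n * n)) + 1

lemma sub_cast_le (a b : ℕ) (c : ℝ) (hc : 0 ≤ c) (h : (a : ℝ) - b ≤ c) : ((a - b : ℕ) : ℝ) ≤ c := by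
  rcases le_total b a with h1 | h1
  · rw [Nat.cast_sub h1]; exact h
  · rw [Nat.sub_eq_zero_of_le h1]; simpa using hc

lemma le_sub_cast (a b : ℕ) : (a : ℝ) - b ≤ ((a - b : ℕ) : ℝ) := by
  rcases le_total b a with h1 | h1
  · rw [Nat.cast_sub h1]
  · rw [Nat.sub_eq_zero_of_le h1]
    have : (a : ℝ) ≤ b := by exact_mod_cast h1
    simpa using this

lemma psi_rat {n d : ℕ} (hd : 0 < d) (hn : n < d) :
    2 * (d : ℝ) * psi ((n : ℝ) / d) = (d + n) * Real.log (((d + n : ℕ) : ℝ) / d)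
      - ((d : ℝ) - n) * Real.log ((d : ℝ) / ((d - n : ℕ) : ℝ)) := by
  have hd' : (0 : ℝ) < d := by exact_mod_cast hd
  have hn' : (n : ℝ) < d := by exact_mod_cast hn
  rw [LB.psi_eq]
  have e1 : 1 + (n : ℝ) / d = ((d + n : ℕ) : ℝ) / d := by push_cast; field_simp
  have e2 : 1 - (n : ℝ) / d = ((d - n : ℕ) : ℝ) / d := by
    rw [Nat.cast_sub hn.le]; field_simp
  rw [e1, e2]
  have e3 : Real.log (((d - n : ℕ) : ℝ) / d) = - Real.log ((d : ℝ) / ((d - n : ℕ) : ℝ)) := by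
    rw [← Real.log_inv, inv_div]
  rw [e3]
  rw [Nat.cast_sub hn.le]
  push_cast
  field_simp
  ring

lemma pLo_le {n d : ℕ} (hd : 0 < d) (hn : n ≤ d) {x : ℝ} (hx0 : 0 < x) (hx1 : x ≤ 1)
    (hx : (n : ℝ) / d ≤ x) : (pLo n d : ℝ) / S ≤ Ps x := by
  have hS := S_posR
  have hd' : (0 : ℝ) < d := by exact_mod_cast hd
  unfold pLo
  apply nmax_cases _ _ (fun k : ℕ => (k : ℝ) / S ≤ Ps x)
  · refine le_trans ?_ (half_le_Ps hx0 hx1)
    rw [div_le_iff₀ hS]
    refine (floor_le _ _).trans (le_of_eq (by push_cast; ring))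
  rcases Nat.eq_zero_or_pos n with h0 | h0
  · subst h0
    simp
    exact le_trans (by norm_num) (half_le_Ps hx0 hx1)
  have hn0 : (0 : ℝ) < n := by exact_mod_cast h0
  refine le_trans ?_ (Ps_mono (x := (n : ℝ) / d) (by positivity) hx hx1)
  -- numerator bound
  have key : (((d + n) * lnLoR 12 (d + n) d - (d - n) * lnHiR 12 d (d - n) : ℕ) : ℝ)
      ≤ S * (2 * d * psi ((n : ℝ) / d)) := by
    have hpsi : 0 ≤ psi ((n : ℝ) / d) := Ind.psi_nonneg _
    apply sub_cast_le _ _ _ (by positivity)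
    have l1 := lnLoR_le 12 hd (show d ≤ d + n by omega)
    rw [div_le_iff₀ hS] at l1
    rcases lt_or_eq_of_le hn with h1 | h1
    · rw [psi_rat hd h1]
      have l2 := lnHiR_ge 12 (show 0 < d - n by omega) (show d - n ≤ d by omega)
      rw [le_div_iff₀ hS] at l2
      push_cast [Nat.cast_sub hn] at l1 l2 ⊢
      have h2 : (0 : ℝ) ≤ (d : ℝ) - n := by
        have : (n : ℝ) ≤ d := by exact_mod_cast hn
        linarith
      have l3 := mul_le_mul_of_nonneg_left l1 (show (0 : ℝ) ≤ (d : ℝ) + n by positivity)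
      have l4 := mul_le_mul_of_nonneg_left l2 h2
      nlinarith
    · subst h1
      have e : psi ((n : ℝ) / n) = Real.log 2 := by
        rw [div_self hn0.ne']; exact Ind.psi_one
      rw [e]
      have e2 : (((n + n : ℕ) : ℝ) / n) = 2 := by push_cast; field_simp; ring
      rw [e2] at l1
      simp only [Nat.sub_self, Nat.zero_mul, Nat.cast_zero, sub_zero]
      push_cast
      nlinarith [mul_le_mul_of_nonneg_left l1 (show (0 : ℝ) ≤ (n : ℝ) + n by positivity)]
  rw [div_le_iff₀ hS]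
  refine (floor_le _ _).trans ?_
  rw [Nat.cast_mul]
  rw [div_le_iff₀ (by positivity)]
  refine (mul_le_mul_of_nonneg_right key hd'.le).trans (le_of_eq ?_)
  unfold Ps
  push_cast
  field_simp

lemma pHi_ge {n d : ℕ} (hn0 : 0 < n) (hn : n < d) {x : ℝ} (hx0 : 0 < x)
    (hx : x ≤ (n : ℝ) / d) : Ps x ≤ (pHi n d : ℝ) / S := by
  have hS := S_posR
  have hd : 0 < d := by omega
  have hd' : (0 : ℝ) < d := by exact_mod_cast hd
  have hn0' : (0 : ℝ) < n := by exact_mod_cast hn0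
  have hn' : (n : ℝ) < d := by exact_mod_cast hn
  refine (Ps_mono (y := (n : ℝ) / d) hx0 hx ((div_le_one hd').mpr hn'.le)).trans ?_
  have key : S * (2 * d * psi ((n : ℝ) / d)) ≤
      (((d + n) * lnHiR 12 (d + n) d - (d - n) * lnLoR 12 d (d - n) : ℕ) : ℝ) := by
    refine le_trans ?_ (le_sub_cast _ _)
    have l1 := lnHiR_ge 12 hd (show d ≤ d + n by omega)
    rw [le_div_iff₀ hS] at l1
    rw [psi_rat hd hn]
    have l2 := lnLoR_le 12 (show 0 < d - n by omega) (show d - n ≤ d by omega)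
    rw [div_le_iff₀ hS] at l2
    push_cast [Nat.cast_sub hn.le] at l1 l2 ⊢
    have h2 : (0 : ℝ) ≤ (d : ℝ) - n := by linarith
    have l3 := mul_le_mul_of_nonneg_left l1 (show (0 : ℝ) ≤ (d : ℝ) + n by positivity)
    have l4 := mul_le_mul_of_nonneg_left l2 h2
    nlinarith
  rw [le_div_iff₀ hS]
  unfold pHi
  push_cast
  refine le_trans ?_ (le_floor_add _ (b := 2 * n * n) (by positivity))
  rw [Nat.cast_mul, le_div_iff₀ (by positivity)]
  refine le_trans (le_of_eq ?_) (mul_le_mul_of_nonneg_right key hd'.le)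
  unfold Ps
  push_cast
  field_simp

lemma be_rat {n d : ℕ} (hn0 : 0 < n) (hn : n < d) :
    be ((n : ℝ) / d) = Real.log (((d * d : ℕ) : ℝ) / ((d * d - n * n : ℕ) : ℝ))
      * (d * d) / (2 * (n * n)) := by
  have hd : 0 < d := by omega
  have hd' : (0 : ℝ) < d := by exact_mod_cast hd
  have hn0' : (0 : ℝ) < n := by exact_mod_cast hn0
  have hn' : (n : ℝ) < d := by exact_mod_cast hn
  have h1 : n * n ≤ d * d := Nat.mul_le_mul hn.le hn.le
  unfold be
  rw [← Real.log_inv]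
  have h2 : (0 : ℝ) < (d : ℝ) * d - n * n := by nlinarith
  have e : (1 - ((n : ℝ) / d) ^ 2)⁻¹ = ((d * d : ℕ) : ℝ) / ((d * d - n * n : ℕ) : ℝ) := by
    rw [Nat.cast_sub h1]
    push_cast
    field_simp
  rw [e]
  field_simp

lemma bLo_le {n d : ℕ} (hn : n < d) {y : ℝ} (hy0 : 0 < y) (hy1 : y < 1)
    (hy : (n : ℝ) / d ≤ y) : (bLo n d : ℝ) / S ≤ be y := by
  have hS := S_posR
  have hd : 0 < d := by omega
  have hd' : (0 : ℝ) < d := by exact_mod_cast hd
  unfold bLo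
  apply nmax_cases _ _ (fun k : ℕ => (k : ℝ) / S ≤ be y)
  · refine le_trans ?_ (half_le_be hy0 hy1)
    rw [div_le_iff₀ hS]
    refine (floor_le _ _).trans (le_of_eq (by push_cast; ring))
  rcases Nat.eq_zero_or_pos n with h0 | h0
  · subst h0
    simp
    exact le_trans (by norm_num) (half_le_be hy0 hy1)
  have hn0 : (0 : ℝ) < n := by exact_mod_cast h0
  have hnn : n * n < d * d := Nat.mul_lt_mul'' hn hn
  refine le_trans ?_ (be_mono (x := (n : ℝ) / d) (by positivity) hy hy1)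
  rw [be_rat h0 hn, div_le_iff₀ hS]
  refine (floor_le _ _).trans ?_
  have l1 := lnLoR_le 12 (show 0 < d * d - n * n by omega) (show d * d - n * n ≤ d * d by omega)
  rw [div_le_iff₀ hS] at l1
  rw [Nat.cast_mul, div_le_iff₀ (by positivity)]
  refine (mul_le_mul_of_nonneg_right l1 (by positivity)).trans (le_of_eq ?_)
  push_cast
  field_simp

lemma bHi_ge {n d : ℕ} (hn0 : 0 < n) (hn : n < d) {y : ℝ} (hy0 : 0 < y)
    (hy : y ≤ (n : ℝ) / d) : be y ≤ (bHi n d : ℝ) / S := by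
  have hS := S_posR
  have hd : 0 < d := by omega
  have hd' : (0 : ℝ) < d := by exact_mod_cast hd
  have hn0' : (0 : ℝ) < n := by exact_mod_cast hn0
  have hn' : (n : ℝ) < d := by exact_mod_cast hn
  have hnn : n * n < d * d := Nat.mul_lt_mul'' hn hn
  refine (be_mono (y := (n : ℝ) / d) hy0 hy ((div_lt_one hd').mpr hn')).trans ?_
  rw [be_rat hn0 hn, le_div_iff₀ hS]
  unfold bHi
  push_cast
  refine le_trans ?_ (le_floor_add _ (b := 2 * (n * n)) (by positivity))
  have l1 := lnHiR_ge 12 (show 0 < d * d - n * n by omega) (show d * d - n * n ≤ d * d by omega)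
  rw [le_div_iff₀ hS] at l1
  rw [Nat.cast_mul, le_div_iff₀ (by positivity)]
  refine le_trans (le_of_eq ?_) (mul_le_mul_of_nonneg_right l1 (by positivity))
  push_cast
  field_simp

end Vale.Agent.P322.Num
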